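import Vale.Agent.N352.DefH

open Filter Topology

namespace Vale.Agent.N352.Dh

noncomputable section

variable {H : Type*} [NormedAddCommGroup H] [InnerProductSpace ℂ H] [CompleteSpace H] {K : Frame H}

/-- **Local fields.** `C` is a translation covariant operator valued tempered distribution that
leaves the domain `D` invariant, as does its adjoint, and `C` is local relative to the fields of
`Q`: at space-like distance it commutes with the Bose fields `A`, and for Fermi fields `A` the even
part of `C` commutes and the odd part anticommutes with `A` (that is, `A C = Γ C Γ A`). The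
commutation relations are only required weakly, on the vectors generated by the fields of `Q`. -/
structure RelLoc (Q : Theory K) (D : Submodule ℂ H) (C : Fld H) : Prop where
  inv : ∀ f, IsTest f → ∀ v ∈ D, C f v ∈ D
  lin : ∀ f g (c : ℂ), IsTest f → IsTest g → ∀ v ∈ D,
    C (fun x => f x + c * g x) v = C f v + c • C g v
  cont : ∀ v ∈ D, ∀ w ∈ D, Continuous fun g => inner ℂ w (C (ev g) v)
  adj : ∃ C', (∀ f, IsTest f → ∀ v ∈ D, C' f v ∈ D) ∧ Adj D C C'
  transl : ∀ a f, IsTest f → ∀ v ∈ D,
    C f (K.U 1 one a v) = K.U 1 one a (C (fun x => f (sim 1 one a x)) v)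
  loc : ∀ A A' f g v w, Q.fld A → Adj Q.dom A A' → IsTest f → IsTest g → Sep f g → Cyc Q v →
    Cyc Q w → (Par K Q.dom 1 A → inner ℂ (A' (bar g) w) (C f v) = inner ℂ w (C f (A g v))) ∧
      (Par K Q.dom (-1) A →
        inner ℂ (A' (bar g) w) (C f v) = inner ℂ w (K.Γ (C f (K.Γ (A g v)))))

/-- **The Borchers class.** The fields of `Q` extend to the domain of `R`, and the fields of `R` are
all fields on this domain that are local relative to the fields of `Q`. -/
structure Bor (Q R : Theory K) : Prop where
  mem : ∀ B, Q.fld B → ∃ C, R.fld C ∧ Agr Q B C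
  all : ∀ C, R.fld C ↔ RelLoc Q R.dom C

/-- `t` has the same translation and Lorentz charges as `T`: for large cutoffs, the commutators of
the densities `t^{0n}` and `x^l t^{0n} - x^n t^{0l}` with the fields of `Q` are those of `T`. -/
def Chg (Q R : Theory K) (T t : Ix → Ix → Fld H) : Prop :=
  ∀ F B C f, IsCutoff F → Q.fld B → R.fld C → Agr Q B C → In Set.univ f →
    ∀ᶠ r in atTop, ∀ l n v, Cyc Q v → cm (t o n) (F r) C f v = cm (T o n) (F r) B f v ∧
      cm (t o n) (xg l (F r)) C f v - cm (t o l) (xg n (F r)) C f v =
        cm (T o n) (xg l (F r)) B f v - cm (T o l) (xg n (F r)) B f v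

/-- **Conformal invariance, as posed.** `R` consists of all local fields of the theory `Q`. The
stress tensor `t` is one of them, its charges generate the translations and the Lorentz
transformations and act on the fields of `Q` as those of `T`, and (`Conf`) `t` is traceless and the
charges of the currents `X^n t_{mn}` act on all local fields by the infinitesimal conformal
transformations. -/
structure CInv (Q R : Theory K) (T t : Ix → Ix → Fld H) : Prop where
  all : Bor Q R
  stress : Stress R t
  poincare : PGen R t
  same : Chg Q R T t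
  conf : ∃ S, Conf R S t

variable (H) in
/-- **The theorem**, for the Hilbert space `H`. -/
structure Thm : Prop where
  inv : ∀ (K : Frame H) (Q : Theory K) T N, Hyp Q T N → ∃ R t, CInv Q R T t ∧
    ∃ P S, Ext Q P N ∧ Fin' P ∧ (∃ N', Net K N' ∧ Aff P N') ∧ (∀ v, v ∈ R.dom ↔ Cyc P v) ∧
      P.dom = R.dom ∧ Conf P S t
  conf : ∀ (K : Frame H) (Q : Theory K) T N, Hyp Q T N → Rec Q N ∨ Max Q N → ∃ t, Conf Q T t
  cnt : ∀ (K : Frame H) (Q : Theory K) T, Stress Q T → PGen Q T → Cnt Q → Fin' Q

end

end Vale.Agent.N352.Dh
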