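import Vale.Agent.N352.Main
import Vale.Agent.N352.Def

/-!
# N352: the compact public definitions agree with the working ones
-/

set_option linter.all false

open Filter Topology

namespace Vale.Agent.N352.Bg

open P352.GF P352R
open UniformSpace (Completion)

noncomputable section

variable {D D' H : Type*} [NormedAddCommGroup D] [InnerProductSpace ℂ D] [NormedAddCommGroup D']
  [InnerProductSpace ℂ D'] [NormedAddCommGroup H] [InnerProductSpace ℂ H] [CompleteSpace H]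
  {Q R : Theory D} {G : D → D} {T t : Ix → Ix → Fld D} {A : (V → V) → D → D}
  {Γ : Completion D →L[ℂ] Completion D} {N : Set V → VonNeumannAlgebra (Completion D)}

/-- spins -/
@[reducible] def old (k : Df.Rp) : P352R.P.Rp := ⟨k.n, k.ρ, k.S, k.id, k.mul, k.der⟩

/-- spins -/
@[reducible] def new (k : P352R.P.Rp) : Df.Rp := ⟨k.n, k.ρ, k.S, k.id, k.mul, k.der⟩

theorem kil {X} : Df.IsKil X ↔ P352R.P.IsKil X :=
  ⟨fun ⟨a, b, r, w, h, e⟩ => ⟨a, b, r, w, h, e⟩, fun ⟨a, b, r, w, h, e⟩ => ⟨a, b, r, w, h, e⟩⟩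

theorem stress0 : Df.Stress0 Q T ↔ P352R.P.Stress0 Q T :=
  ⟨fun h => ⟨h.1, h.2, h.3, h.4, h.5, h.6⟩, fun h => ⟨h.1, h.2, h.3, h.4, h.5, h.6⟩⟩

theorem dim {d B} : Df.Dim Q d B ↔ P352R.P.Dim Q d B := ⟨fun h => h.1, fun h => ⟨h⟩⟩

theorem fsl : Df.FSL Q ↔ P352R.P.FSL Q :=
  ⟨fun h A a => (h A a).imp fun _ => Exists.imp fun _ k => ⟨k.1, k.2⟩,
    fun h A a => (h A a).imp fun _ => Exists.imp fun _ k => ⟨k.1, k.2⟩⟩

theorem pch : Df.PCh Q T A ↔ P352R.P.PCh Q T A := Iff.rfl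

theorem mfa : Df.MfA Q ↔ P352R.P.MfA Q :=
  ⟨fun h A a => (h A a).imp fun _ => Exists.imp fun _ k =>
      ⟨fun i => have ⟨r, x⟩ := k.1 i; ⟨old r, x⟩, k.2⟩,
    fun h A a => (h A a).imp fun _ => Exists.imp fun _ k =>
      ⟨fun i => have ⟨r, x⟩ := k.1 i; ⟨new r, x⟩, k.2⟩⟩

theorem cntf : Df.CntF Q ↔ P352R.P.CntF Q := ⟨fun h => ⟨h.1, h.2, h.3⟩, fun h => ⟨h.1, h.2, h.3⟩⟩

theorem flds : Df.Flds Q ↔ N352.Flds Q := or_congr cntf (and_congr mfa fsl)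

theorem gnr : Df.Gnr Q A ↔ P352R.P.Gnr Q A := ⟨fun h => h.1, fun h => ⟨h⟩⟩

theorem enl : Df.IsEnl Q R ↔ P352R.P.IsEnl Q R :=
  ⟨fun h => ⟨h.1, h.2, h.3, h.4⟩, fun h => ⟨h.1, h.2, h.3, h.4⟩⟩

theorem gr : Df.Gr Q G ↔ P352R.P.Gr Q G :=
  ⟨fun h => ⟨h.1, h.2, h.3, h.4, h.5, h.6, h.7⟩, fun h => ⟨h.1, h.2, h.3, h.4, h.5, h.6, h.7⟩⟩

theorem ge : Df.Ge Q G A ↔ GI.Ge Q G A :=
  ⟨fun h => ⟨gr.1 h.toGr, h.vac, h.add, h.der⟩, fun h => ⟨gr.2 h.toGr, ⟨h.der⟩, h.vac, h.add⟩⟩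

theorem lng : Df.LNg Q G A Γ N ↔ P352R.G.LNg Q G A Γ N :=
  ⟨fun h => ⟨gr.1 h.toGr, h.vac, h.add, h.der, h.ext, h.fld, h.mono, h.cov, h.gam, h.loc⟩,
    fun h => ⟨⟨gr.2 h.toGr, ⟨h.der⟩, h.vac, h.add⟩, h.ext, h.fld, h.mono, h.cov, h.gam, h.loc⟩⟩

theorem lg1 {O M} (h : Df.Lg1 Q G A Γ O M) : P352R.G.Lg1 Q G A Γ O M :=
  ⟨gr.1 h.toGr, h.vac, h.add, h.der, h.ext, h.nhd, h.bdd, h.fld, h.gam,
    fun a b p q r X ⟨s, L, y, Z, u⟩ Y ⟨s', L', y', Z', u'⟩ =>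
      h.loc a b X Y p q r ⟨s, L, y, Z, u⟩ ⟨s', L', y', Z', u'⟩⟩

theorem al {X Y} (h : Df.Al Q X Y) : P352R.P.Al Q Set.univ X Y := by
  induction h with
  | one => exact .one
  | add _ _ _ _ _ _ a b => exact .add _ _ _ _ a b
  | smul c _ _ _ a => exact .smul c _ _ a
  | fld A B f _ _ p q r s _ a => exact .fld A B f _ _ p q r s a

theorem impr (h : P352R.P.IsImpr Q T t) : Df.IsImpr Q T t :=
  ⟨h.1, h.2, h.3, h.4, h.5, h.6, h.7, h.8, h.9, h.10⟩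

theorem chg {X g v} : P352R.P.chg (fun m n => P352R.P.hil (t m n)) X g v = ↑(Df.cur t (fun x n => X n x) g v) := by
  rw [← Completion.coe_toComplL (𝕜 := ℂ)]
  simp only [P352R.P.chg, Df.cur, map_sum, Complex.ofReal_mul]
  rfl

theorem act (h : P352R.P.ConfAct Q t) : Df.ConfAct Q t := by
  refine ⟨fun A B a b c => ?_⟩
  obtain ⟨S, S', K, K', p, q, r⟩ := h A B a b c
  refine ⟨S, S', K, K', fun m n => have p := p m n; ⟨p.1, p.2, p.3, p.4, p.5, p.6⟩,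
    fun m => have q := q m; ⟨q.1, q.2, q.3, q.4, q.5, q.6⟩, fun X f w v k l F hF => ?_⟩
  have e : (∑ n, Df.hil A (pd n fun x => X n x * f x) v) =
      ↑(∑ n, A (pd n fun x => X n x * f x) v) := by
    rw [← Completion.coe_toComplL (𝕜 := ℂ), map_sum]
    rfl
  simp only [← chg, e]
  exact r X f w v (kil.1 k) l.1 l.2.1 F hF

theorem acts {X k d} {B B' : Fin k.n → Fn → D → Completion D} (h : P352R.P.ActS t X k d B B') :
    Df.ActS t X (new k) d B B' := by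
  refine ⟨fun a f w v l F hF => ?_⟩
  simp only [← chg]
  exact h a f w v F l hF

theorem descs {e B} (h : P352R.P.DescS Q G t e B) : Df.DescS Q G t e B := by
  obtain ⟨n, k, d, c, α, a, B, B', p, q⟩ := h
  exact ⟨n, fun i => new (k i), d, c, α, a, B, B', fun i => have p := p i
    ⟨fun a => (p.loc a).imp fun _ l => ⟨l.1, l.2, l.3, l.4, l.5, fun C C' f g v z u u' w _ =>
      l.6 C C' f g v z u u' w⟩, p.adj, p.cov, fun X x => acts (p.act X (kil.1 x))⟩, q⟩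

theorem cfs (h : P352R.P.CFS Q G t) : Df.CFS Q G t := by
  refine ⟨fun X Y Y' a b F hF => ?_, fun e k d Φ Φ' a b => ?_⟩
  · simp only [← chg]
    exact h.ward X Y Y' F (kil.1 a) (al b) hF
  have h := h.mp e (old k) d Φ Φ' a fun i => ⟨dim.1 (b i).1, (b i).2⟩
  exact ⟨fun r X x => acts (h.1 r X x), fun i => descs (h.2 i)⟩

theorem desc (h : N352.Desc Q G t) : Df.Desc Q G t := fun B b =>
  have ⟨n, e, C, p, q⟩ := h B b
  ⟨n, e, C, fun j => descs (p j), q⟩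

theorem conf (h : N352.Conf Q G T t) : Df.Conf Q G T t :=
  ⟨h.form, impr h.impr, act h.act, cfs h.cfs, fun a b => desc (h.desc (mfa.1 a) (fsl.1 b))⟩

theorem hyp : Df.Hyp Q G T A Γ N ↔ N352.Hyp Q G T A Γ N :=
  ⟨fun h => ⟨stress0.1 h.1, h.2, h.3, flds.1 h.4, lng.1 h.5⟩,
    fun h => ⟨stress0.2 h.1, h.2, h.3, flds.2 h.4, lng.2 h.5⟩⟩

theorem ext {E : Submodule ℂ (Completion D)} {P : Theory E} {G' e} :
    Df.Ext Q Γ N P G' e ↔ N352.Ext Q Γ N P G' e :=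
  ⟨fun h => ⟨gr.1 h.1, h.2, h.3, h.4, h.5, h.6, h.7, h.8, h.9⟩,
    fun h => ⟨gr.2 h.1, h.2, h.3, h.4, h.5, h.6, h.7, h.8, h.9⟩⟩

theorem ovr {R : Theory D'} {i G' T' A'} :
    Df.Over Q T R i G' T' A' ↔ N352.Over Q T R i G' T' A' :=
  ⟨fun h => ⟨⟨h.1.1, h.1.2, h.1.3, h.1.4⟩, gr.1 h.2, gnr.1 h.3, stress0.1 h.4, h.5, h.6⟩,
    fun h => ⟨⟨h.1.1, h.1.2, h.1.3, h.1.4⟩, gr.2 h.2, gnr.2 h.3, stress0.2 h.4, h.5, h.6⟩⟩

theorem max {R : Theory D'} {i} : Df.Max Q Γ N R i ↔ N352.Max Q Γ N R i :=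
  ⟨fun h E P G' e L a => h.1 E P G' e L (ext.2 a), fun h => ⟨fun E P G' e L a => h E P G' e L (ext.1 a)⟩⟩

theorem cy : (∀ w, Df.Cyc Q w) ↔ GI.Cy Q :=
  ⟨fun h S a b => top_unique fun w _ => h w S a b, fun h w S a b => (h S a b).ge trivial⟩

theorem en {k} : Df.en Q k = P352R.G.en Q k := by
  induction k with
  | zero => rfl
  | succ k h =>
    funext v
    show Df.en Q k v + ∑ m, Df.en Q k (Df.Dv Q m v) = _
    rw [h]
    rfl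

theorem ebd : Df.EBd Q ↔ P352R.G.EBd Q := by
  simp only [Df.EBd, en]
  rfl

variable (D D') in
/-- **the theorem** -/
theorem thm : Df.Thm D D' where
  ext Q G T A Γ N h := by
    obtain ⟨S, a, b, E, P, G', e, t, c, d, k⟩ := (main (D' := D) Q G T A Γ N (hyp.1 h)).1
    exact ⟨S, a, b, E, P, G', e, t, ext.2 c, desc d, fun R p q => conf (k R (enl.1 p) (gr.1 q))⟩
  self Q G T A Γ N h :=
    have ⟨a, b, c⟩ := (main (D' := D) Q G T A Γ N (hyp.1 h)).2.1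
    ⟨mfa.2 a, fsl.2 b, ovr.2 c⟩
  max Q G T A Γ N R i G' T' A' h a b :=
    ((main Q G T A Γ N (hyp.1 h)).2.2 R i G' T' A' (ovr.1 a) (max.1 b)).imp fun _ => conf
  net Q G A Γ O M a b := ⟨_, lng.2 (Lg.net (lg1 b) ((flds.1 a).imp_right And.right))⟩
  sub Q R G A a b c d e k :=
    have ⟨Γ, N, l⟩ := nets Q G A (flds.1 a) (.inr ⟨ge.1 b, R, enl.1 c, gr.1 d, flds.1 e,
      k.imp (And.imp_left cy.1) (And.imp_left ebd.1)⟩)
    ⟨Γ, N, lng.2 l⟩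
  gen Q G a b c d e :=
    ((GI.thm D).gen Q G (gr.1 a) b (cy.1 c) (mfa.1 d) (fsl.1 e)).imp fun _ => ge.2

/-- **the witness** -/
theorem wit : ∃ (E : Type) (_ : NormedAddCommGroup E) (_ : InnerProductSpace ℂ E), Df.Wit E :=
  have ⟨E, _, _, Q, R, T, A, N, a, b, ⟨_, c, d, e, f, g, h, k⟩, ⟨B, l, m⟩, n⟩ := N352.wit
  ⟨E, _, _, Q, R, T, A, N, B, hyp.2 a, max.2 b, enl.2 c, gr.2 d, flds.2 e, cy.2 f, g, ebd.2 h, k,
    l, m, n⟩

end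

end Vale.Agent.N352.Bg
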