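import Vale.Agent.N352.Pw
import Vale.Agent.P352.ND.L0a
import Vale.Agent.P352.H246.Main

/-!
# N352: the pairs of words are total in the even part of the tensor square
-/

set_option linter.all false

noncomputable section

open Filter Topology MeasureTheory
open scoped SchwartzMap ComplexConjugate
open UniformSpace (Completion)

namespace Vale.Agent.N352.Kn

open Vale.Agent.P352 Vale.Agent.P352.GF Vale.Agent.P352X Vale.Agent.P352X.EG
open Vale.Agent.P352.SubConf (IsAdj)
open Vale.Agent.P352.H246 (In)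
open Vale.Agent.P352W.Rp (Aj aj_fld aj_id)
open Vale.Agent.N352.Tn Vale.Agent.N352.Q2

/-- the ergodic theorem of Alaoglu and Birkhoff -/
lemma alb {H J : Type*} [NormedAddCommGroup H] [InnerProductSpace ℂ H] [CompleteSpace H]
    (U : J → H →L[ℂ] H) (hU : ∀ j z, ‖U j z‖ = ‖z‖) {S C : Set H} (ne : S.Nonempty)
    (hS : ∀ j, ∀ z ∈ S, U j z ∈ S) (h1 : S ⊆ C) (h2 : IsClosed C)
    (h3 : ∀ x ∈ C, ∀ y ∈ C, ∀ s t : ℝ, 0 ≤ s → 0 ≤ t → s + t = 1 → (s : ℂ) • x + (t : ℂ) • y ∈ C) :
    ∃ z ∈ C, ∀ j, U j z = z := by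
  letI : InnerProductSpace ℝ H := InnerProductSpace.complexToReal
  set K := closedConvexHull ℝ S
  have cv : Convex ℝ K := convex_closedConvexHull
  obtain ⟨z, hz, e⟩ := exists_norm_eq_iInf_of_complete_convex (ne.mono subset_closedConvexHull)
    isClosed_closedConvexHull.isComplete cv 0
  refine ⟨z, closedConvexHull_min h1 (fun x hx y hy s t hs ht e => h3 x hx y hy s t hs ht e) h2 hz,
    fun j => ?_⟩
  have hj : U j z ∈ K := closedConvexHull_min (t := U j ⁻¹' K)
    (fun x hx => subset_closedConvexHull (hS j x hx))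
    (cv.linear_preimage ((U j).restrictScalars ℝ).toLinearMap)
    (isClosed_closedConvexHull.preimage (U j).continuous) hz
  have h := (norm_eq_iInf_iff_real_inner_le_zero cv hz).1 e _ hj
  rw [zero_sub, inner_neg_left, inner_sub_right, real_inner_self_eq_norm_sq] at h
  have := norm_sub_sq_real z (U j z)
  rw [hU] at this
  exact (sub_eq_zero.1 (norm_eq_zero.1 (pow_eq_zero_iff two_ne_zero |>.1
    (le_antisymm (by linarith) (sq_nonneg _))))).symm

variable {D : Type*} [NormedAddCommGroup D] [InnerProductSpace ℂ D] {c : Cg D}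

/-- the vacuum component lies in the closed convex hull of the translates into a wedge -/
lemma cluster (hU : UVac c.Q) (η : Completion D) (R : ℝ) {C : Set (Completion D)}
    (h1 : ∀ a : V, R < a 1 - |a 0| → Ut c.Q a η ∈ C) (h2 : IsClosed C)
    (h3 : ∀ x ∈ C, ∀ y ∈ C, ∀ s t : ℝ, 0 ≤ s → 0 ≤ t → s + t = 1 → (s : ℂ) • x + (t : ℂ) • y ∈ C) :
    inner ℂ c.Om η • c.Om ∈ C := by
  have om : ∀ a, Ut c.Q a c.Om = c.Om := fun a => by
    rw [Cg.Om, BW.om, SGx.ut_coe, c.Q.U_vac _ _ _ one_pos H496.isLor_one]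
  obtain ⟨z, ⟨hz, e⟩, h⟩ := alb (fun b : {b : V // |b 0| ≤ b 1} => Ut c.Q b.1)
    (fun b z => by simpa using SN.norm_of_inn (SGx.ut_inn c.Q b.1) z 0)
    (S := (fun a => Ut c.Q a η) '' {a | R < a 1 - |a 0|})
    (C := C ∩ {z | inner ℂ c.Om z = inner ℂ c.Om η})
    ⟨_, ![0, R + 1, 0, 0], by simp, rfl⟩
    (by
      rintro b _ ⟨a, ha, rfl⟩
      refine ⟨b.1 + a, ?_, by simp only [SGx.ut_add]; rfl⟩
      have h1 := b.2
      have h2 := abs_add_le (b.1 0) (a 0)
      simp only [Set.mem_setOf_eq, Pi.add_apply] at ha ⊢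
      linarith)
    (by
      rintro _ ⟨a, ha, rfl⟩
      exact ⟨h1 a ha, by rw [Set.mem_setOf_eq, ← SGx.ut_inn c.Q a c.Om η, om]⟩)
    (h2.inter (isClosed_eq (by fun_prop) continuous_const))
    fun x hx y hy s t hs ht e => ⟨h3 x hx.1 y hy.1 s t hs ht e, by
      rw [Set.mem_setOf_eq, inner_add_right, inner_smul_right, inner_smul_right, hx.2, hy.2,
        ← add_mul, ← Complex.ofReal_add, e, Complex.ofReal_one, one_mul]⟩
  obtain ⟨κ, rfl⟩ := hU z fun a => by
    let b : V := ![0, |a 0| + |a 1|, 0, 0]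
    have hb := h ⟨b, by simp [b]; positivity⟩
    have hc := h ⟨a + b, by simp [b]; linarith [neg_abs_le (a 1)]⟩
    simp only [SGx.ut_add, ContinuousLinearMap.mul_apply] at hb hc
    rw [← Ug_apply c.Q one_pos H496.isLor_one, ← hb]
    exact hc.trans hb.symm
  rwa [← (show _ = _ from e), inner_smul_right, Kin.inner_om, mul_one]

/-- words with `m` odd letters -/
inductive Wm (c : Cg D) (K : Set V) : ℕ → (D → D) → (D → D) → Prop
  | one : Wm c K 0 (fun v => v) fun v => v
  | cons (e : Bool) (B B' : Fld D) (f : Fn) (m : ℕ) (X X' : D → D) : Hm c e B → c.Q.fld B' →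
      IsAdj B B' → In K f → Wm c K m X X' →
      Wm c K (m + e.toNat) (fun v => B f (X v)) fun v => X' (B' (bar f) v)

namespace Wm

variable {K K' : Set V} {m m' : ℕ} {X X' Y Y' : D → D}

lemma adj (h : Wm c K m X X') (v w : D) : inner ℂ (X v) w = inner ℂ v (X' w) := by
  induction h generalizing w with
  | one => rfl
  | cons e B B' f m X X' _ _ a hf _ ih => rw [a f _ _ hf.1, ih]

lemma adj' (h : Wm c K m X X') (v w : D) : inner ℂ (X' v) w = inner ℂ v (X w) := by
  rw [← inner_conj_symm, ← h.adj, inner_conj_symm]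

lemma aj (h : Wm c K m X X') : Aj X := ⟨X', fun z v => (h.adj' z v).symm⟩

lemma mono (h : Wm c K m X X') (k : K ⊆ K') : Wm c K' m X X' := by
  induction h with
  | one => exact .one
  | cons e B B' f m X X' a b d hf _ ih =>
    exact .cons e B B' f m X X' a b d ⟨hf.1, hf.2.1, hf.2.2.trans k⟩ ih

lemma bdd (h : Wm c K m X X') : ∃ R, Wm c (Metric.closedBall 0 R) m X X' := by
  induction h with
  | one => exact ⟨0, .one⟩
  | cons e B B' f m X X' a b d hf _ ih =>
    obtain ⟨R, h⟩ := ih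
    obtain ⟨r, hr⟩ := hf.2.1.isCompact.isBounded.subset_closedBall 0
    exact ⟨max r R, .cons e B B' f m X X' a b d ⟨hf.1, hf.2.1, hr.trans
      (Metric.closedBall_subset_closedBall (le_max_left _ _))⟩
      (h.mono (Metric.closedBall_subset_closedBall (le_max_right _ _)))⟩

lemma comp (h : Wm c K m X X') (h' : Wm c K m' Y Y') :
    Wm c K (m' + m) (fun v => X (Y v)) fun v => Y' (X' v) := by
  induction h with
  | one => exact h'
  | cons e B B' f m X X' a b d hf _ ih => exact add_assoc m' m _ ▸ .cons e B B' f _ _ _ a b d hf ih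

lemma symm (h : Wm c K m X X') : Wm c K m X' X := by
  induction h with
  | one => exact .one
  | cons e B B' f m X X' a b d hf _ ih =>
    have := ih.comp (.cons e B' B (bar f) 0 _ _ ⟨b, Bas.padj _ _ _ d a.2⟩ a.1 (fun g v w hg => by
      rw [← inner_conj_symm, ← Bas.bb g, ← d _ _ _ (Bas.tb hg), inner_conj_symm, Bas.bb])
      hf.bar .one)
    rwa [zero_add, add_comm, Bas.bb] at this

lemma par (h : Wm c K m X X') : c.G (X c.Q.vac) = (-1 : ℂ) ^ m • X c.Q.vac := by
  induction h with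
  | one => simp [c.hN.vac]
  | cons e B B' f m X X' a b d hf _ ih =>
    rw [Bas.pa' a.2 hf.1, ih, (aj_fld a.1 hf.1).smul, smul_smul]
    cases e <;> simp [EG.sg, pow_succ]

lemma comm1 (h : Wm c K m X X') {e : Bool} {B : Fld D} (hB : Hm c e B) {f : Fn} (hf : In K' f)
    (k : ∀ x ∈ K', ∀ y ∈ K, mdot (fun n => x n - y n) (fun n => x n - y n) < 0) (v : D) :
    B f (X v) = EG.sg e ^ m • X (B f v) := by
  induction h with
  | one => simp
  | cons e' C C' g m X X' a b d hg _ ih =>
    rw [Bas.comm e e' B C f g _ hB.1 a.1 hB.2 a.2 hf.1 hg.1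
      fun x hx y hy => k x (hf.2.2 hx) y (hg.2.2 hy), ih, (aj_fld a.1 hg.1).smul, smul_smul]
    cases e <;> cases e' <;> simp [EG.sg, pow_succ]

lemma comm (h : Wm c K 2 Y Y') (h' : Wm c K' m X X')
    (k : ∀ x ∈ K', ∀ y ∈ K, mdot (fun n => x n - y n) (fun n => x n - y n) < 0) (v : D) :
    X (Y v) = Y (X v) := by
  induction h' with
  | one => rfl
  | cons e B B' f m X X' a b d hf _ ih =>
    beta_reduce
    rw [ih, h.comm1 a hf k, sq, sg_sq, one_smul]

lemma tra (h : Wm c K m X X') (a : V) : ∃ Y Y', Wm c {z | z + a ∈ K} m Y Y' ∧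
    ∀ v, X (c.Q.U 1 GF.one a v) = c.Q.U 1 GF.one a (Y v) ∧
      X' (c.Q.U 1 GF.one a v) = c.Q.U 1 GF.one a (Y' v) := by
  induction h with
  | one => exact ⟨_, _, .one, fun _ => ⟨rfl, rfl⟩⟩
  | cons e B B' f m X X' a b d hf _ ih =>
    obtain ⟨Y, Y', h, h'⟩ := ih
    refine ⟨_, _, .cons e B B' _ m Y Y' a b d (ND.in_tr _ hf fun _ h => h) h, fun v => ⟨?_, ?_⟩⟩ <;>
      beta_reduce
    · rw [(h' v).1, c.Q.transl _ _ _ _ a.1 hf.1]
    · rw [c.Q.transl _ _ _ _ b (Bas.tb hf.1), (h' _).2]
      rfl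

lemma zero (h0 : ∀ X X', Wm c K 1 X X' → X c.Q.vac = 0) (h : Wm c K m X X') (hm : m ≠ 0) :
    X c.Q.vac = 0 := by
  induction h with
  | one => exact absurd rfl hm
  | cons e B B' f m X X' a b d hf h ih =>
    rcases eq_or_ne m 0 with rfl | k
    · cases e
      · exact absurd rfl hm
      · exact h0 _ _ (.cons true B B' f 0 X X' a b d hf h)
    · exact (congrArg _ (ih k)).trans (map_zero (aj_fld a.1 hf.1).lin)

end Wm

section pair

variable (hb : Big c)
include hb

lemma hm_one : Hm c false fun f v => (∫ x, f x) • v :=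
  ⟨c.Q.bose_fld _ hb.one, fun f v hf => (c.hN.bose _ f v hb.one hf).trans (one_smul _ _).symm⟩

lemma pair_l {v v' : D} (h : Pair c v v') {B : Fld D} (hB : Hm c false B) {f : Fn} (hf : IsTest f) :
    Pair c (B f v) v' := by
  have := Pair.cons _ _ _ _ _ _ _ hB (hm_one hb) hf (tst rho) h
  rwa [show ∫ x, ev rho x = 1 from ex_rho.choose_spec.2, one_smul] at this

lemma pair_r {v v' : D} (h : Pair c v v') {B : Fld D} (hB : Hm c false B) {f : Fn} (hf : IsTest f) :
    Pair c v (B f v') := by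
  have := Pair.cons _ _ _ _ _ _ _ (hm_one hb) hB (tst rho) hf h
  rwa [show ∫ x, ev rho x = 1 from ex_rho.choose_spec.2, one_smul] at this

lemma Wm.pair {K : Set V} {m m' : ℕ} {X X' Y Y' : D → D} (h : Wm c K m X X') (h' : Wm c K m' Y Y')
    (k : m' = m) : Pair c (X c.Q.vac) (Y c.Q.vac) := by
  induction h generalizing m' Y Y' with
  | one =>
    induction h' with
    | one => exact .vac
    | cons e B B' f m Y Y' a b d hf _ ih =>
      cases e
      · exact pair_r hb (ih k) a hf.1
      · exact absurd k (Nat.succ_ne_zero _)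
  | cons e B B' f m X X' a b d hf _ ih =>
    cases e
    · exact pair_l hb (ih h' k) a hf.1
    induction h' with
    | one => exact absurd k.symm (Nat.succ_ne_zero _)
    | cons e C C' g m' Y Y' a' b' d' hg h' ih' =>
      cases e
      · exact pair_r hb (ih' k) a' hg.1
      · exact .cons _ _ _ _ _ _ _ a a' hf.1 hg.1 (ih h' (Nat.succ_injective k))

end pair

/-- `ζ` is orthogonal to the words with `m` odd letters -/
def Ort (c : Cg D) (m : ℕ) (ζ : Completion D) : Prop :=
  ∀ X X', Wm c Set.univ m X X' → inner ℂ ((X c.Q.vac : D) : Completion D) ζ = 0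

lemma total {ζ : Completion D} (h : ∀ m, Ort c m ζ) : ζ = 0 := by
  have k : ∀ v, P352.PW c.Q Set.univ v → ∀ m X X', Wm c Set.univ m X X' →
      inner ℂ ((X v : D) : Completion D) ζ = 0 := fun v hv => by
    induction hv with
    | vac => exact h
    | add _ _ a b =>
      intro m X X' k
      rw [k.aj.add, Completion.coe_add, inner_add_left, a _ _ _ k, b _ _ _ k, add_zero]
    | smul z _ a =>
      intro m X X' k
      rw [k.aj.smul, Completion.coe_smul, inner_smul_left, a _ _ _ k, mul_zero]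
    | fld hB hg _ a =>
      intro m X X' k
      have hf := H246.in_univ.2 hg
      obtain ⟨C, C', h1, h2, h3⟩ := c.hN.split _ hB
      obtain ⟨A, h4, h5⟩ := c.Q.adj C (c.Q.bose_fld _ h1)
      obtain ⟨A', h6, h7⟩ := c.Q.adj C' h2.1
      rw [h3 _ _ hf.1, k.aj.add, Completion.coe_add, inner_add_left,
        a _ _ _ (k.comp (.cons false C A _ 0 _ _ ⟨c.Q.bose_fld _ h1, fun f v hf =>
          (c.hN.bose _ f v h1 hf).trans (one_smul _ _).symm⟩ h4 h5 hf .one)),
        a _ _ _ (k.comp (.cons true C' A' _ 0 _ _ ⟨h2.1, fun f v hf =>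
          (h2.2 f v hf).trans (neg_one_smul ℂ _).symm⟩ h6 h7 hf .one)), add_zero]
  refine ext_D fun w => Eq.trans ?_ (inner_zero_right _).symm
  exact (H246.dense_PS (Q := c.Q)).induction (P := fun w : D => inner ℂ (w : Completion D) ζ = 0)
    (fun v hv => k v hv 0 (fun v => v) _ .one)
    (isClosed_eq ((Completion.continuous_coe D).inner continuous_const) continuous_const) w

lemma step (hU : UVac c.Q) {m : ℕ} {ζ : Completion D} (h : Ort c (2 + m) ζ) {u u' : D → D}
    (hu : Wm c Set.univ 1 u u') (h0 : u c.Q.vac ≠ 0) : Ort c m ζ := fun X X' hX => by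
  obtain ⟨r, hX⟩ := hX.bdd
  obtain ⟨r', hY⟩ := (hu.symm.comp hu).bdd
  set M := Real.sqrt (‖X' (X c.Q.vac)‖ * ‖u' (u (u' (u c.Q.vac)))‖)
  have key := cluster hU (u' (u c.Q.vac) : D) (2 * (r + r'))
    (C := {η | ∀ ξ : D, ‖inner ℂ ((X' ξ : D) : Completion D) η‖ ≤ ‖(ξ : Completion D) - ζ‖ * M})
    (fun a ha ξ => ?_) ?_ fun x hx y hy s t hs ht e ξ => ?_
  · have k : ∀ z : Completion D, ‖inner ℂ (u c.Q.vac) (u c.Q.vac) *
        inner ℂ z ((X c.Q.vac : D) : Completion D)‖ ≤ ‖z - ζ‖ * M := fun z =>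
      Completion.induction_on z (isClosed_le (by fun_prop) (by fun_prop)) fun ξ => by
        have := key ξ
        rwa [inner_smul_right, Cg.Om, BW.om, Completion.inner_coe, Completion.inner_coe, hX.adj',
          ← hu.adj, ← Completion.inner_coe ξ] at this
    have := k ζ
    rw [sub_self, norm_zero, zero_mul, norm_le_zero_iff, mul_eq_zero, inner_self_eq_zero] at this
    exact inner_eq_zero_symm.1 (this.resolve_left h0)
  · obtain ⟨Y, Y', hZ, e⟩ := hY.tra (-a)
    have uv := c.Q.U_vac 1 GF.one (-a) one_pos H496.isLor_one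
    have e1 := (e c.Q.vac).1
    have cm : ∀ x ∈ Metric.closedBall (0 : V) r, ∀ y ∈ {z | z + -a ∈ Metric.closedBall (0 : V) r'},
        mdot (fun n => x n - y n) (fun n => x n - y n) < 0 := fun x hx y hy => by
      have p := fun i => abs_le.1 ((norm_le_pi_norm x i).trans (mem_closedBall_zero_iff.1 hx))
      have q := fun i => abs_le.1
        ((norm_le_pi_norm (y + -a) i).trans (mem_closedBall_zero_iff.1 hy))
      have p0 := p 0
      have p1 := p 1
      have q0 := q 0
      have q1 := q 1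
      simp only [Pi.add_apply, Pi.neg_apply] at q0 q1
      have a1 := le_abs_self (a 0)
      have a2 := neg_abs_le (a 0)
      have := mul_pos (show 0 < y 1 - x 1 - (x 0 - y 0) by linarith)
        (show 0 < y 1 - x 1 + (x 0 - y 0) by linarith)
      rw [H496.gm]
      nlinarith [mul_self_nonneg (x 2 - y 2), mul_self_nonneg (x 3 - y 3)]
    have e2 : ‖Y' (Y c.Q.vac)‖ = ‖u' (u (u' (u c.Q.vac)))‖ := by
      have := SN.norm_of_inn (SGx.ut_inn c.Q (-a)) (Y' (Y c.Q.vac) : D) 0
      rw [map_zero, sub_zero, sub_zero, SGx.ut_coe, ← (e _).2, ← e1, uv, Completion.norm_coe,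
        Completion.norm_coe] at this
      exact this.symm
    have e3 : ‖X (Y c.Q.vac)‖ ≤ M := Real.le_sqrt_of_sq_le (by
      have : inner ℂ (X (Y c.Q.vac)) (X (Y c.Q.vac)) =
          inner ℂ (X' (X c.Q.vac)) (Y' (Y c.Q.vac)) := by
        rw [hX.adj', hZ.symm.comm hX cm, ← hZ.adj, ← hZ.comm hX cm]
      rw [← e2, ← inner_self_eq_norm_sq (𝕜 := ℂ), this]
      exact (RCLike.re_le_norm _).trans (norm_inner_le_norm _ _))
    have e4 := h _ _ ((hX.mono (Set.subset_univ _)).comp (hZ.mono (Set.subset_univ _)))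
    rw [uv] at e1
    rw [show (u' (u c.Q.vac)) = _ from e1, SGx.ut_coe, H755.Uadd1, add_neg_cancel, H755.Uone,
      Completion.inner_coe, hX.adj', ← Completion.inner_coe, ← sub_zero (inner ℂ _ _),
      ← inner_eq_zero_symm.1 e4, ← inner_sub_left]
    refine (norm_inner_le_norm _ _).trans (mul_le_mul_of_nonneg_left ?_ (norm_nonneg _))
    rwa [Completion.norm_coe]
  · rw [Set.setOf_forall]
    exact isClosed_iInter fun ξ => isClosed_le (by fun_prop) continuous_const
  · rw [inner_add_right, inner_smul_right, inner_smul_right]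
    refine (norm_add_le _ _).trans ?_
    rw [norm_mul, norm_mul, Complex.norm_real, Complex.norm_real, Real.norm_of_nonneg hs,
      Real.norm_of_nonneg ht, ← one_mul (_ * M), ← e, add_mul]
    exact add_le_add (mul_le_mul_of_nonneg_left (hx ξ) hs) (mul_le_mul_of_nonneg_left (hy ξ) ht)

lemma steps (hU : UVac c.Q) {ζ : Completion D} {u u' : D → D} (hu : Wm c Set.univ 1 u u')
    (h0 : u c.Q.vac ≠ 0) (m : ℕ) : ∀ k, Ort c (2 * k + m) ζ → Ort c m ζ
  | 0, h => by simpa using h
  | k + 1, h => steps hU hu h0 m k (step hU (by rwa [← add_assoc, add_comm 2]) hu h0)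

/-- **The pairs of words are total in the even part.** -/
theorem cy (hb : Big c) (hU : UVac c.Q) : CY c := fun ξ hξ h => by
  have d : ∀ {m X X' Y Y'}, Wm c Set.univ m X X' → Wm c Set.univ m Y Y' → inner ℂ (tm
      ((X c.Q.vac : D) : Completion D) ((Y c.Q.vac : D) : Completion D)) ξ = 0 := fun a b =>
    inner_eq_zero_symm.1 (h _ _ (a.pair hb b rfl))
  have key : ∀ m X X', Wm c Set.univ m X X' →
      ∀ m', Ort c m' (s2 ((X c.Q.vac : D) : Completion D) ξ) := by
    intro m X X' hX m' Y Y' hY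
    rw [inner_s2]
    rcases Nat.even_or_odd (m + m') with p | p
    · by_cases h0 : ∃ u u', Wm c Set.univ 1 u u' ∧ u c.Q.vac ≠ 0
      · obtain ⟨u, u', hu, h0⟩ := h0
        obtain ⟨k, e | e⟩ : ∃ k, m = 2 * k + m' ∨ m' = 2 * k + m := by
          obtain ⟨j, hj⟩ := p
          exact ⟨(m - m') / 2 + (m' - m) / 2, by omega⟩
        · rw [← inner_s2]
          exact steps hU hu h0 _ k (fun Z Z' hZ => (inner_s2 _ _ _).trans (d hX (e ▸ hZ))) _ _ hY
        · rw [← inner_s1]
          exact steps hU hu h0 _ k (fun Z Z' hZ => (inner_s1 _ _ _).trans (d (e ▸ hZ) hY)) _ _ hX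
      · push Not at h0
        rcases eq_or_ne m 0 with rfl | k
        · rcases eq_or_ne m' 0 with rfl | k
          · exact d hX hY
          · rw [hY.zero h0 k, Completion.coe_zero, map_zero, inner_zero_left]
        · rw [hX.zero h0 k, Completion.coe_zero, tm_zero_l, inner_zero_left]
    · have := G2_inner c (tm ((X c.Q.vac : D) : Completion D) ((Y c.Q.vac : D) : Completion D)) ξ
      rw [hξ, Tn.G2, mp_tm, c.hN.ext, c.hN.ext, hX.par, hY.par, Completion.coe_smul,
        Completion.coe_smul, tm_smul_l, map_smul, smul_smul, ← pow_add, p.neg_one_pow,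
        neg_one_smul, inner_neg_left] at this
      exact self_eq_neg.1 this.symm
  refine ext_in fun x y => ?_
  rw [inner_zero_right, ← inner_s1, total (c := c) (ζ := s1 y ξ) fun m X X' hX => ?_,
    inner_zero_right]
  rw [inner_s1, ← inner_s2, total (key m X X' hX), inner_zero_right]

/-- **Pointwise products exist.** -/
theorem ex_pw (c : Cg D) (h : Big c) (hU : UVac c.Q) :
    ∃ (E : Submodule ℂ (H2 D)) (o : E) (P : Fld D → Fld D → Fld E), PW c E.subtypeₗᵢ o P :=
  ⟨_, _, _, pw_of h (cy h hU)⟩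

end Vale.Agent.N352.Kn
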