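import Vale.Agent.P352X.EG.Spec
import Vale.Agent.P352NA.Defs
import Vale.Agent.P352X.Api1

/-!
# N352: the graded context on the full Hilbert space, and the link to the doubled theory
-/

set_option linter.all false

open MeasureTheory Filter Topology
open scoped SchwartzMap ComplexConjugate ContDiff

namespace Vale.Agent.N352.G

open Vale.Agent.P352 Vale.Agent.P352.GF Vale.Agent.P352.BW Vale.Agent.P352.H246
open Vale.Agent.P352.H496 Vale.Agent.P352.H755 Vale.Agent.P352.H15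
open Vale.Agent.P352.SubConf (IsAdj)
open Vale.Agent.P352X Vale.Agent.P352X.EB
open Vale.Agent.P352X.EG (Cg Sh sg)
open Vale.Agent.P352X.EB.NA (Pol)
open Vale.Agent.P132 (ModData)
open UniformSpace (Completion)
open Complex (I)

noncomputable section

section hilbert

variable {H K : Type*} [NormedAddCommGroup H] [InnerProductSpace ℂ H] [CompleteSpace H]
  [NormedAddCommGroup K] [InnerProductSpace ℂ K] [CompleteSpace K]

/-- operators of parity `e` -/
def Par (Γ : H →L[ℂ] H) (e : Bool) (u : H →L[ℂ] H) : Prop := Γ * u * Γ = sg e • u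

/-- `z` is the tensor product of `x` and `y` -/
def Tp (tm : H → H → K) (x y : H →L[ℂ] H) (z : K →L[ℂ] K) : Prop :=
  ∀ u v, z (tm u v) = tm (x u) (y v)

/-- `K` is the even part of the tensor square of `H`, and `tm x y` is the projection of the tensor
product of `x` and `y` -/
structure Dbl (Γ : H →L[ℂ] H) (tm : H → H → K) : Prop where
  g2 : Γ * Γ = 1
  gs : star Γ = Γ
  inn : ∀ x y x' y', inner ℂ (tm x y) (tm x' y') =
    (inner ℂ x x' * inner ℂ y y' + inner ℂ x (Γ x') * inner ℂ y (Γ y')) / 2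
  dns : Dense (Submodule.span ℂ {z | ∃ x y, z = tm x y} : Set K)
  mp : ∀ e u v, Par Γ e u → Par Γ e v → ∃ z, Tp tm u v z

/-- the image of an algebra under a unitary -/
def cjv (u : H →L[ℂ] H) (M : VonNeumannAlgebra H) : VonNeumannAlgebra H where
  toStarSubalgebra := StarSubalgebra.centralizer ℂ {z | ∃ y ∈ M.commutant, z = u * y * star u}
  centralizer_centralizer' := by simp

/-- the twist: one on even vectors, `i` on odd vectors -/
def kl (Γ : H →L[ℂ] H) : H →L[ℂ] H := ((1 + I) / 2) • 1 + ((1 - I) / 2) • Γ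

end hilbert

variable {D : Type*} [NormedAddCommGroup D] [InnerProductSpace ℂ D]

/-- the scalings, without sign -/
def Usc (Q : Theory D) (r s : ℝ) : Completion D →L[ℂ] Completion D :=
  P352X.Usc Q (Real.sqrt r) (Real.sqrt s) * P352X.Usc Q (Real.sqrt r) (Real.sqrt s)

/-- the null rotations, without sign -/
def Ga (Q : Theory D) (w : R2) : Completion D →L[ℂ] Completion D :=
  P352X.Ga Q ((1 / 2 : ℝ) • w) * P352X.Ga Q ((1 / 2 : ℝ) • w)

/-- the boosts, without sign -/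
def Bo (Q : Theory D) (t : ℝ) : Completion D →L[ℂ] Completion D :=
  Usc Q (Real.exp t) (Real.exp (-t))

def Mi (Q : Theory D) (i : Fin 2) (t : ℝ) : Completion D →L[ℂ] Completion D := Ga Q (t • e2 i)

/-- the twisted net -/
def Nt (c : Cg D) (O : Set V) : VonNeumannAlgebra (Completion D) := cjv (kl c.Γ) (c.N O)

/-- the link between the graded theory `c` and the context `k` of its double -/
structure Lk {D2 : Type*} [NormedAddCommGroup D2] [InnerProductSpace ℂ D2] (c : Cg D)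
    (T : Ix → Ix → Fld D) (k : P352X.Ctx D2)
    (tm : Completion D → Completion D → Completion D2) : Prop where
  dbl : Dbl c.Γ tm
  om : k.Om = tm c.Om c.Om
  U : ∀ s L a, 0 < s → IsLor L → Tp tm (Ug c.Q s L a) (Ug c.Q s L a) (Ug k.Q s L a)
  gen : ∀ O e x y z, IsOpen O → x ∈ c.N O → y ∈ c.N O → Par c.Γ e x → Par c.Γ e y →
    Tp tm x y z → z ∈ k.N O
  com : ∀ O e x y z, IsOpen O → x ∈ (c.N O).commutant → y ∈ (c.N O).commutant → Par c.Γ e x →
    Par c.Γ e y → Tp tm x y z → z ∈ (k.N O).commutant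
  T : ∀ m n f, IsTest f → ((k.T m n f k.Q.vac : D2) : Completion D2) =
    tm (T m n f c.Q.vac : D) c.Om + tm c.Om (T m n f c.Q.vac : D)

/-- **The graded context** -/
structure Ctx (D : Type*) [NormedAddCommGroup D] [InnerProductSpace ℂ D] extends Cg D where
  T : Ix → Ix → Fld D
  SK : ℝ → Completion D →L[ℂ] Completion D
  l : Fn → Completion D
  bt : SN.BC (fun p y : V => GF.mdot p y) (fun y z => Ut Q y z)
  hT : Q.IsStress T
  hl : IsPot Q T l

variable (c : Ctx D)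

/-- `exp (i t K_y)` -/
def Ctx.Ky (y : V) (t : ℝ) : Completion D →L[ℂ] Completion D := Ut c.Q y * c.SK t * Ut c.Q (-y)

/-- spectral measures of the translations -/
abbrev Ctx.nu (v : Completion D) : Measure V := c.bt.nu v

/-- the relations of the group `SK` -/
structure GRP : Prop where
  ugK : UG c.SK
  K_vac : ∀ t, c.SK t c.Om = c.Om
  gK : ∀ t, c.Γ * c.SK t = c.SK t * c.Γ
  sc_S : ∀ r s t, 0 < r → 0 < s → Usc c.Q r s * c.SK t = c.SK (t / s) * Usc c.Q r s
  ga_S : ∀ w t, Ga c.Q w * c.SK t = c.SK t * Ga c.Q w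
  pa_S : ∀ s t, Pa c.Q s * c.SK t = c.SK t * Pa c.Q s
  S_ut : ∀ t (y : R2), c.SK t * Ut c.Q (tv y) =
    Ut c.Q (tv y + (t * d2 y y) • va) * Ga c.Q ((2 * t) • y) * c.SK t
  md : ∀ r, 0 ≤ r → ∃ E : ModData (c.N (Rc r 0)) c.Om, ∀ t, E.U t =
    c.SK (r * (1 - Real.exp (-(2 * Real.pi * t)))) * Bo c.Q (-(2 * Real.pi * t))

/-- `K(u) - 2 u^2 P_b` is affine -/
def EE : Prop := ∀ (lo hi : ℝ) ψ, (∀ u ∈ Set.Ioo lo hi, Dm (c.Ky (u • vb)) ψ) → Dm (Pb c.Q) ψ →
  ∃ k0 k1, ∀ u ∈ Set.Ioo lo hi,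
    gen (c.Ky (u • vb)) ψ = k0 + (u : ℂ) • k1 + ((2 * u ^ 2 : ℝ) : ℂ) • gen (Pb c.Q) ψ

/-- the finite action of `exp (i t K)` on the potential -/
def FLOW : Prop := ∀ f t, In {z | be z < 0} f → 0 ≤ t → c.SK t (c.l f) = c.l (pb 2 t f)

/-- all that descends from the double -/
structure GX : Prop extends GRP c where
  ee : EE c
  flow : FLOW c
  prw : ∀ f, In W0 f → Pr (c.N W0) c.Om (c.l f) (c.l (bar f))

/-- true letters: sums of fields smeared in `K`, applied to the vacuum, with their adjoints -/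
inductive Tr (c : Cg D) (K : Set V) : Completion D → Completion D → Prop
  | zero : Tr c K 0 0
  | fld (B B' : Fld D) (f : Fn) : c.Q.fld B → c.Q.fld B' → IsAdj B B' → In K f →
      Tr c K (B f c.Q.vac : D) (B' (bar f) c.Q.vac : D)
  | add (ξ ξ' η η' : Completion D) : Tr c K ξ ξ' → Tr c K η η' → Tr c K (ξ + η) (ξ' + η')
  | smul (z : ℂ) (ξ ξ' : Completion D) : Tr c K ξ ξ' → Tr c K (z • ξ) (conj z • ξ')

/-- row PF: polynomial families through the true letters -/
def PF : Prop := ∀ B B', c.Q.fld B → c.Q.fld B' → IsAdj B B' → ∃ N : ℕ, ∀ f,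
  In {z | be z < 0} f → ∃ η η' : ℝ → Completion D, η 0 = (B f c.Q.vac : D) ∧
    η' 0 = (B' (bar f) c.Q.vac : D) ∧
    (∀ t, 0 ≤ t → Reg (-t) f → Tr c.toCg (cph t '' tsupport f) (η t) (η' t)) ∧
    Pol N {t | 0 ≤ t ∧ Reg (-t) f} (fun t => c.SK t (η t)) ∧
    Pol N {t | 0 ≤ t ∧ Reg (-t) f} fun t => c.SK t (η' t)

/-- row COV: the similitudes map a field into the span of a finite family of fields -/
def COV (Q : Theory D) : Prop := ∀ B B', Q.fld B → Q.fld B' → IsAdj B B' →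
  ∃ (e n : ℕ) (C C' : Fin n → Fld D) (κ : Sg → Fin n → ℂ),
    (∀ i, Q.fld (C i) ∧ Q.fld (C' i) ∧ IsAdj (C i) (C' i)) ∧
    (∀ g : Sg, 1 ≤ g.s → g.L = GF.one → ∀ i, ‖κ g i‖ ≤ g.s ^ e) ∧
    ∀ (g : Sg) f v, IsTest f →
      B f (Q.U g.s g.L g.a v) = ∑ i, κ g i • Q.U g.s g.L g.a (C i (g.pull f) v) ∧
      B' f (Q.U g.s g.L g.a v) = ∑ i, conj (κ g i) • Q.U g.s g.L g.a (C' i (g.pull f) v)

/-- row DENS: the twisted algebras of compact sets generate the commutant of the wedge algebra -/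
def DENS (c : Cg D) : Prop := ∀ ξ η ζ : Completion D, (∀ C, IsCompact C → C ⊆ W1 → ∀ Z ∈ Nt c C,
  inner ℂ (Z c.Om) ζ = inner ℂ (Z ξ) η) → Prd (c.N W0) c.Om ξ η ζ

end

end Vale.Agent.N352.G
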