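import Vale.Agent.N352.Net2
import Vale.Agent.N352.GDefs

/-!
# N352, block Tn: the link between a graded theory and its double (helper71)
-/

set_option linter.all false

open Filter Topology MeasureTheory
open scoped ComplexConjugate
open UniformSpace (Completion)
open ContinuousLinearMap (adjoint)

noncomputable section

namespace Vale.Agent.N352.Tn

open Vale.Agent.P352 Vale.Agent.P352.GF Vale.Agent.P352.BW Vale.Agent.P352.H246
open Vale.Agent.P352.H496 Vale.Agent.P352.H755 Vale.Agent.P352.H15
open Vale.Agent.P352X Vale.Agent.P352X.EB Vale.Agent.P352X.EG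

variable {D : Type*} [NormedAddCommGroup D] [InnerProductSpace ℂ D] {c : Cg D}
  {K : Type*} [NormedAddCommGroup K] [InnerProductSpace ℂ K] [CompleteSpace K]

/-- the even parts of the pure tensors -/
def te (j : K →L[ℂ] H2 D) (x y : Completion D) : K := adjoint j (tm x y)

theorem par_iff {e : Bool} {X : Completion D →L[ℂ] Completion D} : G.Par c.Γ e X ↔ Par c e X :=
  ⟨fun h => by rw [Par, ← smul_mul_assoc, ← h, mul_assoc, SGx.g2, mul_one],
    fun h => by rw [G.Par, h, smul_mul_assoc, mul_assoc, SGx.g2, mul_one]⟩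

variable {j : K →L[ℂ] H2 D}

theorem ext_te {A B : K →L[ℂ] K} (m : Em c j) (h : ∀ x y, A (te j x y) = B (te j x y)) :
    A = B := ContinuousLinearMap.ext fun z => by
  have := DFunLike.congr_fun (ext (A := A ∘L adjoint j) (B := B ∘L adjoint j) h) (j z)
  simpa only [ContinuousLinearMap.comp_apply, m.iso] using this

theorem Em.tp (m : Em c j) {x y : Completion D →L[ℂ] Completion D}
    (h : G2 c * mp x y = mp x y * G2 c) : G.Tp (te j) x y (rd j (mp x y)) := fun u v => by
  rw [te, m.rd_adj h, mp_tm, te]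

theorem Em.tp_eq (m : Em c j) {x y : Completion D →L[ℂ] Completion D} {z : K →L[ℂ] K}
    (h : G2 c * mp x y = mp x y * G2 c) (k : G.Tp (te j) x y z) : z = rd j (mp x y) :=
  ext_te m fun u v => (k u v).trans (m.tp h u v).symm

theorem Em.dbl (m : Em c j) : G.Dbl c.Γ (te j) where
  g2 := SGx.g2 c
  gs := SGx.gs c
  inn x y x' y' := by
    rw [te, te, ContinuousLinearMap.adjoint_inner_left, m.rng, inner_smul_right, inner_add_right,
      G2, mp_tm, inner_tm, inner_tm]
    ring
  dns := by
    intro z
    rw [← Submodule.topologicalClosure_coe, ← m.iso z]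
    refine ind (p := fun u => adjoint j u ∈ (Submodule.span ℂ
      {z | ∃ x y, z = te j x y}).topologicalClosure) (j z)
      ((Submodule.isClosed_topologicalClosure _).preimage (adjoint j).continuous)
      (by rw [map_zero]; exact zero_mem _) (fun a b h1 h2 => by rw [map_add]; exact add_mem h1 h2)
      fun x y => Submodule.le_topologicalClosure _ (Submodule.subset_span ⟨x, y, rfl⟩)
  mp e u v p q := ⟨_, m.tp (G2_mp (par_iff.1 p) (par_iff.1 q))⟩

theorem Em.j_te (m : Em c j) {x y : Completion D} (h : G2 c (tm x y) = tm x y) :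
    j (te j x y) = tm x y := m.sur h

/-- **the link** -/
theorem Dbl.lk {E : Type*} [NormedAddCommGroup E] [InnerProductSpace ℂ E] {k : P352X.Ctx E}
    {i : E →ₗᵢ[ℂ] H2 D} (d : Dbl c k.Q i) (hN : k.N = N2 c (jE i)) {T : Ix → Ix → Fld D}
    (hT : ∀ m n f, IsTest f → i (k.T m n f k.Q.vac) =
      tm ((T m n f c.Q.vac : D) : Completion D) c.Om +
        tm c.Om ((T m n f c.Q.vac : D) : Completion D)) : G.Lk c T k (te (jE i)) where
  dbl := d.em.dbl
  om := by rw [te, ← O2, ← d.om, d.em.iso]
  U s L a hs hL := by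
    rw [d.ug_eq hs hL]
    exact d.em.tp (G2_U2 c hs hL a)
  gen O e x y z _ hx hy p q h := by
    rw [hN, d.em.tp_eq (G2_mp (par_iff.1 p) (par_iff.1 q)) h]
    exact mp_N2 hx hy (par_iff.1 p) (par_iff.1 q)
  com O e x y z hO hx hy p q h := by
    rw [hN, d.em.tp_eq (G2_mp (par_iff.1 p) (par_iff.1 q)) h]
    exact d.em.mp_com hO subset_rfl hx hy (par_iff.1 p) (par_iff.1 q)
  T m n f hf := by
    rw [te, te, ← map_add, ← hT m n f hf, ← jE_coe, d.em.iso]

end Vale.Agent.N352.Tn
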