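import Vale.Agent.N352.NDef
import Vale.Agent.P352X.R.GRP.A

/-!
# N352: the dual net
-/

set_option linter.all false

open Filter Topology

namespace Vale.Agent.N352.Nt

open Vale.Agent.P352 Vale.Agent.P352.GF Vale.Agent.P352.BW Vale.Agent.P352.H246
open Vale.Agent.P352.H496 Vale.Agent.P352.H755 Vale.Agent.P352.H15 Vale.Agent.P352X
open UniformSpace (Completion)

noncomputable section

section gen

variable {H : Type*} [NormedAddCommGroup H] [InnerProductSpace ℂ H] [CompleteSpace H]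

/-- **The dual net**: the intersection of the algebras of all wedges that contain `O`. -/
def Nd (N : Set V → VonNeumannAlgebra H) (O : Set V) : VonNeumannAlgebra H where
  toStarSubalgebra := StarSubalgebra.centralizer ℂ {Z | ∃ a b y, IsNull a ∧ IsNull b ∧
    0 < mdot a b ∧ O ⊆ Wdg a b y ∧ Z ∈ (N (Wdg a b y)).commutant}
  centralizer_centralizer' := by simp

variable {N : Set V → VonNeumannAlgebra H} {O O' : Set V} {X : H →L[ℂ] H}

theorem mem_Nd : X ∈ Nd N O ↔ ∀ a b y, IsNull a → IsNull b → 0 < mdot a b → O ⊆ Wdg a b y →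
    X ∈ N (Wdg a b y) := by
  refine (StarSubalgebra.mem_centralizer_iff ℂ).trans ⟨fun h a b y ha hb hab hO => ?_, ?_⟩
  · exact mem_cc.1 (VonNeumannAlgebra.mem_commutant_iff.2 fun Z hZ =>
      (h Z ⟨a, b, y, ha, hb, hab, hO, hZ⟩).1)
  · rintro h Z ⟨a, b, y, ha, hb, hab, hO, hZ⟩
    exact ⟨(comm_mul (h a b y ha hb hab hO) hZ).symm,
      (comm_mul (h a b y ha hb hab hO) (star_mem hZ)).symm⟩

theorem Nd_mono (e : O ⊆ O') : ∀ X ∈ Nd N O, X ∈ Nd N O' := fun X hX =>
  mem_Nd.2 fun a b y ha hb hab hO => mem_Nd.1 hX a b y ha hb hab (e.trans hO)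

theorem le_Nd (m : ∀ O O', O ⊆ O' → ∀ X ∈ N O, X ∈ N O') : ∀ X ∈ N O, X ∈ Nd N O := fun X hX =>
  mem_Nd.2 fun a b y _ _ _ hO => m _ _ hO X hX

theorem Nd_wdg (m : ∀ O O', O ⊆ O' → ∀ X ∈ N O, X ∈ N O') {a b : V} (ha : IsNull a)
    (hb : IsNull b) (hab : 0 < mdot a b) (y : V) : Nd N (Wdg a b y) = N (Wdg a b y) :=
  SetLike.ext fun X => ⟨fun h => mem_Nd.1 h a b y ha hb hab subset_rfl, le_Nd m X⟩

end gen

theorem sim_wdg {s : ℝ} {L : Ix → V} (hs : 0 < s) (hL : IsLor L) (y a b v x : V) :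
    sim s L y x ∈ Wdg (sim 1 L 0 a) (sim 1 L 0 b) (sim s L y v) ↔ x ∈ Wdg a b v := by
  have e : sim s L y x - sim s L y v = s • sim 1 L 0 (x - v) := by
    rw [Grp.sim_eq s L y x, Grp.sim_eq s L y v, simL_sub, smul_sub]
    abel
  simp only [Wdg, Set.mem_setOf_eq, e, H755.md_smul, md_LL hL, mul_neg_iff, mul_pos_iff, hs,
    hs.le.not_gt, true_and, false_and, or_false]

variable {D : Type*} [NormedAddCommGroup D] [InnerProductSpace ℂ D] {Q : Theory D}
  {A : (V → V) → D → D} {N : Set V → VonNeumannAlgebra (Completion D)}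

/-- the dual net is a local net -/
theorem lnm_Nd (h : LNm Q A N) : LNm Q A (Nd N) where
  toRep := h.toRep
  fld O B f hB hf := (h.fld O B f hB hf).imp fun X' k =>
    ⟨k.1, fun Y hY => k.2 Y (comm_anti (le_Nd h.mono) Y hY)⟩
  mono O O' e := Nd_mono e
  cov s L y O X hX hs hL := by
    refine ⟨Ug Q s L y * X * star (Ug Q s L y), mem_Nd.2 fun a b v ha hb hab hO => ?_, fun z => ?_⟩
    · have e : sim s L y (s⁻¹ • sim 1 (linv L) 0 (v - y)) = v := by
        rw [Grp.sim_eq, simL_smul, sim_linv hL, smul_smul, mul_inv_cancel₀ hs.ne', one_smul,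
          add_sub_cancel]
      have k := sim_wdg hs hL y (sim 1 (linv L) 0 a) (sim 1 (linv L) 0 b)
        (s⁻¹ • sim 1 (linv L) 0 (v - y))
      rw [e, sim_linv hL, sim_linv hL] at k
      refine h.mono _ _ ?_ _ (Grp.alg1 h hs hL y (mem_Nd.1 hX _ _ _
        (isNull_lor (isLor_linv hL) ha) (isNull_lor (isLor_linv hL) hb)
        (by rwa [md_LL (isLor_linv hL)]) fun x hx => (k x).1 (hO ⟨x, hx, rfl⟩)))
      rintro _ ⟨x, hx, rfl⟩
      exact (k x).2 hx
    · rw [← Ug_apply Q hs hL, ← Ug_apply Q hs hL]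
      exact congrArg (fun T : Completion D →L[ℂ] Completion D => Ug Q s L y (X (T z)))
        (Grp.uni h.toRep s L y).1
  loc a b X ha hb hab hX := by
    rw [Nd_wdg h.mono hb ha (by rw [H755.md_comm, hab]; exact one_pos)] at hX
    rw [Nd_wdg h.mono ha hb (by rw [hab]; exact one_pos)]
    exact h.loc a b X ha hb hab hX

/-- a context whose net is a dual net -/
theorem du_of (c : Ctx D) {N0 : Set V → VonNeumannAlgebra (Completion D)}
    (m : ∀ O O', O ⊆ O' → ∀ X ∈ N0 O, X ∈ N0 O') (e : c.N = Nd N0) : Du c := fun O X h => by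
  rw [e] at h ⊢
  exact mem_Nd.2 fun a b y ha hb hab hO => Nd_wdg m ha hb hab y ▸ h a b y ha hb hab hO

end

end Vale.Agent.N352.Nt
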