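import Vale.Agent.N352.St3
import Vale.Agent.N352.Cy
import Vale.Agent.N352.NDu
import Vale.Agent.N352.Lk

/-!
# N352, block Tn: the double of a graded theory (helper71)
-/

set_option linter.all false

open Filter Topology MeasureTheory
open scoped ComplexConjugate SchwartzMap
open UniformSpace (Completion)

noncomputable section

namespace Vale.Agent.N352.Tn

open Vale.Agent.P352 Vale.Agent.P352.GF Vale.Agent.P352.BW Vale.Agent.P352.H246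
open Vale.Agent.P352.H496 Vale.Agent.P352.H755 Vale.Agent.P352.H15
open Vale.Agent.P352X Vale.Agent.P352X.EB Vale.Agent.P352X.EG
open Vale.Agent.P352L Vale.Agent.P352L.StA

variable {D : Type*} [NormedAddCommGroup D] [InnerProductSpace ℂ D] {T : Ix → Ix → Fld D}

/-- **there are no logarithms in dimension four**, for graded nets without energy bounds -/
theorem nologD (c : Cg D) (hU : UVac c.Q) (hM : MfAll c.Q) (hF : FSL c.Q) (hT : Stress0 c.Q T)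
    (hP : ND.PCh c.Q T c.A) : NoLog c.Q T := by
  obtain ⟨E, o, P, p⟩ := Kn.ex_pw (bg c) (bg_big c) hU
  choose F C hC using fun m n => hF (T m n) (c.Q.bose_fld _ (hT.bose m n))
  obtain ⟨n0, h3, h4⟩ := Gd.fam hF hT hP hC
  refine StA.nolog hT hC (fun m n h => Gd.triv (c := ⟨hull c.Q, c.G, c.A, c.Γ, c.N, Gd.lng c.hN⟩)
    hU (h3.st 0) (h4 0) h) fun t m n f v hf => ?_
  simp only [tt_apply]
  refine Finset.sum_congr rfl fun d hd => ?_
  by_cases k : d.1 = 4 ∧ d.2 ≠ 0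
  · rw [p.log0 ⟨bg_big c, bg_mfa hM, bg_fsl hF⟩ hU (bg_st0 hT)
      (bg_pch (fun m n => c.Q.bose_fld _ (hT.bose m n)) hP) (F := F m n) (C := C m n)
      ⟨fun x => ⟨bg_fld ((hC m n).1 x).1, fun _ => bg_bose (((hC m n).1 x).2 (hT.bose m n))⟩,
        (hC m n).2⟩ hd k.1 k.2 hf, smul_zero, smul_zero]
  · refine congrArg (· • _) ?_
    simp only [cf]
    split_ifs with h
    · rw [not_not.1 fun h' => k ⟨h, h'⟩, pow_zero, pow_zero]
    · rfl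

/-- **the double** -/
theorem ex_dbl (c : Cg D) (hU : UVac c.Q) (hM : MfAll c.Q) (hF : FSL c.Q) (hT : c.Q.IsStress T)
    (hP : ND.PCh c.Q T c.A) : ∃ (E : Submodule ℂ (H2 D)) (q : Theory E) (A : (V → V) → E → E)
      (T2 : Ix → Ix → Fld E), Dbl c q E.subtypeₗᵢ ∧ q.IsStress T2 ∧ ND.PCh q T2 A ∧ TfGen q ∧
      LNm q A (N2 c (jE E.subtypeₗᵢ)) ∧ UVac q ∧ MfAll q ∧ FSL q ∧
      ∀ m n f, IsTest f → (T2 m n f q.vac : H2 D) = sy c (T m n f c.Q.vac : D) := by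
  obtain ⟨E, o, P, p⟩ := Kn.ex_pw (bg c) (bg_big c) hU
  have y : Hy (bg c) := ⟨bg_big c, bg_mfa hM, bg_fsl hF⟩
  obtain ⟨A, R⟩ := p.ex_rep y
  have h1 := bg_str hT
  have h2 := bg_pch (fun m n => c.Q.bose_fld _ (hT.bose m n)) hP
  have d := p.dbl y
  exact ⟨E, p.q y, A, t2 P T, ⟨d.even, d.dense, d.vac, d.U⟩, p.str y h1 h2 R,
    p.pch y ⟨h1.bose, h1.symm, h1.herm, fun m n L a f v => h1.cov m n 1 L a f v one_pos,
      h1.conserved, h1.charge⟩ h2 R, p.tfg y R, p.lnm y R, p.uvac y hU, p.mfa y, p.fsl y,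
    fun m n f hf => p.d1_vac y (ev_bose (h1.bose m n)) hf⟩

/-- the context of the double, on the dual net -/
theorem ex_ctx (c : Cg D) (hU : UVac c.Q) (hM : MfAll c.Q) (hF : FSL c.Q) (hT : c.Q.IsStress T)
    (hP : ND.PCh c.Q T c.A) : ∃ (E : Submodule ℂ (H2 D)) (k : P352X.Ctx E), k.tp ∧
      Dbl c k.Q E.subtypeₗᵢ ∧ k.N = Nt.Nd (N2 c (jE E.subtypeₗᵢ)) ∧ Nt.Du k ∧ MfAll k.Q ∧ FSL k.Q ∧
      ∀ m n f, IsTest f → (k.T m n f k.Q.vac : H2 D) = sy c (T m n f c.Q.vac : D) := by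
  obtain ⟨E, q, A, T2, d, h1, h2, h3, h4, h5, h6, h7, h8⟩ := ex_dbl c hU hM hF hT hP
  obtain ⟨k, rfl, rfl, e, tp⟩ := Pt.ctxN q T2 A _ h1 h2 h3 (Nt.lnm_Nd h4) h5
  exact ⟨E, k, tp, d, e, Nt.du_of k h4.mono e, h6, h7, h8⟩

/-- the context of the double, with the link -/
theorem ex_lk (c : Cg D) (hU : UVac c.Q) (hM : MfAll c.Q) (hF : FSL c.Q) (hT : c.Q.IsStress T)
    (hP : ND.PCh c.Q T c.A) : ∃ (E : Submodule ℂ (H2 D)) (k : P352X.Ctx E), k.tp ∧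
      Dbl c k.Q E.subtypeₗᵢ ∧ k.N = N2 c (jE E.subtypeₗᵢ) ∧ MfAll k.Q ∧ FSL k.Q ∧
      G.Lk c T k (te (jE E.subtypeₗᵢ)) := by
  obtain ⟨E, q, A, T2, d, h1, h2, h3, h4, h5, h6, h7, h8⟩ := ex_dbl c hU hM hF hT hP
  obtain ⟨k, rfl, rfl, e, tp⟩ := Pt.ctxN q T2 A _ h1 h2 h3 h4 h5
  exact ⟨E, k, tp, d, e, h6, h7, d.lk e h8⟩

end Vale.Agent.N352.Tn
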