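import Vale.Agent.N352.Elem
import Vale.Agent.N352.X.Asm
import Vale.Agent.P352R.Cv2
import Vale.Agent.P352R.Gz.Top

/-!
# N352: theories with a graded local net are conformally invariant
-/

set_option linter.all false

open Filter Topology

namespace Vale.Agent.N352.Pf

open Vale.Agent.P352 Vale.Agent.P352.GF Vale.Agent.P352.BW Vale.Agent.P352.H246
open Vale.Agent.P352.H496 Vale.Agent.P352.H755 Vale.Agent.P352.H15
open Vale.Agent.P352X Vale.Agent.P352L Vale.Agent.P352R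
open UniformSpace (Completion)

noncomputable section

universe u v

variable {D : Type u} [NormedAddCommGroup D] [InnerProductSpace ℂ D]
  {D' : Type v} [NormedAddCommGroup D'] [InnerProductSpace ℂ D']

/-- mixing for the vectors created by the tensor `t` -/
def Mx (Q : Theory D) (t : Ix → Ix → Fld D) : Prop :=
  ∀ (F : Ix → Ix → V → ℝ) (w : D), (∀ m n, Tst (F m n)) →
    Tendsto (fun r : ℝ => inner ℂ (smt t F Q.vac) (Q.U (Real.sqrt (r * 1)) (TPD.Lsc r 1) 0 w))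
    (𝓝[>] 0) (𝓝 (inner ℂ (smt t F Q.vac) Q.vac * inner ℂ Q.vac w))

/-- a scalar potential of the trace gives conformal invariance -/
theorem core {Q : Theory D} {G : D → D} (g : Gr Q G) {S : Ix → Ix → Fld D} {L : Fld D}
    (hS : Q.IsStress S) (hL : Q.IsScalar L 2)
    (h0 : ∀ f v, IsTest f → tr (improve S L) f v = 0) (mx : Mx Q (improve S L)) :
    Conf Q G S (improve S L) := by
  have h7 := isImpr hS ⟨rfl, rfl, fun _ h => h, fun _ h => h⟩ hL h0
  let M : D →ₗ[ℂ] D :=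
    { toFun := G
      map_add' := fun v w => ext_inner_right ℂ fun y => by simp only [g.herm, inner_add_left]
      map_smul' := fun z v => ext_inner_right ℂ fun y => by
        simp only [g.herm, inner_smul_left, RingHom.id_apply] }
  let k : CA.G.Cx D := ⟨Q, _, G, isT_of_impr h7 hS,
    fun m n k l f g v hf hg h => sub_eq_zero.1 (h7.self m n k l f g v hf hg h), h7.cov,
    ⟨_, hS.bose o o⟩, g.inv, g.herm, fun m n f v hf => by
      show _ = M _
      simp only [improve, map_add, map_sub, map_smul, map_sum, g.bose _ _ v (hS.bose m n) hf,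
        fun k l => g.bose _ _ v hL.1 (Ap.test_pd k (Ap.test_pd l hf))]
      rfl, g.GU,
    fun C hC => by
      obtain ⟨C1, C2, a1, a2, e⟩ := g.split C hC
      refine ⟨2, ![1, -1], ![C1, C2], fun j => ?_, fun k v hk => ?_⟩
      · fin_cases j
        exacts [Q.bose_fld _ a1, a2.1]
      · rw [e k _ hk, g.bose C1 k v a1 hk, a2.2 k v hk, show G _ = M _ from rfl, map_add, map_neg]
        simp [M, g.inv],
    g.mul, mx⟩
  obtain ⟨x, f0, al⟩ := CA.G.all_thm k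
  have tl : CA.G.Tl k := fun _ _ => CA.G.clf k g
  exact ⟨⟨S, L, hS, hL, rfl⟩, Br.impr.2 h7, Br.act (conf_act k.hT),
    Br.cfs (CA.G.cfs' al tl), fun hM hF => desc_of (Br.gr.2 g) <| desc_all (Br.gr.2 g) hM
      fun e k Φ x b c => Br.desc (CA.G.descL al tl hF e (Br.old k) Φ x b c)⟩

theorem cova {Q : Theory D} {G : D → D} (g : Gr Q G) (hM : MfAll Q) (hF : FSL Q) (s : ℝ)
    (L : Ix → V) (a : V) (hs : 0 < s) (hL : IsLor L) : P.Cov Q s L a := by
  have R := Fss.G.m1_gr g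
  have o := H496.isLor_one
  refine cov_all hs hL (Lg.sur (Br.gr.2 g) hs hL a).denseRange (fun v => ?_) (Cw.cd_of R hF s hs)
    (cov_lor hL (Lg.sur (Br.gr.2 g) one_pos hL 0).denseRange (Br.mfa.2 hM))
  refine (Fss.G.U_dil R hs hL a v).2.symm.trans (Eq.trans ?_
    (R 1 _ a 1 L 0 _ one_pos one_pos o hL (.inl rfl)).symm)
  simp only [Fss.sim_dil, zero_add, one_smul, smul_zero, add_zero, mul_one]
  rfl

open EG in
/-- mixing for even vectors -/
theorem mix (c : Cg D) (hU : L.UVac c.Q) (hM : MfAll c.Q) (hF : FSL c.Q) {T : Ix → Ix → Fld D}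
    (hT : c.Q.IsStress T) (hP : ND.PCh c.Q T c.A) : G.X.MIX c :=
  have ⟨_, _, _, _, m, _⟩ := G.X.ex_fin _ ⟨Tn.bg_big c, Tn.bg_mfa hM, Tn.bg_fsl hF⟩ hU
    (Tn.bg_str hT) (Tn.bg_pch (fun m n => c.Q.bose_fld _ (hT.bose m n)) hP)
  m

open EG in
/-- mixing for the even vectors of a sector -/
theorem mix_sect (c : Cg D) (m : G.X.MIX c) {R : Theory D'}
    {i : D →ₗᵢ[ℂ] D'} (h : P.Sect c.Q R i) {x : Completion D} (hx : c.Γ x = x) {y : D'}
    (e : (y : Completion D') = jc i x) (w : D') :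
    Tendsto (fun r : ℝ => inner ℂ y (R.U (Real.sqrt (r * 1)) (TPD.Lsc r 1) 0 w)) (𝓝[>] 0)
      (𝓝 (inner ℂ y R.vac * inner ℂ R.vac w)) := by
  have m := m x (ContinuousLinearMap.adjoint (jc i) (w : Completion D')) hx
  have o : jc i c.Om = (R.vac : Completion D') := jc_om h
  rw [ContinuousLinearMap.adjoint_inner_right, ← jc_inner (i := i), ← e, o, Completion.inner_coe,
    Completion.inner_coe] at m
  refine m.congr' (eventually_nhdsWithin_of_forall fun r hr => ?_)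
  obtain ⟨p1, p2⟩ := CA.lsc_pos hr
  obtain ⟨z, k⟩ : ∃ z, P.Ue c.Q (Real.sqrt (r * 1)) (TPD.Lsc r 1) 0 z = x :=
    ⟨_, (Ug_apply _ p1 p2 _ _).symm.trans (DFunLike.congr_fun (G.ip_ug c p1 p2 0).uni.2 x)⟩
  show inner ℂ x (P.Ue _ _ _ _ _) = inner ℂ y (R.U _ _ _ w)
  rw [← Completion.inner_coe y, e, ← ue_coe p1 p2, ← k, ue_inner p1 p2, jc_ue h p1 p2,
    ue_inner p1 p2, ContinuousLinearMap.adjoint_inner_right]

theorem ext_of {Q : Theory D} {Γ N} {E : Submodule ℂ (Completion D)} {P : Theory E} {G' e}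
    (h : G.X.ExtC Q Γ P G' e) (a : AfW N P (↑)) : Ext Q Γ N P G' e :=
  ⟨Br.gr.2 h.toGr, h.vac, h.G, h.U, h.fld, h.bos, h.adj, h.agree, a⟩

open EG in
/-- **the local extension** -/
theorem exten (c : Cg D) {T : Ix → Ix → Fld D} (hT : Stress0 c.Q T) (hA : ND.PCh c.Q T c.A)
    (hM : MfAll c.Q) (hF : FSL c.Q) (hU : L.UVac c.Q) : ∃ S, c.Q.IsStress S ∧ ND.PCh c.Q S c.A ∧
      ∃ (E : Submodule ℂ (Completion D)) (P : Theory E) (G' : E → E) (e : Fld D → Fld E)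
        (t : Ix → Ix → Fld E), Ext c.Q c.Γ c.N P G' e ∧ Desc P G' t ∧
        ∀ R, P352R.P.IsEnl P R → P352R.P.Gr R G' → Conf R G' (fun m n => e (S m n)) t := by
  obtain ⟨-, S, a1, a2, E, P, G', e, L, h1, h0, h2, h3, h4, h5⟩ := G.X.final c hU hM hF hT hA
  refine ⟨S, a1, a2, E, P, G', e, improve (fun m n => e (S m n)) L, ext_of h1 h0, fun B hB => ?_,
    fun R n g => ?_⟩
  · obtain ⟨n, p, C, u, w⟩ := ((h5 P ⟨rfl, rfl, fun _ h => h, fun _ h => h⟩).2.2 h1.toGr).2 B hB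
    exact ⟨n, p, C, fun i => Br.desc (u i), w⟩
  have n := Br.enl.1 n
  have hS := H746.isStress_enl n h2
  have hL := scalar_enl n h3
  have hv : (R.vac : Completion D) = c.Om := by rw [n.vac]; exact h1.vac
  have gv : G' R.vac = R.vac := Subtype.ext (by rw [h1.G, hv, EG.SGx.gv])
  refine core (Br.gr.1 g) hS hL (Br.impr.2 (h5 R n).1).traceless fun F w hF' => ?_
  have gt : ∀ m n f v, IsTest f → improve (fun m n => e (S m n)) L m n f (G' v) =
      gm g (improve (fun m n => e (S m n)) L m n f v) := fun m n f v hf => by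
    simp only [improve, map_add, map_sub, map_smul, map_sum, g.bose _ _ v (hS.bose m n) hf,
      fun k l => g.bose _ _ v hL.1 (Ap.test_pd k (Ap.test_pd l hf))]
    rfl
  have b3 := mix c hU hM hF a1 a2 (smt (improve (fun m n => e (S m n)) L) F R.vac : E) w (by
    rw [← h1.G]
    refine congrArg _ (show gm g _ = _ from ?_)
    simp only [smt, map_sum, fun m n => (gt m n _ R.vac (hF' m n).isTest).symm, gv])
  rw [← hv, ← Submodule.coe_inner, ← Submodule.coe_inner] at b3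
  refine b3.congr' (eventually_nhdsWithin_of_forall fun r hr => ?_)
  obtain ⟨p1, p2⟩ := CA.lsc_pos hr
  show inner ℂ _ (Ue _ _ _ _ _) = inner ℂ _ (R.U _ _ _ _)
  rw [← h1.U _ _ _ _ p1 p2, n.U]
  rfl

open EG Fss.G in
/-- **a theory that contains the relatively local scalars is conformally invariant** -/
theorem key (c : Cg D) {T : Ix → Ix → Fld D} (hT : Stress0 c.Q T) (hA : ND.PCh c.Q T c.A)
    (hM : MfAll c.Q) (hF : FSL c.Q) (hU : L.UVac c.Q) {R : Theory D'} {i G' T' A'}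
    (h : Over c.Q T R i G' T' A') (hX : Max c.Q c.Γ c.N R i) : ∃ t, Conf R G' T' t := by
  obtain ⟨h, g, gn, hT', hP, hx⟩ := h
  have g := Br.gr.1 g
  have hT' := Br.stress0.1 hT'
  have r := m1_gr c.hN.toGr
  have r' := m1_gr g
  choose F C hC c4 using Tn.nologD c hU hM hF hT hA
  obtain ⟨h1, h4⟩ := Cw.fss r (Cw.cj r c.hN.der) (Cw.cd_of r hF) hT hA hC c4
  choose C' c1 c2 using fun m n =>
    Cw.scl_ext (Br.sect.1 h) r r' (hT.bose m n) (hT'.bose m n) (hx m n) (hC m n)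
  obtain ⟨d1, d2⟩ :=
    Cw.fss r' (Cw.cj r' gn) (fun s hs => h.cov s _ 0 hs H496.isLor_one) hT' hP c1 c4
  obtain ⟨E, P, G1, e, L, a1, a2, -, a4, a5, -⟩ := G.X.conf_thm c hU hM hF h1 h4
  have hl := pot_ext (ext_of a1 a2) h1 a4 a5
  obtain ⟨B, b1, b2⟩ := hX E P G1 e L (ext_of a1 a2) a4
  obtain ⟨b3, b4⟩ := scal_sect h d1 (fun m n => c2 m n _) hl.trace (fun s M a f hs hM hf => by
    have k : ((s ^ 2 : ℝ) : ℂ) ≠ 0 := Complex.ofReal_ne_zero.2 (by positivity)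
    rw [show P352R.P.Ue c.Q s M a _ = _ from (Ug_apply _ hs hM _ _).symm, G.Sq.pot hl a hs hM hf,
      ← Complex.coe_smul, smul_smul, Complex.ofReal_inv, mul_inv_cancel₀ k, one_smul]) b1 b2
  suffices k : Conf R G' (fun m n => C' m n (4, 0)) (improve (fun m n => C' m n (4, 0)) B) from
    ⟨_, k.form, Br.impr.2 (Fss.impr hT' hP d1 d2 (Br.impr.1 k.impr)), k.act, k.cfs, k.desc⟩
  refine core g d1 b3 b4 fun F w hF' => ?_
  let Z := (LinearMap.eqLocus c.Γ.toLinearMap LinearMap.id).map (jc i).toLinearMap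
  have z1 : ∀ f, IsTest f → ((B f R.vac : D') : Completion D') ∈ Z := fun f hf =>
    ⟨_, G.Sq.l_even h1 hl hf, (b2 f hf).symm⟩
  have z2 : ∀ m n f, IsTest f → ((C' m n (4, 0) f R.vac : D') : Completion D') ∈ Z :=
    fun m n f hf => ⟨_, G.Sq.bose_ev (h1.bose m n) hf, (jc_coe _).trans <| by
      rw [c2 m n _ f _ hf, h.vac]⟩
  have z3 : ((smt (improve (fun m n => C' m n (4, 0)) B) F R.vac : D') : Completion D') ∈ Z := by
    rw [← Completion.coe_toComplL (𝕜 := ℂ)]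
    simp only [smt, improve, map_sum, map_add, map_sub, map_smul, Completion.coe_toComplL]
    refine Z.sum_mem fun m _ => Z.sum_mem fun n _ => ?_
    have hf := (hF' m n).isTest
    exact Z.sub_mem (Z.add_mem (z2 m n _ hf) (Z.smul_mem _ (z1 _ (Ap.test_pd _ (Ap.test_pd _ hf)))))
      (Z.smul_mem _ (Z.sum_mem fun k _ => Z.smul_mem _ (z1 _ (Ap.test_pd _ (Ap.test_pd _ hf)))))
  obtain ⟨x, x1, x2⟩ := z3
  exact mix_sect c (mix c hU hM hF h1 h4) h x1 x2.symm w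

end

end Vale.Agent.N352.Pf

namespace Vale.Agent.N352

open P352.GF P352R P352R.P P352R.G P352R.GI
open UniformSpace (Completion)

universe u v

variable {D : Type u} [NormedAddCommGroup D] [InnerProductSpace ℂ D]
  {D' : Type v} [NormedAddCommGroup D'] [InnerProductSpace ℂ D']

/-- **the theorem** -/
theorem main (Q : Theory D) (G T A Γ N) (h : N352.Hyp Q G T A Γ N) :
    (∃ S, Q.IsStress S ∧ PCh Q S A ∧ ∃ (E : Submodule ℂ (Completion D)) (P : Theory E)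
      (G' : E → E) (e : Fld D → Fld E) (t : Ix → Ix → Fld E), Ext Q Γ N P G' e ∧ Desc P G' t ∧
        ∀ R, IsEnl P R → Gr R G' → Conf R G' (fun m n => e (S m n)) t) ∧
    (MfA Q ∧ FSL Q ∧ Over Q T Q .id G T A) ∧
    ∀ (R : Theory D') i G' T' A', Over Q T R i G' T' A' → Max Q Γ N R i → ∃ t, Conf R G' T' t := by
  obtain ⟨a, b, c, d, e⟩ := h
  have k : MfA Q ∧ FSL Q := d.elim (fun d =>
    (Cf.cfg_all Q G A Γ _ (Br.lng.1 e) d).imp_left Br.mfa.2) id
  have m := Br.mfa.1 k.1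
  exact ⟨Pf.exten ⟨Q, G, A, Γ, N, Br.lng.1 e⟩ (Br.stress0.1 a) b m k.2 c,
    ⟨k.1, k.2, ⟨rfl, fun _ _ _ _ _ _ => rfl, Pf.cova (Br.gr.1 e.toGr) m k.2,
      fun B C p q => ⟨B, C, p, q, fun _ _ _ => rfl, fun _ _ _ => rfl⟩⟩, e.toGr, e.der, a, b,
      fun _ _ _ _ _ => rfl⟩, fun R i G' T' A' =>
    Pf.key ⟨Q, G, A, Γ, N, Br.lng.1 e⟩ (Br.stress0.1 a) b m k.2 c⟩

/-- **nets** -/
theorem nets (Q : Theory D) (G A) (h : Flds Q) (k : (∃ Γ O M, Lg1 Q G A Γ O M) ∨ Ge Q G A ∧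
    ∃ R, IsEnl R Q ∧ Gr R G ∧ Flds R ∧ (Cy Q ∧ GI.Ana R ∨ EBd Q ∧ LEB R)) :
    ∃ Γ N, LNg Q G A Γ N := by
  obtain ⟨Γ, O, M, k⟩ : ∃ Γ O M, Lg1 Q G A Γ O M := k.elim id fun ⟨g, R, a, b, c, d⟩ =>
    have ⟨Γ, _, _, k⟩ := (GI.thm D).sub Q R G A g a b c d.symm
    have ⟨M, k, _⟩ := k _ (Metric.ball_mem_nhds 0 one_pos) Metric.isBounded_ball
    ⟨Γ, _, M, k⟩
  exact ⟨Γ, _, Lg.net k (h.imp_right And.right)⟩

open P352 P352R.Le P352R.L22 P352L.StA in
/-- **the witness** -/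
theorem wit : ∃ (E : Type) (_ : NormedAddCommGroup E) (_ : InnerProductSpace ℂ E)
    (Q R : Theory E) (T : Ix → Ix → Fld E) (A : (V → V) → E → E)
    (N : Set V → VonNeumannAlgebra (Completion E)), N352.Hyp Q id T A 1 N ∧ Max Q 1 N Q .id ∧
      (Ge Q id A ∧ IsEnl R Q ∧ Gr R id ∧ Flds R ∧ Cy Q ∧ GI.Ana R ∧ EBd Q ∧ LEB R) ∧
      (∃ φ, Q.IsScalar φ 1 ∧ ∃ f, IsTest f ∧ φ f Q.vac ≠ 0) ∧
      ¬FiniteDimensional ℂ (Completion E) ∧ ∃ f, IsTest f ∧ tr T f Q.vac ≠ 0 := by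
  obtain ⟨A, N, ⟨a, b, -, -, n, u, x⟩, -, -, ⟨-, g, d⟩, k⟩ := fr.topQ rec_fr
  have r := (Br.lnm.1 n).toRep
  have e := En.W22.enb (A := A) ⟨r.mul, r.add, r.der⟩
  have r' : H15.Rep (hull fr.t0) A := ⟨r.mul, r.add, r.der⟩
  have l : LEB (hull fr.t0) := fun B f hB hf => by
    obtain ⟨C, c, e⟩ := L22.bk r' (e.lin B f hB hf)
    refine ⟨C, fun v => (e v).trans (mul_le_mul_of_nonneg_left ?_ c)⟩
    rw [pow_one]
    exact norm_sub_le _ _
  exact ⟨_, _, _, fr.tq, hull fr.t0, _, A, N, ⟨a, b, u, .inl cntF_tq, lng_of n g⟩,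
    max_of_rec x _ N, ⟨⟨g, rfl, e.add, d⟩, e.sub, Br.gr.2 (Gl2.gr r' (fun _ b => b) (zero_mem _)),
      .inl e.cnt, fun S a b => top_unique fun w _ => fr.gen S a (fun B f v k => b B f v (sp_of k)) w,
      (Bz.anvR fr e).ana, H72.ebd r, l⟩, k⟩

end Vale.Agent.N352
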