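import Vale.Agent.N352.NAdC
import Vale.Agent.P352X.Api2d

/-!
# N352, row ADD
-/

set_option linter.all false

open MeasureTheory Filter Topology Set
open scoped SchwartzMap ComplexConjugate ContDiff

namespace Vale.Agent.N352.Nt.Ad

open Vale.Agent.P352 Vale.Agent.P352.GF Vale.Agent.P352.BW
open Vale.Agent.P352.H246 hiding nv
open Vale.Agent.P352.H496 hiding Bx
open Vale.Agent.P352.H755 Vale.Agent.P352.H15 Vale.Agent.P352X
open Vale.Agent.P352X.EE
open Vale.Agent.P132 (jconj)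
open UniformSpace (Completion)

noncomputable section

variable {D : Type*} [NormedAddCommGroup D] [InnerProductSpace ℂ D] {c : Ctx D}
  {X X' Z : Completion D →L[ℂ] Completion D} {A t : ℝ} {R θ : ℝ → ℝ} {w : R2}
  {ψ : Completion D}

/-- a step without first and second moments -/
def stp (t : ℝ) : ℝ := EE.chi t + 2 * (t * deriv EE.chi t) + t ^ 2 / 2 * deriv (deriv EE.chi) t

def thp (t : ℝ) : ℝ := t ^ 3 / 2 * deriv EE.chi t

lemma sm_stp : ContDiff ℝ ∞ stp := by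
  have := sm_d sm_chi
  have := sm_d this
  unfold stp
  fun_prop

lemma stp0 (t : ℝ) (h : t ≤ -1) : stp t = 0 := by
  rw [stp, chi0 (by linarith), dchi0 (by linarith),
    der0 ((eventually_lt_nhds (by linarith : t < -1 / 2)).mono fun _ => dchi0)]
  simp

lemma stp1 (t : ℝ) (h : t ≥ 1) : stp t = 1 := by
  rw [stp, chi1 (by linarith), dchi1 (by linarith),
    der0 ((eventually_gt_nhds (by linarith : 1 / 2 < t)).mono fun _ => dchi1)]
  simp

lemma tst_thp : Tst thp := Ap.cs_mul_l (by fun_prop) tst_dchi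

lemma sup_thp : tsupport thp ⊆ Icc (-1) 1 := Ap.tsupp_sub isClosed_Icc fun t h =>
  ⟨by_contra fun k => right_ne_zero_of_mul h (dchi0 (by linarith [not_le.1 k])),
    by_contra fun k => right_ne_zero_of_mul h (dchi1 (by linarith [not_le.1 k]))⟩

lemma stp_thp (t : ℝ) : t * deriv stp t = deriv (deriv thp) t := by
  have d0 := fun t => (dif' sm_chi t).hasDerivAt
  have d1 := fun t => (dif' (sm_d sm_chi) t).hasDerivAt
  have d2 := fun t => (dif' (sm_d (sm_d sm_chi)) t).hasDerivAt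
  have p := fun n t => ((hasDerivAt_id' t).fun_pow n).div_const (2 : ℝ)
  rw [show deriv stp t = _ from (((d0 t).add (((hasDerivAt_id' t).mul (d1 t)).const_mul 2)).add
    ((p 2 t).mul (d2 t))).deriv, show deriv thp = fun t => 3 * (t ^ 2 / 2 * deriv EE.chi t) +
      t ^ 3 / 2 * deriv (deriv EE.chi) t from funext fun t => ((p 3 t).mul (d1 t)).deriv.trans
        (by simp; ring), show deriv (fun t => 3 * (t ^ 2 / 2 * deriv EE.chi t) +
      t ^ 3 / 2 * deriv (deriv EE.chi) t) t = _ from ((((p 2 t).mul (d1 t)).const_mul 3).add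
        ((p 3 t).mul (d2 t))).deriv]
  simp
  ring
where dif' {f : ℝ → ℝ} (h : ContDiff ℝ ∞ f) : Differentiable ℝ f := h.differentiable (by simp)

lemma mom {F : ℝ → ℂ} {c0 c1 c2 : ℂ} (hF : ∀ u ∈ Icc (-1 : ℝ) 1, F u = c0 + u * c1 + u ^ 2 * c2) :
    ∫ u, ((deriv stp u : ℝ) : ℂ) * F u = c0 := by
  have t1 := tst_d tst_thp
  have t2 := tst_d t1
  have t3 := tst_dR sm_stp stp0 stp1
  have z : ∀ {f : ℝ → ℝ} {t}, tsupport f ⊆ Icc (-1) 1 → t ∉ Icc (-1 : ℝ) 1 → f t = 0 :=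
    fun h k => image_eq_zero_of_notMem_tsupport fun j => k (h j)
  have s1 := tsupport_deriv_subset.trans sup_thp
  refine Eq.trans ?_ ((integral_of_hasDerivAt_of_tendsto (f := fun u => (stp u : ℂ) * c0 +
    (deriv thp u : ℝ) * c1 + (u * deriv thp u - thp u : ℝ) * c2)
    (f' := fun u => ((deriv stp u : ℝ) : ℂ) * c0 + (deriv (deriv thp) u : ℝ) * c1 +
      (u * deriv (deriv thp) u : ℝ) * c2) (m := 0) (n := c0) (fun u => ?_) ?_ ?_ ?_).trans
      (sub_zero c0))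
  · congr 1
    funext u
    rw [← stp_thp]
    by_cases h : deriv stp u = 0
    · simp [h]
    · rw [hF u (dR stp0 stp1 u h)]
      push_cast
      ring
  · refine ((((dif' sm_stp u).hasDerivAt.ofReal_comp.mul_const c0).add
      ((t1.diff u).hasDerivAt.ofReal_comp.mul_const c1)).add
      (((((hasDerivAt_id' u).mul (t1.diff u).hasDerivAt).sub
        (tst_thp.diff u).hasDerivAt).ofReal_comp).mul_const c2)).congr_deriv ?_
    simp
  · exact (((Ap.cs_int (Ap.dc_cx t3)).mul_const _).add ((Ap.cs_int (Ap.dc_cx t2)).mul_const _)).add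
      ((Ap.cs_int (Ap.dc_cx (tst_t t2))).mul_const _)
  · refine tendsto_const_nhds.congr' ?_
    filter_upwards [eventually_lt_atBot (-1 : ℝ)] with u h
    have k : u ∉ Icc (-1 : ℝ) 1 := fun k => k.1.not_gt h
    simp [stp0 u h.le, z s1 k, z sup_thp k]
  · refine tendsto_const_nhds.congr' ?_
    filter_upwards [eventually_gt_atTop (1 : ℝ)] with u h
    have k : u ∉ Icc (-1 : ℝ) 1 := fun k => k.2.not_gt h
    simp [stp1 u h.le, z s1 k, z sup_thp k]
where dif' {f : ℝ → ℝ} (h : ContDiff ℝ ∞ f) : Differentiable ℝ f := h.differentiable (by simp)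

lemma aw_zero : aw 0 = va := null_ext (by simp [aw]) (by simp [aw]) (by simp [aw])

lemma gw_va (w : R2) : gw w va = aw w := null_ext (by simp [aw, gw]) (by simp [aw, gw])
  (by simp [aw, gw])

lemma Kf_zero (G : GRP c) (g : GW c) (y : V) : Kf c 0 y = c.Ky y := funext fun t => by
  rw [Kf, g.zero, mul_one, G.star_ut, Ctx.Ky]

lemma Kf_w (G : GRP c) (g : GW c) (w : R2) (t : ℝ) :
    Kf c w 0 t = Gw c w * c.SK t * Gw c (-w) := by rw [Kf, G.ut0, one_mul, g.star]

lemma Ky_zero (G : GRP c) : c.Ky 0 = c.SK := funext fun t => by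
  rw [Ctx.Ky, neg_zero, G.ut0, one_mul, mul_one]

/-- the generator in the standard frame -/
lemma std (T : T3 c) (bb : BB c) (g : GW c) (sm : SMO c) (s : St c A X X') (hX : Sm c X)
    (hX' : Sm c X') : Dm c.SK (X c.Om) ∧
    Tendsto (fun L => lam ((jconj c.J X' * X) c.Om) (star (jconj c.J X' * X) c.Om)
      (Jv c (ch 1 A L) (Xi stp L) va)) atTop
      (𝓝 (-inner ℂ (star (jconj c.J X') c.Om) (gen c.SK (X c.Om)))) := by
  have G := T.grp
  have hA := s.hA
  have dk : ∀ u ∈ Ioo (-2 : ℝ) 2, Dm (c.Ky (u • vb)) (X c.Om) := fun u hu => by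
    rw [← Kf_zero G g]
    refine sm.lo _ _ _ X (Ap.cpt_dc _ _) (fun z hz => ?_) (c.N_mono subset_closure X s.hX) hX
    rw [aw_zero, md_va, be_sub, be_smul, be_vb]
    linarith [(abs_le.1 (dc_Bx _ _ hz).2.1).2, hu.1]
  obtain ⟨k0, k1, hk⟩ := ee_row c T bb s.dd (-2) 2 _ dk (sm.dt vb X hX)
  have h0 := hk 0 (by norm_num)
  have d0 := dk 0 (by norm_num)
  rw [zero_smul, Ky_zero G] at h0 d0
  refine ⟨d0, (eval T.toT2 bb s (sm.good X hX) (sm.good X' hX') sm_stp stp0 stp1 tst_thp sup_thp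
    stp_thp).trans_eq ?_⟩
  rw [mom (c1 := inner ℂ (star (jconj c.J X') c.Om) k1)
    (c2 := 2 * inner ℂ (star (jconj c.J X') c.Om) (gen (Pb c.Q) (X c.Om))) fun u hu => ?_]
  rw [hk u ⟨by linarith [hu.1], by linarith [hu.2]⟩, h0]
  simp only [inner_add_right, inner_smul_right]
  push_cast
  ring

/-- the generator in the frame `w` -/
lemma frame (T : T3 c) (bb : BB c) (g : GW c) (sm : SMO c) (s : St c A X X') (hX : Sm c X)
    (hX' : Sm c X') (hw : d2 w w ≤ 1 / 100)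
    (sw : St c A (Gw c (-w) * X * Gw c w) (Gw c w * X' * Gw c (-w))) :
    Dm (Kf c w 0) (X c.Om) ∧ inner ℂ (star (jconj c.J X') c.Om) (gen (Kf c w 0) (X c.Om)) =
      -lam ((jconj c.J X' * X) c.Om) (star (jconj c.J X' * X) c.Om)
        (Jv c (ch 1 A (4 * A)) (Xi stp (4 * A)) (aw w)) := by
  have G := T.grp
  have hA := s.hA
  have A0 : 0 < A := by linarith
  have i1 : ∀ v, Gw c w (Gw c (-w) v) = v := fun v => by
    rw [← ContinuousLinearMap.mul_apply, ← g.add, add_neg_cancel, g.zero]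
    rfl
  have v1 : ∀ w, Gw c w c.Om = c.Om := fun w => G.vac _ _ _
  have a1 : ∀ u v, inner ℂ (Gw c (-w) u) v = inner ℂ u (Gw c w v) := fun u v => by
    rw [← g.star, star_inner]
  have a2 : ∀ u v, inner ℂ u (Gw c (-w) v) = inner ℂ (Gw c w u) v := fun u v => by
    rw [← g.star, inner_star]
  have e1 : jconj c.J (Gw c w * X' * Gw c (-w)) = Gw c (-w) * jconj c.J X' * Gw c w := by
    ext z
    simp only [P132.jconj_apply, ContinuousLinearMap.mul_apply, g.J]
  have e2 : jconj c.J (Gw c w * X' * Gw c (-w)) * (Gw c (-w) * X * Gw c w) =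
      Gw c (-w) * (jconj c.J X' * X) * Gw c w := by
    ext z
    simp only [e1, ContinuousLinearMap.mul_apply, i1]
  have e3 : ∀ Y : Completion D →L[ℂ] Completion D,
      (Gw c (-w) * Y * Gw c w) c.Om = Gw c (-w) (Y c.Om) ∧
        star (Gw c (-w) * Y * Gw c w) c.Om = Gw c (-w) (star Y c.Om) := fun Y => by
    simp only [star_mul, g.star, neg_neg, ContinuousLinearMap.mul_apply, v1, and_self]
  obtain ⟨d, h⟩ := std T bb g sm sw (by simpa only [neg_neg] using sm.gw (-w) X hX) (sm.gw w X' hX')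
  rw [(e3 X).1] at d
  obtain ⟨d1, d2⟩ := d.map (W' := Kf c w 0) (Gw c w) fun t => by
    rw [Kf_w G g, i1]
    rfl
  rw [i1] at d1 d2
  refine ⟨d1, ?_⟩
  rw [e1, (e3 _).2, (e3 X).1, a1, ← d2, ← e1] at h
  rw [eq_neg_iff_add_eq_zero, add_comm, ← eq_neg_iff_add_eq_zero]
  refine tendsto_nhds_unique_of_eventuallyEq tendsto_const_nhds h ?_
  filter_upwards [eventually_ge_atTop (4 * A)] with L hL
  have L0 : 0 < L := by linarith
  obtain ⟨l1, l2⟩ := g.lor w
  have cf := conf_lor l1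
  have t0 : Tst (ch 1 A (4 * A)) := tst_cu (by positivity) (by positivity)
  have cv := Jv_cov G l1 t0 (sm_Xi (L := 4 * A) sm_stp) va
  have t1 : Tst fun x => ch 1 A (4 * A) (sim 1 _ 0 x) := Ap.cs_hom cf.cle.toHomeomorph cf.cle.contDiff t0
  simp only [l2, gw_va] at cv t1
  have s1 : ContDiff ℝ ∞ fun x => Xi stp (4 * A) (gw w x) := (sm_Xi sm_stp).comp (sm_gw w)
  have ct : ∀ z, Tendsto (gw w) (𝓝 z) (𝓝 (gw w z)) := fun z => (cont_gw w).continuousAt
  have t2 : Tst (ch 1 A L) := tst_cu L0 (by positivity)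
  rw [Jv_cmp G t2 (sm_Xi sm_stp) t1 s1
    (Ap.cs_mul_r (tst_cu (M := 200 * L ^ 2) (u := 300 * L ^ 2) (B := 300 * L ^ 2) L0
      (by positivity)) ((sm_Xi (L := L) sm_stp).sub s1)) (fun z hz => ?_), e2, (e3 _).1, (e3 _).2,
    ← cv, EE.lam_apply, EE.lam_apply, a1, a2]
  · rfl
  rcases lt_or_ge (al z) (-1 / 2) with k | k
  · refine .inl ?_
    filter_upwards [cu0 (L := L) (M := 32 * A * L) (u := 1) (B := A) k,
      cu0 (L := L) (M := 200 * L ^ 2) (u := 300 * L ^ 2) (B := 300 * L ^ 2) k,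
      (ct z).eventually (cu0 (L := 4 * A) (M := 32 * A * (4 * A)) (u := 1) (B := A)
        (by rwa [al_gw]))] with x a b e
    exact ⟨a, e, by rw [b, zero_mul]⟩
  · refine .inr ⟨sw.fl hL stp0 stp1 k hz, ?_, sw.mid le_rfl hL stp0 stp1 hw k hz⟩
    exact (s.fl le_rfl stp0 stp1 (by rwa [al_gw]) fun j => hz (e2 ▸ sp_gw G g j)).imp
      (ct z).eventually (ct z).eventually

lemma near (p : V) {U : Set V} (n : U ∈ 𝓝 p) : ∃ S ∈ 𝓝 (0 : R2), ∃ O : Set V, IsOpen O ∧
    O.Nonempty ∧ O ⊆ U ∧ ∀ w ∈ S, ∀ z ∈ O, gw w z ∈ U ∧ gw (-w) z ∈ U := by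
  have c1 : Continuous fun x : R2 × V => gw x.1 x.2 := by
    unfold gw
    fun_prop
  have c2 : Continuous fun x : R2 × V => gw (-x.1) x.2 :=
    c1.comp (continuous_fst.neg.prodMk continuous_snd)
  have n1 : (fun x : R2 × V => gw x.1 x.2) ⁻¹' U ∈ 𝓝 (0, p) :=
    c1.tendsto' (0, p) p (gw_zero p) n
  have n2 : (fun x : R2 × V => gw (-x.1) x.2) ⁻¹' U ∈ 𝓝 (0, p) :=
    c2.tendsto' (0, p) p (by simp only [neg_zero, gw_zero]) n
  obtain ⟨S, s1, O, o1, h⟩ := mem_nhds_prod_iff.1 (inter_mem n1 n2)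
  exact ⟨S, s1, interior (O ∩ U), isOpen_interior,
    ⟨p, mem_interior_iff_mem_nhds.2 (inter_mem o1 n)⟩, interior_subset.trans inter_subset_right,
    fun w hw z hz => h (mk_mem_prod hw (interior_subset hz).1)⟩

/-- small directions -/
lemma small (T : T3 c) (bb : BB c) (dd : DD c) (g : GW c) (sm : SMO c) : ∃ S ∈ 𝓝 (0 : R2),
    ∀ (n : ℕ) (a : Fin n → ℝ) (w : Fin n → R2) ψ, (∀ i, w i ∈ S) → ∑ i, a i • aw (w i) = 0 →
      (∀ i, Dm (Kf c (w i) 0) ψ) → ∑ i, (a i : ℂ) • gen (Kf c (w i) 0) ψ = 0 := by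
  obtain ⟨S1, n1, O1, o1, p1, u1, h1⟩ := near _ (Ap.dc_nhds (pt (3 * 40) (-40) 0) one_pos)
  obtain ⟨S2, n2, O2, o2, p2, u2, h2⟩ := near _ (Ap.dc_nhds (pt 40 (-40) 0) one_pos)
  have n3 : {w : R2 | d2 w w ≤ 1 / 100} ∈ 𝓝 (0 : R2) :=
    (by fun_prop : Continuous fun w : R2 => d2 w w).continuousAt.eventually
      (eventually_le_nhds (by simp))
  refine ⟨S1 ∩ S2 ∩ _, inter_mem (inter_mem n1 n2) n3, fun n a w ψ hw ha hψ => ?_⟩
  refine (sm.dense O1 o1 p1).eq_of_inner_right ℂ ?_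
  rintro _ ⟨X, hX, sX, rfl⟩
  have f : ∀ X' ∈ c.N O2, Sm c X' → ∀ i, _ := fun X' hX' sX' i => frame T bb g sm
    ⟨T.jc, dd, le_rfl, c.N_mono u1 X hX, c.N_mono u2 X' hX'⟩ sX sX' (hw i).2
    ⟨T.jc, dd, le_rfl, by
      simpa only [neg_neg] using g.mem (-w i) _ _ X hX fun z hz => (h1 _ (hw i).1.1 z hz).2,
      g.mem (w i) _ _ X' hX' fun z hz => (h2 _ (hw i).1.2 z hz).1⟩
  have e : ∑ i, (a i : ℂ) • gen (Kf c (w i) 0) (X c.Om) = 0 := by
    refine c.J.injective ((sm.dense O2 o2 p2).eq_of_inner_left ℂ ?_)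
    rintro _ ⟨Y, hY, sY, rfl⟩
    have := fun i => (f _ (star_mem hY) (sm.star _ sY) i).2
    rw [jconj_star c.J c.J_J, star_star, P132.jconj_apply, c.J_Om] at this
    rw [J_left c.J c.J_J, map_zero, inner_zero_left, inner_sum]
    simp only [inner_smul_right, this, mul_neg, Finset.sum_neg_distrib, neg_eq_zero,
      ← Complex.real_smul, ← map_smul, ← map_sum]
    have t0 : Tst (ch 1 40 (4 * 40)) := tst_cu (by positivity) (by positivity)
    have z := Jv_sum (c := c) t0 (sm_Xi (L := 4 * 40) sm_stp) (∅ : Finset ℕ) 0 0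
    rw [Finset.sum_empty, Finset.sum_empty] at z
    rw [← Jv_sum t0 (sm_Xi sm_stp), ha, z, map_zero]
  rw [inner_zero_right, ← inner_zero_left (𝕜 := ℂ) ψ, ← e, inner_sum, sum_inner]
  refine Finset.sum_congr rfl fun i _ => ?_
  rw [inner_smul_right, inner_smul_left, Complex.conj_ofReal,
    (g.ug _ _).symm (f 1 (one_mem _) sm.one i).1.gn (hψ i).gn]

/-- **row ADD** -/
theorem add_row (T : T3 c) (bb : BB c) (dd : DD c) (g : GW c) (sm : SMO c) : ADD c := by
  intro n a w y ψ ha hψ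
  have G := T.grp
  obtain ⟨S, hS, h⟩ := small T bb dd g sm
  obtain ⟨r, hr, r0⟩ : ∃ r : ℝ, (∀ i, r • w i ∈ S) ∧ 0 < r :=
    (((eventually_all.2 fun i => (Continuous.tendsto' (f := fun r : ℝ => r • w i) (by fun_prop) 0 0
      (zero_smul _ _)).eventually hS).filter_mono nhdsWithin_le_nhds).and
      (self_mem_nhdsWithin (s := Ioi (0 : ℝ)))).exists
  have p : 0 < (r ^ 2)⁻¹ := by positivity
  have e1 : ∀ w, Usc c.Q (r ^ 2)⁻¹ 1 * Gw c w = Gw c (r • w) * Usc c.Q (r ^ 2)⁻¹ 1 := fun w => by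
    rw [g.sc _ _ _ p one_pos, one_div, inv_inv, Real.sqrt_sq r0.le]
  set U := Usc c.Q (r ^ 2)⁻¹ 1 * Ut c.Q (-y)
  have e2 : ∀ w t, Kf c (r • w) 0 t * U = U * Kf c w y t := fun w t => by
    have := G.sc_S _ 1 t p one_pos
    rw [div_one] at this
    rw [Kf_w G g, Kf, star_mul, g.star, G.star_ut]
    simp only [U, ← mul_assoc]
    rw [mul_assoc _ _ (Ut c.Q y), G.ut_inv', mul_one, e1, mul_assoc _ _ (c.SK t), this,
      ← mul_assoc, mul_assoc _ _ (Gw c (-w)), e1, smul_neg, ← mul_assoc]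
  have d := fun i => (hψ i).map (W' := Kf c (r • w i) 0) U fun t => DFunLike.congr_fun (e2 (w i) t) ψ
  have := h n a (fun i => r • w i) (U ψ) hr (by
    have := congrArg (scpL 1 (r ^ 2)) ha
    rw [map_sum, map_zero] at this
    refine (Finset.sum_congr rfl fun i _ => ?_).trans this
    rw [map_smul]
    congr 1
    refine null_ext (by simp [aw]) ?_ (by simp [aw, Real.sqrt_sq r0.le])
    simp only [aw, be_pt, scpL_apply, be_scp, d2_smul, d2_smul_l]
    ring) fun i => (d i).1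
  simp only [fun i => (d i).2, ← map_smul, ← map_sum] at this
  rw [← norm_eq_zero] at this ⊢
  rwa [ContinuousLinearMap.mul_apply, Usc, G.ug_norm, Ut, G.ug_norm] at this

end

end Vale.Agent.N352.Nt.Ad
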