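import Vale.Agent.N352.NGw
import Vale.Agent.P352X.R.EE

/-!
# N352: row TRI, the dependence on the plane
-/

set_option linter.all false

open Filter Topology

namespace Vale.Agent.N352.Nt

open Vale.Agent.P352 Vale.Agent.P352.GF Vale.Agent.P352.BW Vale.Agent.P352.H246
open Vale.Agent.P352.H496 Vale.Agent.P352.H755 Vale.Agent.P352.H15 Vale.Agent.P352X
open UniformSpace (Completion)

noncomputable section

theorem cj_gen {H : Type*} [NormedAddCommGroup H] [InnerProductSpace ℂ H] [CompleteSpace H]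
    {W W' : ℝ → H →L[ℂ] H} {U : H →L[ℂ] H} (hU : U ∈ unitary (H →L[ℂ] H))
    (e : ∀ t, W' t = U * W t * star U) {ψ : H} (h : Dm W' ψ) :
    Dm W (star U ψ) ∧ gen W' ψ = U (gen W (star U ψ)) := by
  have k : Gn W (star U ψ) (star U (gen W' ψ)) := h.gn.map _ fun t => by
    rw [e]
    exact (DFunLike.congr_fun hU.1 (W t (star U ψ))).symm
  exact ⟨k.dm, by rw [k.gen_eq]; exact (DFunLike.congr_fun hU.2 _).symm⟩

variable {D : Type*} [NormedAddCommGroup D] [InnerProductSpace ℂ D] {c : Ctx D}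

theorem fr_uni (g : GRP c) (w : R2) (y : V) :
    Ut c.Q y * Gw c w ∈ unitary (Completion D →L[ℂ] Completion D) :=
  mul_mem (g.uni _ _ _) (g.uni _ _ _)

theorem kf_eq (g : GRP c) (G : GW c) (w : R2) (y x : V) (s : ℝ) : Kf c w (y + gw w x) s =
    Ut c.Q y * Gw c w * c.Ky x s * star (Ut c.Q y * Gw c w) := by
  rw [Kf, g.ut, mul_assoc (Ut c.Q y), ← G.ut, ← mul_assoc (Ut c.Q y),
    star_mul (Ut c.Q y * Gw c w), g.star_ut, Ctx.Ky]
  simp only [mul_assoc]

/-- **row TRI** -/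
theorem tri_row (t : T3 c) (bb : BB c) (dd : DD c) (G : GW c) : TRI c := by
  intro w y a u ψ h0 h1 h2 hK hP
  have g := t.grp
  have uV := fr_uni g w y
  have e1 := fun i => cj_gen uV (W := c.Ky (u i • vb))
    (fun s => by rw [← kf_eq g G, gw_vb]) (hK i)
  have e2 := cj_gen uV (W := Pb c.Q) (fun s => by
    rw [Pb, mul_assoc (Ut c.Q y), G.ut, gw_vb, ← mul_assoc, g.ut_comm, mul_assoc (Ut c.Q _),
      mul_assoc (Ut c.Q _), uV.2, mul_one]) hP
  have := EE.tri t bb dd (u0 := 1 + ∑ i, |u i|) (fun i => by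
    have := Finset.single_le_sum (f := fun i => |u i|) (fun i _ => abs_nonneg _) (Finset.mem_univ i)
    exact abs_lt.1 (by linarith)) h0 h1 h2 (fun i => (e1 i).1) e2.1
  simp only [(e1 _).2, e2.2, ← map_smul, ← map_sum, this]

end

end Vale.Agent.N352.Nt
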