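import Vale.Agent.N352.NTan
import Vale.Agent.N352.NTri
import Vale.Agent.P352X.R.G2.Geo

/-!
# N352: row DER, the generators are derivations on space-like separated operators
-/

set_option linter.all false

open Filter Topology

namespace Vale.Agent.N352.Nt

open Vale.Agent.P352 Vale.Agent.P352.GF Vale.Agent.P352.BW Vale.Agent.P352.H246
open Vale.Agent.P352.H496 Vale.Agent.P352.H755 Vale.Agent.P352.H15 Vale.Agent.P352X
open Vale.Agent.P352X.Grp (Im im_ut im_ga)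
open UniformSpace (Completion)
open Complex (I)

noncomputable section

section abs

variable {H : Type*} [NormedAddCommGroup H] [InnerProductSpace ℂ H] [CompleteSpace H]
  {W : ℝ → H →L[ℂ] H} {Ω : H} {X Z : H →L[ℂ] H}

/-- the three vectors are in the domain -/
def D3 (W : ℝ → H →L[ℂ] H) (X Z : H →L[ℂ] H) (Ω : H) : Prop :=
  Dm W (X Ω) ∧ Dm W (Z Ω) ∧ Dm W (X (Z Ω))

/-- the defect of the Leibniz rule -/
def df (W : ℝ → H →L[ℂ] H) (X Z : H →L[ℂ] H) (Ω : H) : H :=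
  gen W (X (Z Ω)) - X (gen W (Z Ω)) - Z (gen W (X Ω))

theorem df_sum {ι : Type*} [Fintype ι] (a : ι → ℂ) (W : ι → ℝ → H →L[ℂ] H) :
    ∑ i, a i • df (W i) X Z Ω = ∑ i, a i • gen (W i) (X (Z Ω)) - X (∑ i, a i • gen (W i) (Z Ω)) -
      Z (∑ i, a i • gen (W i) (X Ω)) := by
  simp only [df, smul_sub, Finset.sum_sub_distrib, map_sum, map_smul]

theorem der_of (g : UG W) (e : ∀ t, W t Ω = Ω) {M : VonNeumannAlgebra H} (hZ : Z ∈ M.commutant)
    (h : ∀ᶠ t in 𝓝 (0 : ℝ), W t * X * W (-t) ∈ M) (hX : Dm W (X Ω)) (hZ' : Dm W (Z Ω)) :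
    D3 W X Z Ω ∧ df W X Z Ω = 0 := by
  have a : HasDerivAt (fun t => (W t * X * W (-t)) (W 0 (Z Ω))) (Z (I • gen W (X Ω))) 0 := by
    refine ((Z.restrictScalars ℝ).hasFDerivAt.comp_hasDerivAt 0 hX.gn).congr_of_eventuallyEq
      (h.mono fun t k => ?_)
    show (W t * X * W (-t)) (W 0 (Z Ω)) = Z (W t (X Ω))
    rw [g.zero, comm_apply k hZ, ContinuousLinearMap.mul_apply, e]
    rfl
  have b := hasDerivAt_apply (A := fun t => W t * X * W (-t)) (C := ‖X‖)
    (.of_forall fun t => (norm_mul₃_le.trans (mul_le_mul (mul_le_of_le_one_left (norm_nonneg _)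
      (g.opn t)) (g.opn _) (norm_nonneg _) (norm_nonneg _))).trans (mul_one _).le)
    (g.cont' continuous_id (X.continuous.comp (g.cont' continuous_neg
      continuous_const))).continuousAt hZ'.gn a
  have k : Gn W (X (Z Ω)) (Z (gen W (X Ω)) + X (gen W (Z Ω))) := by
    simp only [ContinuousLinearMap.mul_apply, ← g.add, neg_add_cancel, g.zero, neg_zero,
      map_smul, ← smul_add] at b
    exact b
  exact ⟨⟨hX, hZ', k.dm⟩, by rw [df, k.gen_eq]; abel⟩

end abs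

theorem md_gw (w : R2) (x y : V) : mdot (gw w x) (gw w y) = mdot x y := by
  rw [← (lgw w).2, ← (lgw w).2, md_LL (lgw w).1]

theorem gw_va (w : R2) (s : ℝ) : gw w (s • va) = s • aw w :=
  null_ext (by simp [aw]) (by simp [aw]; ring) (by simp [aw])

theorem aw_vb (w : R2) : mdot (aw w) vb = 1 := G2.aw_vb w

/-- the wedge in the standard frame -/
theorem ex_fr {b : V} (hb : IsNull b) (w : R2) (h : 0 < mdot (aw w) b) (p : V) :
    ∃ v, ∀ z, gap (-v) (gw (-w) (z + -p)) ∈ Wdg va vb 0 ↔ z ∈ Wdg (aw w) b p := by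
  have h0 := (md_gw (-w) b b).trans hb.1
  rw [← be_gw_neg] at h
  refine ⟨(be (gw (-w) b))⁻¹ • tx (gw (-w) b), fun z => ?_⟩
  rw [Wdg, Wdg, Set.mem_setOf_eq, Set.mem_setOf_eq, sub_zero, md_va, md_vb, be_gap,
    ← sub_eq_add_neg, ← md_gw (-w) b, ← be_gw_neg]
  generalize gw (-w) b = q at h h0
  generalize gw (-w) (z - p) = x
  have e : mdot q x = be q * al (gap (-((be q)⁻¹ • tx q)) x) := by
    rw [mdot_null] at h0 ⊢
    simp only [al_gap, d2_neg, d2_neg_l, d2_smul, d2_smul_l]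
    field_simp
    linear_combination be x * h0
  rw [e, mul_pos_iff_of_pos_left h]

theorem null_al {a : V} (ha : IsNull a) (h : 0 < al a) (x : V) :
    mdot a x = al a * mdot (aw ((al a)⁻¹ • tx a)) x := by
  have h0 := ha.1
  rw [mdot_null] at h0 ⊢
  simp only [mdot_null, aw, al_pt, be_pt, tx_pt, d2_smul, d2_smul_l]
  field_simp
  linear_combination al x * h0

theorem al_or {a b : V} (ha : IsNull a) (hb : IsNull b) (h : 0 < mdot a b) :
    0 < al a ∨ 0 < al b := by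
  obtain ⟨a1, -, a3⟩ := (cone_iff a).1 ⟨ha.2.le, ha.1.ge⟩
  obtain ⟨b1, -, -⟩ := (cone_iff b).1 ⟨hb.2.le, hb.1.ge⟩
  refine a1.lt_or_eq.imp id fun e => b1.lt_of_ne fun e' => ?_
  rw [← e, mul_zero, zero_mul] at a3
  rw [mdot_null, ← e, ← e', (d2_eq_zero _).1 (a3.antisymm (d2_nonneg _))] at h
  simp at h

variable {D : Type*} [NormedAddCommGroup D] [InnerProductSpace ℂ D] {c : Ctx D}
  {U K : Set V} {X Z : Completion D →L[ℂ] Completion D}

theorem kf_mem (g : GRP c) (G : GW c) {b p : V} {w : R2} (hb : IsNull b) (h : 0 < mdot (aw w) b)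
    (hU : IsCompact U) (e : U ⊆ Wdg (aw w) b p) (hX : X ∈ c.N U) :
    ∀ᶠ t in 𝓝 (0 : ℝ), Kf c w p t * X * Kf c w p (-t) ∈ c.N (Wdg (aw w) b p) := by
  obtain ⟨v, hv⟩ := ex_fr hb w h p
  have i := (im_fr c w p).mul c.hN.toRep (im_ga c.Q v)
  have i' := (im_ga c.Q (-v)).mul c.hN.toRep ((im_gw c (-w)).mul c.hN.toRep (im_ut c.Q (-p)))
  have es : star (Ut c.Q p * Gw c w * Ga c.Q v) = Ga c.Q (-v) * (Gw c (-w) * Ut c.Q (-p)) := by
    rw [star_mul, star_mul, g.star_ga, G.star, g.star_ut]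
  have u := im_uni i
  have ek : ∀ t, Kf c w p t = Ut c.Q p * Gw c w * Ga c.Q v * c.SK t *
      star (Ut c.Q p * Gw c w * Ga c.Q v) := fun t => by
    rw [mul_assoc _ (Ga c.Q v), g.ga_S, star_mul _ (Ga c.Q v), mul_assoc (Ut c.Q p * Gw c w),
      mul_assoc (c.SK t), ← mul_assoc (Ga c.Q v), (im_uni (im_ga c.Q v)).2, one_mul, Kf,
      mul_assoc]
  obtain ⟨r, r0, hr⟩ := H732G.cpt (a := va) (b := vb)
    (hU.image (f := fun z => gap (-v) (gw (-w) (z + -p))) (by unfold gw; fun_prop))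
    (by rintro _ ⟨z, hz, rfl⟩; exact (hv z).2 (e hz))
  have x0 := im_mem i' (O' := Rc r 0) (fun z hz => by
    rw [Rc, Set.mem_setOf_eq, sub_zero]; exact hr ⟨z, hz, rfl⟩) X hX
  rw [← es, star_star] at x0
  filter_upwards [Ioi_mem_nhds (neg_lt_zero.2 r0)] with t ht
  have r1 : 0 ≤ r + t := by linarith [Set.mem_Ioi.1 ht]
  have x1 := (g.geo r (r + t) _ r0.le r1).1 x0
  rw [add_sub_cancel_left, sub_add_cancel_left] at x1
  have x2 := im_mem i (O' := Wdg (aw w) b p) (fun z hz => (hv _).1 (by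
    have := G2.Rc_mono le_rfl r1 0 hz
    rw [Rc, Set.mem_setOf_eq, sub_zero, HM.Rg_zero] at this
    rwa [add_neg_cancel_right, gw_gw, neg_add_cancel, gw_zero, gap_gap, neg_add_cancel,
      gap_zero])) _ x1
  rw [ek, ek]
  simpa only [mul_assoc] using x2

variable (t : T1 c) (G : GW c) (s : SMO c) (hU : IsCompact U) (hK : IsCompact K)
  (hX : X ∈ c.N U) (sX : Sm c X) (hZ : Z ∈ c.N K) (sZ : Sm c Z)
include t G s hU hK hX sX hZ sZ

/-- planes that separate the two regions -/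
theorem der_sep (du : Du c) {b y1 p : V} {w : R2} (hb : IsNull b) (h : 0 < mdot (aw w) b)
    (e1 : ∀ z ∈ U, mdot (aw w) (z - p) < 0 ∧ 0 < mdot b (z - y1))
    (e2 : ∀ z ∈ K, mdot b (z - y1) < 0 ∧ 0 < mdot (aw w) (z - p)) :
    D3 (Kf c w p) X Z c.Om ∧ df (Kf c w p) X Z c.Om = 0 := by
  set r := mdot b (y1 - p) / mdot (aw w) b with hr
  have k1 : ∀ z, mdot (aw w) (z - (p + r • aw w)) = mdot (aw w) (z - p) := fun z => by
    rw [← sub_sub, H755.md_sub _ (z - p), H755.md_smul, (null_aw w).1, mul_zero, sub_zero]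
  have k2 : ∀ z, mdot b (z - (p + r • aw w)) = mdot b (z - y1) := fun z => by
    rw [← sub_sub, H755.md_sub _ (z - p), H755.md_smul, H755.md_comm b (aw w), hr,
      div_mul_cancel₀ _ h.ne', ← H755.md_sub, sub_sub_sub_cancel_right]
  have ek : Kf c w (p + r • aw w) = Kf c w p := funext fun u => by
    have a := t.grp.pa_S r u
    rw [← gw_va, kf_eq t.grp G, Ctx.Ky, show Ut c.Q (r • va) * c.S va u = _ from a,
      mul_assoc (c.SK u), show Pa c.Q r * _ = 1 from t.grp.ut_inv _, mul_one, Kf]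
  have m := kf_mem t.grp G (p := p + r • aw w) hb h hU
    (fun z hz => ⟨k1 z ▸ (e1 z hz).1, k2 z ▸ (e1 z hz).2⟩) hX
  rw [ek] at m
  exact der_of (G.ug w p) (G.vac w p) (t.jc.loc (null_aw w) hb h subset_rfl
    (fun z hz => ⟨k2 z ▸ (e2 z hz).1, k1 z ▸ (e2 z hz).2⟩) Z hZ) m
    (s.lo w p U X hU (fun z hz => (e1 z hz).1) hX sX)
    (s.hi du w p K Z hK (fun z hz => (e2 z hz).2) hZ sZ)

theorem der_pb {a b y1 : V} (ha : IsNull a) (hb : IsNull b) (h : 0 < mdot a b)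
    (e1 : U ⊆ Wdg a b y1) (e2 : K ⊆ Wdg b a y1) :
    D3 (Pb c.Q) X Z c.Om ∧ df (Pb c.Q) X Z c.Om = 0 := by
  refine der_of t.grp.ugPb (fun u => t.grp.vac _ _ _) (t.jc.loc ha hb h subset_rfl e2 Z hZ) ?_
    (s.dt vb X sX) (s.dt vb Z sZ)
  filter_upwards [hU.eventually_forall_of_forall_eventually (x₀ := (0 : ℝ))
    (P := fun u z => z + u • vb ∈ Wdg a b y1) fun z hz =>
      (show Continuous fun q : ℝ × V => q.2 + q.1 • vb by fun_prop).continuousAt.eventually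
        ((wdg_open a b y1).mem_nhds (by simpa using e1 hz))] with u hu
  rw [Pb, Pb, neg_smul]
  exact t.grp.mem_ut hX _ hu

theorem d3_low {y : V} (hy : ∀ z ∈ U ∪ K, y - z ∈ Fc) (w : R2) : D3 (Kf c w y) X Z c.Om := by
  have l := fun A => s.lo w y _ A (hU.union hK) (below hy w)
  have a : X ∈ c.N (U ∪ K) := c.N_mono Set.subset_union_left X hX
  have b : Z ∈ c.N (U ∪ K) := c.N_mono Set.subset_union_right Z hZ
  exact ⟨l X a sX, l Z b sZ, l (X * Z) (mul_mem a b) (s.mul _ _ sX sZ)⟩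

/-- directions that separate the two regions -/
theorem der_dir (du : Du c) (tr : TRI c) {a b y1 y : V} {w : R2} (ha : IsNull a) (hb : IsNull b)
    (hab : 0 < mdot a b) (e1 : U ⊆ Wdg a b y1) (e2 : K ⊆ Wdg b a y1)
    (hy : ∀ z ∈ U ∪ K, y - z ∈ Fc) (h : 0 < mdot (aw w) b)
    (k : ∀ᶠ d in 𝓝 (0 : ℝ), (∀ z ∈ U, mdot (aw w) (z - y1) < d) ∧
      ∀ z ∈ K, d < mdot (aw w) (z - y1)) : df (Kf c w y) X Z c.Om = 0 := by
  set u1 := mdot (aw w) (y1 - y) with hu
  have q : ∀ᶠ u in 𝓝 u1, D3 (Kf c w (y + u • vb)) X Z c.Om ∧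
      df (Kf c w (y + u • vb)) X Z c.Om = 0 := by
    filter_upwards [(show Tendsto (fun u => u - u1) (𝓝 u1) (𝓝 0) from
      Continuous.tendsto' (by fun_prop) _ _ (sub_self _)).eventually k] with u k
    have e : ∀ z, mdot (aw w) (z - (y + u • vb)) = mdot (aw w) (z - y1) - (u - u1) := fun z => by
      simp only [hu, H755.md_sub, H755.md_add, H755.md_smul, aw_vb]
      ring
    exact der_sep t G s hU hK hX sX hZ sZ du hb h
      (fun z hz => ⟨by linarith [e z, k.1 z hz], (e1 hz).2⟩)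
      fun z hz => ⟨(e2 hz).1, by linarith [e z, k.2 z hz]⟩
  obtain ⟨p, ⟨p1, p0⟩, r, ⟨r1, r0⟩, pr⟩ :=
    ((infinite_of_mem_nhds u1 q).diff (Set.finite_singleton 0)).nontrivial
  have p0' : p ≠ 0 := p0
  have r0' : r ≠ 0 := r0
  have pr' := sub_ne_zero.2 pr
  have d3 : ∀ i, D3 (Kf c w (y + ![0, p, r] i • vb)) X Z c.Om := fun i => by
    fin_cases i
    exacts [by simpa using d3_low t G s hU hK hX sX hZ sZ hy w, p1.1, r1.1]
  obtain ⟨b1, b2⟩ := der_pb t G s hU hK hX sX hZ sZ ha hb hab e1 e2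
  have T := fun ψ => tr w y ![2 / (p * r), 2 / (p * (p - r)), -2 / (r * (p - r))] ![0, p, r] ψ
    (by simp only [Fin.sum_univ_three, Matrix.cons_val]; field_simp; ring)
    (by simp only [Fin.sum_univ_three, Matrix.cons_val]; field_simp; ring)
    (by simp only [Fin.sum_univ_three, Matrix.cons_val]; field_simp; ring)
  have S := df_sum (X := X) (Z := Z) (Ω := c.Om)
    (fun i => ((![2 / (p * r), 2 / (p * (p - r)), -2 / (r * (p - r))] i : ℝ) : ℂ))
    fun i => Kf c w (y + ![0, p, r] i • vb)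
  rw [T _ (fun i => (d3 i).1) b1.1, T _ (fun i => (d3 i).2.1) b1.2.1,
    T _ (fun i => (d3 i).2.2) b1.2.2, map_smul, map_smul, ← smul_sub, ← smul_sub, ← df, b2] at S
  simp only [Fin.sum_univ_three, Matrix.cons_val, p1.2, r1.2, smul_zero, add_zero, zero_smul] at S
  exact (smul_eq_zero.1 S).resolve_left (by simp [p0', r0'])

theorem der_aux (du : Du c) (tr : TRI c) (ad : ADD c) {a b y1 y : V} (w : R2) (ha : IsNull a)
    (hb : IsNull b) (hab : 0 < mdot a b) (e1 : U ⊆ Wdg a b y1) (e2 : K ⊆ Wdg b a y1)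
    (hy : ∀ z ∈ U ∪ K, y - z ∈ Fc) (h : 0 < al a) : df (Kf c w y) X Z c.Om = 0 := by
  obtain ⟨w0, hw⟩ : ∃ w0, ∀ x, mdot a x = al a * mdot (aw w0) x := ⟨_, null_al ha h⟩
  have ct : Continuous fun q : (R2 × ℝ) × V => mdot (aw q.1.1) (q.2 - y1) := by
    unfold aw
    fun_prop
  have c2 : Continuous fun q : (R2 × ℝ) × V => q.1.2 := by fun_prop
  have k1 := hU.eventually_forall_of_forall_eventually (x₀ := ((w0, 0) : R2 × ℝ))
    (P := fun q z => mdot (aw q.1) (z - y1) < q.2) fun z hz =>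
      ct.continuousAt.eventually_lt c2.continuousAt
        (neg_of_mul_neg_left ((mul_comm _ _).trans_lt ((hw _).symm.trans_lt (e1 hz).1)) h.le)
  have k2 := hK.eventually_forall_of_forall_eventually (x₀ := ((w0, 0) : R2 × ℝ))
    (P := fun q z => q.2 < mdot (aw q.1) (z - y1)) fun z hz =>
      c2.continuousAt.eventually_lt ct.continuousAt
        ((mul_pos_iff_of_pos_left h).1 ((e2 hz).2.trans_eq (hw _)))
  have k3 : ∀ᶠ v in 𝓝 w0, 0 < mdot (aw v) b :=
    continuousAt_const.eventually_lt (show Continuous fun v => mdot (aw v) b by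
      unfold aw; fun_prop).continuousAt ((mul_pos_iff_of_pos_left h).1 (hab.trans_eq (hw _)))
  have q : ∀ᶠ v in 𝓝 w0, df (Kf c v y) X Z c.Om = 0 := by
    filter_upwards [(k1.and k2).curry_nhds, k3] with v a1 a2
    exact der_dir t G s hU hK hX sX hZ sZ du tr ha hb hab e1 e2 hy a2 a1
  have q' : ∀ e : R2, ∀ᶠ ε in 𝓝[≠] (0 : ℝ), df (Kf c (w0 + ε • e) y) X Z c.Om = 0 := fun e =>
    ((Continuous.tendsto' (by fun_prop) _ _ (by simp)).eventually q).filter_mono nhdsWithin_le_nhds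
  obtain ⟨ε, ⟨⟨a1, a2⟩, a3⟩, ε0⟩ := ((((q' (P352X.e2 0)).and (q' (-P352X.e2 0))).and (q' (P352X.e2 1))).and
    self_mem_nhdsWithin).exists
  rw [smul_neg, ← sub_eq_add_neg] at a2
  let ws : Fin 4 → R2 := ![w0, w0 + ε • P352X.e2 0, w0 - ε • P352X.e2 0, w0 + ε • P352X.e2 1]
  have sg : ∀ j, ∃ x : Fin 4 → ℝ, ∑ i, x i • aw (ws i) = aw (ws j) := fun j =>
    ⟨Pi.single j 1, by simp [Pi.single_apply]⟩
  obtain ⟨x, hx⟩ := G2.span4 (P := fun h => ∃ x : Fin 4 → ℝ, ∑ i, x i • aw (ws i) = h)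
    (fun s r h k ⟨x, p⟩ ⟨x', p'⟩ => ⟨s • x + r • x', by
      simp only [← p, ← p', Pi.add_apply, Pi.smul_apply, add_smul, smul_assoc,
        Finset.sum_add_distrib, Finset.smul_sum]⟩) w0 ε0 (sg 0) (sg 1) (sg 2) (sg 3) (aw w)
  have A := fun ψ => ad 5 (Fin.cons (-1) x) (Fin.cons w ws) y ψ (by
    simp only [Fin.sum_univ_succ (n := 4), Fin.cons_zero, Fin.cons_succ, hx, neg_one_smul,
      neg_add_cancel])
  have d3 := d3_low t G s hU hK hX sX hZ sZ hy
  have S := df_sum (X := X) (Z := Z) (Ω := c.Om)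
    (fun i => (((Fin.cons (-1) x : Fin 5 → ℝ) i : ℝ) : ℂ))
    fun i => Kf c ((Fin.cons w ws : Fin 5 → R2) i) y
  rw [A _ fun i => (d3 _).1, A _ fun i => (d3 _).2.1, A _ fun i => (d3 _).2.2, map_zero,
    map_zero, sub_zero, sub_zero, Fin.sum_univ_succ] at S
  have z : ∀ i, df (Kf c (ws i) y) X Z c.Om = 0 := fun i => by
    fin_cases i
    exacts [q.self_of_nhds, a1, a2, a3]
  simpa [z] using S

omit t G s hU hK hX sX hZ sZ in
/-- **row DER** -/
theorem der_row (t : T1 c) (G : GW c) (s : SMO c) (du : Du c) (tr : TRI c) (ad : ADD c) :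
    DER c := by
  intro U K w y X Z hU hO hy hX sX hZ sZ
  have cm := comm_apply hX (hO.comm t.jc Z hZ) c.Om
  obtain ⟨hK, a, b, y1, ha, hb, hab, e1, e2⟩ := hO
  rcases al_or ha hb hab with h | h
  · have := der_aux t G s hU hK hX sX hZ sZ du tr ad w ha hb hab e1 e2 hy h
    rwa [df, sub_sub, sub_eq_zero] at this
  · have := der_aux t G s hK hU hZ sZ hX sX du tr ad w hb ha (by rwa [H755.md_comm]) e2 e1
      (by rwa [Set.union_comm]) h
    rwa [df, sub_sub, sub_eq_zero, ← cm, add_comm] at this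

end

end Vale.Agent.N352.Nt
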