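import Vale.Agent.N352.NDef
import Vale.Agent.P352X.R.GRP.A

/-!
# N352: row GW, the group relations
-/

set_option linter.all false

open Filter Topology

namespace Vale.Agent.N352.Nt

open Vale.Agent.P352 Vale.Agent.P352.GF Vale.Agent.P352.BW Vale.Agent.P352.H246
open Vale.Agent.P352.H496 Vale.Agent.P352.H755 Vale.Agent.P352.H15 Vale.Agent.P352X
open Vale.Agent.P352X.Grp (Im im_ut im_sc im_gb im_ug im_one)
open UniformSpace (Completion)

noncomputable section

section pts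

variable (v w : R2) (x y z : V)

@[simp] theorem al_gw : al (gw w z) = al z := al_pt _ _ _
@[simp] theorem be_gw : be (gw w z) = be z + d2 w (tx z) + d2 w w * al z / 2 := be_pt _ _ _
@[simp] theorem tx_gw : tx (gw w z) = tx z + al z • w := tx_pt _ _ _
@[simp] theorem gw_zero : gw 0 z = z := null_ext (by simp) (by simp) (by simp)

theorem gw_gw : gw v (gw w z) = gw (v + w) z := null_ext (by simp)
  (by simp [d2_add, d2_add_l, d2_smul, d2_comm w v]; ring) (by simp; module)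

theorem gw_add : gw w (x + y) = gw w x + gw w y :=
  null_ext (by simp) (by simp [d2_add]; ring) (by simp; module)

theorem gw_vb (t : ℝ) : gw w (t • vb) = t • vb := null_ext (by simp) (by simp) (by simp)

theorem be_gw_neg : be (gw (-w) z) = mdot (aw w) z := by
  simp [aw, mdot_null, d2_neg, d2_neg_l]
  ring

theorem jr_gw : gw (-w) (jr z) = jr (gw w z) :=
  null_ext (by simp) (by simp [d2_neg, d2_neg_l]; ring) (by simp)

theorem lgw : IsLor (H746.nrt vb (tv ((1 / 2 : ℝ) • w))) ∧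
    ∀ z, sim 1 (H746.nrt vb (tv ((1 / 2 : ℝ) • w))) 0 z = gw w z := by
  refine ⟨H746.isLor_nrt null_vb (Grp.vb_tv _), fun z => ?_⟩
  rw [H746.sim_nrt, md_tv, md_tv, md_vb, tx_tv]
  refine null_ext (by simp) ?_ ?_
  · simp [d2_smul, d2_smul_l]
    ring
  · simp
    module

theorem scp_gw {r s : ℝ} (hr : 0 < r) (hs : 0 < s) :
    scp r s (gw w z) = gw (√(s / r) • w) (scp r s z) := by
  obtain ⟨ρ, h1, rfl⟩ : ∃ ρ, 0 < ρ ∧ r = ρ * ρ :=
    ⟨_, Real.sqrt_pos.2 hr, (Real.mul_self_sqrt hr.le).symm⟩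
  obtain ⟨σ, h2, rfl⟩ : ∃ σ, 0 < σ ∧ s = σ * σ :=
    ⟨_, Real.sqrt_pos.2 hs, (Real.mul_self_sqrt hs.le).symm⟩
  apply Grp.vext <;> simp only [scp, gw, al_pt, be_pt, tx_pt, Pi.smul_apply, Pi.add_apply,
    smul_eq_mul, d2, Grp.sq_mul hr, Grp.sq_div hs, Real.sqrt_mul_self h1.le,
    Real.sqrt_mul_self h2.le] <;> field_simp

end pts

variable {D : Type*} [NormedAddCommGroup D] [InnerProductSpace ℂ D] {c : Ctx D}
  {U U' : Completion D →L[ℂ] Completion D} {g g' : V → V}

theorem im_gw (c : Ctx D) (w : R2) : Im c.Q (Gw c w) (gw w) :=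
  ⟨1, _, 0, one_pos, (lgw w).1, rfl, (lgw w).2⟩

theorem im_uni (h : Im c.Q U g) : U ∈ unitary (Completion D →L[ℂ] Completion D) := by
  obtain ⟨s, L, a, -, -, rfl, -⟩ := h
  exact Grp.uni c.hN.toRep s L a

theorem im_vac (h : Im c.Q U g) : U c.Om = c.Om := by
  obtain ⟨s, L, a, -, -, rfl, -⟩ := h
  exact Grp.vac c.hN.toRep s L a

theorem im_mem (h : Im c.Q U g) {O O' : Set V} (e : ∀ z ∈ O, g z ∈ O') :
    ∀ X ∈ c.N O, U * X * star U ∈ c.N O' := by
  obtain ⟨s, L, a, hs, hL, rfl, k⟩ := h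
  exact fun X hX => c.N_mono (Set.image_subset_iff.2 fun z hz =>
    show sim s L a z ∈ O' from (k z).symm ▸ e z hz) _ (Grp.alg1 c.hN hs hL a hX)

theorem im_J (j : JC c) (h : Im c.Q U g) (h' : Im c.Q U' g') (e : ∀ z, g' (jr z) = jr (g z))
    (z : Completion D) : c.J (U z) = U' (c.J z) := by
  obtain ⟨s, L, a, hs, hL, rfl, k⟩ := h
  rw [j.ug s L a z hs hL, (im_ug c.Q hs (j.lor L hL).1 _).ext h' fun x => by
    rw [← jr_jr x, (j.lor L hL).2, e, k]]

theorem Gw_zero (c : Ctx D) : Gw c 0 = 1 := (im_gw c 0).ext (im_one _) gw_zero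

theorem Gw_add (c : Ctx D) (v w : R2) : Gw c (v + w) = Gw c v * Gw c w :=
  (im_gw c _).ext ((im_gw c v).mul c.hN.toRep (im_gw c w)) fun z => (gw_gw v w z).symm

theorem Gw_star (c : Ctx D) (w : R2) : star (Gw c w) = Gw c (-w) := by
  rw [← mul_one (star _), ← Gw_zero c, ← add_neg_cancel w, Gw_add, ← mul_assoc,
    (im_uni (im_gw c w)).1, one_mul]

theorem im_fr (c : Ctx D) (w : R2) (y : V) :
    Im c.Q (Ut c.Q y * Gw c w) fun z => gw w z + y := (im_ut _ y).mul c.hN.toRep (im_gw c w)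

/-- row GW -/
theorem gw_row (t : T1 c) : GW c where
  lor := lgw
  zero := Gw_zero c
  add := Gw_add c
  star := Gw_star c
  gb s := (im_gb _ s).ext (im_gw c _) fun z => null_ext (by simp)
    (by simp [d2_smul, d2_smul_l, -tx_0, -mul_eq_mul_right_iff]; ring) (by simp [smul_smul, mul_comm])
  ut w y := ((im_gw c w).mul c.hN.toRep (im_ut _ y)).ext
    ((im_ut _ _).mul c.hN.toRep (im_gw c w)) fun z => gw_add w z y
  sc r s w hr hs := ((im_sc _ hr hs).mul c.hN.toRep (im_gw c w)).ext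
    ((im_gw c _).mul c.hN.toRep (im_sc _ hr hs)) fun z => scp_gw w z hr hs
  J w := im_J t.jc (im_gw c w) (im_gw c _) (jr_gw w)
  mem w O O' X h e := Gw_star c w ▸ im_mem (im_gw c w) e X h
  ug w y := c.ugK.cj (im_uni (im_fr c w y))
  vac w y s := by
    have h := im_vac (im_fr c w y)
    have h' : star (Ut c.Q y * Gw c w) c.Om = c.Om := by
      conv_lhs => rw [← h]
      exact DFunLike.congr_fun (im_uni (im_fr c w y)).1 _
    rw [Kf, ContinuousLinearMap.mul_apply, h', ContinuousLinearMap.mul_apply, c.K_vac, h]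

end

end Vale.Agent.N352.Nt
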