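import Vale.Agent.N352.NTan
import Vale.Agent.N352.NGw
import Vale.Agent.P352X.R.G2.Geo

/-!
# N352: row LOC, the potential is local
-/

set_option linter.all false

open Filter Topology

namespace Vale.Agent.N352.Nt

open Vale.Agent.P352 Vale.Agent.P352.GF Vale.Agent.P352.BW Vale.Agent.P352.H246
open Vale.Agent.P352.H496 Vale.Agent.P352.H755 Vale.Agent.P352.H15 Vale.Agent.P352X
open UniformSpace (Completion)
open Complex (I)

noncomputable section

section geo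

variable {K : Set V}

theorem ex_top (hK : IsCompact K) : ∃ y, ∀ z ∈ K, y - z ∈ Fc := by
  obtain ⟨A, hA⟩ := hK.exists_bound_of_continuousOn cont_al.continuousOn
  obtain ⟨B, hB⟩ := hK.exists_bound_of_continuousOn cont_be.continuousOn
  obtain ⟨C, hC⟩ := hK.exists_bound_of_continuousOn
    (show Continuous fun z => d2 (tx z) (tx z) by fun_prop).continuousOn
  refine ⟨pt (A + 1 + C) (B + 1) 0, fun z hz => (mem_Fc _).2 ?_⟩
  have a := (abs_le.1 (hA z hz)).2
  have b := (abs_le.1 (hB z hz)).2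
  have e := (abs_le.1 (hC z hz)).2
  have e0 := d2_nonneg (tx z)
  simp only [mu_eq, al_sub, be_sub, tx_sub, al_pt, be_pt, tx_pt, zero_sub, d2_neg, d2_neg_l,
    neg_neg]
  exact ⟨by linarith, by nlinarith⟩

theorem ex_wdg (hK : IsCompact K) : ∃ y, K ⊆ Wdg va vb y := by
  obtain ⟨A, hA⟩ := hK.exists_bound_of_continuousOn cont_al.continuousOn
  obtain ⟨B, hB⟩ := hK.exists_bound_of_continuousOn cont_be.continuousOn
  refine ⟨pt (-(A + 1)) (B + 1) 0, fun z hz => ?_⟩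
  have a := (abs_le.1 (hA z hz)).1
  have b := (abs_le.1 (hB z hz)).2
  simp only [Wdg, Set.mem_setOf_eq, md_va, md_vb, al_sub, be_sub, al_pt, be_pt]
  exact ⟨by linarith, by linarith⟩

/-- multiplication by a linear function -/
def ml (l : V →L[ℝ] ℝ) (f : Fn) : Fn := fun z => (l z : ℂ) * f z

theorem in_ml (l : V →L[ℝ] ℝ) {f : Fn} (hf : In K f) : In K (ml l f) := Ap.in_rmul l.contDiff hf

theorem dv_ml (l : V →L[ℝ] ℝ) {f : Fn} (hf : In K f) (h z : V) :
    dv h (ml l f) z = l h * f z + l z * dv h f z := by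
  have := Ap.dv_mul (f := fun z => (l z : ℂ)) (g := f) (x := z)
    (Complex.ofRealCLM.comp l).differentiableAt
    ((Ap.in_dc hf).1.differentiable (by simp) z) h
  rwa [Ap.dv_clm] at this

/-- the transverse coordinates -/
def xL (i : Fin 2) : V →L[ℝ] ℝ := (ContinuousLinearMap.proj i : R2 →L[ℝ] ℝ) ∘L txL

theorem Kc_two {g : Fn} (hg : In K g) : (4 : ℂ) • g =
    (4 : ℂ) • dv vb (ml beL g) - (Kc 2 (dv vb g) + dv va (ml (xL 0) (ml (xL 0) (dv vb g))) +
      dv va (ml (xL 1) (ml (xL 1) (dv vb g))) + (2 : ℂ) • dv vb (ml beL (ml beL (dv vb g))) +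
      (2 : ℂ) • dv (ex 0) (ml beL (ml (xL 0) (dv vb g))) +
      (2 : ℂ) • dv (ex 1) (ml beL (ml (xL 1) (dv vb g)))) := by
  funext z
  have hf := Ap.in_dv vb hg
  have x : ∀ i z, xL i z = tx z i := fun _ _ => rfl
  have b : ∀ z, beL z = be z := fun _ => rfl
  simp only [Pi.add_apply, Pi.sub_apply, Pi.smul_apply, smul_eq_mul, dv_ml _ hg,
    dv_ml _ (in_ml _ hf), dv_ml _ hf, Ap.Kc_eq, Fin.sum_univ_two, ml, x, b, d2]
  simp [ex, e2, -tx_0, -tx_1]
  ring

end geo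

variable {D : Type*} [NormedAddCommGroup D] [InnerProductSpace ℂ D] {c : Ctx D}

/-- the test functions in `U` on which the form of `(a, b)` vanishes -/
def Nl (c : Ctx D) (U : Set V) (a b : Completion D) : Submodule ℂ Fn where
  carrier := {f | In U f ∧ inner ℂ a (c.l f) = inner ℂ (c.l (bar f)) b}
  zero_mem' := by
    have h := c.hl.lin (fun _ => 0) (fun _ => 0) 1 ⟨0, rfl⟩ ⟨0, rfl⟩
    have e : c.l 0 = 0 := show c.l (fun _ => 0) = 0 by simpa using h
    have e' : bar 0 = 0 := funext fun _ => star_zero _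
    exact ⟨Ap.in_zero, by rw [e', e, inner_zero_left, inner_zero_right]⟩
  add_mem' {f g} hf hg := by
    have h := c.hl.lin f g 1 hf.1.1 hg.1.1
    have h' := c.hl.lin _ _ 1 (Ap.test_bar hf.1.1) (Ap.test_bar hg.1.1)
    simp only [one_mul, one_smul] at h h'
    have e : bar (f + g) = fun x => bar f x + bar g x := funext fun _ => star_add _ _
    exact ⟨Ap.in_add hf.1 hg.1, by
      rw [e, h', show c.l (f + g) = _ from h, inner_add_left, inner_add_right, hf.2, hg.2]⟩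
  smul_mem' s f hf := by
    have h0 := c.hl.lin (fun _ => 0) (fun _ => 0) 1 ⟨0, rfl⟩ ⟨0, rfl⟩
    have e0 : c.l (fun _ => 0) = 0 := by simpa using h0
    have h := c.hl.lin (fun _ => 0) f s ⟨0, rfl⟩ hf.1.1
    have h' := c.hl.lin (fun _ => 0) _ (star s) ⟨0, rfl⟩ (Ap.test_bar hf.1.1)
    simp only [zero_add, e0] at h h'
    have e : bar (s • f) = fun x => star s * bar f x := funext fun _ => star_mul' _ _
    exact ⟨Ap.in_cmul s hf.1, by
      rw [e, h', show c.l (s • f) = _ from h, inner_smul_left, inner_smul_right, hf.2]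
      simp⟩

theorem mem_Nl {U : Set V} {a b : Completion D} {f : Fn} :
    f ∈ Nl c U a b ↔ In U f ∧ inner ℂ a (c.l f) = inner ℂ (c.l (bar f)) b := Iff.rfl

/-- the data in the standard frame -/
structure Fm (c : Ctx D) (U : Set V) (a b : Completion D) : Prop where
  cpt : IsCompact U
  ne : U.Nonempty
  low : ∀ z ∈ U, be z < 0
  k1 : ∀ ψ ψ', Pr (c.N U) c.Om ψ ψ' → inner ℂ a ψ = inner ℂ ψ' b
  k2 : ∀ ψ ψ' k k', Pr (c.N U) c.Om ψ ψ' → Gn c.SK ψ (-I • k) → Gn c.SK ψ' (-I • k') →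
    inner ℂ a k = inner ℂ k' b

variable {U M : Set V} {a b : Completion D} {Z : Completion D →L[ℂ] Completion D} {g : Fn}

theorem Fm.th (F : Fm c U a b) (G : GRP c) (g1 : G1 c) (hg : In U g) : dv va g ∈ Nl c U a b := by
  have e := F.k2 _ _ _ _ (G.pr_Th hg) (g1.th g (Ap.in_mono hg F.low))
    (g1.th _ (Ap.in_mono (Ap.in_bar hg) F.low))
  rw [inner_sub_left, inner_sub_right, F.k1 _ _ (G.pr_Th (Ap.in_Kc 4 hg)), G2.bar_Kc hg.1,
    sub_right_inj, inner_smul_left, inner_smul_right, map_ofNat, G2.bar_dv hg.1] at e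
  exact ⟨Ap.in_dv va hg, mul_left_cancel₀ (by norm_num) e⟩

theorem Fm.pot (F : Fm c U a b) (g1 : G1 c)
    (gr : ∀ h f, In U f → Pr (c.N U) c.Om (c.l (dv h f)) (c.l (bar (dv h f)))) (hg : In U g) :
    g ∈ Nl c U a b := by
  have p : ∀ h f, In U f → dv h f ∈ Nl c U a b := fun h f hf =>
    ⟨Ap.in_dv h hf, F.k1 _ _ (gr h f hf)⟩
  have hf := Ap.in_dv vb hg
  have e := F.k2 _ _ _ _ (gr vb g hg) (g1.pot _ (Ap.in_mono hf F.low))
    (g1.pot _ (Ap.in_mono (Ap.in_bar hf) F.low))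
  rw [G2.bar_Kc hf.1] at e
  refine ((Nl c U a b).smul_mem_iff (s := (4 : ℂ)) (by norm_num)).1 ?_
  rw [Kc_two hg]
  have q := fun h l l' => p h _ (in_ml l (in_ml l' hf))
  exact sub_mem (Submodule.smul_mem _ _ (p _ _ (in_ml _ hg))) (add_mem (add_mem (add_mem (add_mem
    (add_mem ⟨Ap.in_Kc 2 hf, e⟩ (q _ _ _)) (q _ _ _)) (Submodule.smul_mem _ _ (q _ _ _)))
    (Submodule.smul_mem _ _ (q _ _ _))) (Submodule.smul_mem _ _ (q _ _ _)))

theorem Pd.grow (hU : IsCompact U) (h : Pd c U M Z) :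
    ∃ U', IsCompact U' ∧ U ⊆ interior U' ∧ Pd c U' M Z := by
  induction h with
  | one => exact (exists_compact_superset hU).imp fun U' k => ⟨k.1, k.2, .one⟩
  | mul K Y Z h1 h2 h3 h4 _ ih =>
    obtain ⟨U', k1, k2, k3⟩ := ih
    obtain ⟨hK, p, q, y, hp, hq, hpq, e1, e2⟩ := h1
    obtain ⟨W, w1, w2, w3⟩ := exists_compact_between hU ((wdg_open p q y).inter isOpen_interior)
      (Set.subset_inter e1 k2)
    exact ⟨W, w1, w2, .mul K Y Z ⟨hK, p, q, y, hp, hq, hpq, fun _ z => (w3 z).1, e2⟩ h2 h3 h4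
      (k3.mono (fun _ z => interior_subset (w3 z).2) subset_rfl)⟩

theorem ex_fm (t : T1 c) (G : GW c) (ta : TAN c) (hU : IsCompact U) (hne : U.Nonempty)
    (hM : IsCompact M) (h : Pd c U M Z) (w : R2) : ∃ L y a b, IsLor L ∧ sim 1 L 0 va = aw w ∧
      Fm c (sim 1 L y ⁻¹' U) a b ∧ ∀ f, IsTest f →
        (fun x => f (sim 1 L y x)) ∈ Nl c (sim 1 L y ⁻¹' U) a b →
        inner ℂ (star Z c.Om) (c.l f) = inner ℂ (c.l (bar f)) (Z c.Om) := by
  obtain ⟨U', k1, k2, k3⟩ := h.grow hU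
  obtain ⟨y, hy⟩ := ex_top (hM.union k1)
  obtain ⟨z1, z2, z3⟩ := ta U U' _ w y Z hU hne k1 k2 (hM.union k1) Set.subset_union_right hy
    (k3.mono subset_rfl Set.subset_union_left)
  obtain ⟨hL, eL⟩ := G.lor w
  set L := H746.nrt vb (tv ((1 / 2 : ℝ) • w)) with hLe
  obtain ⟨L', y', J⟩ := G2.ex_inv hL y
  have eV : Ut c.Q y * Gw c w = Ug c.Q 1 L y := by
    have := t.grp.mul 1 GF.one y 1 L 0 one_pos one_pos H496.isLor_one hL
    simp only [one_mul, sim_ut, add_zero, zero_add] at this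
    exact this
  have uV := t.grp.uni 1 L y
  have mp : ∀ {ψ k}, Gn c.SK ψ k → Gn (Kf c w y) (Ug c.Q 1 L y ψ) (Ug c.Q 1 L y k) :=
    fun {ψ k} p => p.map _ fun s => by
      rw [Kf, mul_assoc (Ut c.Q y * Gw c w), eV]
      exact congrArg (fun T : Completion D →L[ℂ] Completion D => Ug c.Q 1 L y (c.SK s (T ψ))) uV.1
  have mq : ∀ {ψ ψ'}, Pr (c.N (sim 1 L y ⁻¹' U)) c.Om ψ ψ' →
      Pr (c.N U) c.Om (Ug c.Q 1 L y ψ) (Ug c.Q 1 L y ψ') :=
    fun p => t.grp.pr_ug p y one_pos hL fun _ hz => hz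
  refine ⟨L, y, star (Ug c.Q 1 L y) (star Z c.Om), star (Ug c.Q 1 L y) (Z c.Om), hL, ?_,
    ⟨?_, ?_, fun z hz => ?_, fun ψ ψ' p => ?_, fun ψ ψ' k k' p q q' => ?_⟩, fun f hf p => ?_⟩
  · rw [eL]
    exact null_ext (by simp [aw]) (by simp [aw]) (by simp [aw])
  · exact J.symm.img U ▸ hU.image (G2.cont_sim _ _)
  · exact J.symm.img U ▸ hne.image _
  · have := below hy w _ (Or.inr (interior_subset (k2 hz)))
    rwa [HM.sim_at, add_sub_cancel_right, eL, ← be_gw_neg, gw_gw, neg_add_cancel, gw_zero] at this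
  · rw [star_inner, inner_star]
    exact mq p Z (h.comm t.jc)
  · obtain ⟨v, hv⟩ := ex_wdg hU
    have e := (mq p).pair z3 (t.jc.cyc_sub t.grp null_va null_vb (by rw [md_ab]; exact one_pos) hv)
    rw [inner_smul_left, inner_smul_right, (G.ug w y).symm (mp q') z1.gn,
      ← (G.ug w y).symm z2.gn (mp q), map_smul, map_smul, inner_smul_left, inner_smul_right] at e
    rw [star_inner, inner_star]
    simp only [map_neg, Complex.conj_I, neg_neg] at e
    linear_combination e + (inner ℂ (star Z c.Om) (Ug c.Q 1 L y k) -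
      inner ℂ (Ug c.Q 1 L y k') (Z c.Om)) * Complex.I_mul_I
  · have e := p.2
    have e1 := t.grp.pot 1 L y f one_pos hL hf
    have e2 := t.grp.pot 1 L y _ one_pos hL (Ap.test_bar hf)
    simp only [one_pow, inv_one, one_smul] at e1 e2
    rw [star_inner, inner_star, e1] at e
    exact e.trans (congrArg (inner ℂ · _) e2)

/-- the gradient of the potential is local -/
theorem grad_loc (t : T1 c) (g1 : G1 c) (G : GW c) (ta : TAN c) (cl : CLO c) (hU : IsCompact U)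
    (hne : U.Nonempty) (h : V) (g : Fn) (hg : In U g) :
    Pr (c.N U) c.Om (c.l (dv h g)) (c.l (bar (dv h g))) := by
  refine cl U _ _ hU fun M Z hM _ hZ => ?_
  have k : ∀ w, dv (G2.aw w) g ∈ Nl c U (star Z c.Om) (Z c.Om) := fun w => by
    obtain ⟨L, y, a, b, hL, e, F, p⟩ := ex_fm t G ta hU hne hM hZ w
    have := F.th t.grp g1 (Ap.in_sim one_pos hL y hg)
    rw [G2.dv_sim hg.1 hL, e] at this
    exact ⟨Ap.in_dv _ hg, p _ (Ap.test_dv _ hg.1) this⟩
  refine (G2.span4 (P := fun h => dv h g ∈ Nl c U (star Z c.Om) (Z c.Om))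
    (fun s r h k p q => ?_) 0 one_ne_zero (k _) (k _) (k _) (k _) h).2
  show dv _ g ∈ _
  rw [G2.dv_lin]
  exact add_mem (Submodule.smul_mem _ (s : ℂ) p) (Submodule.smul_mem _ (r : ℂ) q)

/-- **row LOC** -/
theorem loc_row (t : T1 c) (g1 : G1 c) (G : GW c) (ta : TAN c) (cl : CLO c) : LOC c := by
  intro O f hf
  rcases (tsupport f).eq_empty_or_nonempty with e | hne
  · rw [tsupport_eq_empty_iff] at e
    subst e
    exact fun Z _ => (Nl c O (star Z c.Om) (Z c.Om)).zero_mem.2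
  refine (cl _ _ _ hf.2.1 fun M Z hM _ hZ => ?_).sub_reg hf.2.2
  obtain ⟨L, y, a, b, hL, -, F, p⟩ := ex_fm t G ta hf.2.1 hne hM hZ 0
  exact p f hf.1 (F.pot g1 (grad_loc t g1 G ta cl F.cpt F.ne)
    (Ap.in_sim one_pos hL y ⟨hf.1, hf.2.1, subset_rfl⟩))

end

end Vale.Agent.N352.Nt
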