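import Vale.Agent.N352.NSmo
import Vale.Agent.N352.NLoc
import Vale.Agent.N352.NDer
import Vale.Agent.N352.NDu

/-!
# N352: the potential is local, given the row ADD
-/

set_option linter.all false

namespace Vale.Agent.N352.Nt

open Vale.Agent.P352X

variable {D : Type*} [NormedAddCommGroup D] [InnerProductSpace ℂ D] {c : Ctx D}

theorem loc_of (t : T3 c) (bb : BB c) (dd : DD c) (g1 : G1 c) (du : Du c) (ad : ADD c) : LOC c :=
  have u := t.toT2.toT1
  have G := gw_row u
  have s := smo_row u
  loc_row u g1 G (tan_row u G s (der_row u G s du (tri_row t bb dd G) ad)) (clo_row u s du)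

end Vale.Agent.N352.Nt
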