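import Vale.Agent.N352.Gen

/-!
# N352, block Tn: the stress tensor of the doubled theory (helper71)
-/

set_option linter.all false

open Filter Topology MeasureTheory
open scoped ComplexConjugate SchwartzMap
open UniformSpace (Completion)
open Complex (I)
open Bornology (IsBounded)

noncomputable section

namespace Vale.Agent.N352.Tn

open Vale.Agent.P352 Vale.Agent.P352.GF Vale.Agent.P352.BW Vale.Agent.P352.H246
open Vale.Agent.P352.H496 Vale.Agent.P352.H755 Vale.Agent.P352.H15 Vale.Agent.P352.H746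
open Vale.Agent.P352.SubConf (IsAdj)
open Vale.Agent.P352X Vale.Agent.P352X.EB Vale.Agent.P352X.EG
open Vale.Agent.P352L Vale.Agent.P352L.StA
open Vale.Agent.P352X.Api4 (pint)

variable {D : Type*} [NormedAddCommGroup D] [InnerProductSpace ℂ D] {c : Cg D}
  {B C B' C' : Fld D} {f : Fn} {e : Bool} {T : Ix → Ix → Fld D} {X : V → V}

/-! ## test functions -/

/-- integration over the second point -/
def pin2 : 𝓢(V × V, ℂ) →L[ℂ] Sch := pint volume ∘L Kn.cp (ContinuousLinearEquiv.prodComm ℝ V V)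

theorem pin2_apply (Φ : 𝓢(V × V, ℂ)) (x : V) : pin2 Φ x = ∫ y, Φ (x, y) := rfl

theorem pint_tens (F G : Sch) : pint volume (ST.tens F G) = (∫ x, F x) • G :=
  SchwartzMap.ext fun z => integral_mul_const (G z) F

theorem pin2_tens (F G : Sch) : pin2 (ST.tens F G) = (∫ x, G x) • F :=
  SchwartzMap.ext fun z => (integral_const_mul (F z) G).trans (mul_comm _ _)

theorem pint_dg (k : ℕ) (ρ F : Sch) : pint volume (Kn.dg k ρ F) = (∫ x, ρ x) • F :=
  SchwartzMap.ext fun z => (integral_mul_const (F z) fun y => Kn.scl k ρ (y - z)).trans (by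
    rw [integral_sub_right_eq_self (Kn.scl k ρ) z, Kn.int_scl]
    rfl)

theorem pin2_dg (ρ F : Sch) :
    Tendsto (fun k => pin2 (Kn.dg k ρ F)) atTop (𝓝 ((∫ x, ρ x) • F)) := by
  have := Kn.tendsto_ml (Kn.ft volume ρ) (fun k : ℕ => ((k : ℝ) + 1)⁻¹ • ContinuousLinearMap.id ℝ _)
    (M := 1) le_rfl (fun k => ?_) (fun l => ?_) (Kn.ft volume F)
    (fun k => Kn.ft volume (pin2 (Kn.dg k ρ F))) fun k l => ?_
  · simpa only [Function.comp_def, ContinuousLinearEquiv.symm_apply_apply, map_smul, Kn.ft_zero]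
      using ((Kn.ft volume).symm.continuous.tendsto _).comp this
  · rw [norm_smul, norm_inv, Real.norm_of_nonneg (by positivity)]
    exact mul_le_one₀ (inv_le_one_of_one_le₀ (by linarith [k.cast_nonneg (α := ℝ)]))
      (norm_nonneg _) ContinuousLinearMap.norm_id_le
  · simpa using (tendsto_one_div_add_atTop_nhds_zero_nat (𝕜 := ℝ)).smul_const l
  · let L := l ∘L ContinuousLinearMap.fst ℝ V V
    have hi : Integrable (fun z => ST.pw L z * Kn.dg k ρ F z) ((volume : Measure V).prod volume) := by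
      have := Measure.prod.instIsAddHaarMeasure (volume : Measure V) (volume : Measure V)
      simpa only [← ST.mdl_apply] using (ST.mdl L (Kn.dg k ρ F)).integrable
    have h1 := Kn.ft_ten2 volume (Kn.scl k ρ) F L
    rw [show L ∘L ContinuousLinearMap.inl ℝ V V = l from by ext; simp [L],
      show L ∘L ContinuousLinearMap.inr ℝ V V = 0 from by ext; simp [L], add_zero, Kn.ft_scl,
      Kn.ft_apply] at h1
    refine Eq.trans ?_ ((integral_prod _ hi).symm.trans h1)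
    simp only [Kn.ft_apply, pin2_apply, ← integral_const_mul]
    rfl

theorem supp_dg (k : ℕ) {ρ F : Sch} {r s : ℝ} (h1 : tsupport ρ ⊆ Metric.closedBall 0 r)
    (h2 : tsupport F ⊆ Metric.closedBall 0 s) : tsupport (Kn.dg k ρ F) ⊆
      Metric.ball 0 (r + s + 1) ×ˢ Metric.ball 0 (r + s + 1) := by
  refine (closure_minimal (fun z hz => ?_) ((Metric.isClosed_closedBall (x := 0) (ε := r + s)).prod
    (Metric.isClosed_closedBall (x := 0) (ε := r + s)))).trans
    (Set.prod_mono (Metric.closedBall_subset_ball (lt_add_one _))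
      (Metric.closedBall_subset_ball (lt_add_one _)))
  have hz' : ((k : ℂ) + 1) ^ Module.finrank ℝ V * ρ (((k : ℝ) + 1) • (z.1 - z.2)) * F z.2 ≠ 0 := hz
  have a := mem_closedBall_zero_iff.1 (h1 (subset_tsupport _
    (right_ne_zero_of_mul (left_ne_zero_of_mul hz'))))
  have b := mem_closedBall_zero_iff.1 (h2 (subset_tsupport _ (right_ne_zero_of_mul hz')))
  rw [norm_smul, Real.norm_of_nonneg (by positivity)] at a
  have d := norm_nonneg (z.1 - z.2)
  have g := norm_le_insert' z.1 z.2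
  have k0 := k.cast_nonneg (α := ℝ)
  exact ⟨mem_closedBall_zero_iff.2 (by nlinarith), mem_closedBall_zero_iff.2 (by nlinarith)⟩

theorem cjS_dg (k : ℕ) (ρ F : Sch) : cjS (Kn.dg k ρ F) = Kn.dg k (cjS ρ) (cjS F) :=
  SchwartzMap.ext fun z => by simp [cjS_apply, Kn.dg_apply]

theorem cjS_tens (F G : Sch) : cjS (ST.tens F G) = ST.tens (cjS F) (cjS G) :=
  SchwartzMap.ext fun z => by simp [cjS_apply]

/-- the functional `Φ ↦ ⟨Λ (conj Φ), ξ⟩` -/
def cjF {H : Type*} [NormedAddCommGroup H] [InnerProductSpace ℂ H] (Λ : 𝓢(V × V, ℂ) →L[ℂ] H)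
    (ξ : H) : 𝓢(V × V, ℂ) →L[ℂ] ℂ where
  toFun Φ := inner ℂ (Λ (cjS Φ)) ξ
  map_add' Φ Ψ := by rw [map_add, map_add, inner_add_left]
  map_smul' z Φ := by
    rw [show cjS (z • Φ) = conj z • cjS Φ from SchwartzMap.ext fun x => by simp [cjS_apply],
      map_smul, inner_smul_left, Complex.conj_conj]
    rfl
  cont := (Λ.continuous.comp cjS.continuous).inner continuous_const

/-- a field on the vacuum -/
def vcl (hB : c.Q.fld B) : Sch →L[ℂ] Completion D := Completion.toComplL ∘L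
  Grp.toC (fun f => B f c.Q.vac) (fun f g z => c.Q.lin B f g z _ hB) (c.Q.cont B _ hB)

theorem vcl_apply (hB : c.Q.fld B) (F : Sch) : vcl hB F = (B (ev F) c.Q.vac : D) := rfl

/-! ## even fields -/

/-- even fields -/
def Ev (c : Cg D) (B : Fld D) : Prop := c.Q.fld B ∧ Pa c false B

theorem ev_bose (h : c.Q.bose B) : Ev c B :=
  ⟨c.Q.bose_fld _ h, fun f v hf => (c.hN.bose _ f v h hf).trans (by simp [sg])⟩

theorem Big.ev (b : Big c) : Ev c (idz 1) :=
  ev_bose (by convert b.one using 3; rw [idz, one_mul])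

theorem Ev.lt (h : Ev c B) (k : Ev c C) : Lt c B C := ⟨h.1, k.1, false, h.2, k.2⟩

theorem adj_id : IsAdj (idz 1 : Fld D) (idz 1) := by simpa using idz_adj (D := D) 1

theorem idz_coe (f : Fn) : ((idz 1 f c.Q.vac : D) : Completion D) = (∫ x, f x) • c.Om := by
  rw [idz, one_mul, Completion.coe_smul]
  rfl

variable {E : Type*} [NormedAddCommGroup E] [InnerProductSpace ℂ E] {i : E →ₗᵢ[ℂ] H2 D} {o : E}
  {P : Fld D → Fld D → Fld E}

/-- the field `B ⊗ 1 + 1 ⊗ B` -/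
def d1 (P : Fld D → Fld D → Fld E) (B : Fld D) : Fld E := P B (idz 1) + P (idz 1) B

theorem d1_apply (B : Fld D) (f : Fn) (v : E) :
    d1 P B f v = P B (idz 1) f v + P (idz 1) B f v := rfl

/-- the vector `x ⊗ Ω + Ω ⊗ x` -/
def sy (c : Cg D) : Completion D →L[ℂ] H2 D := tm.flip c.Om + tm c.Om

theorem sy_apply (x : Completion D) : sy c x = tm x c.Om + tm c.Om x := rfl

namespace PW

variable (p : PW c i o P) (y : Hy c)
include p y

theorem vac_l (h : Ev c B) (hf : IsTest f) :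
    i (P B (idz 1) f o) = tm ((B f c.Q.vac : D) : Completion D) c.Om := by
  obtain ⟨ρ, -, hρ⟩ := ex_rho
  obtain ⟨F, rfl⟩ := hf
  have l1 := p.kr_lim (h.lt y.big.ev) ρ F
  have l2 := (((tm.flip c.Om ∘L vcl h.1).continuous.tendsto _).comp (pin2_dg ρ F))
  rw [hρ, one_smul] at l1 l2
  refine tendsto_nhds_unique l1 (l2.congr fun k => ker_ext
    (Λ := (tm.flip c.Om ∘L vcl h.1) ∘L pin2) (fun F G => ?_) _)
  simp only [ContinuousLinearMap.comp_apply, pin2_tens, p.kr_tens, idz_coe, map_smul]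
  rfl

theorem vac_r (h : Ev c B) (hf : IsTest f) :
    i (P (idz 1) B f o) = tm c.Om ((B f c.Q.vac : D) : Completion D) := by
  obtain ⟨ρ, -, hρ⟩ := ex_rho
  obtain ⟨F, rfl⟩ := hf
  have l1 := p.kr_lim (y.big.ev.lt h) ρ F
  rw [hρ, one_smul] at l1
  refine tendsto_nhds_unique l1 (tendsto_const_nhds.congr fun k => Eq.trans ?_ (ker_ext
    (Λ := (tm c.Om ∘L vcl h.1) ∘L pint volume) (fun F G => ?_) _))
  · simp only [ContinuousLinearMap.comp_apply, pint_dg, hρ, one_smul, vcl_apply]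
  · simp only [ContinuousLinearMap.comp_apply, pint_tens, p.kr_tens, idz_coe, map_smul,
      ContinuousLinearMap.smul_apply]
    rfl

theorem d1_vac (h : Ev c B) (hf : IsTest f) :
    i (d1 P B f o) = sy c ((B f c.Q.vac : D) : Completion D) := by
  rw [d1_apply, map_add, p.vac_l y h hf, p.vac_r y h hf, sy_apply]

theorem d1_bose (h : Ev c B) : (p.q y).bose (d1 P B) :=
  add_mem (p.q_bose y (h.lt y.big.ev)) (p.q_bose y (y.big.ev.lt h))

theorem d1_fld (h : Ev c B) : (p.q y).fld (d1 P B) := (p.q y).bose_fld _ (p.d1_bose y h)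

theorem d1_adj (h : Ev c B) (h' : Ev c B') (a : IsAdj B B') : IsAdj (d1 P B) (d1 P B') :=
  fun f v w hf => by
    rw [d1_apply, d1_apply, inner_add_left, inner_add_right,
      p.adj (h.lt y.big.ev) (h'.lt y.big.ev) a adj_id f v w hf,
      p.adj (y.big.ev.lt h) (y.big.ev.lt h') adj_id a f v w hf]

theorem d1_aw (h : Ev c B) (h' : Ev c B') (a : IsAdj B B') {U : Set V} (hU : IsOpen U)
    (hf : In U f) : Aw c i U (d1 P B f) (d1 P B' (bar f)) :=
  (p.aw (h.lt y.big.ev) (h'.lt y.big.ev) a adj_id hU hf).add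
    (p.aw (y.big.ev.lt h) (y.big.ev.lt h') adj_id a hU hf)

theorem d1_cov (g : Sg) {ι : Type} [Fintype ι] {a : ι → ℂ} {B1 : ι → Fld D} (h : Ev c B)
    (k : ∀ j, Ev c (B1 j)) (e1 : ∀ f v, IsTest f → B f (c.Q.U g.s g.L g.a v) =
      ∑ j, a j • c.Q.U g.s g.L g.a (B1 j (g.pull f) v)) (hf : IsTest f) (v : E) :
    d1 P B f ((p.q y).U g.s g.L g.a v) =
      ∑ j, a j • (p.q y).U g.s g.L g.a (d1 P (B1 j) (g.pull f) v) := by
  have e2 : ∀ f v, IsTest f → idz 1 f (c.Q.U g.s g.L g.a v) = ∑ j : Unit, (g.s : ℂ) ^ 4 •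
      c.Q.U g.s g.L g.a (idz 1 (g.pull f) v) := fun f v _ =>
    (idz_U 1 g.hs g.hL g.a f v).trans (by rw [Fintype.sum_unique]; rfl)
  have s0 : (g.s : ℂ) ≠ 0 := Complex.ofReal_ne_zero.2 g.hs.ne'
  have b := y.big.ev
  refine (congrArg₂ (· + ·) (p.cov_sum y g (h.lt b) (fun j _ => (k j).lt b) (fun j => (k j).1)
    (fun _ => b.1) e1 e2 hf v) (p.cov_sum y g (b.lt h) (fun _ j => b.lt (k j)) (fun _ => b.1)
      (fun j => (k j).1) e2 e1 hf v)).trans ?_
  simp only [Fintype.sum_prod_type, Fintype.sum_unique, d1_apply, U_add g.hs g.hL, smul_add,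
    Finset.sum_add_distrib]
  refine congrArg₂ _ (Finset.sum_congr rfl fun j _ => congrArg₂ _ ?_ rfl)
    (Finset.sum_congr rfl fun j _ => congrArg₂ _ ?_ rfl) <;> push_cast <;> field_simp

theorem d1_zero {ι : Type*} (s : Finset ι) (a : ι → ℂ) {B : ι → Fld D} (h : ∀ j, Ev c (B j))
    (α : ι → List Ix) (e : ∀ f, IsTest f → ∑ j ∈ s, a j • B j (pdl (α j) f) c.Q.vac = 0)
    (hf : IsTest f) (v : E) : ∑ j ∈ s, a j • d1 P (B j) (pdl (α j) f) v = 0 := by
  choose R hR using fun j => pdl_clm (α j)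
  refine ext_sub (u := fun f => ∑ j ∈ s, a j • d1 P (B j) (pdl (α j) f) v) (u' := fun _ => 0)
    (continuous_finset_sum _ fun j _ => ?_) continuous_const hf fun g hg => ?_
  · simp only [hR]
    exact (((p.q y).cont _ v (p.d1_fld y (h j))).comp (R j).continuous).const_smul _
  · obtain ⟨U, u1, u2, u3⟩ := ex_bd hg.2.1
    choose B' a1 a2 using fun j => c.Q.adj _ (h j).1
    refine p.sep u2 (Aw.sum s fun j => (p.d1_aw y (h j) ⟨a1 j, Bas.padj _ _ _ (a2 j) (h j).2⟩ (a2 j)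
      u1 ⟨pdl_test _ hg.1, pdl_cpt _ hg.2.1, (pdl_supp _ _).trans u3⟩).smul (a j)) (i.injective ?_) v
    have := congrArg (sy c ∘L Completion.toComplL) (e g hg.1)
    simpa only [map_sum, map_smul, map_zero, fun j => p.d1_vac y (h j) (pdl_test (α j) hg.1),
      ContinuousLinearMap.comp_apply, Completion.coe_toComplL] using this

/-- **the Ward identity on the vacuum** -/
theorem ward_vac {U : Set V} (u1 : IsOpen U) (u2 : IsBounded U) {τ τ' : D → D}
    (a : BW.T.Afs (c.N U) τ τ') (a0 : ∀ v, τ (c.G v) = sg false • c.G (τ v)) {t t' : E → E}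
    (b : Aw c i U t t') (b1 : i (t o) = sy c (τ c.Q.vac : D)) (b2 : i (t' o) = sy c (τ' c.Q.vac : D))
    {ι κ : Type} [Fintype ι] [Fintype κ] {B1 : ι → Fld D} {C1 : κ → Fld D} {α : ι → ℂ} {β : κ → ℂ}
    (h : Lt c B C) (k1 : ∀ j, Lt c (B1 j) C) (k2 : ∀ j, Lt c B (C1 j)) {z : V} {w : Ix → V}
    (hw : ∀ m n, eta n * w m n = -(eta m * w n m))
    (hX : ∀ x n, X x n = z n + 0 * x n + ∑ m, x m * w m n) {ρ F : Sch} {r s : ℝ}
    (hρ : ∫ x, ρ x = 1) (h1 : tsupport ρ ⊆ Metric.closedBall 0 r)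
    (h2 : tsupport F ⊆ Metric.closedBall 0 s) (h3 : Metric.ball 0 (r + s + 1) ⊆ U)
    (h4 : In U (ev F))
    (e1 : ∀ f, In (Metric.ball 0 (r + s + 1)) f → τ (B f c.Q.vac) - B f (τ c.Q.vac) =
      I • (∑ j, α j • B1 j f c.Q.vac + B (vf X f) c.Q.vac))
    (e2 : ∀ f, In (Metric.ball 0 (r + s + 1)) f → τ (C f c.Q.vac) - C f (τ c.Q.vac) =
      I • (∑ j, β j • C1 j f c.Q.vac + C (vf X f) c.Q.vac)) :
    t (P B C (ev F) o) - P B C (ev F) (t o) = I • (∑ j, α j • P (B1 j) C (ev F) o +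
      ∑ j, β j • P B (C1 j) (ev F) o + P B C (vf X (ev F)) o) := by
  obtain ⟨B', C', h', a1, a2⟩ := h.adj
  obtain ⟨hB, hC, e, p1, p2⟩ := id h
  set N := P352W.Ft.lin 1 w
  refine i.injective (tot (c := c) u2 fun Y1 y1 Y2 y2 => ?_)
  obtain ⟨Z, hZ, eZ⟩ : ∃ Z ∈ Cw c U, ∀ ξ, inner ℂ (mp Y1 Y2 (O2 c)) ξ = inner ℂ (O2 c) (Z ξ) :=
    ⟨_, mp_Cw (star_mem y1) (star_mem y2), fun ξ => by
      rw [← star_mp, ContinuousLinearMap.star_eq_adjoint, ContinuousLinearMap.adjoint_inner_right]⟩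
  let W : 𝓢(V × V, ℂ) →L[ℂ] H2 D := I • (∑ j, α j • p.kr (k1 j) + ∑ j, β j • p.kr (k2 j) +
    p.kr h ∘L xc (N.prodMap N) (z, z))
  have key : ∀ k, inner ℂ (i (t' o)) (Z (p.kr h (Kn.dg k ρ F))) -
      inner ℂ (p.kr h' (cjS (Kn.dg k ρ F))) (Z (i (t o))) = inner ℂ (O2 c) (Z (W (Kn.dg k ρ F))) :=
    fun k => sub_eq_zero.1 (ST.ker2_local (innerSL ℂ (i (t' o)) ∘L Z ∘L p.kr h -
      cjF (p.kr h') (Z (i (t o))) - innerSL ℂ (O2 c) ∘L Z ∘L W) _ fun x hx => by
      obtain ⟨δ, hδ, hb⟩ := Metric.isOpen_iff.1 (Metric.isOpen_ball.prod Metric.isOpen_ball) x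
        (supp_dg k h1 h2 hx)
      rw [← ball_prod_same] at hb
      refine ⟨δ, hδ, fun G H g1 g2 g3 g4 => sub_eq_zero.2 ?_⟩
      have i1 : In (Metric.ball 0 (r + s + 1)) (ev G) := ⟨⟨G, rfl⟩, g1, fun x' h =>
        (hb (Set.mk_mem_prod (g3 h) (Metric.mem_ball_self hδ))).1⟩
      have i2 : In (Metric.ball 0 (r + s + 1)) (ev H) := ⟨⟨H, rfl⟩, g2, fun x' h =>
        (hb (Set.mk_mem_prod (Metric.mem_ball_self hδ) (g4 h))).2⟩
      have f1 := afs_of_aff (fun v w => a1 _ v w i1.1)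
        (c.hN.fld U B _ hB ⟨i1.1, g1, i1.2.2.trans h3⟩)
      have f2 := afs_of_aff (fun v w => a2 _ v w i2.1)
        (c.hN.fld U C _ hC ⟨i2.1, g2, i2.2.2.trans h3⟩)
      have o0 : ∀ v : D, c.G v = sg false • c.G v := fun v => (one_smul _ _).symm
      have w1 := wk_tm hZ a Grp.afs_one a0 o0 (B (ev G) c.Q.vac) (C (ev H) c.Q.vac) c.Q.vac c.Q.vac
      have w2 := wk_tm hZ Grp.afs_one a o0 a0 (B (ev G) c.Q.vac) (C (ev H) c.Q.vac) c.Q.vac c.Q.vac
      have w3 := wk_tm hZ f1 f2 (fun v => p1 _ v i1.1) (fun v => p2 _ v i2.1) (τ c.Q.vac) c.Q.vac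
        c.Q.vac c.Q.vac
      have w4 := wk_tm hZ f1 f2 (fun v => p1 _ v i1.1) (fun v => p2 _ v i2.1) c.Q.vac (τ c.Q.vac)
        c.Q.vac c.Q.vac
      show inner ℂ _ (Z (p.kr h _)) - inner ℂ (p.kr h' (cjS _)) _ = inner ℂ _ (Z (W _))
      rw [cjS_tens, p.kr_tens, p.kr_tens, b1, b2, sy_apply, sy_apply, inner_add_left, map_add,
        inner_add_right]
      refine (congrArg₂ (· - ·) (congrArg₂ (· + ·) w1 w2) (congrArg₂ (· + ·) w3 w4)).trans ?_
      simp only [← inner_add_right, ← inner_sub_right, ← map_add Z, ← map_sub Z]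
      refine congrArg₂ _ rfl (congrArg _ ?_)
      rw [add_sub_add_comm, ← tm_sub_l, ← map_sub, ← Completion.coe_sub, ← Completion.coe_sub,
        e1 _ i1, e2 _ i2]
      simp only [W, ContinuousLinearMap.smul_apply, ContinuousLinearMap.add_apply,
        ContinuousLinearMap.sum_apply, ContinuousLinearMap.comp_apply, xc_tens, map_add, p.kr_tens,
        N, ev_xc hX, ← Completion.coe_toComplL (𝕜 := ℂ), map_smul, map_sum]
      module)
  have l1 := (((innerSL ℂ (i (t' o)) ∘L Z).continuous.tendsto _).comp (p.kr_lim h ρ F)).sub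
    ((p.kr_lim h' (cjS ρ) (cjS F)).inner (𝕜 := ℂ) (tendsto_const_nhds (x := Z (i (t o)))))
  have l2 := ((innerSL ℂ (O2 c) ∘L Z).continuous.tendsto _).comp
    ((((tendsto_finset_sum Finset.univ fun j _ => (p.kr_lim (k1 j) ρ F).const_smul (α j)).add
      (tendsto_finset_sum Finset.univ fun j _ => (p.kr_lim (k2 j) ρ F).const_smul (β j))).add
      ((p.kr_lim h (xc N 0 ρ) F).add (p.kr_lim h ρ (xc N z F)))).const_smul I)
  have z0 : ∫ x, xc N 0 ρ x = 0 := by
    have hX0 : ∀ (x : V) n, ∑ m, x m * w m n = (0 : V) n + 0 * x n + ∑ m, x m * w m n :=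
      fun x n => by simp
    rw [← int_vf ⟨0, w, hw, hX0⟩ ⟨ρ, rfl⟩, ← ev_xc hX0]
    rfl
  have z1 : ∫ x, cjS ρ x = 1 := (integral_conj (f := ρ)).trans (by rw [hρ, map_one])
  rw [hρ, z1] at l1
  rw [hρ, z0] at l2
  have := tendsto_nhds_unique l1 (l2.congr fun k => by
    refine Eq.trans ?_ ((key k).symm.trans (by rw [cjS_dg]; rfl))
    simp only [W, Function.comp_apply, ContinuousLinearMap.smul_apply,
      ContinuousLinearMap.add_apply, ContinuousLinearMap.sum_apply, ContinuousLinearMap.comp_apply,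
      xc_dg, map_add, innerSL_apply_apply])
  simp only [one_smul, zero_smul, zero_add, ContinuousLinearMap.comp_apply, innerSL_apply_apply,
    ev_xc hX, N] at this
  rw [eZ, eZ, map_sub, map_sub, inner_sub_right, ← p.vac, ← b Z hZ (P B C (ev F) o) o,
    ← p.aw h h' a1 a2 u1 h4 Z hZ (t o) o, p.vac]
  refine this.trans ?_
  simp only [map_smul, map_add, map_sum]

end PW

end Vale.Agent.N352.Tn
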