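import Vale.Agent.N352.Slice
import Vale.Agent.N352.St2
import Vale.Agent.N352.NAll
import Vale.Agent.N352.NAdd
import Vale.Agent.P352X.EG.POT

/-!
# N352: the potential of a graded theory is local relative to the net
-/

set_option linter.all false

noncomputable section

open Filter Topology MeasureTheory
open scoped ComplexConjugate
open UniformSpace (Completion)
open ContinuousLinearMap (adjoint)

namespace Vale.Agent.N352.Sl

open Vale.Agent.P352 Vale.Agent.P352.GF Vale.Agent.P352.BW Vale.Agent.P352.H246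
open Vale.Agent.P352.H496 Vale.Agent.P352.H755 Vale.Agent.P352.H15
open Vale.Agent.P352X Vale.Agent.P352X.EG Vale.Agent.N352.Tn Vale.Agent.N352.Nt

variable {D : Type*} [NormedAddCommGroup D] [InnerProductSpace ℂ D] {c : Cg D}
  {E : Type*} [NormedAddCommGroup E] [InnerProductSpace ℂ E] {q : Theory E} {i : E →ₗᵢ[ℂ] H2 D}
  {T : Ix → Ix → Fld D} {τ : Ix → Ix → Fld E} {l : Fn → Completion D}

/-- **The potential is local in a bosonic theory**, relative to the dual net. -/
theorem loc_all (k : Ctx E) [Fact k.tp] (du : Du k) : LOC k := by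
  have t := t3_thm k
  have bb := bb_of k t
  have far := far_row k t
  have dd := dd_row k t (d1_row k t (sch_row k t) (yz_row k t (res_row k t) far (ix_row k t far)
    (cont_row k t far (conm_row k t) (conk_row0 k t (bp0_row k t bb))) (ib_row k t) (sw_row k t)))
  exact loc_of t bb dd (main k).1 du
    (Ad.add_row t bb dd (gw_row t.toT2.toT1) (smo_row t.toT2.toT1))

theorem sy_even {x : Completion D} (h : c.Γ x = x) : Tn.G2 c (sy c x) = sy c x := by
  rw [sy_apply, Tn.G2, map_add, mp_tm, mp_tm, h, SGx.gv]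

theorem sy_U {s : ℝ} {L : Ix → V} (hs : 0 < s) (hL : IsLor L) (a : V) (x : Completion D) :
    U2 c s L a (sy c x) = sy c (Ug c.Q s L a x) := by
  rw [sy_apply, map_add, U2, mp_tm, mp_tm, (G.ip_ug c hs hL a).vac, sy_apply]

/-- **The potential of the doubled theory.** -/
theorem pot2 (d : Dbl c q i) (hl : IsPot c.Q T l) (hT : ∀ m n f, IsTest f →
    i (τ m n f q.vac) = sy c ((T m n f c.Q.vac : D) : Completion D)) :
    IsPot q τ fun f => adjoint (jE i) (sy c (l f)) where
  lin f g z hf hg := by simp only [hl.lin f g z hf hg, map_add, map_smul]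
  cont := (adjoint (jE i) ∘L sy c).continuous.comp hl.cont
  trace f hf := by
    rw [← map_smul, ← map_smul, hl.trace f hf, ← d.em.iso (_ : E), jE_coe]
    simp only [GF.tr, EB.Fin'.coe_sum, Completion.coe_smul, map_sum, map_smul, hT _ _ f hf]
  cov s L a f v hs hL hf := by
    have h3 : ((s ^ 2 : ℝ) : ℂ) ≠ 0 := Complex.ofReal_ne_zero.2 (by positivity)
    rw [ContinuousLinearMap.adjoint_inner_right, ContinuousLinearMap.adjoint_inner_right, jE_coe,
      jE_coe, d.U _ _ _ _ hs hL, ← U2_inner c hs hL a (i v), sy_U hs hL,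
      G.Sq.pot hl a hs hL hf, ← Complex.coe_smul, map_smul, inner_smul_right, Complex.ofReal_inv, mul_inv_cancel_left₀ h3]

/-- **The potential is local relative to the net.** -/
theorem net_loc (hU : UVac c.Q) (d : Dbl c q i) {A : (V → V) → E → E} (hτ : q.IsStress τ)
    (hP : ND.PCh q τ A) (hG : TfGen q) (hN : LNm q A (N2 c (jE i))) (hs : c.Q.IsStress T)
    (hl : IsPot c.Q T l) (hT : ∀ m n f, IsTest f →
      i (τ m n f q.vac) = sy c ((T m n f c.Q.vac : D) : Completion D))
    {O : Set V} {f : Fn} (hf : In O f) {Z : Completion D →L[ℂ] Completion D} (hZ : Opp c.N O Z) :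
    inner ℂ (star Z c.Om) (l f) = inner ℂ (l (bar f)) (Z c.Om) := by
  obtain ⟨k, rfl, rfl, e, tp⟩ := Pt.ctxN q τ A _ hτ hP hG (lnm_Nd hN) (d.uvac hU)
  haveI : Fact k.tp := ⟨tp⟩
  have h := loc_all k (du_of k N2_mono e) O f hf
  have u : ∀ g, IsTest g → jE i (k.l g) = sy c (l g) := fun g hg => by
    rw [(pot2 d hl hT).unique k.hl g hg, d.em.sur (sy_even (G.Sq.l_even hs hl hg))]
  rw [e] at h
  exact slice hU d.em d.om (u _ hf.1) (u _ (isTest_bar hf.1)) (G.Sq.l_even hs hl hf.1)
    (G.Sq.l_even hs hl (isTest_bar hf.1)) h hZ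

end Vale.Agent.N352.Sl
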