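import Vale.Agent.N352.Def

namespace Vale.Agent.N352.Df

open P352.GF
open UniformSpace (Completion)

variable {D D' : Type*} [NormedAddCommGroup D] [InnerProductSpace ℂ D] [NormedAddCommGroup D']
  [InnerProductSpace ℂ D']

/-- **Strong locality of the stress tensor.** A component of `T`, smeared with a real function
supported in a wedge, is affiliated to a von Neumann algebra such that all fields smeared in the
opposite wedge are affiliated to its commutant. -/
structure SL (Q : Theory D) (T : Ix → Ix → Fld D) : Prop where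
  loc : ∀ a b m n f, IsNull a → IsNull b → mdot a b = 1 → In (Wdg a b 0) f → bar f = f →
    ∃ M : VonNeumannAlgebra (Completion D), Aff M (↑) (T m n f) ∧
      ∀ B g, Q.fld B → In (Wdg b a 0) g → Aff M.commutant (↑) (B g)

/-- **Linear energy bounds for the stress tensor.** -/
def LBT (Q : Theory D) (T : Ix → Ix → Fld D) : Prop :=
  ∀ m n f, In Set.univ f → ∃ C : ℝ, ∀ v, ‖T m n f v‖ ≤ C * (‖v‖ + ‖Dv Q o v‖)

/-- **Form bounds for the stress tensor.** The expectation values of the smeared stress tensor are
bounded by those of `1 + H`, `H` the energy. -/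
def FBT (Q : Theory D) (T : Ix → Ix → Fld D) : Prop := ∀ m n f, In Set.univ f → ∃ C : ℝ, ∀ v,
  ‖inner ℂ v (T m n f v)‖ ≤ C * (‖v‖ ^ 2 + ‖inner ℂ v (Dv Q o v)‖)

/-- The vacuum is an analytic vector for the stress tensor, smeared with real functions. -/
def AnT (Q : Theory D) (T : Ix → Ix → Fld D) : Prop := ∀ m n f, In Set.univ f → bar f = f →
  ∃ C : ℝ, ∀ k : ℕ, ‖(T m n f)^[k] Q.vac‖ ≤ C ^ (k + 1) * k.factorial

/-- The similitudes map fields to linear combinations of fields. -/
def CovA (Q : Theory D) : Prop := ∀ s L a, 0 < s → IsLor L → Cov Q s L a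

/-- The hypotheses on the theory `Q`, graded by `G = (-1)^F`, with the stress tensor `T` and the
generators `A X` of the similitudes. -/
structure Hy (Q : Theory D) (G : D → D) (T : Ix → Ix → Fld D) (A : (V → V) → D → D) : Prop
    extends Ge Q G A where
  stress : Stress0 Q T
  charges : PCh Q T A
  unique : UVac Q
  cov : CovA Q
  scl : ∀ m n, ∃ F B, Scl Q (T m n) F B
  bound : EBd Q
  loc : SL Q T

/-- **Extensions.** The theory `P`, graded by `G'`, extends the theory `Q` in the same Hilbert
space: it has the vacuum, the grading and the representation of the similitudes of `Q`, and every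
(Bose) field `B` of `Q` gives a (Bose) field `e B` of `P` that agrees with `B` on the vectors
generated from the vacuum by the fields of `Q`. -/
structure Ex (Q : Theory D) (G : D → D) {E : Submodule ℂ (Completion D)} (P : Theory E)
    (G' : E → E) (e : Fld D → Fld E) : Prop extends Gr P G' where
  vac : (P.vac : Completion D) = om Q
  G : ∀ v, (G' v : Completion D) = Completion.map G (v : Completion D)
  U : ∀ s L a v, 0 < s → IsLor L → (P.U s L a v : Completion D) = Ue Q s L a v
  fld : ∀ B, Q.fld B → P.fld (e B)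
  bos : ∀ B, Q.bose B → P.bose (e B)
  adj : ∀ B B', Q.fld B → Q.fld B' → IsAdj B B' → IsAdj (e B) (e B')
  agree : ∀ B f (v : E) (w : D), Q.fld B → IsTest f → Cyc Q w → (v : Completion D) = w →
    (e B f v : Completion D) = (B f w : D)

/-- **`R` contains the fields that are relatively local to those of `Q`** (it is enough for scalars
of dimension two). Every hermitian scalar Bose field `L` of dimension two of an extension `P` of `Q`
creates the same vectors from the vacuum as some Bose field of `R`. -/
structure Mx (Q : Theory D) (G : D → D) (R : Theory D') (i : D →ₗᵢ[ℂ] D') : Prop where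
  max : ∀ (E : Submodule ℂ (Completion D)) (P : Theory E) G' e L, Ex Q G P G' e →
    P.IsScalar L 2 → ∃ B, R.bose B ∧ ∀ f, IsTest f →
      hil B f R.vac = Completion.map i (L f P.vac : Completion D)

variable (D D') in
/-- The theorem, for theories with the domains `D` and `D'`. -/
structure Thm4 : Prop where
  ext : ∀ (Q : Theory D) G T A, Hy Q G T A → ∃ S, Q.IsStress S ∧ PCh Q S A ∧
    ∃ (E : Submodule ℂ (Completion D)) (P : Theory E) (G' : E → E) (e : Fld D → Fld E)
      (t : Ix → Ix → Fld E), Ex Q G P G' e ∧ (MfA Q → FSL Q → Desc P G' t) ∧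
        ∀ R, IsEnl P R → Gr R G' → Conf R G' (fun m n => e (S m n)) t
  self : ∀ (Q : Theory D) G T A, Hy Q G T A → Over Q T Q .id G T A
  max : ∀ (Q : Theory D) G T A (R : Theory D') i G' T' A', Hy Q G T A →
    Over Q T R i G' T' A' → Mx Q G R i → ∃ t, Conf R G' T' t
  loc : ∀ (Q : Theory D) G T A, Ge Q G A → Stress0 Q T → EBd Q →
    FBT Q T ∨ LBT Q T ∨ AnT Q T ∨ (∃ Γ N, LNg Q G A Γ N) → SL Q T
  cnt : ∀ (Q : Theory D) G A, Ge Q G A → Flds Q → MfA Q ∧ FSL Q ∧ CovA Q

variable (D) in
/-- There is a nontrivial theory with the domain `D` that satisfies all hypotheses. -/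
inductive Wit4 : Prop
  | mk (Q : Theory D) (T A B) (h : Hy Q id T A ∧ Mx Q id Q .id ∧ FBT Q T ∧ LBT Q T ∧ Flds Q ∧
      Q.IsScalar B 1 ∧ (∃ f, IsTest f ∧ B f Q.vac ≠ 0) ∧ ¬FiniteDimensional ℂ (Completion D) ∧
      ∃ f, IsTest f ∧ tr T f Q.vac ≠ 0) : Wit4

end Vale.Agent.N352.Df
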