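import Vale.Agent.N352.Def4

namespace Vale.Agent.N352.Df

open P352.GF
open UniformSpace (Completion)

variable {D D' : Type*} [NormedAddCommGroup D] [InnerProductSpace ℂ D] [NormedAddCommGroup D']
  [InnerProductSpace ℂ D']

/-- **Strong locality with one algebra for each wedge.** The components of `T`, smeared in a wedge,
are affiliated to a dilation invariant von Neumann algebra such that all fields smeared in the
opposite wedge are affiliated to its commutant. -/
structure SL1 (Q : Theory D) (T : Ix → Ix → Fld D) : Prop where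
  loc : ∀ a b, IsNull a → IsNull b → mdot a b = 1 → ∃ M : VonNeumannAlgebra (Completion D),
    (∀ s, 0 < s → ∀ X ∈ M, ∃ Y ∈ M, ∀ z, Y (Ue Q s one 0 z) = Ue Q s one 0 (X z)) ∧
    (∀ m n f, In (Wdg a b 0) f → Aff M (↑) (T m n f)) ∧
      ∀ B g, Q.fld B → In (Wdg b a 0) g → Aff M.commutant (↑) (B g)

/-- **Polynomial energy bounds for the stress tensor.** -/
structure EBT (Q : Theory D) (T : Ix → Ix → Fld D) : Prop where
  bd : ∀ m n, ∃ k, ∀ f, In Set.univ f → ∃ C : ℝ, ∀ v, ‖T m n f v‖ ≤ C * en Q k v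

/-- The hypotheses; all analytic ones concern the stress tensor `T` only. -/
structure Hw (Q : Theory D) (G : D → D) (T : Ix → Ix → Fld D) (A : (V → V) → D → D) : Prop
    extends Ge Q G A where
  stress : Stress0 Q T
  charges : PCh Q T A
  unique : UVac Q
  cov : CovA Q
  scl : ∀ m n, ∃ F B, Scl Q (T m n) F B
  bound : EBT Q T
  loc : SL1 Q T

/-- **Weakly local scalars of dimension two.** `l` is a tempered distribution with values in the
Hilbert space that transforms like a scalar field of dimension two applied to the vacuum `Ω`, and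
`⟨X* Ω, l f⟩ = ⟨l (bar f), X Ω⟩` for all products `X` of fields smeared space-like to `f`. -/
structure Wl (Q : Theory D) (l : Fn → Completion D) : Prop where
  lin : ∀ f g (c : ℂ), IsTest f → IsTest g → l (fun x => f x + c * g x) = l f + c • l g
  cont : Continuous fun g => l (ev g)
  cov : ∀ (s : ℝ) L a f, 0 < s → IsLor L → IsTest f →
    l f = (s : ℂ) ^ 2 • Ue Q s L a (l fun x => f (sim s L a x))
  loc : ∀ f (X : List (Fld D × Fld D × Fn)), In Set.univ f → (∀ p ∈ X, Q.fld p.1 ∧ Q.fld p.2.1 ∧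
    IsAdj p.1 p.2.1 ∧ In Set.univ p.2.2 ∧ Sep f p.2.2) →
    inner ℂ ↑(X.foldl (fun v p => p.2.1 (bar p.2.2) v) Q.vac) (l f) =
      inner ℂ (l (bar f)) ↑(X.foldr (fun p v => p.1 p.2.2 v) Q.vac)

variable (D D') in
/-- The theorem, for theories with the domains `D` and `D'`. -/
structure Thm5 : Prop where
  pot : ∀ (Q : Theory D) G T A, Hw Q G T A → ∃ S l, Q.IsStress S ∧ PCh Q S A ∧ Wl Q l ∧
    (∀ f, IsTest f → hil (tr S) f Q.vac =
      (3 : ℂ) • l fun x => ∑ m, (eta m : ℂ) * pd m (pd m f) x) ∧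
    ∀ (R : Theory D') i G' T' A' L, Over Q T R i G' T' A' → R.bose L →
      (∀ f, IsTest f → hil L f R.vac = Completion.map i (l f)) → ∃ t, Conf R G' T' t
  self : ∀ (Q : Theory D) G T A, Hw Q G T A → Over Q T Q .id G T A
  loc : ∀ (Q : Theory D) G T A, Ge Q G A → Stress0 Q T →
    (∃ Γ N, LNg Q G A Γ N) ∨ CovA Q ∧ EBd Q ∧ SL Q T → SL1 Q T
  bound : ∀ (Q : Theory D) G T A, Ge Q G A → Stress0 Q T → FBT Q T ∨ LBT Q T ∨ EBd Q → EBT Q T

variable (D) in
/-- There is a nontrivial theory with the domain `D` that satisfies all hypotheses and contains all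
weakly local scalars of dimension two. -/
inductive Wit5 : Prop
  | mk (Q : Theory D) (T A B) (h : Hw Q id T A ∧
      (∀ l, Wl Q l → ∃ L, Q.bose L ∧ ∀ f, IsTest f → hil L f Q.vac = l f) ∧
      Q.IsScalar B 1 ∧ (∃ f, IsTest f ∧ B f Q.vac ≠ 0) ∧ ¬FiniteDimensional ℂ (Completion D) ∧
      ∃ f, IsTest f ∧ tr T f Q.vac ≠ 0) : Wit5

end Vale.Agent.N352.Df
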