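import Vale.Agent.N352.Def

namespace Vale.Agent.N352.De

open P352.GF Df
open UniformSpace (Completion)

variable {D D' : Type*} [NormedAddCommGroup D] [InnerProductSpace ℂ D] [NormedAddCommGroup D']
  [InnerProductSpace ℂ D']

/-- The similitudes map fields to linear combinations of fields. -/
def CovA (Q : Theory D) : Prop := ∀ s L a, 0 < s → IsLor L → Cov Q s L a

/-- **The basic hypotheses.** The theory `Q` is graded by `G = (-1)^F` and scale covariant, has a
unique vacuum, generators `A X` of the similitudes and a stress tensor `T` whose charges are the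
Poincaré generators. `T` has a finite scaling law (any dimensions, logarithms are allowed). -/
structure Hb (Q : Theory D) (G : D → D) (T : Ix → Ix → Fld D) (A : (V → V) → D → D) : Prop
    extends Ge Q G A where
  stress : Stress0 Q T
  charges : PCh Q T A
  unique : UVac Q
  cov : CovA Q
  scl : ∀ m n, ∃ F B, Scl Q (T m n) F B

/-- **Form bounds for the stress tensor.** The expectation values of the smeared stress tensor are
bounded by those of `1 + H`, `H` the energy. -/
def FBT (Q : Theory D) (T : Ix → Ix → Fld D) : Prop := ∀ m n f, In Set.univ f → ∃ C : ℝ, ∀ v,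
  ‖inner ℂ v (T m n f v)‖ ≤ C * (‖v‖ ^ 2 + ‖inner ℂ v (Dv Q o v)‖)

/-- **Strong locality of the stress tensor.** A component of `T`, smeared with a real function
supported in a wedge, is affiliated to a von Neumann algebra such that all fields smeared in the
opposite wedge are affiliated to its commutant. -/
structure SL (Q : Theory D) (T : Ix → Ix → Fld D) : Prop where
  loc : ∀ a b m n f, IsNull a → IsNull b → mdot a b = 1 → In (Wdg a b 0) f → bar f = f →
    ∃ M : VonNeumannAlgebra (Completion D), Aff M (↑) (T m n f) ∧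
      ∀ B g, Q.fld B → In (Wdg b a 0) g → Aff M.commutant (↑) (B g)

/-- **Regularity, first form.** All fields obey polynomial energy bounds, and the stress tensor is
form bounded by the energy, or strongly local, or there is a graded local net. -/
def Reg1 (Q : Theory D) (G : D → D) (T : Ix → Ix → Fld D) (A : (V → V) → D → D) : Prop :=
  EBd Q ∧ (FBT Q T ∨ SL Q T ∨ ∃ Γ N, LNg Q G A Γ N)

/-- **Strong locality with one algebra for each wedge.** The components of `T`, smeared in a wedge,
are affiliated to a dilation invariant von Neumann algebra such that all fields smeared in the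
opposite wedge are affiliated to its commutant. -/
structure SL1 (Q : Theory D) (T : Ix → Ix → Fld D) : Prop where
  loc : ∀ a b, IsNull a → IsNull b → mdot a b = 1 → ∃ M : VonNeumannAlgebra (Completion D),
    (∀ s, 0 < s → ∀ X ∈ M, ∃ Y ∈ M, ∀ z, Y (Ue Q s one 0 z) = Ue Q s one 0 (X z)) ∧
    (∀ m n f, In (Wdg a b 0) f → Aff M (↑) (T m n f)) ∧
      ∀ B g, Q.fld B → In (Wdg b a 0) g → Aff M.commutant (↑) (B g)

/-- **Polynomial energy bounds for the stress tensor.** -/
structure EBT (Q : Theory D) (T : Ix → Ix → Fld D) : Prop where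
  bd : ∀ m n, ∃ k, ∀ f, In Set.univ f → ∃ C : ℝ, ∀ v, ‖T m n f v‖ ≤ C * en Q k v

/-- **Regularity, second form.** Only the stress tensor has to obey energy bounds. -/
def Reg2 (Q : Theory D) (G : D → D) (T : Ix → Ix → Fld D) (A : (V → V) → D → D) : Prop :=
  (EBT Q T ∨ FBT Q T) ∧ (SL1 Q T ∨ ∃ Γ N, LNg Q G A Γ N)

/-- **Extensions.** The theory `P`, graded by `G'`, extends the theory `Q` in the same Hilbert
space: it has the vacuum, the grading and the representation of the similitudes of `Q`, and every
(Bose) field `B` of `Q` gives a (Bose) field `e B` of `P` that agrees with `B` on the vectors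
generated from the vacuum by the fields of `Q`. -/
structure Ex (Q : Theory D) (G : D → D) {E : Submodule ℂ (Completion D)} (P : Theory E)
    (G' : E → E) (e : Fld D → Fld E) : Prop extends Gr P G' where
  vac : (P.vac : Completion D) = om Q
  G : ∀ v, (G' v : Completion D) = Completion.map G (v : Completion D)
  U : ∀ s L a v, 0 < s → IsLor L → (P.U s L a v : Completion D) = Ue Q s L a v
  fld : ∀ B, Q.fld B → P.fld (e B)
  bos : ∀ B, Q.bose B → P.bose (e B)
  adj : ∀ B B', Q.fld B → Q.fld B' → IsAdj B B' → IsAdj (e B) (e B')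
  agree : ∀ B f (v : E) (w : D), Q.fld B → IsTest f → Cyc Q w → (v : Completion D) = w →
    (e B f v : Completion D) = (B f w : D)

/-- **`R` contains the fields that are relatively local to those of `Q`** (it is enough for scalars
of dimension two). Every hermitian scalar Bose field `L` of dimension two of an extension `P` of `Q`
creates the same vectors from the vacuum as some Bose field of `R`. -/
structure Mx (Q : Theory D) (G : D → D) (R : Theory D') (i : D →ₗᵢ[ℂ] D') : Prop where
  max : ∀ (E : Submodule ℂ (Completion D)) (P : Theory E) G' e L, Ex Q G P G' e →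
    P.IsScalar L 2 → ∃ B, R.bose B ∧ ∀ f, IsTest f →
      hil B f R.vac = Completion.map i (L f P.vac : Completion D)

/-- **Weakly local scalars of dimension two.** `l` is a tempered distribution with values in the
Hilbert space that transforms like a scalar field of dimension two applied to the vacuum `Ω`, and
`⟨X* Ω, l f⟩ = ⟨l (bar f), X Ω⟩` for all products `X` of fields smeared space-like to `f`. -/
structure Wl (Q : Theory D) (l : Fn → Completion D) : Prop where
  lin : ∀ f g (c : ℂ), IsTest f → IsTest g → l (fun x => f x + c * g x) = l f + c • l g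
  cont : Continuous fun g => l (ev g)
  cov : ∀ (s : ℝ) L a f, 0 < s → IsLor L → IsTest f →
    l f = (s : ℂ) ^ 2 • Ue Q s L a (l fun x => f (sim s L a x))
  loc : ∀ f (X : List (Fld D × Fld D × Fn)), In Set.univ f → (∀ p ∈ X, Q.fld p.1 ∧ Q.fld p.2.1 ∧
    IsAdj p.1 p.2.1 ∧ In Set.univ p.2.2 ∧ Sep f p.2.2) →
    inner ℂ ↑(X.foldl (fun v p => p.2.1 (bar p.2.2) v) Q.vac) (l f) =
      inner ℂ (l (bar f)) ↑(X.foldr (fun p v => p.1 p.2.2 v) Q.vac)

variable (D D') in
/-- The theorem, for theories with the domains `D` and `D'`. -/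
structure Thm : Prop where
  conf : ∀ (Q : Theory D) G T A, Hb Q G T A → Reg1 Q G T A → Mx Q G Q .id → ∃ t, Conf Q G T t
  sup : ∀ (Q : Theory D) G T A (R : Theory D') i G' T' A', Hb Q G T A → Reg1 Q G T A →
    Over Q T R i G' T' A' → Mx Q G R i → ∃ t, Conf R G' T' t
  ext : ∀ (Q : Theory D) G T A, Hb Q G T A → Reg1 Q G T A → ∃ S, Q.IsStress S ∧ PCh Q S A ∧
    ∃ (E : Submodule ℂ (Completion D)) (P : Theory E) (G' : E → E) (e : Fld D → Fld E)
      (t : Ix → Ix → Fld E), Ex Q G P G' e ∧ (MfA Q → FSL Q → Desc P G' t) ∧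
        ∀ R, IsEnl P R → Gr R G' → Conf R G' (fun m n => e (S m n)) t
  pot : ∀ (Q : Theory D) G T A, Hb Q G T A → Reg1 Q G T A ∨ Reg2 Q G T A →
    Over Q T Q .id G T A ∧ ∃ S l, Q.IsStress S ∧ PCh Q S A ∧ Wl Q l ∧
    (∀ f, IsTest f → hil (tr S) f Q.vac =
      (3 : ℂ) • l fun x => ∑ m, (eta m : ℂ) * pd m (pd m f) x) ∧
    ∀ (R : Theory D') i G' T' A' L, Over Q T R i G' T' A' → R.bose L →
      (∀ f, IsTest f → hil L f R.vac = Completion.map i (l f)) → ∃ t, Conf R G' T' t
  cnt : ∀ (Q : Theory D) G A, Ge Q G A → Flds Q → MfA Q ∧ FSL Q ∧ CovA Q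
  gen : ∀ (Q : Theory D) G, Gr Q G → G Q.vac = Q.vac → (∀ w, Cyc Q w) → MfA Q → FSL Q →
    ∃ A, Ge Q G A

variable (D) in
/-- There is a nontrivial theory with the domain `D` that satisfies all hypotheses. -/
inductive Wit : Prop
  | mk (Q : Theory D) (T A B) (h : Hb Q id T A ∧ EBd Q ∧ FBT Q T ∧ SL Q T ∧ EBT Q T ∧ SL1 Q T ∧
      Mx Q id Q .id ∧ (∀ l, Wl Q l → ∃ L, Q.bose L ∧ ∀ f, IsTest f → hil L f Q.vac = l f) ∧
      Flds Q ∧ Q.IsScalar B 1 ∧ (∃ f, IsTest f ∧ B f Q.vac ≠ 0) ∧
      ¬FiniteDimensional ℂ (Completion D) ∧ ∃ f, IsTest f ∧ tr T f Q.vac ≠ 0) : Wit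

end Vale.Agent.N352.De
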