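import Vale.Agent.N352.Def7

namespace Vale.Agent.N352.Di

open P352.GF Df
open UniformSpace (Completion)

variable (D D' : Type*) [NormedAddCommGroup D] [InnerProductSpace ℂ D] [NormedAddCommGroup D']
  [InnerProductSpace ℂ D']

/-- The theorem, for theories with the domains `D` and `D'`. -/
structure Thn : Prop where
  conf : ∀ (Q : Theory D) G T A, Hb Q G T A → Reg1 Q G T A → Mx Q G Q .id → ∃ t, Conf Q G T t
  sup : ∀ (Q : Theory D) G T A (R : Theory D') i G' T' A', Hb Q G T A → Reg1 Q G T A →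
    Over Q T R i G' T' A' → Mx Q G R i → ∃ t, Conf R G' T' t
  ext : ∀ (Q : Theory D) G T A, Hb Q G T A → Reg1 Q G T A → ∃ S, Q.IsStress S ∧ PCh Q S A ∧
    ∃ (E : Submodule ℂ (Completion D)) (P : Theory E) (G' : E → E) (e : Fld D → Fld E)
      (t : Ix → Ix → Fld E), Ex Q G P G' e ∧
        ∀ R, IsEnl P R → Gr R G' → Conf R G' (fun m n => e (S m n)) t
  pot : ∀ (Q : Theory D) G T A, Hb Q G T A → Reg1 Q G T A ∨ Reg2 Q G T A →
    Over Q T Q .id G T A ∧ ∃ S l, Q.IsStress S ∧ PCh Q S A ∧ Wl Q l ∧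
      ∀ f, IsTest f → hil (tr S) f Q.vac =
        (3 : ℂ) • l fun x => ∑ m, (eta m : ℂ) * pd m (pd m f) x

/-- The hypotheses, with each bound and each form of strong locality, are satisfied by a nontrivial
theory with the domain `D`. -/
inductive Wiu : Prop
  | mk (Q : Theory D) (T A) (h : Hb Q id T A ∧ EBd Q ∧ FBT Q T ∧ SL Q T ∧ EBT Q T ∧ SL1 Q T ∧
      Mx Q id Q .id ∧ ∃ f, IsTest f ∧ tr T f Q.vac ≠ 0) : Wiu

end Vale.Agent.N352.Di
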