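import Vale.Agent.N352.DefP

namespace Vale.Agent.N352.Dh

variable {H : Type*} [NormedAddCommGroup H] [InnerProductSpace ℂ H] [CompleteSpace H] {K : Frame H}

/-- **Scale covariance.** All fields have finite spin, and their dilates are linear combinations `B`
of fields. Nothing is assumed about the spectrum of the dilations or about the dependence of `B` on
the scale `s`. -/
def Cvr (Q : Theory K) : Prop := ∀ A, Q.fld A → Spin Q A ∧ ∀ s, 0 < s →
  ∃ B ∈ Sp {X | Q.fld X}, ∀ f, IsTest f → ∀ v ∈ Q.dom,
    A f (K.U s one 0 v) = K.U s one 0 (B (fun x => f (sim s one 0 x)) v)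

end Vale.Agent.N352.Dh
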