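import Vale.Agent.P352.GFDefs
import Mathlib.Analysis.InnerProductSpace.Completion
import Mathlib.Analysis.VonNeumannAlgebra.Basic

open Filter Topology

namespace Vale.Agent.N352.Dn

open P352.GF
open UniformSpace (Completion)

noncomputable section

universe u v

/-- Test functions with compact support in the region `W`. -/
def In (W : Set V) (f : Fn) : Prop := IsTest f ∧ HasCompactSupport f ∧ tsupport f ⊆ W

/-- `X` is the velocity field `z ↦ c + r z + w z` of a curve of similitudes, with rate of
expansion `r` and an infinitesimal Lorentz transformation `w`. -/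
def IsSim (r : ℝ) (X : V → V) : Prop := ∃ (c : V) (w : Ix → V),
  (∀ m n, eta n * w m n = -(eta m * w n m)) ∧ ∀ z n, X z n = c n + r * z n + ∑ m, z m * w m n

/-- The conformal Killing vector fields
`X(x) = a + r x + w x + 2 (b, x) x - (x, x) b` with an infinitesimal Lorentz transformation `w`. -/
inductive IsKil (X : Ix → V → ℝ) : Prop
  | mk (a b : V) (r : ℝ) (w : Ix → V) (h : ∀ m n, eta n * w m n = -(eta m * w n m)) (e : ∀ n x,
    X n x = a n + r * x n + ∑ m, x m * w m n + 2 * mdot b x * x n - mdot x x * b n) : IsKil X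

/-- The function `x ↦ x^l g(x)`. -/
def xg (l : Ix) (g : Fn) : Fn := fun x => (x l : ℂ) * g x

/-- The divergence of a vector field. -/
def dvg (X : Ix → V → ℝ) : Fn := fun x => ∑ n, pd n (fun y => (X n y : ℂ)) x

/-- **Spins.** A finite dimensional representation `ρ`, up to sign, of the Lorentz group (tensors
and spinors), with the spin matrices `S`. -/
structure Rp where
  n : ℕ
  ρ : (Ix → V) → Matrix (Fin n) (Fin n) ℂ
  S : Ix → Ix → Matrix (Fin n) (Fin n) ℂ
  id : ρ one = 1
  mul : ∀ L L', IsLor L → IsLor L' → ρ (fun m => sim 1 L 0 (L' m)) = ρ L' * ρ L ∨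
    ρ (fun m => sim 1 L 0 (L' m)) = -(ρ L' * ρ L)
  der : ∀ (L : ℝ → Ix → V) (w : Ix → V) a b, L 0 = one → (∀ e, IsLor (L e)) →
    (∀ m n, HasDerivAt (fun e => L e m n) (w m n) 0) →
    HasDerivAt (fun e => ρ (L e) a b) (∑ m, ∑ n, w m n * S m n a b) 0

variable {D : Type u} {D' : Type v} [NormedAddCommGroup D] [InnerProductSpace ℂ D]
  [NormedAddCommGroup D'] [InnerProductSpace ℂ D']

/-- The representation of the similitudes on the completion of `D`. -/
def Ue (Q : Theory D) (s : ℝ) (L : Ix → V) (x : V) : Completion D → Completion D :=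
  Completion.map (Q.U s L x)

/-- The vacuum, as a vector of the completion of `D`. -/
def om (Q : Theory D) : Completion D := (Q.vac : Completion D)

/-- `B` is the formal adjoint of `A`. -/
def IsAdj (A B : Fld D) : Prop :=
  ∀ f v w, IsTest f → inner ℂ (A f v) w = inner ℂ v (B (bar f) w)

/-- Fermi fields: odd under the grading `G`. -/
def Fer (Q : Theory D) (G : D → D) (A : Fld D) : Prop :=
  Q.fld A ∧ ∀ f v, IsTest f → A f (G v) = -G (A f v)

/-- **Theories with fermions.** `G` is the grading `(-1)^F`. Every field is the sum of a Bose and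
a Fermi field, Fermi fields anticommute at space-like separation, and the similitudes are
represented up to `G` (exactly, if one factor has no Lorentz part). -/
structure Gr (Q : Theory D) (G : D → D) : Prop where
  inv : ∀ v, G (G v) = v
  herm : ∀ v w, inner ℂ (G v) w = inner ℂ v (G w)
  bose : ∀ B f v, Q.bose B → IsTest f → B f (G v) = G (B f v)
  split : ∀ B, Q.fld B → ∃ C C', Q.bose C ∧ Fer Q G C' ∧ ∀ f v, IsTest f → B f v = C f v + C' f v
  anti : ∀ B C f g v, Fer Q G B → Fer Q G C → IsTest f → IsTest g → Sep f g →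
    B f (C g v) = -C g (B f v)
  GU : ∀ s L a v, 0 < s → IsLor L → Q.U s L a (G v) = G (Q.U s L a v)
  mul : ∀ s L a s' L' a', 0 < s → 0 < s' → IsLor L → IsLor L' →
    (∀ v, Q.U s L a (Q.U s' L' a' v) =
      Q.U (s * s') (fun m => sim 1 L 0 (L' m)) (sim s L a a') v) ∨
    L ≠ one ∧ L' ≠ one ∧ ∀ v, Q.U s L a (Q.U s' L' a' v) =
      G (Q.U (s * s') (fun m => sim 1 L 0 (L' m)) (sim s L a a') v)

/-- The vectors that the smeared fields generate from the vacuum. -/
def Cyc (Q : Theory D) (w : D) : Prop := ∀ S : Submodule ℂ D, Q.vac ∈ S →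
  (∀ A f v, Q.fld A → IsTest f → v ∈ S → A f v ∈ S) → w ∈ S

/-- The commutator of the field `t`, smeared with `g`, and the field `B`, smeared with `f`,
applied to `v`. -/
def cm (t : Fld D) (g : Fn) (B : Fld D) (f : Fn) (v : D) : D := t g (B f v) - B f (t g v)

/-- The current `X^n T_{0n}` of `T` and the vector field `X`, smeared with `g`. -/
def cur (T : Ix → Ix → Fld D) (X : V → V) (g : Fn) (u : D) : D :=
  ∑ n, T o n (fun x => (eta n : ℂ) * X x n * g x) u

/-- A symmetric conserved stress tensor with contravariant components `T m n`. Its behaviour under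
dilations is not prescribed. -/
structure Stress (Q : Theory D) (T : Ix → Ix → Fld D) : Prop where
  bose : ∀ m n, Q.bose (T m n)
  symm : ∀ m n f v, IsTest f → T m n f v = T n m f v
  herm : ∀ m n, IsAdj (T m n) (T m n)
  cov : ∀ m n L a f v, IsLor L → IsTest f → T m n f (Q.U 1 L a v) =
    ∑ k, ∑ l, (L k m * L l n : ℂ) • Q.U 1 L a (T k l (fun x => f (sim 1 L a x)) v)
  conserved : ∀ n f v, IsTest f → ∑ m, T m n (pd m f) v = 0

/-- **The charge of the density `j` generates the transformations `u e`.** The commutator of the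
regularized charge `q` with a smeared field `B f`, applied to the vacuum, converges weakly when the
cutoff is removed, and `i [q, B f] Ω` is the derivative of `u e (B f Ω)` at `e = 0`. -/
def Gen (Q : Theory D) (u : ℝ → D → D) (j : Fld D) : Prop :=
  ∀ F B f w, IsCutoff F → Q.fld B → In Set.univ f → ∃ c,
    Tendsto (fun R => inner ℂ w (cm j (F R) B f Q.vac)) atTop (𝓝 c) ∧
      HasDerivAt (fun e => inner ℂ w (u e (B f Q.vac))) (Complex.I * c) 0

/-- **The charges of `T` generate the translations and the Lorentz transformations**: for every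
curve of Poincaré transformations through the identity, with velocity field `X`, the charge of the
current `X^n T_{mn}` generates the curve. -/
def PGen (Q : Theory D) (T : Ix → Ix → Fld D) : Prop :=
  ∀ (L : ℝ → Ix → V) (a : ℝ → V) X, L 0 = one → a 0 = 0 → (∀ e, IsLor (L e)) → IsSim 0 X →
    (∀ n x, HasDerivAt (fun e => sim 1 (L e) (a e) x n) (X x n) 0) →
    Gen Q (fun e => Q.U 1 (L e) (a e)) (cur T X)

/-- **Virial currents.** `J` is a local vector field with `T^m_m = ∂_m J^m`, and the charge of the
current `x^n T_{mn} - J_m` generates the dilations. -/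
structure Vir (Q : Theory D) (T : Ix → Ix → Fld D) (J : Ix → Fld D) : Prop where
  bose : ∀ m, Q.bose (J m)
  div : ∀ f v, IsTest f → tr T f v = -∑ m, J m (pd m f) v
  gen : Gen Q (fun e => Q.U (Real.exp e) one 0) fun g v => cur T (fun x => x) g v - J o g v

/-- The vacuum is the only translation invariant vector. -/
def UVac (Q : Theory D) : Prop :=
  ∀ z, (∀ a, Ue Q 1 one a z = z) → ∃ c : ℂ, z = c • om Q

/-- The vacuum may be degenerate, but the symmetry is not spontaneously broken: all translation
invariant vectors are invariant under the dilations and the Lorentz transformations. -/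
def IVac (Q : Theory D) : Prop :=
  ∀ z, (∀ a, Ue Q 1 one a z = z) → ∀ s L, 0 < s → IsLor L → Ue Q s L 0 z = z

/-- The field `B` has the scaling dimension `d`. -/
structure Dim (Q : Theory D) (d : ℂ) (B : Fld D) : Prop where
  law : ∀ (s : ℝ) f v, 0 < s → IsTest f →
    B f (Q.U s one 0 v) = (s : ℂ) ^ (4 - d) • Q.U s one 0 (B (fun x => f (sim s one 0 x)) v)

/-- **Scaling laws with logarithms.** The dilates of the field `A` are the sums over `(d, j)` in `F`
of `s ^ (4 - d) (log s) ^ j` times fields `B (d, j)`. -/
structure Scl (Q : Theory D) (A : Fld D) (F : Finset (ℂ × ℕ)) (B : ℂ × ℕ → Fld D) : Prop where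
  fld : ∀ p, Q.fld (B p) ∧ (Q.bose A → Q.bose (B p))
  law : ∀ (s : ℝ) f v, 0 < s → IsTest f →
    A f (Q.U s one 0 v) = ∑ p ∈ F, ((s : ℂ) ^ (4 - p.1) * (Real.log s : ℂ) ^ p.2) •
      Q.U s one 0 (B p (fun x => f (sim s one 0 x)) v)

/-- Every field has a finite scaling law: the fields are sums of generalized eigenvectors of the
dilations, Jordan blocks are allowed. -/
def FSL (Q : Theory D) : Prop := ∀ A, Q.fld A → ∃ F B, Scl Q A F B

/-- A multiplet of fields with spin `k`. -/
def IsMl (Q : Theory D) (k : Rp) (Φ : Fin k.n → Fld D) : Prop :=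
  ∀ a L f v, IsLor L → IsTest f → Φ a f (Q.U 1 L 0 v) =
    ∑ b, k.ρ L b a • Q.U 1 L 0 (Φ b (fun x => f (sim 1 L 0 x)) v)

/-- Every field is a finite sum of components of multiplets of fields with a spin. -/
def MfA (Q : Theory D) : Prop :=
  ∀ A, Q.fld A → ∃ (n : ℕ) (B : Fin n → Fld D),
    (∀ i, ∃ k Φ a, ((∀ b, Q.fld (Φ b)) ∧ IsMl Q k Φ) ∧ B i = Φ a) ∧
      ∀ f v, IsTest f → A f v = ∑ i, B i f v

/-- The linear span of a set of fields. -/
def Sp (S : Set (Fld D)) : Set (Fld D) := Submodule.span ℂ S

/-- **Countably many covariant fields.** The fields form a vector space of countable dimension, the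
Bose fields form a subspace, the dilations and the Lorentz transformations map fields to fields and
Bose fields to Bose fields, and the dilations act continuously. -/
structure CntF (Q : Theory D) : Prop where
  cnt : ∃ S : Set (Fld D), S.Countable ∧ ∀ B, Q.fld B ↔ B ∈ Sp S
  sub : ∀ B ∈ Sp {B | Q.bose B}, Q.bose B
  cov : ∀ s L B, 0 < s → IsLor L → Q.fld B → ∃ C, Q.fld C ∧ (Q.bose B → Q.bose C) ∧
    ∀ f v, IsTest f → Q.U s L 0 (B (fun x => f (sim s L 0 x)) v) = C f (Q.U s L 0 v)
  cts : ∀ v, ContinuousAt (fun s => Q.U s one 0 v) 1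

/-- Bounded open regions. -/
def Reg (O : Set V) : Prop := IsOpen O ∧ Bornology.IsBounded O

/-- Space-like separated regions. -/
def Spc (O O' : Set V) : Prop := ∀ x ∈ O, ∀ y ∈ O', mdot (x - y) (x - y) < 0

/-- **Haag-Kastler nets with fermions.** `Γ` is the grading on the Hilbert space. The von Neumann
algebras `N O`, `O` a bounded open region, are isotonic, covariant, graded, and local in the graded
sense: the even part of `X` in `N O` and its odd part times `Γ` commute with the algebras of
space-like separated regions. -/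
structure Net (Q : Theory D) (G : D → D) (Γ : Completion D →L[ℂ] Completion D)
    (N : Set V → VonNeumannAlgebra (Completion D)) : Prop where
  ext : ∀ v : D, Γ v = (G v : D)
  mono : ∀ O O', Reg O → Reg O' → O ⊆ O' → ∀ X ∈ N O, X ∈ N O'
  cov : ∀ s L y O, Reg O → ∀ X ∈ N O, 0 < s → IsLor L →
    ∃ Y ∈ N (sim s L y '' O), ∀ z, Y (Ue Q s L y z) = Ue Q s L y (X z)
  gam : ∀ O, Reg O → ∀ X ∈ N O, Γ * X * Γ ∈ N O
  loc : ∀ O O', Reg O → Reg O' → Spc O O' → ∀ X ∈ N O,
    X + Γ * X * Γ ∈ (N O').commutant ∧ (X - Γ * X * Γ) * Γ ∈ (N O').commutant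

/-- The bounded operator `Y` commutes weakly with the fields smeared in `O`, on the vectors that
the fields generate from the vacuum. -/
def Wk (Q : Theory D) (O : Set V) (Y : Completion D →L[ℂ] Completion D) : Prop :=
  ∀ B B' f (v w : D), Q.fld B → IsAdj B B' → In O f → Cyc Q v → Cyc Q w →
    inner ℂ (B' (bar f) w : Completion D) (Y v) = inner ℂ (w : Completion D) (Y (B f v : D))

/-- The fields smeared in `O` are affiliated to `N O`: they commute weakly with its commutant. -/
def Aff (Q : Theory D) (N : Set V → VonNeumannAlgebra (Completion D)) : Prop :=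
  ∀ O, Reg O → ∀ Y ∈ (N O).commutant, Wk Q O Y

/-- The vacuum is cyclic for the net, and the fields are local relative to the net. -/
structure Rel (Q : Theory D) (Γ : Completion D →L[ℂ] Completion D)
    (N : Set V → VonNeumannAlgebra (Completion D)) : Prop where
  cyc : Dense {z | ∃ O, Reg O ∧ ∃ X ∈ N O, z = X (om Q)}
  rel : ∀ O O', Reg O → Reg O' → Spc O O' → ∀ X ∈ N O,
    Wk Q O' (X + Γ * X * Γ) ∧ Wk Q O' ((X - Γ * X * Γ) * Γ)

/-- **The hypotheses** on the theory `Q`, graded by `G = (-1)^F`, with the stress tensor `T` and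
the net `N`. -/
structure Hy (Q : Theory D) (G : D → D) (T : Ix → Ix → Fld D)
    (Γ : Completion D →L[ℂ] Completion D) (N : Set V → VonNeumannAlgebra (Completion D)) :
    Prop where
  grading : Gr Q G
  even : G Q.vac = Q.vac
  stress : Stress Q T
  poincare : PGen Q T
  scale : (∃ J, Vir Q T J) ∨ IVac Q
  fields : CntF Q ∨ MfA Q ∧ FSL Q
  net : Net Q G Γ N
  strong : Aff Q N ∨ Rel Q Γ N

/-- The polynomials in the smeared fields, each one together with its formal adjoint. -/
inductive Al (Q : Theory D) : (D → D) → (D → D) → Prop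
  | one : Al Q (fun v => v) (fun v => v)
  | add (X X' Y Y' : D → D) : Al Q X X' → Al Q Y Y' →
      Al Q (fun v => X v + Y v) (fun v => X' v + Y' v)
  | smul (c : ℂ) (X X' : D → D) : Al Q X X' → Al Q (fun v => c • X v) (fun v => star c • X' v)
  | fld (A B : Fld D) (f : Fn) (X X' : D → D) : Q.fld A → Q.fld B → IsAdj A B → In Set.univ f →
      Al Q X X' → Al Q (fun v => A f (X v)) (fun v => X' (B (bar f) v))

/-- `t` has the same translation and Lorentz charges as `T`: for large cutoffs, the commutators of
the densities `t^{0n}` and `x^l t^{0n} - x^n t^{0l}` with the fields are those of `T`. -/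
def Same (Q : Theory D) (T t : Ix → Ix → Fld D) : Prop :=
  ∀ F B f, IsCutoff F → Q.fld B → In Set.univ f →
    ∀ᶠ R in atTop, ∀ l n v, cm (t o n) (F R) B f v = cm (T o n) (F R) B f v ∧
      cm (t o n) (xg l (F R)) B f v - cm (t o l) (xg n (F R)) B f v =
        cm (T o n) (xg l (F R)) B f v - cm (T o l) (xg n (F R)) B f v

/-- `t` is a traceless improvement of the stress tensor `T`: a symmetric, hermitian, covariant,
conserved and traceless tensor field, local relative to itself and to all fields of the theory, with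
the same translation and Lorentz charges as `T`. -/
structure IsImpr (Q : Theory D) (T t : Ix → Ix → Fld D) : Prop where
  lin : ∀ m n f g (c : ℂ) v, IsTest f → IsTest g →
    t m n (fun x => f x + c * g x) v = t m n f v + c • t m n g v
  cont : ∀ m n v, Continuous fun g => t m n (ev g) v
  symm : ∀ m n f v, IsTest f → t m n f v = t n m f v
  herm : ∀ m n, IsAdj (t m n) (t m n)
  cov : ∀ m n s L a f v, 0 < s → IsLor L → IsTest f → t m n f (Q.U s L a v) =
    ∑ k, ∑ l, (L k m * L l n : ℂ) • Q.U s L a (t k l (fun x => f (sim s L a x)) v)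
  conserved : ∀ n f v, IsTest f → ∑ m, t m n (pd m f) v = 0
  traceless : ∀ f v, IsTest f → tr t f v = 0
  loc : ∀ m n B f g v, Q.fld B → IsTest f → IsTest g → Sep f g → cm (t m n) f B g v = 0
  self : ∀ m n k l f g v, IsTest f → IsTest g → Sep f g → cm (t m n) f (t k l) g v = 0
  charge : Same Q T t

/-- `P` is a local field, with formal adjoint `P'`: a translation covariant operator valued
tempered distribution, whose operators map `D` into the Hilbert space, which commutes at spacelike
distance with every field `C` of `Q` in the class `p`. -/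
structure IsLoc (Q : Theory D) (p : Fld D → Prop) (P P' : Fn → D → Completion D) : Prop where
  linf : ∀ (f g : Fn) (c : ℂ) v, IsTest f → IsTest g →
    P (fun x => f x + c * g x) v = P f v + c • P g v
  linv : ∀ f (c : ℂ) v w, IsTest f → P f (v + c • w) = P f v + c • P f w
  cont : ∀ v, Continuous fun g => P (ev g) v
  adj : ∀ f (v w : D), IsTest f →
    inner ℂ (P f v) (w : Completion D) = inner ℂ (v : Completion D) (P' (bar f) w)
  transl : ∀ a f (v z : D), IsTest f → inner ℂ (Q.U 1 one a z : Completion D)
    (P f (Q.U 1 one a v)) = inner ℂ (z : Completion D) (P (fun x => f (sim 1 one a x)) v)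
  loc : ∀ C C' f g v z, Q.fld C → Q.fld C' → IsAdj C C' → p C → IsTest f →
    IsTest g → Sep f g → inner ℂ (C' (bar g) z : Completion D) (P f v) =
      inner ℂ (z : Completion D) (P f (C g v))

/-- A field, as a family of operators from `D` to the Hilbert space. -/
def hil (A : Fld D) : Fn → D → Completion D := fun f v => (A f v : D)

/-- The matrix element between `w` and `v` of the commutator of the charge of the current
`X^n t_{mn}` with an operator `Y` converges to `c` when the cutoff is removed; `y = Y v`, and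
`y' = Y* w`. -/
def Comm (t : Ix → Ix → Fld D) (X : Ix → V → ℝ) (w v : D) (y y' : Completion D) (c : ℂ) : Prop :=
  ∀ F, IsCutoff F → Tendsto (fun R => inner ℂ ↑(cur t (fun x n => X n x) (F R) w) y -
    inner ℂ y' ↑(cur t (fun x n => X n x) (F R) v)) atTop (𝓝 c)

/-- For every conformal Killing vector field `X` the charge of the current `X^n t_{mn}` acts on
every field `A` of `Q` by the infinitesimal conformal transformation
`-X^n ∂_n A - (∂_m X^n) S_mn A - (∂_m ∂_n X^n) K_m A` with local fields `S_mn A` and `K_m A`. -/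
structure ConfAct (Q : Theory D) (t : Ix → Ix → Fld D) : Prop where
  act : ∀ A B, Q.fld A → Q.fld B → IsAdj A B → ∃ (S S' : Ix → Ix → Fn → D → Completion D)
    (K K' : Ix → Fn → D → Completion D),
      (∀ m n, IsLoc Q (fun C => Q.bose A ∨ Q.bose C) (S m n) (S' m n)) ∧
      (∀ m, IsLoc Q (fun C => Q.bose A ∨ Q.bose C) (K m) (K' m)) ∧
      ∀ X f w v, IsKil X → In Set.univ f → Comm t X w v (hil A f v) (hil B (bar f) w)
        (Complex.I * inner ℂ (w : Completion D) (∑ n, hil A (pd n fun x => X n x * f x) v -
          ∑ m, ∑ n, S m n (fun x => pd m (fun y => (X n y : ℂ)) x * f x) v -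
          ∑ m, ∑ n, K m (fun x => pd m (pd n fun y => (X n y : ℂ)) x * f x) v))

/-- The charge of the current `X^n t_{mn}` acts on the components `P a` (with formal adjoints
`P' a`) as the infinitesimal conformal transformation `X` acts on a primary field of spin `k` and
dimension `d`: the commutator of the charge with `P` is
`i (-X^n ∂_n P - d / 4 (∂·X) P + (∂_m X^n - δ_m^n ∂·X / 4) S_mn P)`. -/
structure ActS (t : Ix → Ix → Fld D) (X : Ix → V → ℝ) (k : Rp) (d : ℝ)
    (P P' : Fin k.n → Fn → D → Completion D) : Prop where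
  act : ∀ a f (w v : D), In Set.univ f → Comm t X w v (P a f v) (P' a (bar f) w)
    (Complex.I * inner ℂ (w : Completion D) (∑ n, P a (pd n fun x => X n x * f x) v -
      ((d / 4 : ℝ) : ℂ) • P a (fun x => dvg X x * f x) v + ∑ b, ∑ m, ∑ n, k.S m n b a •
        P b (fun x => (pd m (fun y => (X n y : ℂ)) x - one m n * dvg X x / 4) * f x) v))

/-- **Conformal primaries** of spin `k` and dimension `d`: local Bose (`e = false`) or Fermi fields
(`e = true`: the twisted field `P G` is local relative to all fields) on which all conformal charges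
of `t` act as on a primary field of dimension `Re d`. -/
structure PrimS (Q : Theory D) (G : D → D) (t : Ix → Ix → Fld D) (e : Bool) (k : Rp) (d : ℂ)
    (P P' : Fin k.n → Fn → D → Completion D) : Prop where
  loc : ∀ a, ∃ R, IsLoc Q (fun _ => True) (fun f v => P a f (if e then G v else v)) R
  adj : ∀ a f (v w : D), IsTest f →
    inner ℂ (P a f v) (w : Completion D) = inner ℂ (v : Completion D) (P' a (bar f) w)
  cov : ∀ a (s : ℝ) L f (v z : D), 0 < s → IsLor L → IsTest f →
    inner ℂ (Q.U s L 0 z : Completion D) (P a f (Q.U s L 0 v)) = ∑ b,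
      (s : ℂ) ^ (4 - d) * k.ρ L b a *
        inner ℂ (z : Completion D) (P b (fun x => f (sim s L 0 x)) v)
  act : ∀ X, IsKil X → ActS t X k d.re P P'

/-- The field `A` is a finite linear combination of derivatives of conformal primaries. -/
def DescS (Q : Theory D) (G : D → D) (t : Ix → Ix → Fld D) (e : Bool) (A : Fld D) : Prop :=
  ∃ (n : ℕ) (k : Fin n → Rp) (d c : Fin n → ℂ) (α : Fin n → List Ix) (a : ∀ i, Fin (k i).n)
    (P P' : ∀ i, Fin (k i).n → Fn → D → Completion D),
    (∀ i, PrimS Q G t e (k i) (d i) (P i) (P' i)) ∧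
    ∀ f v, IsTest f → hil A f v = ∑ i, c i • P i (a i) ((α i).foldr pd f) v

/-- **Conformal field theories with fermions.** The vacuum is invariant under the conformal charges
of `t`. On every multiplet of Bose fields or of Fermi fields with a spin and a scaling dimension `d`
the charges of `t` generate the similitudes, with the dimension `Re d`, and its components are finite
linear combinations of derivatives of conformal primaries. -/
structure CFS (Q : Theory D) (G : D → D) (t : Ix → Ix → Fld D) : Prop where
  ward : ∀ X Y Y', IsKil X → Al Q Y Y' → Comm t X Q.vac Q.vac (Y Q.vac : D) (Y' Q.vac : D) 0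
  mp : ∀ (e : Bool) k d (Φ Φ' : Fin k.n → Fld D), IsMl Q k Φ → (∀ a, Dim Q d (Φ a) ∧
    (if e then Fer Q G (Φ a) else Q.bose (Φ a)) ∧ IsAdj (Φ a) (Φ' a)) →
    (∀ r X, IsSim r X → ActS t (fun n x => X x n) k d.re (fun a => hil (Φ a)) fun a => hil (Φ' a)) ∧
      ∀ a, DescS Q G t e (Φ a)

/-- Every field is a finite linear combination of derivatives of conformal primaries. -/
def Desc (R : Theory D) (G : D → D) (t : Ix → Ix → Fld D) : Prop :=
  ∀ B, R.fld B → ∃ (n : ℕ) (e : Fin n → Bool) (C : Fin n → Fld D),
    (∀ j, DescS R G t (e j) (C j)) ∧ ∀ f v, IsTest f → B f v = ∑ j, C j f v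

/-- **Conformal invariance.** `t = S + (∂∂ - η □) L`, with fields `S` and `L` of `R`, is a traceless
improvement of `T` whose charges act on all fields by the infinitesimal conformal transformations. -/
structure Conf (R : Theory D) (G : D → D) (T t : Ix → Ix → Fld D) : Prop where
  form : ∃ S L, R.IsStress S ∧ R.IsScalar L 2 ∧ t = improve S L
  impr : IsImpr R T t
  act : ConfAct R t
  cfs : CFS R G t
  desc : MfA R → FSL R → Desc R G t

/-- The fields are covariant under the similitude `x ↦ s L x + a`: every field transforms into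
a linear combination of fields. -/
def Cov (Q : Theory D) (s : ℝ) (L : Ix → V) (a : V) : Prop := DenseRange (Q.U s L a) ∧
  ∀ B, Q.fld B → ∃ (n : ℕ) (c : Fin n → ℂ) (A : Fin n → Fld D), (∀ i, Q.fld (A i)) ∧
    ∀ f v, IsTest f →
      Q.U s L a (B (fun x => f (sim s L a x)) v) = ∑ i, c i • A i f (Q.U s L a v)

/-- The field `A'` extends the field `A` along the isometry `i`. -/
def Xt (i : D →ₗᵢ[ℂ] D') (A : Fld D) (A' : Fld D') : Prop :=
  ∀ f v, IsTest f → i (A f v) = A' f (i v)

/-- **Sectors.** The theory `Q` is a sector of the scale covariant theory `Q'` (which may contain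
spinor fields): the vacuum and the similitudes of `Q` are restrictions of those of `Q'`, and the Bose
fields of `Q`, with their adjoints, are restrictions of Bose fields of `Q'`. -/
structure Sect (Q : Theory D) (Q' : Theory D') (i : D →ₗᵢ[ℂ] D') : Prop where
  vac : i Q.vac = Q'.vac
  U : ∀ s L a v, 0 < s → IsLor L → i (Q.U s L a v) = Q'.U s L a (i v)
  cov : ∀ s L a, 0 < s → IsLor L → Cov Q' s L a
  bose : ∀ A B, Q.bose A → IsAdj A B →
    ∃ A' B', Q'.bose A' ∧ IsAdj A' B' ∧ Xt i A A' ∧ Xt i B B'

/-- `Q'` has the same vacuum and the same representation of the similitudes as `Q`, and all fields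
of `Q`. -/
structure IsEnl (Q Q' : Theory D) : Prop where
  vac : Q'.vac = Q.vac
  U : Q'.U = Q.U
  fld : ∀ A, Q.fld A → Q'.fld A
  bose : ∀ A, Q.bose A → Q'.bose A

/-- **Local extensions.** The theory `P`, graded by `G'`, extends the theory `Q` in the same Hilbert
space, in which its domain is embedded by `k`: it has the vacuum, the grading and the representation
of the similitudes of `Q`, and every (Bose) field `B` of `Q` gives a (Bose) field `e B` of `P` that
agrees with `B` on the vectors generated from the vacuum by the fields of `Q`. -/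
structure Ext (Q : Theory D) (Γ : Completion D →L[ℂ] Completion D) (P : Theory D')
    (k : D' →ₗᵢ[ℂ] Completion D) (G' : D' → D') (e : Fld D → Fld D') : Prop extends Gr P G' where
  vac : k P.vac = om Q
  G : ∀ v, k (G' v) = Γ (k v)
  U : ∀ s L a v, 0 < s → IsLor L → k (P.U s L a v) = Ue Q s L a (k v)
  fld : ∀ B, Q.fld B → P.fld (e B)
  bos : ∀ B, Q.bose B → P.bose (e B)
  adj : ∀ B B', Q.fld B → Q.fld B' → IsAdj B B' → IsAdj (e B) (e B')
  agree : ∀ B f v (w : D), Q.fld B → IsTest f → Cyc Q w → k v = w → k (e B f v) = (B f w : D)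

/-- The graded theory `R`, with the stress tensor `T'` whose charges generate the Poincaré
transformations, contains `Q` with its stress tensor `T` as a sector: `R` has more local fields, or
more sectors. -/
structure Over (Q : Theory D) (T : Ix → Ix → Fld D) (R : Theory D') (i : D →ₗᵢ[ℂ] D')
    (G' : D' → D') (T' : Ix → Ix → Fld D') : Prop where
  sect : Sect Q R i
  grading : Gr R G'
  stress : Stress R T'
  poincare : PGen R T'
  ext : ∀ m n, Xt i (T m n) (T' m n)

/-- **`R` contains the fields that are relatively local to those of `Q`** (it is enough for scalars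
of dimension two). Every hermitian scalar Bose field `L` of dimension two of a local extension `P`
of `Q` creates the same vectors from the vacuum as some Bose field of `R`. -/
structure Max (Q : Theory D) (Γ : Completion D →L[ℂ] Completion D) (R : Theory D')
    (i : D →ₗᵢ[ℂ] D') : Prop where
  max : ∀ (E : Type u) [NormedAddCommGroup E] [InnerProductSpace ℂ E] (P : Theory E) k G' e L,
    Ext Q Γ P k G' e → P.IsScalar L 2 → ∃ B, R.bose B ∧ ∀ f, IsTest f →
      hil B f R.vac = Completion.map i (k (L f P.vac))

variable (D D') in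
/-- **The theorem**, for theories with the domains `D` and `D'`. -/
structure Thm : Prop where
  conf : ∀ (Q : Theory D) G T Γ N, Hy Q G T Γ N → Max Q Γ Q .id → ∃ t, Conf Q G T t ∧ Desc Q G t
  sup : ∀ (Q : Theory D) G T Γ N (R : Theory D') i G' T', Hy Q G T Γ N → Over Q T R i G' T' →
    Max Q Γ R i → ∃ t, Conf R G' T' t
  ext : ∀ (Q : Theory D) G T Γ N, Hy Q G T Γ N → ∃ S, Q.IsStress S ∧ Same Q T S ∧
    ∃ (E : Type u) (_ : NormedAddCommGroup E) (_ : InnerProductSpace ℂ E) (P : Theory E)
      (k : E →ₗᵢ[ℂ] Completion D) (G' : E → E) (e : Fld D → Fld E) (t : Ix → Ix → Fld E),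
      Ext Q Γ P k G' e ∧ Desc P G' t ∧
        ∀ R, IsEnl P R → Gr R G' → Conf R G' (fun m n => e (S m n)) t
  uni : ∀ Q : Theory D, UVac Q → IVac Q

variable (D) in
/-- There is a nontrivial theory with a unique vacuum that satisfies all hypotheses. -/
inductive Wit : Prop
  | mk (Q : Theory D) (T N J B) (h : Hy Q id T 1 N ∧ Max Q 1 Q .id ∧ UVac Q ∧ Vir Q T J ∧ CntF Q ∧
      Aff Q N ∧ Rel Q 1 N ∧ Q.IsScalar B 1 ∧ (∃ f, IsTest f ∧ B f Q.vac ≠ 0) ∧
      ¬FiniteDimensional ℂ (Completion D) ∧ ∃ f, IsTest f ∧ tr T f Q.vac ≠ 0) : Wit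

variable (D) in
/-- There is a nontrivial theory with a degenerate vacuum that satisfies all hypotheses. -/
inductive WitD : Prop
  | mk (Q : Theory D) (T N) (h : Hy Q id T 1 N ∧ Max Q 1 Q .id ∧ ¬UVac Q ∧
      ∃ f, IsTest f ∧ tr T f Q.vac ≠ 0) : WitD

end

end Vale.Agent.N352.Dn
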