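import Vale.Agent.N352.DefF

namespace Vale.Agent.N352.Dn

open P352.GF
open UniformSpace (Completion)

noncomputable section

universe u v

variable {D : Type u} {D' : Type v} [NormedAddCommGroup D] [InnerProductSpace ℂ D]
  [NormedAddCommGroup D'] [InnerProductSpace ℂ D']

/-- The derivative at `0` of the translations in the direction `m`. -/
def Dv (Q : Theory D) (m : Ix) (v : D) : D := deriv (fun t : ℝ => Q.U 1 one (bas m t) v) 0

/-- Energy-momentum norms: the sum of the norms of all derivatives of order at most `k` of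
`a ↦ U(a) v` at `a = 0`. -/
def en (Q : Theory D) (k : ℕ) : D → ℝ := k.rec (fun v => ‖v‖) fun _ e v => e v + ∑ m, e (Dv Q m v)

/-- **Polynomial energy bounds.** The smeared fields are bounded by a power of energy and momentum
that depends on the field only. -/
def EBd (Q : Theory D) : Prop := ∀ B, Q.fld B → ∃ k, ∀ f, In Set.univ f → ∃ C : ℝ, ∀ v,
  Cyc Q v → ‖B f v‖ ≤ C * en Q k v

/-- **Form bounds for the stress tensor.** The expectation values of the smeared stress tensor are
bounded by those of `1 + H`, `H` the energy. -/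
def FBT (Q : Theory D) (T : Ix → Ix → Fld D) : Prop := ∀ m n f, In Set.univ f → ∃ C : ℝ, ∀ v,
  Cyc Q v → ‖inner ℂ v (T m n f v)‖ ≤ C * (‖v‖ ^ 2 + ‖inner ℂ v (Dv Q o v)‖)

/-- Future directed null vectors. -/
def IsNull (a : V) : Prop := mdot a a = 0 ∧ 0 < a o

/-- The wedge that is bounded by the null hyperplanes through `y` orthogonal to the null vectors
`a` and `b`. -/
def Wdg (a b y : V) : Set V := {x | mdot a (x - y) < 0 ∧ 0 < mdot b (x - y)}

/-- **Strong locality of the stress tensor.** A component of `T`, smeared with a real function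
supported in a wedge, commutes weakly with the commutant of a von Neumann algebra `M`, and all
fields smeared in the opposite wedge commute weakly with `M`. -/
structure SL (Q : Theory D) (T : Ix → Ix → Fld D) : Prop where
  loc : ∀ a b m n f, IsNull a → IsNull b → mdot a b = 1 → In (Wdg a b 0) f → bar f = f →
    ∃ M : VonNeumannAlgebra (Completion D), (∀ Y ∈ M, Wk Q (Wdg b a 0) Y) ∧
      ∀ Y ∈ M.commutant, ∀ v w : D, Cyc Q v → Cyc Q w →
        inner ℂ (T m n f w : Completion D) (Y v) = inner ℂ (w : Completion D) (Y (T m n f v : D))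

/-- The fields form a covariant vector space of countable dimension, or they are finite sums of
components of multiplets with finite scaling laws (logarithms are allowed). -/
def Flds (Q : Theory D) : Prop := CntF Q ∨ MfA Q ∧ FSL Q

/-- **Linear energy bounds** for the fields of the subtheory `R` of `Q`. -/
def LEB (R Q : Theory D) : Prop := ∀ B f, R.fld B → In Set.univ f → ∃ C : ℝ, ∀ v, Cyc Q v →
  ‖B f v‖ ≤ C * (‖v‖ + ‖Dv Q o v‖)

/-- The vacuum is an analytic vector for the hermitian parts of the smeared fields. -/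
def Ana (Q : Theory D) : Prop := ∀ B B' f, Q.fld B → IsAdj B B' → In Set.univ f → ∃ C : ℝ, ∀ n : ℕ,
  ‖(fun w => B f w + B' (bar f) w)^[n] Q.vac‖ ≤ C ^ (n + 1) * n.factorial

/-- `N` is a net to which the fields are affiliated or relatively local. -/
structure Lnt (Q : Theory D) (G : D → D) (Γ : Completion D →L[ℂ] Completion D)
    (N : Set V → VonNeumannAlgebra (Completion D)) : Prop extends Net Q G Γ N where
  fld : Aff Q N ∨ Rel Q Γ N

/-- **Regularity**: one of the standard conditions that exclude pathologies of unbounded operators.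
There is a net; or the fields obey energy bounds; or the vacuum is cyclic for a subtheory `R` for
which it is an analytic vector, or which obeys linear energy bounds. -/
inductive Rgl (Q : Theory D) (G : D → D) (T : Ix → Ix → Fld D)
    (Γ : Completion D →L[ℂ] Completion D) (N : Set V → VonNeumannAlgebra (Completion D)) : Prop
  | net (h : Lnt Q G Γ N) : Rgl Q G T Γ N
  | energy (h : EBd Q ∧ (FBT Q T ∨ SL Q T)) : Rgl Q G T Γ N
  | sub (R) (h : IsEnl R Q ∧ Gr R G ∧ Flds R ∧ (Ana R ∨ EBd Q ∧ LEB R Q)) : Rgl Q G T Γ N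

/-- **The hypotheses** on the theory `Q`, graded by `G = (-1)^F`, with the stress tensor `T`. The
family `N` of von Neumann algebras is arbitrary, unless the regularity comes from a net. -/
structure Hz (Q : Theory D) (G : D → D) (T : Ix → Ix → Fld D)
    (Γ : Completion D →L[ℂ] Completion D) (N : Set V → VonNeumannAlgebra (Completion D)) :
    Prop where
  grading : Gr Q G
  even : G Q.vac = Q.vac
  ext : ∀ v : D, Γ v = (G v : D)
  stress : Stress Q T
  poincare : PGen Q T
  scale : (∃ J, Vir Q T J) ∨ IVac Q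
  fields : Flds Q
  regular : Rgl Q G T Γ N

/-- The bounded operator `Y` commutes weakly with the fields of `P` smeared in `O`; the domain of
`P` is embedded by `k`. -/
structure Wl (P : Theory D') (k : D' →ₗᵢ[ℂ] Completion D) (O : Set V)
    (Y : Completion D →L[ℂ] Completion D) : Prop where
  wk : ∀ B B' f v w, P.fld B → IsAdj B B' → In O f →
    inner ℂ (k (B' (bar f) w)) (Y (k v)) = inner ℂ (k w) (Y (k (B f v)))

/-- A local extension `P` of `Q` whose fields are also local relative to `N`, if `N` is a net. -/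
structure Exn (Q : Theory D) (g : D → D) (Γ : Completion D →L[ℂ] Completion D)
    (N : Set V → VonNeumannAlgebra (Completion D)) (P : Theory D') (k : D' →ₗᵢ[ℂ] Completion D)
    (G' : D' → D') (e : Fld D → Fld D') : Prop extends Ext Q Γ P k G' e where
  rel : Lnt Q g Γ N → ∀ a b y O, IsNull a → IsNull b → mdot a b = 1 → Reg O → Spc O (Wdg a b y) →
    ∀ X ∈ N O, Wl P k (Wdg a b y) (X + Γ * X * Γ) ∧ Wl P k (Wdg a b y) ((X - Γ * X * Γ) * Γ)

/-- **`R` contains the fields that are relatively local to those of `Q`** (it is enough for scalars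
of dimension two). Every hermitian scalar Bose field `L` of dimension two of a local extension `P`
of `Q` creates the same vectors from the vacuum as some Bose field of `R`. -/
structure Maz (Q : Theory D) (G : D → D) (Γ : Completion D →L[ℂ] Completion D)
    (N : Set V → VonNeumannAlgebra (Completion D)) (R : Theory D') (i : D →ₗᵢ[ℂ] D') : Prop where
  max : ∀ (E : Type u) [NormedAddCommGroup E] [InnerProductSpace ℂ E] (P : Theory E) k G' e L,
    Exn Q G Γ N P k G' e → P.IsScalar L 2 → ∃ B, R.bose B ∧ ∀ f, IsTest f →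
      hil B f R.vac = Completion.map i (k (L f P.vac))

variable (D D') in
/-- **The theorem**, for theories with the domains `D` and `D'`. -/
structure Thz : Prop where
  conf : ∀ (Q : Theory D) G T Γ N, Hz Q G T Γ N → Maz Q G Γ N Q .id →
    ∃ t, Conf Q G T t ∧ Desc Q G t
  sup : ∀ (Q : Theory D) G T Γ N (R : Theory D') i G' T', Hz Q G T Γ N → Over Q T R i G' T' →
    Maz Q G Γ N R i → ∃ t, Conf R G' T' t
  ext : ∀ (Q : Theory D) G T Γ N, Hz Q G T Γ N → ∃ S, Q.IsStress S ∧ Same Q T S ∧
    ∃ (E : Type u) (_ : NormedAddCommGroup E) (_ : InnerProductSpace ℂ E) (P : Theory E)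
      (k : E →ₗᵢ[ℂ] Completion D) (G' : E → E) (e : Fld D → Fld E) (t : Ix → Ix → Fld E),
      Exn Q G Γ N P k G' e ∧ Desc P G' t ∧
        ∀ R, IsEnl P R → Gr R G' → Conf R G' (fun m n => e (S m n)) t
  uni : ∀ Q : Theory D, UVac Q → IVac Q
  der : ∀ (Q : Theory D) G T Γ N m v, Hz Q G T Γ N → Cyc Q v →
    HasDerivAt (fun t : ℝ => Q.U 1 one (bas m t) v) (Dv Q m v) 0

variable (D) in
/-- There is a nontrivial theory with a unique vacuum that satisfies all hypotheses. -/
inductive Wiz : Prop
  | mk (Q R : Theory D) (T N J B) (h : Hz Q id T 1 N ∧ Maz Q id 1 N Q .id ∧ UVac Q ∧ Vir Q T J ∧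
      CntF Q ∧ (Net Q id 1 N ∧ Aff Q N ∧ Rel Q 1 N) ∧ (EBd Q ∧ FBT Q T ∧ SL Q T) ∧
      (IsEnl R Q ∧ Gr R id ∧ Flds R ∧ Ana R ∧ LEB R Q) ∧ Q.IsScalar B 1 ∧
      (∃ f, IsTest f ∧ B f Q.vac ≠ 0) ∧
      ¬FiniteDimensional ℂ (Completion D) ∧ ∃ f, IsTest f ∧ tr T f Q.vac ≠ 0) : Wiz

variable (D) in
/-- There is a nontrivial theory with a degenerate vacuum that satisfies the hypotheses. -/
inductive WizD : Prop
  | mk (Q : Theory D) (T N) (h : Hz Q id T 1 N ∧ Maz Q id 1 N Q .id ∧ ¬UVac Q ∧
      ∃ f, IsTest f ∧ tr T f Q.vac ≠ 0) : WizD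

end

end Vale.Agent.N352.Dn
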