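import Vale.Agent.P352.MathlibUsed
import Mathlib.Analysis.VonNeumannAlgebra.Basic

open MeasureTheory Filter Topology
open scoped SchwartzMap

namespace Vale.Agent.N352.Dh

noncomputable section

/-- Space-time indices. -/
abbrev Ix := Fin 4

/-- Minkowski space. -/
abbrev V := Ix → ℝ

/-- Complex functions on Minkowski space. -/
abbrev Fn := V → ℂ

/-- Schwartz space. -/
abbrev Sch := 𝓢(V, ℂ)

/-- The function underlying an element of Schwartz space. -/
def ev (g : Sch) : Fn := g

/-- Test functions. -/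
def IsTest (f : Fn) : Prop := ∃ g, ev g = f

/-- Test functions with compact support in the region `W`. -/
def In (W : Set V) (f : Fn) : Prop := IsTest f ∧ HasCompactSupport f ∧ tsupport f ⊆ W

/-- The time index. -/
def o : Ix := 0

/-- Diagonal of the metric, signature `(+,-,-,-)`. -/
def eta (m : Ix) : ℝ := if m = o then 1 else -1

/-- Minkowski product. -/
def mdot (x y : V) : ℝ := ∑ m, eta m * x m * y m

/-- `t` times the `m`-th coordinate unit vector. -/
def bas (m : Ix) (t : ℝ) : V := fun n => if n = m then t else 0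

/-- Partial derivatives. -/
def pd (m : Ix) (f : Fn) : Fn := fun x => deriv (fun t => f fun n => x n + bas m t n) 0

/-- Complex conjugation. -/
def bar (f : Fn) : Fn := fun x => star (f x)

/-- The similitude `x ↦ s L x + a`; the vector `L m` is the image of the `m`-th unit vector. -/
def sim (s : ℝ) (L : Ix → V) (a x : V) : V := fun n => a n + s * ∑ m, x m * L m n

/-- The identity matrix. -/
def one : Ix → V := fun m => bas m 1

/-- Proper orthochronous Lorentz transformations. -/
def IsLor (L : Ix → V) : Prop :=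
  (∀ m n, mdot (L m) (L n) = bas m (eta m) n) ∧ 0 < L o o ∧ Matrix.det L = 1

/-- Space-like separated regions. -/
def Spc (O O' : Set V) : Prop := ∀ x ∈ O, ∀ y ∈ O', mdot (x - y) (x - y) < 0

/-- The supports of `f` and `g` are space-like separated. -/
def Sep (f g : Fn) : Prop := Spc (tsupport f) (tsupport g)

/-- Bounded open regions. -/
def Reg (O : Set V) : Prop := IsOpen O ∧ Bornology.IsBounded O

/-- Future directed null vectors. -/
def IsNull (a : V) : Prop := mdot a a = 0 ∧ 0 < a o

/-- The wedge that is bounded by the null hyperplanes through `y` orthogonal to the null vectors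
`a` and `b`. Its causal complement is the opposite wedge `Wdg b a y`. -/
def Wdg (a b y : V) : Set V := {x | mdot a (x - y) < 0 ∧ 0 < mdot b (x - y)}

/-- Cutoffs `F R x = a(x⁰) c(x⃗ / R)` with smooth compactly supported `a`, `c`, `∫ a = 1` and
`c = 1` near zero. -/
def IsCutoff (F : ℝ → Fn) : Prop := ∃ (a : ℝ → ℝ) (c : V → ℝ), HasCompactSupport a ∧
  HasCompactSupport c ∧ ∫ t, a t = 1 ∧ (∀ᶠ x in 𝓝 0, c x = 1) ∧
  ∀ R > 0, IsTest (F R) ∧ ∀ x, F R x = a (x o) * c fun n => if n = o then 0 else x n / R

/-- The conformal Killing vector fields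
`X(x) = a + r x + w x + 2 (b, x) x - (x, x) b` with an infinitesimal Lorentz transformation `w`. -/
inductive IsKil (X : Ix → V → ℝ) : Prop
  | mk (a b : V) (r : ℝ) (w : Ix → V) (h : ∀ m n, eta n * w m n = -(eta m * w n m)) (e : ∀ n x,
    X n x = a n + r * x n + ∑ m, x m * w m n + 2 * mdot b x * x n - mdot x x * b n) : IsKil X

/-- The function `x ↦ x^l g(x)`. -/
def xg (l : Ix) (g : Fn) : Fn := fun x => (x l : ℂ) * g x

/-- The divergence of a vector field. -/
def dvg (X : Ix → V → ℝ) : Fn := fun x => ∑ n, pd n (fun y => (X n y : ℂ)) x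

/-- **Spins.** A finite dimensional representation `ρ`, up to sign, of the Lorentz group (tensors
and spinors), with the spin matrices `sp`. -/
structure Rp where
  dm : ℕ
  ρ : (Ix → V) → Matrix (Fin dm) (Fin dm) ℂ
  sp : Ix → Ix → Matrix (Fin dm) (Fin dm) ℂ
  id : ρ one = 1
  mul : ∀ L L', IsLor L → IsLor L' → ρ (fun m => sim 1 L 0 (L' m)) = ρ L' * ρ L ∨
    ρ (fun m => sim 1 L 0 (L' m)) = -(ρ L' * ρ L)
  der : ∀ (L : ℝ → Ix → V) (w : Ix → V) a b, L 0 = one → (∀ e, IsLor (L e)) →
    (∀ m n, HasDerivAt (fun e => L e m n) (w m n) 0) →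
    HasDerivAt (fun e => ρ (L e) a b) (∑ m, ∑ n, w m n * sp m n a b) 0

/-- Operator valued distributions; only the values on test functions and on a domain matter. -/
abbrev Fld (H : Type*) := Fn → H → H

variable (H : Type*) [NormedAddCommGroup H] [InnerProductSpace ℂ H] [CompleteSpace H]

/-- **Kinematics.** The vacuum `Ω` in the Hilbert space `H`, the grading `Γ = (-1)^F`, and a unitary
representation `U`, up to `Γ`, of the translations, Lorentz transformations and dilations, with
positive energy. -/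
structure Frame where
  Ω : H
  Γ : H →L[ℂ] H
  U : ℝ → (Ix → V) → V → H → H
  norm : ‖Ω‖ = 1
  inv : Γ * Γ = 1
  herm : star Γ = Γ
  even : Γ Ω = Ω
  unitary : ∀ s L a v w, 0 < s → IsLor L → inner ℂ (U s L a v) (U s L a w) = inner ℂ v w
  vac : ∀ s L a, 0 < s → IsLor L → U s L a Ω = Ω
  comm : ∀ s L a v, 0 < s → IsLor L → U s L a (Γ v) = Γ (U s L a v)
  mul : ∀ s L a s' L' a', 0 < s → 0 < s' → IsLor L → IsLor L' →
    (∀ v, U s L a (U s' L' a' v) = U (s * s') (fun m => sim 1 L 0 (L' m)) (sim s L a a') v) ∨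
    L ≠ one ∧ L' ≠ one ∧
      ∀ v, U s L a (U s' L' a' v) = Γ (U (s * s') (fun m => sim 1 L 0 (L' m)) (sim s L a a') v)
  spectrum : ∀ v, ∃ ν : Measure V, IsFiniteMeasure ν ∧ (∀ᵐ p ∂ν, 0 ≤ p o ∧ 0 ≤ mdot p p) ∧
    ∀ a, inner ℂ v (U 1 one a v) = ∫ p, Complex.exp (Complex.I * mdot p a) ∂ν

variable {H}

/-- `B` is a formal adjoint of `A` on the domain `D`. -/
def Adj (D : Submodule ℂ H) (A B : Fld H) : Prop :=
  ∀ f, IsTest f → ∀ v ∈ D, ∀ w ∈ D, inner ℂ (A f v) w = inner ℂ v (B (bar f) w)

/-- `A` is even (`c = 1`) or odd (`c = -1`). -/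
structure Par (K : Frame H) (D : Submodule ℂ H) (c : ℂ) (A : Fld H) : Prop where
  par : ∀ f, IsTest f → ∀ v ∈ D, A f (K.Γ v) = c • K.Γ (A f v)

/-- The subspace `S` contains `z` and is invariant under the smeared fields in the class `p`. -/
def Inv (z : H) (p : Fld H → Prop) (S : Submodule ℂ H) : Prop :=
  z ∈ S ∧ ∀ A f, p A → IsTest f → ∀ v ∈ S, A f v ∈ S

/-- **Quantum field theories**: a set of operator valued tempered distributions with a common
invariant domain `dom`, for which the vacuum is cyclic. It contains adjoints and the even (Bose) and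
odd (Fermi) parts of its fields, and the fields are translation covariant and local. -/
structure Theory (K : Frame H) where
  dom : Submodule ℂ H
  fld : Fld H → Prop
  inv : Inv K.Ω fld dom
  gam : ∀ v ∈ dom, K.Γ v ∈ dom
  rep : ∀ s L a, 0 < s → IsLor L → ∀ v ∈ dom, K.U s L a v ∈ dom
  cyclic : ∀ S, Inv K.Ω fld S → Dense (S : Set H)
  lin : ∀ A f g (c : ℂ), fld A → IsTest f → IsTest g → ∀ v ∈ dom,
    A (fun x => f x + c * g x) v = A f v + c • A g v
  cont : ∀ A, fld A → ∀ v ∈ dom, ∀ w ∈ dom, Continuous fun g => inner ℂ w (A (ev g) v)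
  adj : ∀ A, fld A → ∃ B, fld B ∧ Adj dom A B
  split : ∀ A, fld A → ∃ B C, fld B ∧ fld C ∧ Par K dom 1 B ∧ Par K dom (-1) C ∧
    ∀ f, IsTest f → ∀ v ∈ dom, A f v = B f v + C f v
  transl : ∀ A a f, fld A → IsTest f → ∀ v ∈ dom,
    A f (K.U 1 one a v) = K.U 1 one a (A (fun x => f (sim 1 one a x)) v)
  loc : ∀ A B f g, fld A → fld B → IsTest f → IsTest g → Sep f g → ∀ v ∈ dom,
    (Par K dom 1 A → A f (B g v) = B g (A f v)) ∧
      (Par K dom (-1) A → Par K dom (-1) B → A f (B g v) = -B g (A f v))

variable {K : Frame H}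

/-- Bose fields. -/
def Bose (Q : Theory K) (A : Fld H) : Prop := Q.fld A ∧ Par K Q.dom 1 A

/-- The vectors that the smeared fields generate from the vacuum. -/
def Cyc (Q : Theory K) (w : H) : Prop := ∀ S, Inv K.Ω Q.fld S → w ∈ S

/-- The commutator of `t g` and `B f`, applied to `v`. -/
def cm (t : Fld H) (g : Fn) (B : Fld H) (f : Fn) (v : H) : H := t g (B f v) - B f (t g v)

/-- The density `X^n T_{0n}` of the current of `T` and the vector field `X`. -/
def cur (T : Ix → Ix → Fld H) (X : V → V) : Fld H := fun g u =>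
  ∑ n, T o n (fun x => (eta n : ℂ) * X x n * g x) u

/-- The trace of a tensor field. -/
def tr (T : Ix → Ix → Fld H) : Fld H := fun f v => ∑ m, (eta m : ℂ) • T m m f v

/-- The improved tensor `T^{mn} + (∂^m ∂^n - η^{mn} □) L`. -/
def improve (T : Ix → Ix → Fld H) (L : Fld H) : Ix → Ix → Fld H := fun m n f v =>
  T m n f v + (eta m * eta n : ℂ) • L (pd m (pd n f)) v -
    (bas m (eta m) n : ℂ) • ∑ k, (eta k : ℂ) • L (pd k (pd k f)) v

/-- Hermitian scalar fields of scaling dimension `d`. -/
structure Scalar (Q : Theory K) (A : Fld H) (d : ℝ) : Prop where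
  bose : Bose Q A
  herm : Adj Q.dom A A
  cov : ∀ s L a f, 0 < s → IsLor L → IsTest f → ∀ v ∈ Q.dom, A f (K.U s L a v) =
    ((s ^ (4 - d) : ℝ) : ℂ) • K.U s L a (A (fun x => f (sim s L a x)) v)

/-- A symmetric conserved stress tensor with contravariant components `T m n`. Its behaviour under
dilations is not prescribed. -/
structure Stress (Q : Theory K) (T : Ix → Ix → Fld H) : Prop where
  bose : ∀ m n, Bose Q (T m n)
  herm : ∀ m n, Adj Q.dom (T m n) (T m n)
  symm : ∀ m n f, IsTest f → ∀ v ∈ Q.dom, T m n f v = T n m f v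
  cov : ∀ m n L a f, IsLor L → IsTest f → ∀ v ∈ Q.dom, T m n f (K.U 1 L a v) =
    ∑ k, ∑ l, (L k m * L l n : ℂ) • K.U 1 L a (T k l (fun x => f (sim 1 L a x)) v)
  conserved : ∀ n f, IsTest f → ∀ v ∈ Q.dom, ∑ m, T m n (pd m f) v = 0

/-- **The charge of the density `j` generates the transformations `u e`.** The commutator of the
regularized charge `q` with a smeared field `B f`, applied to the vacuum, converges weakly when the
cutoff is removed, and `i [q, B f] Ω` is the derivative of `u e (B f Ω)` at `e = 0`. -/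
def Gen (Q : Theory K) (u : ℝ → H → H) (j : Fld H) : Prop :=
  ∀ F B f, IsCutoff F → Q.fld B → In Set.univ f → ∀ w ∈ Q.dom, ∃ c,
    Tendsto (fun R => inner ℂ w (cm j (F R) B f K.Ω)) atTop (𝓝 c) ∧
      HasDerivAt (fun e => inner ℂ w (u e (B f K.Ω))) (Complex.I * c) 0

/-- **The charges of `T` generate the translations and the Lorentz transformations**: for every
curve of Poincaré transformations through the identity, with velocity field `X`, the charge of the
current `X^n T_{mn}` generates the curve. -/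
def PGen (Q : Theory K) (T : Ix → Ix → Fld H) : Prop :=
  ∀ (L : ℝ → Ix → V) (a : ℝ → V) (X : V → V), L 0 = one → a 0 = 0 → (∀ e, IsLor (L e)) →
    (∀ n x, HasDerivAt (fun e => sim 1 (L e) (a e) x n) (X x n) 0) →
    Gen Q (fun e => K.U 1 (L e) (a e)) (cur T X)

/-- **Virial currents.** `J` is a local field with `T^m_m = ∂_m J^m`, and the charge of the current
`x^n T_{mn} - J_m` generates the dilations. -/
structure Vir (Q : Theory K) (T : Ix → Ix → Fld H) (J : Ix → Fld H) : Prop where
  bose : ∀ m, Bose Q (J m)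
  div : ∀ f, IsTest f → ∀ v ∈ Q.dom, tr T f v = -∑ m, J m (pd m f) v
  gen : Gen Q (fun e => K.U (Real.exp e) one 0) fun g v => cur T (fun x => x) g v - J o g v

/-- **Finite spin.** `A` is a finite sum of components of multiplets `Φ i` of fields. -/
inductive Spin (Q : Theory K) (A : Fld H) : Prop
  | mk (n : ℕ) (k : Fin n → Rp) (Φ : ∀ i, Fin (k i).dm → Fld H) (a : ∀ i, Fin (k i).dm)
    (mem : ∀ i b, Q.fld (Φ i b))
    (cov : ∀ i b L f, IsLor L → IsTest f → ∀ v ∈ Q.dom, Φ i b f (K.U 1 L 0 v) =
      ∑ c, (k i).ρ L c b • K.U 1 L 0 (Φ i c (fun x => f (sim 1 L 0 x)) v))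
    (sum : ∀ f, IsTest f → ∀ v ∈ Q.dom, A f v = ∑ i, Φ i (a i) f v) : Spin Q A

/-- **Finite scaling support.** The dilates of `A` are the sums over `(d, j)` in a finite set `F` of
`s ^ (4 - d) (log s) ^ j` times fields `B (d, j)`; the dimensions `d` are arbitrary. -/
inductive Scl (Q : Theory K) (A : Fld H) : Prop
  | mk (F : Finset (ℂ × ℕ)) (B : ℂ × ℕ → Fld H) (mem : ∀ p, Q.fld (B p))
    (law : ∀ (s : ℝ) f, 0 < s → IsTest f → ∀ v ∈ Q.dom, A f (K.U s one 0 v) =
      ∑ p ∈ F, ((s : ℂ) ^ (4 - p.1) * (Real.log s : ℂ) ^ p.2) •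
        K.U s one 0 (B p (fun x => f (sim s one 0 x)) v)) : Scl Q A

/-- All fields have finite spin and finite scaling support. -/
def Fin' (Q : Theory K) : Prop := ∀ A, Q.fld A → Spin Q A ∧ Scl Q A

/-- `A` and `B` agree on the domain. -/
def Eq' (Q : Theory K) (A B : Fld H) : Prop := ∀ f, IsTest f → ∀ v ∈ Q.dom, A f v = B f v

/-- The linear span of a set of fields. -/
def Sp (S : Set (Fld H)) : Set (Fld H) := Submodule.span ℂ S

/-- **Countably many fields.** The fields form a vector space of countable dimension, which is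
invariant under the dilations and the Lorentz transformations, and the dilations act continuously.
This holds if the fields are finite sums of generalized eigenvectors of the dilations, with a
discrete spectrum of finite multiplicity. -/
structure Cnt (Q : Theory K) : Prop where
  cnt : ∃ S : Set (Fld H), S.Countable ∧ (∀ A ∈ Sp S, ∃ B, Q.fld B ∧ Eq' Q A B) ∧
    ∀ B, Q.fld B → ∃ A ∈ Sp S, Eq' Q A B
  cov : ∀ s L B, 0 < s → IsLor L → Q.fld B → ∃ C, Q.fld C ∧ ∀ f, IsTest f → ∀ v ∈ Q.dom,
    K.U s L 0 (B (fun x => f (sim s L 0 x)) v) = C f (K.U s L 0 v)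
  cts : ∀ v, ContinuousAt (fun s => K.U s one 0 v) 1

/-- The vacuum is unique. -/
def Uniq (K : Frame H) : Prop := ∀ z, (∀ a, K.U 1 one a z = z) → ∃ c : ℂ, z = c • K.Ω

/-- **Haag-Kastler nets.** The von Neumann algebras `N O`, `O` a bounded open region, are isotonic,
covariant, graded, and local in the graded sense: the even part of `X` in `N O` and its odd part
times `Γ` commute with the algebras of space-like separated regions. -/
structure Net (K : Frame H) (N : Set V → VonNeumannAlgebra H) : Prop where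
  mono : ∀ O O', Reg O → Reg O' → O ⊆ O' → ∀ X ∈ N O, X ∈ N O'
  cov : ∀ s L y O, Reg O → ∀ X ∈ N O, 0 < s → IsLor L →
    ∃ Y ∈ N (sim s L y '' O), ∀ z, Y (K.U s L y z) = K.U s L y (X z)
  gam : ∀ O, Reg O → ∀ X ∈ N O, K.Γ * X * K.Γ ∈ N O
  loc : ∀ O O', Reg O → Reg O' → Spc O O' → ∀ X ∈ N O,
    X + K.Γ * X * K.Γ ∈ (N O').commutant ∧ (X - K.Γ * X * K.Γ) * K.Γ ∈ (N O').commutant

/-- The bounded operator `Y` commutes weakly with the fields smeared in `O`, on the vectors that the
fields generate from the vacuum. -/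
structure Wk (Q : Theory K) (O : Set V) (Y : H →L[ℂ] H) : Prop where
  wk : ∀ B B' f v w, Q.fld B → Adj Q.dom B B' → In O f → Cyc Q v → Cyc Q w →
    inner ℂ (B' (bar f) w) (Y v) = inner ℂ w (Y (B f v))

/-- `X` commutes weakly, in the graded sense, with the fields smeared in `O`. -/
structure Tw (Q : Theory K) (O : Set V) (X : H →L[ℂ] H) : Prop where
  even : Wk Q O (X + K.Γ * X * K.Γ)
  odd : Wk Q O ((X - K.Γ * X * K.Γ) * K.Γ)

/-- The fields smeared in `O` are affiliated to `N O`: they commute weakly with its commutant. -/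
structure Aff (Q : Theory K) (N : Set V → VonNeumannAlgebra H) : Prop where
  aff : ∀ O, Reg O → ∀ Y ∈ (N O).commutant, Wk Q O Y

/-- The vacuum is cyclic for the net, and the fields are local relative to the net. -/
structure Rel (Q : Theory K) (N : Set V → VonNeumannAlgebra H) : Prop where
  cyc : Dense {z | ∃ O, Reg O ∧ ∃ X ∈ N O, z = X K.Ω}
  rel : ∀ O O', Reg O → Reg O' → Spc O O' → ∀ X ∈ N O, Tw Q O' X

/-- **The hypotheses** on the theory `Q` with the stress tensor `T` and the net `N`. A virial current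
is not needed if the vacuum is unique. -/
structure Hyp (Q : Theory K) (T : Ix → Ix → Fld H) (N : Set V → VonNeumannAlgebra H) : Prop where
  stress : Stress Q T
  poincare : PGen Q T
  scale : (∃ J, Vir Q T J) ∨ Uniq K
  finite : Fin' Q
  net : Net K N
  strong : Aff Q N ∨ Rel Q N

/-- `Z` belongs to the von Neumann algebra generated by the algebras `N O'` of all bounded regions
`O'` in the causal complements of the wedges that contain `O`. Its (twisted) commutant is the
algebra of `O` in the dual net. -/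
structure Out (N : Set V → VonNeumannAlgebra H) (O : Set V) (Z : H →L[ℂ] H) : Prop where
  out : ∀ Y, (∀ a b y O', IsNull a → IsNull b → mdot a b = 1 → O ⊆ Wdg a b y → Reg O' →
    O' ⊆ Wdg b a y → Y ∈ (N O').commutant) → Y * Z = Z * Y

/-- **Field reconstruction from the net.** Let `l` be a tempered distribution with values in `H`
that transforms like the vectors `L(f) Ω` of a scalar field of dimension two and is local relative
to the net: `(Ω, Z L(f) Ω) = (Ω, L(f) Z Ω)` for the operators `Z` localized in the causal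
complement. Then `l f = B(f) Ω` with a field `B` of the theory. -/
structure Rec (Q : Theory K) (N : Set V → VonNeumannAlgebra H) : Prop where
  mem : ∀ l : Fn → H,
    (∀ f g (c : ℂ), IsTest f → IsTest g → l (fun x => f x + c * g x) = l f + c • l g) →
    (Continuous fun g => l (ev g)) →
    (∀ (s : ℝ) L a f, 0 < s → IsLor L → IsTest f →
      l f = (s : ℂ) ^ 2 • K.U s L a (l fun x => f (sim s L a x))) →
    (∀ O f Z, In O f → Out N O Z → inner ℂ K.Ω (Z (l f)) = inner ℂ (l (bar f)) (Z K.Ω)) →
    ∃ B, Q.fld B ∧ ∀ f, IsTest f → B f K.Ω = l f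

/-- `t` has the same translation and Lorentz charges as `T`: for large cutoffs, the commutators of
the densities `t^{0n}` and `x^l t^{0n} - x^n t^{0l}` with the fields are those of `T`. -/
def Same (Q : Theory K) (T t : Ix → Ix → Fld H) : Prop :=
  ∀ F B f, IsCutoff F → Q.fld B → In Set.univ f →
    ∀ᶠ R in atTop, ∀ l n, ∀ v ∈ Q.dom, cm (t o n) (F R) B f v = cm (T o n) (F R) B f v ∧
      cm (t o n) (xg l (F R)) B f v - cm (t o l) (xg n (F R)) B f v =
        cm (T o n) (xg l (F R)) B f v - cm (T o l) (xg n (F R)) B f v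

/-- `P` is a local field, with formal adjoint `P'`: a translation covariant operator valued
tempered distribution, whose operators map the domain into the Hilbert space, which commutes weakly
at space-like distance with every field `C` of `Q` in the class `p`. -/
structure Loc (Q : Theory K) (p : Fld H → Prop) (P P' : Fld H) : Prop where
  lin : ∀ f g (c : ℂ), IsTest f → IsTest g → ∀ v ∈ Q.dom,
    P (fun x => f x + c * g x) v = P f v + c • P g v
  cont : ∀ v ∈ Q.dom, Continuous fun g => P (ev g) v
  adj : Adj Q.dom P P'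
  transl : ∀ a f, IsTest f → ∀ v ∈ Q.dom,
    P f (K.U 1 one a v) = K.U 1 one a (P (fun x => f (sim 1 one a x)) v)
  loc : ∀ C C' f g, Q.fld C → Adj Q.dom C C' → p C → IsTest f → IsTest g → Sep f g →
    ∀ v ∈ Q.dom, ∀ z ∈ Q.dom, inner ℂ (C' (bar g) z) (P f v) = inner ℂ z (P f (C g v))

/-- The matrix element between `w` and `v` of the commutator of the charge of the current
`X^n t_{mn}` with an operator `Y` converges to `c` when the cutoff is removed; `y = Y v`, and
`y' = Y* w`. -/
def Comm (t : Ix → Ix → Fld H) (X : Ix → V → ℝ) (w v y y' : H) (c : ℂ) : Prop :=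
  ∀ F, IsCutoff F → Tendsto (fun R => inner ℂ (cur t (fun x n => X n x) (F R) w) y -
    inner ℂ y' (cur t (fun x n => X n x) (F R) v)) atTop (𝓝 c)

/-- For every conformal Killing vector field `X` the charge of the current `X^n t_{mn}` acts on the
field `A` by the infinitesimal conformal transformation
`-X^n ∂_n A - (∂_m X^n) S_mn A - (∂_m ∂_n X^n) M_m A` with local fields `S_mn A` and `M_m A`. -/
inductive Act (Q : Theory K) (t : Ix → Ix → Fld H) (A B : Fld H) : Prop
  | mk (S S' : Ix → Ix → Fld H) (M M' : Ix → Fld H)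
    (s : ∀ m n, Loc Q (fun C => Bose Q A ∨ Bose Q C) (S m n) (S' m n))
    (k : ∀ m, Loc Q (fun C => Bose Q A ∨ Bose Q C) (M m) (M' m))
    (act : ∀ X f, IsKil X → In Set.univ f → ∀ w ∈ Q.dom, ∀ v ∈ Q.dom,
      Comm t X w v (A f v) (B (bar f) w)
        (Complex.I * inner ℂ w (∑ n, A (pd n fun x => X n x * f x) v -
          ∑ m, ∑ n, S m n (fun x => pd m (fun y => (X n y : ℂ)) x * f x) v -
          ∑ m, ∑ n, M m (fun x => pd m (pd n fun y => (X n y : ℂ)) x * f x) v))) : Act Q t A B

/-- **Conformal primaries** `P`, with formal adjoints `P'`, of spin `k` and dimension `d`: local Bose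
(`e = false`) or Fermi fields (`e = true`: the twisted field `P Γ` is local relative to all fields).
The commutator of the charge of `X^n t_{mn}` with `P` is
`i (-X^n ∂_n P - Re d / 4 (∂·X) P + (∂_m X^n - δ_m^n ∂·X / 4) S_mn P)`. -/
structure Prim (Q : Theory K) (t : Ix → Ix → Fld H) (e : Bool) (k : Rp) (d : ℂ)
    (P P' : Fin k.dm → Fld H) : Prop where
  loc : ∀ a, ∃ R, Loc Q (fun _ => True) (fun f v => P a f (if e then K.Γ v else v)) R
  adj : ∀ a, Adj Q.dom (P a) (P' a)
  cov : ∀ a (s : ℝ) L f, 0 < s → IsLor L → IsTest f → ∀ v ∈ Q.dom, P a f (K.U s L 0 v) =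
    ∑ b, ((s : ℂ) ^ (4 - d) * k.ρ L b a) • K.U s L 0 (P b (fun x => f (sim s L 0 x)) v)
  act : ∀ X a f, IsKil X → In Set.univ f → ∀ w ∈ Q.dom, ∀ v ∈ Q.dom,
    Comm t X w v (P a f v) (P' a (bar f) w)
      (Complex.I * inner ℂ w (∑ n, P a (pd n fun x => X n x * f x) v -
        ((d.re / 4 : ℝ) : ℂ) • P a (fun x => dvg X x * f x) v + ∑ b, ∑ m, ∑ n, k.sp m n b a •
          P b (fun x => (pd m (fun y => (X n y : ℂ)) x - one m n * dvg X x / 4) * f x) v))

/-- The field `A` is a finite linear combination of derivatives of conformal primaries. -/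
inductive Desc (Q : Theory K) (t : Ix → Ix → Fld H) (A : Fld H) : Prop
  | mk (n : ℕ) (e : Fin n → Bool) (k : Fin n → Rp) (d c : Fin n → ℂ) (α : Fin n → List Ix)
    (a : ∀ i, Fin (k i).dm) (P P' : ∀ i, Fin (k i).dm → Fld H)
    (prim : ∀ i, Prim Q t (e i) (k i) (d i) (P i) (P' i))
    (sum : ∀ f, IsTest f → ∀ v ∈ Q.dom, A f v = ∑ i, c i • P i (a i) ((α i).foldr pd f) v) :
    Desc Q t A

/-- The products of smeared fields, each one together with its formal adjoint. -/
inductive Mon (Q : Theory K) : (H → H) → (H → H) → Prop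
  | unit : Mon Q (fun v => v) (fun v => v)
  | mul (A B : Fld H) (f : Fn) (X X' : H → H) : Q.fld A → Adj Q.dom A B → In Set.univ f →
      Mon Q X X' → Mon Q (fun v => A f (X v)) (fun v => X' (B (bar f) v))

/-- **Conformal invariance.** The local field `t = S + (∂∂ - η □) L`, with fields `S` and `L` of `R`,
is symmetric, conserved and traceless, and has the translation and Lorentz charges of `T`. Its
charges act on all fields by the infinitesimal conformal transformations and leave the vacuum
invariant (the conformal Ward identities), and the components of `t` form a conformal primary of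
dimension four in the tensor representation of rank two. -/
structure Conf (R : Theory K) (T t : Ix → Ix → Fld H) : Prop where
  form : ∃ S L, Stress R S ∧ Scalar R L 2 ∧
    ∀ m n f, IsTest f → ∀ v ∈ R.dom, t m n f v = improve S L m n f v
  symm : ∀ m n f, IsTest f → ∀ v ∈ R.dom, t m n f v = t n m f v
  conserved : ∀ n f, IsTest f → ∀ v ∈ R.dom, ∑ m, t m n (pd m f) v = 0
  traceless : ∀ f, IsTest f → ∀ v ∈ R.dom, tr t f v = 0
  same : Same R T t
  poincare : PGen R T → PGen R t
  act : ∀ A B, R.fld A → Adj R.dom A B → Act R t A B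
  ward : ∀ X Y Y', IsKil X → Mon R Y Y' → Comm t X K.Ω K.Ω (Y K.Ω) (Y' K.Ω) 0
  prim : ∃ (k : Rp) (p q : Fin k.dm → Ix), (Function.Bijective fun a => (p a, q a)) ∧
    (∀ L a b, k.ρ L a b = (L (p a) (p b) * L (q a) (q b) : ℝ)) ∧
    Prim R t false k 4 (fun a => t (p a) (q a)) fun a => t (p a) (q a)
  desc : Fin' R → ∀ A, R.fld A → Desc R t A

/-- `C` agrees with `B` on the vectors that the fields of `Q` generate from the vacuum. -/
def Agr (Q : Theory K) (B C : Fld H) : Prop := ∀ f v, IsTest f → Cyc Q v → C f v = B f v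

/-- **Local extensions.** The theory `P`, with the same Hilbert space, vacuum, grading and
representation as `Q`, contains an extension of every field of `Q`, and its fields are affiliated to
the dual net of `N`. -/
structure Ext (Q P : Theory K) (N : Set V → VonNeumannAlgebra H) : Prop where
  mem : ∀ B, Q.fld B → ∃ C, P.fld C ∧ Agr Q B C
  dual : ∀ O Z, Out N O Z → Tw P O Z

/-- **Field reconstruction, for operators.** Every scalar field of dimension two of a local
extension of `Q` creates the same vectors from the vacuum as a field of `Q`. -/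
structure Max (Q : Theory K) (N : Set V → VonNeumannAlgebra H) : Prop where
  max : ∀ P L, Ext Q P N → Scalar P L 2 → ∃ B, Q.fld B ∧ ∀ f, IsTest f → B f K.Ω = L f K.Ω

variable (H) in
/-- **The theorem**, for the Hilbert space `H`. -/
structure Main : Prop where
  conf : ∀ (K : Frame H) (Q : Theory K) T N, Hyp Q T N → Rec Q N ∨ Max Q N → ∃ t, Conf Q T t
  ext : ∀ (K : Frame H) (Q : Theory K) T N, Hyp Q T N → ∃ S, Stress Q S ∧ Same Q T S ∧
    ∃ (P : Theory K) (S' t : Ix → Ix → Fld H), Ext Q P N ∧ (∀ m n, Agr Q (S m n) (S' m n)) ∧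
      Stress P S' ∧ PGen P S' ∧ Fin' P ∧ (∃ N', Net K N' ∧ Aff P N') ∧
        ∀ R : Theory K, R.dom = P.dom → (∀ A, P.fld A → R.fld A) → Conf R S' t
  cnt : ∀ (K : Frame H) (Q : Theory K) T, Stress Q T → PGen Q T → Cnt Q → Fin' Q

variable (H) in
/-- There is a nontrivial theory that satisfies all hypotheses. -/
inductive Wit : Prop
  | mk (K : Frame H) (Q : Theory K) (T J N B) (h : Hyp Q T N ∧ Rec Q N ∧ Max Q N ∧ Vir Q T J ∧
      Uniq K ∧ Cnt Q ∧ Aff Q N ∧ Rel Q N ∧ Scalar Q B 1 ∧ (∃ f, IsTest f ∧ B f K.Ω ≠ 0) ∧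
      ¬FiniteDimensional ℂ H ∧ ∃ f, IsTest f ∧ tr T f K.Ω ≠ 0) : Wit

end

end Vale.Agent.N352.Dh
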