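import Vale.Agent.N352.DefF

namespace Vale.Agent.N352.Dk

open P352.GF Dn
open UniformSpace (Completion)

noncomputable section

universe u v

variable {D : Type u} {D' : Type v} [NormedAddCommGroup D] [InnerProductSpace ℂ D]
  [NormedAddCommGroup D'] [InnerProductSpace ℂ D']

/-- Future directed null vectors. -/
def IsNull (a : V) : Prop := mdot a a = 0 ∧ 0 < a o

/-- The wedge that is bounded by the null hyperplanes through `y` orthogonal to the null vectors
`a` and `b`. Its causal complement is the opposite wedge `Wdg b a y`. -/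
def Wdg (a b y : V) : Set V := {x | mdot a (x - y) < 0 ∧ 0 < mdot b (x - y)}

/-- `Z` belongs to the von Neumann algebra generated by the algebras `N O'` of all bounded regions
`O'` in the causal complements of the wedges that contain `O`. For a double cone `O` this is the
algebra of the causal complement of `O`; its (twisted) commutant is the algebra of `O` in the dual
net, which is `N O` if Haag duality holds. -/
def Out (N : Set V → VonNeumannAlgebra (Completion D)) (O : Set V)
    (Z : Completion D →L[ℂ] Completion D) : Prop :=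
  ∀ Y, (∀ a b y O', IsNull a → IsNull b → mdot a b = 1 → O ⊆ Wdg a b y → Reg O' →
    O' ⊆ Wdg b a y → Y ∈ (N O').commutant) → Y * Z = Z * Y

/-- The bounded operator `Y` commutes weakly with the fields of `P` smeared in `O`; the domain of
`P` is embedded by `k`. -/
structure Wl (P : Theory D') (k : D' →ₗᵢ[ℂ] Completion D) (O : Set V)
    (Y : Completion D →L[ℂ] Completion D) : Prop where
  wk : ∀ B B' f v w, P.fld B → IsAdj B B' → In O f →
    inner ℂ (k (B' (bar f) w)) (Y (k v)) = inner ℂ (k w) (Y (k (B f v)))

/-- A local extension `P` of `Q` whose fields are affiliated to the dual net of `N`. -/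
structure Exk (Q : Theory D) (Γ : Completion D →L[ℂ] Completion D)
    (N : Set V → VonNeumannAlgebra (Completion D)) (P : Theory D') (k : D' →ₗᵢ[ℂ] Completion D)
    (G' : D' → D') (e : Fld D → Fld D') : Prop extends Ext Q Γ P k G' e where
  rel : ∀ O Z, Out N O Z → Wl P k O (Z + Γ * Z * Γ) ∧ Wl P k O ((Z - Γ * Z * Γ) * Γ)

/-- **`R` contains the fields that are affiliated to the dual net** (it is enough for scalars of
dimension two). Every hermitian scalar Bose field `L` of dimension two of a local extension `P` of
`Q` that is affiliated to the dual net creates the same vectors from the vacuum as some Bose field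
of `R`. -/
structure Mak (Q : Theory D) (Γ : Completion D →L[ℂ] Completion D)
    (N : Set V → VonNeumannAlgebra (Completion D)) (R : Theory D') (i : D →ₗᵢ[ℂ] D') : Prop where
  max : ∀ (E : Type u) [NormedAddCommGroup E] [InnerProductSpace ℂ E] (P : Theory E) k G' e L,
    Exk Q Γ N P k G' e → P.IsScalar L 2 → ∃ B, R.bose B ∧ ∀ f, IsTest f →
      hil B f R.vac = Completion.map i (k (L f P.vac))

/-- **Field reconstruction from the net.** Let `l` be a tempered distribution with values in the
Hilbert space that transforms like the vectors `L(f) Ω` of a scalar field of dimension two and is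
local relative to the net: `(Ω, Z L(f) Ω) = (Ω, L(f) Z Ω)` for the operators `Z` localized in the
causal complement. Then `l f = B(f) Ω` with a Bose field `B` of the theory. -/
structure RecN (Q : Theory D) (N : Set V → VonNeumannAlgebra (Completion D)) : Prop where
  fld : ∀ l : Fn → Completion D,
    (∀ f g (c : ℂ), IsTest f → IsTest g → l (fun x => f x + c * g x) = l f + c • l g) →
    (Continuous fun g => l (ev g)) →
    (∀ (s : ℝ) L a f, 0 < s → IsLor L → IsTest f →
      l f = (s : ℂ) ^ 2 • Ue Q s L a (l fun x => f (sim s L a x))) →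
    (∀ O f Z, In O f → Out N O Z → inner ℂ (om Q) (Z (l f)) = inner ℂ (l (bar f)) (Z (om Q))) →
    ∃ B, Q.bose B ∧ ∀ f, IsTest f → hil B f Q.vac = l f

/-- **Conformal invariance, with a primary stress tensor.** In addition to `Conf`, the components of
`t` form a conformal primary of dimension four in the tensor representation of rank two. -/
structure Cnf (R : Theory D) (G : D → D) (T t : Ix → Ix → Fld D) : Prop extends Conf R G T t where
  prim : ∃ (k : Rp) (p q : Fin k.n → Ix), (Function.Bijective fun a => (p a, q a)) ∧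
    (∀ L a b, k.ρ L a b = (L (p a) (p b) * L (q a) (q b) : ℝ)) ∧
    PrimS R G t false k 4 (fun a => hil (t (p a) (q a))) fun a => hil (t (p a) (q a))

variable (D D') in
/-- **The theorem**, for theories with the domains `D` and `D'`. -/
structure Thk : Prop where
  net : ∀ (Q : Theory D) G T Γ N, Hy Q G T Γ N → RecN Q N → ∃ t, Cnf Q G T t ∧ Desc Q G t
  conf : ∀ (Q : Theory D) G T Γ N, Hy Q G T Γ N → Mak Q Γ N Q .id → ∃ t, Cnf Q G T t ∧ Desc Q G t
  sup : ∀ (Q : Theory D) G T Γ N (R : Theory D') i G' T', Hy Q G T Γ N → Over Q T R i G' T' →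
    Mak Q Γ N R i → ∃ t, Cnf R G' T' t
  ext : ∀ (Q : Theory D) G T Γ N, Hy Q G T Γ N → ∃ S, Q.IsStress S ∧ Same Q T S ∧
    ∃ (E : Type u) (_ : NormedAddCommGroup E) (_ : InnerProductSpace ℂ E) (P : Theory E)
      (k : E →ₗᵢ[ℂ] Completion D) (G' : E → E) (e : Fld D → Fld E) (t : Ix → Ix → Fld E),
      Exk Q Γ N P k G' e ∧ Desc P G' t ∧
        ∀ R, IsEnl P R → Gr R G' → Cnf R G' (fun m n => e (S m n)) t
  uni : ∀ Q : Theory D, UVac Q → IVac Q

variable (D) in
/-- There is a nontrivial theory with a unique vacuum that satisfies all hypotheses. -/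
inductive Wik : Prop
  | mk (Q : Theory D) (T N J B) (h : Hy Q id T 1 N ∧ RecN Q N ∧ Mak Q 1 N Q .id ∧ UVac Q ∧
      Vir Q T J ∧ CntF Q ∧ (MfA Q ∧ FSL Q) ∧ Aff Q N ∧ Rel Q 1 N ∧ Q.IsScalar B 1 ∧
      (∃ f, IsTest f ∧ B f Q.vac ≠ 0) ∧
      ¬FiniteDimensional ℂ (Completion D) ∧ ∃ f, IsTest f ∧ tr T f Q.vac ≠ 0) : Wik

variable (D) in
/-- There is a nontrivial theory with a degenerate vacuum that satisfies the hypotheses. -/
inductive WikD : Prop
  | mk (Q : Theory D) (T N) (h : Hy Q id T 1 N ∧ RecN Q N ∧ ¬UVac Q ∧
      ∃ f, IsTest f ∧ tr T f Q.vac ≠ 0) : WikD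

end

end Vale.Agent.N352.Dk
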