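import Vale.Agent.N352.DefB

namespace Vale.Agent.N352.Dh

noncomputable section

variable {H : Type*} [NormedAddCommGroup H] [InnerProductSpace ℂ H] [CompleteSpace H] {K : Frame H}

/-- The derivative at `0` of the translations in the direction `m`: up to a phase, the energy or a
component of the momentum. -/
def Dv (K : Frame H) (m : Ix) (v : H) : H := deriv (fun t : ℝ => K.U 1 one (bas m t) v) 0

/-- Energy-momentum norms: the sum of the norms of all derivatives of order at most `k` of
`a ↦ U(a) v` at `a = 0`. -/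
def en (K : Frame H) (k : ℕ) : H → ℝ := k.rec (fun v => ‖v‖) fun _ e v => e v + ∑ m, e (Dv K m v)

/-- **Polynomial energy bounds.** The smeared fields are bounded by a power of energy and momentum
that depends on the field only. -/
def EBd (Q : Theory K) : Prop := ∀ B, Q.fld B → ∃ k, ∀ f, In Set.univ f → ∃ C : ℝ, ∀ v,
  Cyc Q v → ‖B f v‖ ≤ C * en K k v

/-- **Form bounds for the stress tensor.** The expectation values of the smeared stress tensor are
bounded by those of `1 + H`, `H` the energy. -/
def FBT (Q : Theory K) (T : Ix → Ix → Fld H) : Prop := ∀ m n f, In Set.univ f → ∃ C : ℝ, ∀ v,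
  Cyc Q v → ‖inner ℂ v (T m n f v)‖ ≤ C * (‖v‖ ^ 2 + ‖inner ℂ v (Dv K o v)‖)

/-- **Strong locality of the stress tensor.** A component of `T`, smeared with a real function
supported in a wedge, commutes weakly with the commutant of a von Neumann algebra `M`, and all
fields smeared in the opposite wedge commute weakly with `M`. -/
structure SL (Q : Theory K) (T : Ix → Ix → Fld H) : Prop where
  loc : ∀ a b m n f, IsNull a → IsNull b → mdot a b = 1 → In (Wdg a b 0) f → bar f = f →
    ∃ M : VonNeumannAlgebra H, (∀ Y ∈ M, Wk Q (Wdg b a 0) Y) ∧ ∀ Y ∈ M.commutant, ∀ v w,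
      Cyc Q v → Cyc Q w → inner ℂ (T m n f w) (Y v) = inner ℂ w (Y (T m n f v))

/-- **Linear energy bounds** for the fields of the subtheory `R` of `Q`. -/
def LEB (R Q : Theory K) : Prop := ∀ B f, R.fld B → In Set.univ f → ∃ C : ℝ, ∀ v, Cyc Q v →
  ‖B f v‖ ≤ C * (‖v‖ + ‖Dv K o v‖)

/-- The vacuum is an analytic vector for the hermitian parts of the smeared fields. -/
def Ana (R : Theory K) : Prop := ∀ B B' f, R.fld B → Adj R.dom B B' → In Set.univ f →
  ∃ C : ℝ, ∀ n : ℕ, ‖(fun w => B f w + B' (bar f) w)^[n] K.Ω‖ ≤ C ^ (n + 1) * n.factorial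

/-- **Subtheories.** The vacuum is cyclic for the fields of `R`, which are fields of `Q`. -/
structure Sub (R Q : Theory K) : Prop where
  equal : R.dom = Q.dom
  mem : ∀ A, R.fld A → Q.fld A
  finite : Fin' R

/-- **Regularity**: one of the standard conditions that exclude pathologies of unbounded operators.
The fields are affiliated or relatively local to a Haag-Kastler net; or they obey energy bounds; or
the vacuum is cyclic for a subtheory `R` for which it is an analytic vector, or which obeys linear
energy bounds. -/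
inductive Rgl (Q : Theory K) (T : Ix → Ix → Fld H) : Prop
  | net (N) (h : Net K N ∧ (Aff Q N ∨ Rel Q N)) : Rgl Q T
  | energy (h : EBd Q ∧ (FBT Q T ∨ SL Q T)) : Rgl Q T
  | sub (R) (h : Sub R Q ∧ (Ana R ∨ EBd Q ∧ LEB R Q)) : Rgl Q T

/-- The vacuum may be degenerate, but the symmetry is not spontaneously broken: all translation
invariant vectors are invariant under the dilations and the Lorentz transformations. -/
def IVac (K : Frame H) : Prop :=
  ∀ z, (∀ a, K.U 1 one a z = z) → ∀ s L, 0 < s → IsLor L → K.U s L 0 z = z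

/-- **The hypotheses** on the theory `Q` with the stress tensor `T`. A virial current is not needed
if the symmetry is known to be unbroken, for example if the vacuum is unique. -/
structure Hyq (Q : Theory K) (T : Ix → Ix → Fld H) : Prop where
  stress : Stress Q T
  poincare : PGen Q T
  scale : (∃ J, Vir Q T J) ∨ IVac K
  finite : Fin' Q
  regular : Rgl Q T

/-- The theory `P` contains an extension of every field of `Q`. -/
def Xtn (Q P : Theory K) : Prop := ∀ B, Q.fld B → ∃ C, P.fld C ∧ Agr Q B C

/-- Every scalar field of dimension two of an extension of `Q` creates the same vectors from the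
vacuum as a field of `Q`. -/
def Mxq (Q : Theory K) : Prop := ∀ P L, Xtn Q P → Scalar P L 2 →
  ∃ B, Q.fld B ∧ ∀ f, IsTest f → B f K.Ω = L f K.Ω

variable (H) in
/-- **The theorem**, for the Hilbert space `H`. -/
structure Thr : Prop where
  inv : ∀ (K : Frame H) (Q : Theory K) T, Hyq Q T → ∃ R t, CInv Q R T t ∧
    ∃ P S, Xtn Q P ∧ Fin' P ∧ (∀ v, v ∈ R.dom ↔ Cyc P v) ∧ P.dom = R.dom ∧ Conf P S t ∧
      ∀ A, P.fld A → R.fld A ∧ Desc R t A
  conf : ∀ (K : Frame H) (Q : Theory K) T, Hyq Q T → Mxq Q → ∃ t, Conf Q T t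
  cnt : ∀ (K : Frame H) (Q : Theory K) T, Stress Q T → PGen Q T → Cnt Q → Fin' Q
  uni : ∀ K : Frame H, Uniq K → IVac K
  der : ∀ (K : Frame H) (Q : Theory K) m v, Fin' Q → Cyc Q v → Cyc Q (Dv K m v) ∧
    HasDerivAt (fun t : ℝ => K.U 1 one (bas m t) v) (Dv K m v) 0

variable (H) in
/-- There is a nontrivial theory that satisfies all hypotheses, with each regularity condition. -/
inductive Wir : Prop
  | mk (K : Frame H) (Q R : Theory K) (T J N B) (h : Hyq Q T ∧ Mxq Q ∧ Vir Q T J ∧ Uniq K ∧ Cnt Q ∧
      (Net K N ∧ Aff Q N ∧ Rel Q N) ∧ (EBd Q ∧ FBT Q T ∧ SL Q T) ∧ (Sub R Q ∧ Ana R ∧ LEB R Q) ∧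
      Scalar Q B 1 ∧ (∃ f, IsTest f ∧ B f K.Ω ≠ 0) ∧ ¬FiniteDimensional ℂ H ∧
      ∃ f, IsTest f ∧ tr T f K.Ω ≠ 0) : Wir

end

end Vale.Agent.N352.Dh
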