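import Vale.Agent.N352.DefP

namespace Vale.Agent.N352.Dh

noncomputable section

variable {H : Type*} [NormedAddCommGroup H] [InnerProductSpace ℂ H] [CompleteSpace H] {K : Frame H}

/-- **The hypotheses** on the theory `Q` with the stress tensor `T`, except for regularity. A virial
current is not needed if the symmetry is unbroken or the vacuum is unique. The fields have finite
spin and finite scaling support, or they form a covariant space of countable dimension. -/
structure Hyr (Q : Theory K) (T : Ix → Ix → Fld H) : Prop where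
  stress : Stress Q T
  poincare : PGen Q T
  scale : (∃ J, Vir Q T J) ∨ IVac K ∨ Uniq K
  finite : Fin' Q ∨ Cnt Q

variable (H) in
/-- **The theorem**, for the Hilbert space `H`. -/
structure Thq : Prop where
  inv : ∀ (K : Frame H) (Q : Theory K) T, Hyr Q T → Rgl Q T → ∃ R t, CInv Q R T t ∧
    ∃ P, Xtn Q P ∧ Fin' P ∧ (∀ v, v ∈ R.dom ↔ Cyc P v) ∧ P.dom = R.dom ∧
      ∀ A, P.fld A → R.fld A ∧ Desc R t A
  conf : ∀ (K : Frame H) (Q : Theory K) T, Hyr Q T →
    (Rgl Q T ∧ Mxq Q ∨ ∃ N, Net K N ∧ (Aff Q N ∨ Rel Q N) ∧ Max Q N) → ∃ t, Conf Q T t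

variable (H) in
/-- The hypotheses, with each alternative, are satisfied by a nontrivial theory. -/
inductive Wiq : Prop
  | mk (K : Frame H) (Q R : Theory K) (T J N) (h : Hyr Q T ∧ Vir Q T J ∧ IVac K ∧ Uniq K ∧
      Fin' Q ∧ Cnt Q ∧ (Net K N ∧ Aff Q N ∧ Rel Q N) ∧ (EBd Q ∧ FBT Q T ∧ SL Q T) ∧
      (Sub R Q ∧ Ana R ∧ LEB R Q) ∧ Mxq Q ∧ Max Q N ∧ ∃ f, IsTest f ∧ tr T f K.Ω ≠ 0) : Wiq

end

end Vale.Agent.N352.Dh
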