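import Vale.Agent.N352.Def

namespace Vale.Agent.N352.Df

open P352.GF
open UniformSpace (Completion)

variable {D : Type*} [NormedAddCommGroup D] [InnerProductSpace ℂ D]

/-- The bounded operator `Y` commutes weakly with the operator `X` on `D`, whose formal adjoint is
`X'`. -/
def Wk (Y : Completion D →L[ℂ] Completion D) (X X' : D → D) : Prop :=
  ∀ v w : D, inner ℂ (X' w : Completion D) (Y v) = inner ℂ (w : Completion D) (Y (X v : D))

/-- Bounded open regions. -/
def Reg (O : Set V) : Prop := IsOpen O ∧ Bornology.IsBounded O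

/-- Space-like separated regions. -/
def Spc (O O' : Set V) : Prop := ∀ x ∈ O, ∀ y ∈ O', mdot (x - y) (x - y) < 0

/-- **Relatively local nets.** The von Neumann algebras `N O`, `O` a bounded open region, are
isotonic, covariant, graded and local in the graded sense, the vacuum is cyclic for their union, and
they are local relative to the fields: the even part of `X` in `N O` and its odd part times `Γ`
commute weakly with the fields smeared in the space-like complement of `O`. The fields are not
assumed to be affiliated to the net. -/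
structure RNb (Q : Theory D) (G : D → D) (A : (V → V) → D → D)
    (Γ : Completion D →L[ℂ] Completion D) (N : Set V → VonNeumannAlgebra (Completion D)) : Prop
    extends Ge Q G A where
  ext : ∀ v : D, Γ v = (G v : D)
  mono : ∀ O O', Reg O → Reg O' → O ⊆ O' → ∀ X ∈ N O, X ∈ N O'
  cov : ∀ s L y O, Reg O → ∀ X ∈ N O, 0 < s → IsLor L →
    ∃ Y ∈ N (sim s L y '' O), ∀ z, Y (Ue Q s L y z) = Ue Q s L y (X z)
  gam : ∀ O, Reg O → ∀ X ∈ N O, Γ * X * Γ ∈ N O
  loc : ∀ O O', Reg O → Reg O' → Spc O O' → ∀ X ∈ N O,
    X + Γ * X * Γ ∈ (N O').commutant ∧ (X - Γ * X * Γ) * Γ ∈ (N O').commutant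
  rel : ∀ O B B' f, Reg O → Q.fld B → IsAdj B B' → In Set.univ f → Spc O (tsupport f) →
    ∀ X ∈ N O, Wk (X + Γ * X * Γ) (B f) (B' (bar f)) ∧ Wk ((X - Γ * X * Γ) * Γ) (B f) (B' (bar f))
  cyc : Dense {z | ∃ O, Reg O ∧ ∃ X ∈ N O, z = X (om Q)}

end Vale.Agent.N352.Df
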