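import Vale.Agent.N352.Def

namespace Vale.Agent.N352.Df

open P352.GF
open UniformSpace (Completion)

variable {D D' : Type*} [NormedAddCommGroup D] [InnerProductSpace ℂ D] [NormedAddCommGroup D']
  [InnerProductSpace ℂ D']

/-- **Vacua.** The vacuum may be degenerate, but the symmetry is not spontaneously broken: all
translation invariant vectors are invariant under the dilations and the Lorentz transformations. -/
def IVac (Q : Theory D) : Prop :=
  ∀ z, (∀ a, Ue Q 1 one a z = z) → ∀ s L, 0 < s → IsLor L → Ue Q s L 0 z = z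

/-- The hypotheses on the theory `Q`, graded by `G = (-1)^F`, with the stress tensor `T`, the
generators `A X` of the similitudes and the graded local net `N`. -/
structure HyI (Q : Theory D) (G : D → D) (T : Ix → Ix → Fld D) (A : (V → V) → D → D)
    (Γ : Completion D →L[ℂ] Completion D) (N : Set V → VonNeumannAlgebra (Completion D)) :
    Prop where
  stress : Stress0 Q T
  charges : PCh Q T A
  vac : IVac Q
  fields : Flds Q
  net : LNg Q G A Γ N

variable (D D') in
/-- The theorem, for theories with the domains `D` and `D'`. -/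
structure ThI : Prop where
  ext : ∀ (Q : Theory D) G T A Γ N, HyI Q G T A Γ N → ∃ S, Q.IsStress S ∧ PCh Q S A ∧
    ∃ (E : Submodule ℂ (Completion D)) (P : Theory E) (G' : E → E) (e : Fld D → Fld E)
      (t : Ix → Ix → Fld E), Ext Q Γ N P G' e ∧ Desc P G' t ∧
        ∀ R, IsEnl P R → Gr R G' → Conf R G' (fun m n => e (S m n)) t
  self : ∀ (Q : Theory D) G T A Γ N, HyI Q G T A Γ N → MfA Q ∧ FSL Q ∧ Over Q T Q .id G T A
  max : ∀ (Q : Theory D) G T A Γ N (R : Theory D') i G' T' A', HyI Q G T A Γ N →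
    Over Q T R i G' T' A' → Max Q Γ N R i → ∃ t, Conf R G' T' t
  uni : ∀ Q : Theory D, UVac Q → IVac Q
  net : ∀ (Q : Theory D) G A Γ O M, Flds Q → Lg1 Q G A Γ O M → ∃ N, LNg Q G A Γ N
  sub : ∀ (Q R : Theory D) G A, Flds Q → Ge Q G A → IsEnl R Q → Gr R G → Flds R →
    (∀ w, Cyc Q w) ∧ Ana R ∨ EBd Q ∧ LEB R → ∃ Γ N, LNg Q G A Γ N
  gen : ∀ (Q : Theory D) G, Gr Q G → G Q.vac = Q.vac → (∀ w, Cyc Q w) → MfA Q → FSL Q →
    ∃ A, Ge Q G A

variable (D) in
/-- There is a nontrivial theory with the domain `D` and a degenerate vacuum that satisfies all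
hypotheses. -/
inductive WitD : Prop
  | mk (Q : Theory D) (T A N) (h : HyI Q id T A 1 N ∧ ¬UVac Q ∧ Max Q 1 N Q .id ∧
      ¬FiniteDimensional ℂ (Completion D) ∧ ∃ f, IsTest f ∧ tr T f Q.vac ≠ 0) : WitD

end Vale.Agent.N352.Df
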