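import Vale.Agent.N352.DefU

open Filter Topology

namespace Vale.Agent.N352.Df

open P352.GF

variable {D : Type*} [NormedAddCommGroup D] [InnerProductSpace ℂ D]

/-- **Scale invariance.** `J` is a virial current: a local vector field with `T^m_m = ∂_m J^m`, such
that the regularized charge of the current `x_n T^{mn} - J^m` generates the dilations. -/
structure Vir (Q : Theory D) (T : Ix → Ix → Fld D) (A : (V → V) → D → D) (J : Ix → Fld D) :
    Prop where
  bose : ∀ m, Q.bose (J m)
  div : ∀ f v, IsTest f → tr T f v = -∑ m, J m (pd m f) v
  charge : ∀ F (B : Fld D) f v w, IsCutoff F → Q.fld B → IsTest f → HasCompactSupport f →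
    Tendsto (fun R => inner ℂ w (cur T id (F R) (B f v) - J o (F R) (B f v) -
      B f (cur T id (F R) v - J o (F R) v))) atTop (𝓝 (inner ℂ w (A id (B f v) - B f (A id v))))

variable (D) in
/-- In a scale invariant theory all translation invariant vectors are invariant under the
dilations and the Lorentz transformations. -/
def ThV : Prop := ∀ (Q : Theory D) G T A Γ N J, Stress0 Q T → PCh Q T A → Vir Q T A J → Flds Q →
  LNg Q G A Γ N → HyI Q G T A Γ N

end Vale.Agent.N352.Df
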