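import Vale.Agent.N352.DefP

namespace Vale.Agent.N352.Dh

noncomputable section

variable {H : Type*} [NormedAddCommGroup H] [InnerProductSpace ℂ H] [CompleteSpace H] {K : Frame H}

/-- **The dilations act differentiably.** The dilates `B e` of `A` are linear combinations of fields
and depend differentiably on `e`; the derivative `C` is a linear combination of fields. Nothing is
assumed about the spectrum of the dilations. -/
inductive Dil (Q : Theory K) (A : Fld H) : Prop
  | mk (B : ℝ → Fld H) (C : Fld H) (mem : ∀ e, B e ∈ Sp {X | Q.fld X} ∧ C ∈ Sp {X | Q.fld X})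
    (law : ∀ e f, IsTest f → ∀ v ∈ Q.dom, A f (K.U (Real.exp e) one 0 v) =
      K.U (Real.exp e) one 0 (B e (fun x => f (sim (Real.exp e) one 0 x)) v))
    (der : ∀ f, IsTest f → ∀ v ∈ Q.dom, HasDerivAt (fun e => B e f v) (C f v) 0) : Dil Q A

/-- All fields have finite spin, and the dilations act differentiably on them. -/
def Cvt (Q : Theory K) : Prop := ∀ A, Q.fld A → Spin Q A ∧ Dil Q A

/-- **The hypotheses** on the theory `Q` with the stress tensor `T`, except for regularity. A virial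
current is not needed if the symmetry is unbroken or the vacuum is unique. The fields have finite
spin and finite scaling support; or they form a covariant space of countable dimension; or they obey
polynomial energy bounds, and finite scaling support is only required for the stress tensor. -/
structure Hyx (Q : Theory K) (T : Ix → Ix → Fld H) : Prop where
  stress : Stress Q T
  poincare : PGen Q T
  scale : (∃ J, Vir Q T J) ∨ IVac K ∨ Uniq K
  finite : (Fin' Q ∨ Cnt Q) ∨ EBd Q ∧ Cvt Q ∧ ∀ m n, Scl Q (T m n)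

variable (H) in
/-- **The theorem**, for the Hilbert space `H`. -/
structure Thx : Prop where
  inv : ∀ (K : Frame H) (Q : Theory K) T, Hyx Q T → Rgl Q T → ∃ R t, CInv Q R T t ∧
    ∃ P, Xtn Q P ∧ (∀ v, v ∈ R.dom ↔ Cyc P v) ∧ P.dom = R.dom ∧ (∀ A, P.fld A → R.fld A) ∧
      (Fin' Q ∨ Cnt Q → Fin' P ∧ ∀ A, P.fld A → Desc R t A)
  conf : ∀ (K : Frame H) (Q : Theory K) T, Hyx Q T → (Rgl Q T ∧ Mxq Q ∨
    (Fin' Q ∨ Cnt Q) ∧ ∃ N, Net K N ∧ (Aff Q N ∨ Rel Q N) ∧ Max Q N) → ∃ t, Conf Q T t

variable (H) in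
/-- The hypotheses, with each alternative, are satisfied by a nontrivial theory. -/
inductive Wix : Prop
  | mk (K : Frame H) (Q R : Theory K) (T J N) (h : Hyx Q T ∧ Vir Q T J ∧ IVac K ∧ Uniq K ∧
      Fin' Q ∧ Cnt Q ∧ (Cvt Q ∧ ∀ m n, Scl Q (T m n)) ∧ (Net K N ∧ Aff Q N ∧ Rel Q N) ∧
      (EBd Q ∧ FBT Q T ∧ SL Q T) ∧ (Sub R Q ∧ Ana R ∧ LEB R Q) ∧ Mxq Q ∧ Max Q N ∧
      ∃ f, IsTest f ∧ tr T f K.Ω ≠ 0) : Wix

end

end Vale.Agent.N352.Dh
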