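import Vale.Agent.N352.SlA
import Vale.Agent.N352.Pk

/-!
# N352: the potential of a graded theory is local relative to the net (closed form)
-/

set_option linter.all false

noncomputable section

open UniformSpace (Completion)

namespace Vale.Agent.N352.Sl

open Vale.Agent.P352 Vale.Agent.P352.GF Vale.Agent.P352.BW Vale.Agent.P352.H246
open Vale.Agent.P352.H496 Vale.Agent.P352.H755 Vale.Agent.P352.H15
open Vale.Agent.P352X Vale.Agent.P352X.EG Vale.Agent.N352.Tn

variable {D : Type*} [NormedAddCommGroup D] [InnerProductSpace ℂ D]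

/-- **The potential is local relative to the graded net.** -/
theorem loc_net (c : Cg D) (hU : UVac c.Q) (hM : MfAll c.Q) (hF : FSL c.Q)
    {T : Ix → Ix → Fld D} (hT : c.Q.IsStress T) (hP : ND.PCh c.Q T c.A) {l : Fn → Completion D}
    (hl : IsPot c.Q T l) {O : Set V} {f : Fn} (hf : In O f)
    {Z : Completion D →L[ℂ] Completion D} (hZ : Opp c.N O Z) :
    inner ℂ (star Z c.Om) (l f) = inner ℂ (l (bar f)) (Z c.Om) := by
  obtain ⟨E, q, A, τ, d, h1, h2, h3, h4, -, -, -, h8⟩ := ex_dbl c hU hM hF hT hP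
  exact net_loc hU d h1 h2 h3 h4 hT hl h8 hf hZ

end Vale.Agent.N352.Sl
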