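import Vale.Agent.N352.Pr
import Vale.Agent.P352W.Rp.Der
import Vale.Agent.P352X.EB.JB
import Vale.Agent.P352X.EB.ANA
import Vale.Agent.P352X.EG.SG

/-!
# N352: words of fields as vector valued distributions with positive spectrum
-/

set_option linter.all false

noncomputable section

open Filter Topology MeasureTheory
open scoped SchwartzMap LineDeriv ComplexConjugate
open UniformSpace (Completion)

namespace Vale.Agent.N352.Kn

open Vale.Agent.P352 Vale.Agent.P352.GF Vale.Agent.P352X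
open Vale.Agent.P352W.Rp (Aj aj_fld aj_id)
open Vale.Agent.P352X.ST (tens tsl)

variable {D : Type*} [NormedAddCommGroup D] [InnerProductSpace ℂ D] {Q : Theory D}

lemma tst (g : Sch) : IsTest (ev g) := ⟨g, rfl⟩

/-- the fields -/
abbrev Fl (Q : Theory D) := {B : Fld D // Q.fld B}

/-- smeared fields -/
def op (B : Fl Q) : Sch →ₗ[ℂ] D →ₗ[ℂ] D :=
  have z : ∀ v, B.1 (ev 0) v = 0 := fun v => by
    have := Q.lin B.1 (ev 0) (ev 0) 1 v B.2 (tst 0) (tst 0)
    rw [show (fun x => ev 0 x + 1 * ev 0 x) = ev 0 from funext fun x => by simp [ev],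
      one_smul] at this
    simpa using this
  LinearMap.mk₂ ℂ (fun g v => B.1 (ev g) v)
    (fun g g' v => by
      have := Q.lin B.1 (ev g) (ev g') 1 v B.2 (tst g) (tst g')
      rwa [show (fun x => ev g x + 1 * ev g' x) = ev (g + g') from funext fun x => by simp [ev],
        one_smul] at this)
    (fun a g v => by
      have := Q.lin B.1 (ev 0) (ev g) a v B.2 (tst 0) (tst g)
      rwa [show (fun x => ev 0 x + a * ev g x) = ev (a • g) from funext fun x => by simp [ev], z,
        zero_add] at this)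
    (fun g => (aj_fld B.2 (tst g)).add) fun a g => (aj_fld B.2 (tst g)).smul a

lemma op_apply (B : Fl Q) (g : Sch) (v : D) : op B g v = B.1 (ev g) v := rfl

/-- words, applied to the vacuum -/
def wd : {n : ℕ} → (Fin n → Fl Q) → MultilinearMap ℂ (fun _ : Fin n => Sch) D
  | 0, _ => MultilinearMap.constOfIsEmpty ℂ _ Q.vac
  | _ + 1, u => LinearMap.uncurryLeft
      { toFun := fun g => (op (u 0) g).compMultilinearMap (wd (Fin.tail u))
        map_add' := fun g g' => by ext f; simp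
        map_smul' := fun a g => by ext f; simp }

lemma wd_zero (u : Fin 0 → Fl Q) (f : Fin 0 → Sch) : wd u f = Q.vac := rfl

lemma wd_succ {n : ℕ} (u : Fin (n + 1) → Fl Q) (f : Fin (n + 1) → Sch) :
    wd u f = (u 0).1 (ev (f 0)) (wd (Fin.tail u) (Fin.tail f)) := rfl

lemma wd_bound : ∀ {n : ℕ} (u : Fin n → Fl Q) {X : D → D}, Aj X → ∃ (C : ℝ) (m : ℕ), 0 ≤ C ∧
    ∀ f, ‖X (wd u f)‖ ≤ C * ∏ i, ST.sn V ℂ m (f i)
  | 0, u, X, _ => ⟨‖X Q.vac‖, 0, norm_nonneg _, fun f => by simp [wd_zero]⟩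
  | n + 1, u, X, hX => by
    have := EB.ana_row.baire
    have := EB.ana_row.barr
    have mono : ∀ {m m' : ℕ}, m ≤ m' → ∀ f : Fin n → Sch,
        ∏ i, ST.sn V ℂ m (f i) ≤ ∏ i, ST.sn V ℂ m' (f i) := fun h f =>
      Finset.prod_le_prod (fun _ _ => apply_nonneg _ _) fun _ _ => ST.sn_mono h _
    have pos : ∀ (m : ℕ) (f : Fin n → Sch), 0 ≤ ∏ i, ST.sn V ℂ m (f i) := fun m f =>
      Finset.prod_nonneg fun _ _ => apply_nonneg _ _
    obtain ⟨m, k, C, hC, h⟩ := EB.JBp.ubp
      (fun f : Fin n → Sch => hX.lin ∘ₗ (op (u 0)).flip (wd (Fin.tail u) f))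
      (fun f => H246.cont_of_weak _ dense_univ fun z _ => by
        obtain ⟨X', h⟩ := id hX
        exact (continuous_const.inner (Q.cont _ (wd (Fin.tail u) f) (u 0).2)).congr
          fun g => (h z _).symm)
      (fun m f => m * ∏ i, ST.sn V ℂ m (f i)) fun g => by
        obtain ⟨C, m, hC, h⟩ := wd_bound (Fin.tail u) (hX.comp (aj_fld (u 0).2 (tst g)))
        refine ⟨max m ⌈C⌉₊, fun f => (h f).trans (mul_le_mul ((Nat.le_ceil C).trans ?_)
          (mono (le_max_left _ _) f) (pos _ _) (Nat.cast_nonneg _))⟩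
        exact_mod_cast le_max_right _ _
    refine ⟨C * m, max m k, by positivity, fun f => (h (Fin.tail f) (f 0)).trans ?_⟩
    rw [Fin.prod_univ_succ, Api4.sn_eq]
    calc _ = C * m * (ST.sn V ℂ k (f 0) * ∏ i, ST.sn V ℂ m (Fin.tail f i)) := by ring
      _ ≤ _ := mul_le_mul_of_nonneg_left (mul_le_mul (ST.sn_mono (le_max_right _ _) _)
        (mono (le_max_left _ _) _) (pos _ _) (apply_nonneg _ _)) (by positivity)

lemma ex_W1 {n : ℕ} (u : Fin n → Fl Q) : ∃ W : 𝓢(Fin n → V, ℂ) →L[ℂ] Completion D,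
    ∀ f, W (pt f) = (wd u f : D) := by
  obtain ⟨C, m, hC, h⟩ := wd_bound u aj_id
  exact kernelN ((Completion.toComplL : D →L[ℂ] Completion D).toLinearMap.compMultilinearMap (wd u))
    hC fun f => (Completion.norm_coe _).trans_le (h f)

/-- words as distributions -/
def W1 {n : ℕ} (u : Fin n → Fl Q) : 𝓢(Fin n → V, ℂ) →L[ℂ] Completion D := (ex_W1 u).choose

lemma W1_pt {n : ℕ} (u : Fin n → Fl Q) (f : Fin n → Sch) : W1 u (pt f) = (wd u f : D) :=
  (ex_W1 u).choose_spec f

lemma W1_cons {n : ℕ} (u : Fin (n + 1) → Fl Q) (g : Sch) (f : Fin n → Sch) :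
    W1 u (cons g (pt f)) = ((u 0).1 (ev g) (wd (Fin.tail u) f) : D) := W1_pt u (Fin.cons g f)

lemma ext_D {z z' : Completion D}
    (h : ∀ w : D, inner ℂ (w : Completion D) z = inner ℂ (w : Completion D) z') : z = z' :=
  ext_inner_left ℂ fun w => Completion.induction_on w
    (isClosed_eq (continuous_id.inner continuous_const) (continuous_id.inner continuous_const)) h

lemma W1_adj {n : ℕ} (u : Fin (n + 1) → Fl Q) (g : Sch) (w : D) : ∃ w' : D,
    ∀ (u' : Fin (n + 1) → Fl Q), u' 0 = u 0 → ∀ F, inner ℂ (w : Completion D) (W1 u' (cons g F)) =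
      inner ℂ (w' : Completion D) (W1 (Fin.tail u') F) := by
  obtain ⟨X, hX⟩ := aj_fld (u 0).2 (tst g)
  refine ⟨X w, fun u' e => eq_pt (innerSL ℂ (w : Completion D) ∘L W1 u' ∘L cons g)
    (innerSL ℂ ((X w : D) : Completion D) ∘L W1 (Fin.tail u')) fun f => ?_⟩
  simp only [ContinuousLinearMap.comp_apply, innerSL_apply_apply, W1_cons, W1_pt,
    Completion.inner_coe, e, hX]

/-! ## positive spectrum -/

lemma wd_tsl (y : V) : ∀ {n : ℕ} (u : Fin n → Fl Q) (f : Fin n → Sch),
    wd u (fun i => tsl y (f i)) = Q.U 1 GF.one y (wd u f)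
  | 0, u, f => (Q.U_vac _ _ _ one_pos H496.isLor_one).symm
  | n + 1, u, f => by
    rw [wd_succ, wd_succ, show Fin.tail (fun i => tsl y (f i)) = fun i => tsl y (Fin.tail f i)
      from rfl, wd_tsl, Q.transl _ _ _ _ (u 0).2 (tst _)]
    refine congrArg (fun g => Q.U 1 GF.one y ((u 0).1 g _)) (funext fun x => ?_)
    simp only [ev, ST.tsl_apply]
    congr 1
    funext m
    simp [sim, GF.one, bas]

lemma W1_tsl {n : ℕ} (u : Fin n → Fl Q) (y : V) (F : 𝓢(Fin n → V, ℂ)) :
    W1 u (tsl (fun _ => y) F) = Ut Q y (W1 u F) :=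
  eq_pt (W1 u ∘L tsl fun _ => y) (Ut Q y ∘L W1 u) (fun f => by
    have : tsl (fun _ => y) (pt f) = pt fun i => tsl y (f i) := SchwartzMap.ext fun x => by
      simp only [ST.tsl_apply, pt_apply, Pi.sub_apply]
    simp only [ContinuousLinearMap.comp_apply, this, W1_pt, wd_tsl, EG.SGx.ut_coe]) F

lemma ut_neg {e : V} (he : H496.IsNull e) {h : 𝓢(ℝ, ℂ)} (hh : Neg h) (z : Completion D) :
    ∫ t : ℝ, h t • Ut Q (t • e) z = 0 := by
  have hi : ∀ z, Integrable fun t : ℝ => h t • Ut Q (t • e) z := fun z =>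
    (h.integrable.norm.mul_const ‖z‖).mono' (h.continuous.smul (((EG.SGx.urep Q).cont z).comp
      (continuous_id.smul continuous_const))).aestronglyMeasurable (.of_forall fun t => by
        have a := SN.norm_of_inn (EG.SGx.ut_inn Q (t • e)) z 0
        rw [map_zero, sub_zero, sub_zero] at a
        rw [norm_smul, a])
  let S : Completion D →ₗ[ℂ] Completion D :=
    { toFun := fun z => ∫ t : ℝ, h t • Ut Q (t • e) z
      map_add' := fun z w => by
        simp only [map_add, smul_add]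
        exact integral_add (hi z) (hi w)
      map_smul' := fun a z => by
        simp only [map_smul, smul_comm (h _) a, integral_smul, RingHom.id_apply] }
  refine LinearMap.congr_fun ((inner_map_self_eq_zero S).1 fun z => ?_) z
  obtain ⟨ν, hν, h1, h2⟩ := EG.SGx.spec Q z
  rw [inner_eq_zero_symm]
  refine (integral_inner (hi z) z).symm.trans ?_
  simp only [inner_smul_right, h2, ← integral_const_mul]
  rw [integral_integral_swap]
  · refine integral_eq_zero_of_ae (h1.mono fun p hp => ?_)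
    have := hh _ (Kin.Cone.md_nonneg he hp)
    simpa only [H496.gm_smul, H496.gm_comm p e, Pi.zero_apply] using this
  · refine (h.integrable.norm.comp_fst ν).mono' (Continuous.aestronglyMeasurable ?_)
      (.of_forall fun q => ?_)
    · unfold Function.uncurry GF.mdot
      fun_prop
    · simp only [Function.uncurry, norm_mul, mul_comm Complex.I, Complex.norm_exp_ofReal_mul_I,
        mul_one, le_refl]

/-- The vectors `(0, ..., 0, e, ..., e)` or `(0, ..., 0, e, 0, ..., 0)`, `e` in `S`. -/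
def Dir (b : ℝ) (S : Set V) : (n : ℕ) → Set (Fin n → V)
  | 0 => ∅
  | n + 1 => (fun e => Fin.cons e fun _ => b • e) '' S ∪ (fun η => Fin.cons 0 η) '' Dir b S n

lemma span_dir (b : ℝ) {S : Set V} (hS : Submodule.span ℝ S = ⊤) :
    ∀ n, Submodule.span ℝ (Dir b S n) = ⊤
  | 0 => Subsingleton.elim _ _
  | n + 1 => by
    let A : V →ₗ[ℝ] Fin (n + 1) → V := LinearMap.pi (Fin.cons .id fun _ => b • .id)
    let B : (Fin n → V) →ₗ[ℝ] Fin (n + 1) → V := LinearMap.pi (Fin.cons 0 fun i => .proj i)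
    have hA : (fun e : V => (Fin.cons e fun _ => b • e : Fin (n + 1) → V)) = A :=
      funext fun e => funext fun i => by cases i using Fin.cases <;> rfl
    have hB : (fun η : Fin n → V => (Fin.cons 0 η : Fin (n + 1) → V)) = B :=
      funext fun e => funext fun i => by cases i using Fin.cases <;> rfl
    rw [Dir, hA, hB, Submodule.span_union, ← Submodule.map_span, ← Submodule.map_span, hS,
      span_dir b hS n, eq_top_iff]
    refine fun x _ => Submodule.mem_sup.2 ⟨_, ⟨x 0, trivial, rfl⟩, _,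
      ⟨fun i => x i.succ - b • x 0, trivial, rfl⟩, funext (Fin.cases ?_ fun i => ?_)⟩
    · simp [A, B]
    · simp [A, B]

lemma span_bas : Submodule.span ℝ (Set.range fun m : Ix => bas m 1) = ⊤ := by
  refine eq_top_iff.2 fun x _ => ?_
  rw [show x = ∑ m, x m • bas m 1 from funext fun n => by simp [bas]]
  exact Submodule.sum_mem _ fun m _ => Submodule.smul_mem _ _ (Submodule.subset_span ⟨m, rfl⟩)

lemma span_null : Submodule.span ℝ {e : V | H496.IsNull e} = ⊤ := by
  have h : ∀ a b c : ℝ, a ^ 2 + b ^ 2 + c ^ 2 = 1 →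
      ![1, a, b, c] ∈ Submodule.span ℝ {e : V | H496.IsNull e} := fun a b c h =>
    Submodule.subset_span ⟨by simp [H496.gm]; linarith, by simp [o]⟩
  refine eq_top_iff.2 fun x _ => ?_
  rw [show x = ((x 0 - x 2 - x 3 + x 1) / 2) • ![1, 1, 0, 0] + ((x 0 - x 2 - x 3 - x 1) / 2) •
    ![1, -1, 0, 0] + x 2 • ![1, 0, 1, 0] + x 3 • ![1, 0, 0, 1] from funext fun n => by
      fin_cases n <;> simp <;> ring]
  refine add_mem (add_mem (add_mem ?_ ?_) ?_) ?_ <;>
    exact Submodule.smul_mem _ _ (h _ _ _ (by norm_num))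

lemma W1_pos : ∀ {n : ℕ} (u : Fin n → Fl Q), ∀ η ∈ Dir 1 {e | H496.IsNull e} n, Pos (W1 u) η
  | 0, _, _, h => h.elim
  | n + 1, u, _, .inl ⟨e, he, rfl⟩ => fun h hh F => by
    rw [(clm_cv _ _ _ _).2, ← ut_neg he hh (W1 u F)]
    refine congrArg _ (funext fun t => ?_)
    rw [← W1_tsl, show (t • (fun e => Fin.cons e fun _ => (1 : ℝ) • e) e : Fin (n + 1) → V) =
      fun _ => t • e from funext fun i => by cases i using Fin.cases <;> simp]
  | n + 1, u, _, .inr ⟨η, hη, rfl⟩ => fun h hh F => by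
    refine DFunLike.congr_fun (ext_cons (Λ := W1 u ∘L cv _ h) (Λ' := 0) fun g G _ _ =>
      ext_D fun w => ?_) F
    obtain ⟨w', hw⟩ := W1_adj u g w
    have : cv (Fin.cons 0 η : Fin (n + 1) → V) h (cons g G) = cons g (cv η h G) :=
      SchwartzMap.ext fun x => by
        simp only [cv_apply, cons_apply, ← integral_const_mul, mul_left_comm (g _)]
        congr 1
        funext t
        congr 3
        simp
    rw [ContinuousLinearMap.comp_apply, this, hw u rfl, W1_pos _ η hη h hh, inner_zero_right]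
    exact (inner_zero_right _).symm

/-! ## derivatives -/

lemma ev_der (m : Ix) (g : Sch) : ev (∂_{bas m 1} g) = pd m (ev g) := funext fun x => by
  rw [ev, SchwartzMap.lineDerivOp_apply, lineDeriv, pd]
  congr 2
  funext t
  congr 1
  funext n
  simp [bas]

lemma W1_der (hd : ∀ B m, Q.fld B → Q.fld fun f v => B (pd m f) v) :
    ∀ {n : ℕ} (u : Fin n → Fl Q), ∀ η ∈ Dir 0 (Set.range fun m : Ix => bas m 1) n,
      ∃ u' : Fin n → Fl Q, (∀ i, u' i = u i ∨ ∃ m, (u' i).1 = fun f v => (u i).1 (pd m f) v) ∧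
        ∀ F, W1 u' F = W1 u (∂_{η} F)
  | 0, _, _, h => h.elim
  | n + 1, u, _, .inl ⟨_, ⟨m, rfl⟩, rfl⟩ => by
    refine ⟨Fin.cons ⟨_, hd _ m (u 0).2⟩ (Fin.tail u), Fin.cases (.inr ⟨m, rfl⟩) fun _ => .inl rfl,
      eq_pt _ (W1 u ∘L LineDeriv.lineDerivOpCLM ℂ 𝓢(Fin (n + 1) → V, ℂ)
        (Fin.cons (bas m 1) fun _ => (0 : ℝ) • bas m 1 : Fin (n + 1) → V)) fun f => ?_⟩
    have : ∂_{(Fin.cons (bas m 1) fun _ => (0 : ℝ) • bas m 1 : Fin (n + 1) → V)} (pt f) =
        cons (∂_{bas m 1} (f 0)) (pt (Fin.tail f)) := SchwartzMap.ext fun x => by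
      simp only [SchwartzMap.lineDerivOp_apply, lineDeriv, pt_succ, cons_apply,
        ← deriv_mul_const_field]
      congr 1
      funext t
      congr 2
      funext i
      simp [Fin.tail]
    rw [ContinuousLinearMap.comp_apply, LineDeriv.lineDerivOpCLM_apply, this, W1_cons, ev_der,
      W1_pt]
    rfl
  | n + 1, u, _, .inr ⟨η, hη, rfl⟩ => by
    obtain ⟨u', h1, h2⟩ := W1_der hd (Fin.tail u) η hη
    refine ⟨Fin.cons (u 0) u', Fin.cases (.inl rfl) h1, DFunLike.congr_fun (ext_cons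
      (Λ' := W1 u ∘L LineDeriv.lineDerivOpCLM ℂ 𝓢(Fin (n + 1) → V, ℂ)
        (Fin.cons 0 η : Fin (n + 1) → V)) fun g G _ _ => ext_D fun w => ?_)⟩
    obtain ⟨w', hw⟩ := W1_adj u g w
    have : ∂_{(Fin.cons 0 η : Fin (n + 1) → V)} (cons g G) = cons g (∂_{η} G) :=
      SchwartzMap.ext fun x => by
        simp only [SchwartzMap.lineDerivOp_apply, lineDeriv, cons_apply, ← deriv_const_mul_field]
        congr 1
        funext t
        congr 2
        simp
    rw [ContinuousLinearMap.comp_apply, LineDeriv.lineDerivOpCLM_apply, this, hw u rfl,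
      hw (Fin.cons (u 0) u') rfl, ← h2]
    rfl

end Vale.Agent.N352.Kn
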