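import Vale.Agent.N352.Pub
import Vale.Agent.P352.H246.ScalVac
import Vale.Agent.P352.H755.R7d
import Mathlib.Topology.Algebra.LinearMapCompletion

/-!
# N352: elementary lemmas (reconstruction gives completeness, covariance, sums of descendants)
-/

set_option linter.all false

namespace Vale.Agent.N352

open P352.GF P352R.P P352R.G
open UniformSpace (Completion)
open scoped ComplexConjugate

noncomputable section

variable {D : Type*} [NormedAddCommGroup D] [InnerProductSpace ℂ D] {Q : Theory D}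

theorem t_bar {f : Fn} (hf : IsTest f) : IsTest (bar f) := P352.H246.isTest_bar hf

theorem t_pd (m : Ix) {f : Fn} (hf : IsTest f) : IsTest (pd m f) := by
  obtain ⟨F, rfl⟩ := P352.exists_fl hf
  rw [P352.pd_fl]
  exact P352.isTest_fl _

theorem t_sim {s : ℝ} {L : Ix → V} (hs : 0 < s) (hL : IsLor L) (a : V) {f : Fn} (hf : IsTest f) :
    IsTest fun x => f (sim s L a x) := by
  obtain ⟨F, rfl⟩ := P352.exists_fl hf
  rw [P352.fl_sim s hs hL a]
  exact P352.isTest_fl _

theorem lor1 : IsLor one := P352.isLor_one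

/-- a smeared field as a linear map -/
def fm {B : Fld D} (hB : Q.fld B) {f : Fn} (hf : IsTest f) : D →ₗ[ℂ] D where
  toFun := B f
  map_add' v w := by
    obtain ⟨F, rfl⟩ := P352.exists_fl hf
    exact P352.fld_add hB F v w
  map_smul' c v := by
    obtain ⟨F, rfl⟩ := P352.exists_fl hf
    exact P352.fld_smul hB F c v

/-- a similitude as a linear map -/
def um (Q : Theory D) {s : ℝ} {L : Ix → V} (hs : 0 < s) (hL : IsLor L) (a : V) : D →ₗ[ℂ] D :=
  ⟨⟨Q.U s L a, P352.U_add hs hL a⟩, P352.U_smul hs hL a⟩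

/-- a similitude as a linear isometry -/
def ui (Q : Theory D) {s : ℝ} {L : Ix → V} (hs : 0 < s) (hL : IsLor L) (a : V) : D →ₗᵢ[ℂ] D :=
  (um Q hs hL a).isometryOfInner fun v w => Q.U_inner s L a v w hs hL

theorem ue_coe {s : ℝ} {L : Ix → V} (hs : 0 < s) (hL : IsLor L) (a : V) (v : D) :
    Ue Q s L a (v : Completion D) = (Q.U s L a v : D) :=
  Completion.map_coe (ui Q hs hL a).isometry.uniformContinuous v

theorem ue_inner {s : ℝ} {L : Ix → V} (hs : 0 < s) (hL : IsLor L) (a : V) (z w : Completion D) :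
    inner ℂ (Ue Q s L a z) (Ue Q s L a w) = inner ℂ z w := by
  have c : Continuous (Ue Q s L a) := Completion.continuous_map
  refine Completion.induction_on₂ z w (isClosed_eq ((c.comp continuous_fst).inner
    (c.comp continuous_snd)) (continuous_fst.inner continuous_snd)) fun v w => ?_
  rw [ue_coe hs hL, ue_coe hs hL, Completion.inner_coe, Completion.inner_coe,
    Q.U_inner _ _ _ _ _ hs hL]

/-! ### the vectors generated by the fields -/

/-- the generated vectors, as a subspace -/
def cy (Q : Theory D) : Submodule ℂ D where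
  carrier := {w | Cyc Q w}
  add_mem' a b S h0 h := S.add_mem (a S h0 h) (b S h0 h)
  zero_mem' S _ _ := S.zero_mem
  smul_mem' c _ a S h0 h := S.smul_mem c (a S h0 h)

theorem cyc_vac : Cyc Q Q.vac := fun _ h _ => h

theorem Cyc.fld {w : D} (h : Cyc Q w) {B : Fld D} (hB : Q.fld B) {f : Fn} (hf : IsTest f) :
    Cyc Q (B f w) := fun S h0 h1 => h1 B f w hB hf (h S h0 h1)

theorem cyc_ext {z z' : Completion D}
    (h : ∀ v, Cyc Q v → inner ℂ z (v : Completion D) = inner ℂ z' (v : Completion D)) : z = z' := by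
  have d : Dense (cy Q : Set D) := Q.cyclic _ cyc_vac fun A f v hA hf hv => Cyc.fld hv hA hf
  have c : Continuous ((↑) : D → Completion D) := Completion.continuous_coe D
  have e := (continuous_const.inner c).ext_on d (continuous_const.inner c)
    (f := fun v : D => inner ℂ z (v : Completion D))
    (g := fun v : D => inner ℂ z' (v : Completion D)) h
  refine ext_inner_right ℂ fun y => Completion.induction_on y
    (isClosed_eq (continuous_const.inner continuous_id) (continuous_const.inner continuous_id))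
    fun v => congrFun e v

section ext

variable {E : Submodule ℂ (Completion D)} {R : Theory E} {e : Fld D → Fld E} {Γ N G'}
  (h : Ext Q Γ N R G' e)
include h

theorem Ext.mem {w : D} (hw : Cyc Q w) : ∃ v : E, (v : Completion D) = w := by
  let S : Submodule ℂ D := cy Q ⊓ E.comap (Completion.toComplL (𝕜 := ℂ) (E := D)).toLinearMap
  have : w ∈ S := hw S ⟨cyc_vac, by
      show (Q.vac : Completion D) ∈ E
      rw [← show (R.vac : Completion D) = (Q.vac : Completion D) from h.vac]
      exact R.vac.2⟩ fun A f v hA hf hv => ⟨Cyc.fld hv.1 hA hf, by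
      show ((A f v : D) : Completion D) ∈ E
      rw [← h.agree A f ⟨v, hv.2⟩ v hA hf hv.1 rfl]
      exact Subtype.property _⟩
  exact ⟨⟨w, this.2⟩, rfl⟩

/-- a Bose field of an extension is weakly local -/
theorem Ext.wl {L : Fld E} (hL : R.bose L) (hh : IsAdj L L) {f : Fn} (hf : IsTest f)
    {X X' : D → D} (hX : Al Q (cc (tsupport f)) X X') :
    (∀ v, Cyc Q v → Cyc Q (X v)) ∧ (∀ w, Cyc Q w → Cyc Q (X' w)) ∧
    ∀ (v w : D) (v' w' : E), Cyc Q v → Cyc Q w → (v' : Completion D) = v →
      (w' : Completion D) = w → inner ℂ ((X' w : D) : Completion D) (L f v' : Completion D) =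
        inner ℂ (L (bar f) w' : Completion D) ((X v : D) : Completion D) := by
  induction hX with
  | one =>
    refine ⟨fun _ a => a, fun _ a => a, fun v w v' w' _ _ a b => ?_⟩
    rw [← a, ← b, ← Submodule.coe_inner, ← Submodule.coe_inner, hh _ _ _ (t_bar hf),
      P352.H246.bar_bar]
  | add X X' Y Y' _ _ a b =>
    refine ⟨fun v c => (cy Q).add_mem (a.1 v c) (b.1 v c),
      fun v c => (cy Q).add_mem (a.2.1 v c) (b.2.1 v c), fun v w v' w' c d p q => ?_⟩
    simp only [Completion.coe_add, inner_add_left, inner_add_right, a.2.2 v w v' w' c d p q,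
      b.2.2 v w v' w' c d p q]
  | smul z X X' _ a =>
    refine ⟨fun v c => (cy Q).smul_mem z (a.1 v c), fun v c => (cy Q).smul_mem _ (a.2.1 v c),
      fun v w v' w' c d p q => ?_⟩
    simp only [Completion.coe_smul, inner_smul_left, inner_smul_right, a.2.2 v w v' w' c d p q]
    simp
  | fld A B g X X' hA hB ad hg _ a =>
    refine ⟨fun v c => (a.1 v c).fld hA hg.1, fun w c => a.2.1 _ (c.fld hB (t_bar hg.1)),
      fun v w v' w' c d p q => ?_⟩
    obtain ⟨C, hC, ad'⟩ := R.adj _ (h.fld A hA)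
    have k : (C (bar g) w' : Completion D) = (B (bar g) w : D) := cyc_ext (Q := Q) fun y hy => by
      obtain ⟨y', r⟩ := h.mem hy
      have k1 : inner ℂ (y : Completion D) (C (bar g) w' : Completion D) =
          inner ℂ (y : Completion D) ((B (bar g) w : D) : Completion D) := by
        rw [Completion.inner_coe, ← ad g y w hg.1, ← Completion.inner_coe (A g y),
          ← h.agree A g y' y hA hg.1 hy r, ← q, ← r, ← Submodule.coe_inner, ← Submodule.coe_inner,
          ad' g y' w' hg.1]
      rw [← inner_conj_symm, k1, inner_conj_symm]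
    obtain ⟨x', r⟩ := h.mem (a.1 v c)
    have sp : Sep (bar f) (bar g) := fun x hx y hy => by
      rw [P352.H246.tsupport_bar] at hx hy
      exact hg.2.2 hy x hx
    rw [a.2.2 v _ v' _ c (d.fld hB (t_bar hg.1)) p k, R.loc L C _ _ _ hL hC (t_bar hf) (t_bar hg.1) sp,
      ← h.agree A g x' _ hA hg.1 (a.1 v c) r, ← r, ← Submodule.coe_inner, ← Submodule.coe_inner,
      ← inner_conj_symm, ← ad' g _ _ hg.1]
    exact inner_conj_symm (𝕜 := ℂ) (L (bar f) w') (e A g x')

end ext

/-- **field reconstruction implies the completeness of the Borchers class** -/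
theorem max_of_rec (h : Rec Q) (Γ) (N : Set V → VonNeumannAlgebra (Completion D)) :
    Max Q Γ N Q .id := by
  intro E R G' e L x hL
  have hf := R.bose_fld _ hL.1
  obtain ⟨Φ, hΦ⟩ := h 0 2 (fun _ f => (L f R.vac : Completion D))
    ⟨fun _ f g c a b => by rw [R.lin L f g c _ hf a b]; rfl,
      fun _ => continuous_subtype_val.comp (R.cont L _ hf), fun μ s M a f hs hM b => by
        have := hL.2.2 s M a f R.vac hs hM b
        rw [R.U_vac _ _ _ hs hM] at this
        rw [Fintype.sum_unique, this, Submodule.coe_smul, x.U _ _ _ _ hs hM]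
        simp⟩
    fun _ f X X' a b => (x.wl hL.1 hL.2.1 a.1 b).2.2 _ _ _ _ cyc_vac cyc_vac x.vac x.vac
  exact ⟨_, (hΦ default).1, fun f k => ((hΦ default).2 f k).trans
    (congrFun (Completion.map_id (α := D)) _).symm⟩

/-! ### covariance -/

theorem cov_lor {L : Ix → V} (hL : IsLor L) (d : DenseRange (Q.U 1 L 0)) (hM : MfA Q) :
    Cov Q 1 L 0 := by
  refine ⟨d, fun B hB => ?_⟩
  obtain ⟨n, A, h1, h2⟩ := hM B hB
  choose k Φ μ hΦ e using h1
  have inv : ∀ i, ∃ M, (k i).ρ L * M = 1 := fun i => by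
    have := (k i).mul L _ hL (P352.H246.isLor_linv hL)
    rw [P352.H755.linv_id hL, (k i).id] at this
    rcases this with h | h
    · exact ⟨_, mul_eq_one_comm.1 h.symm⟩
    · exact ⟨_, mul_eq_one_comm.1 ((neg_mul _ _).trans h.symm)⟩
  choose M hM using inv
  let q := (Fintype.equivFin (Σ i, Fin (k i).n)).symm
  refine ⟨_, fun j => M (q j).1 (q j).2 (μ (q j).1), fun j => Φ (q j).1 (q j).2,
    fun j => (hΦ _).1 _, fun f v hf => ?_⟩
  rw [q.sum_comp fun j => M j.1 j.2 (μ j.1) • Φ j.1 j.2 f (Q.U 1 L 0 v), Fintype.sum_sigma,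
    h2 _ v (t_sim one_pos hL 0 hf)]
  refine (map_sum (um Q one_pos hL 0) _ _).trans (Finset.sum_congr rfl fun i _ => ?_)
  simp only [(hΦ i).2 _ L f v hL hf, Finset.smul_sum, smul_smul]
  rw [Finset.sum_comm, e]
  have : ∀ b, ∑ a, M i a (μ i) * (k i).ρ L b a = if b = μ i then 1 else 0 := fun b => by
    rw [← Matrix.one_apply, ← hM i, Matrix.mul_apply]
    exact Finset.sum_congr rfl fun a _ => mul_comm _ _
  simp only [← Finset.sum_smul, this, ite_smul, one_smul, zero_smul, Finset.sum_ite_eq',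
    Finset.mem_univ, if_true]
  rfl

theorem cov_all {s : ℝ} {L : Ix → V} {a : V} (hs : 0 < s) (hL : IsLor L)
    (d : DenseRange (Q.U s L a))
    (u : ∀ v, Q.U s L a v = Q.U 1 one a (Q.U 1 L 0 (Q.U s one 0 v)))
    (h1 : Cov Q s one 0) (h2 : Cov Q 1 L 0) : Cov Q s L a := by
  refine ⟨d, fun B hB => ?_⟩
  obtain ⟨n, c, A, a1, a2⟩ := h1.2 B hB
  choose m c' A' b1 b2 using fun i => h2.2 _ (a1 i)
  let q := (Fintype.equivFin (Σ i, Fin (m i))).symm
  refine ⟨_, fun j => c (q j).1 * c' (q j).1 (q j).2, fun j => A' (q j).1 (q j).2,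
    fun j => b1 _ _, fun f v hf => ?_⟩
  have f1 := t_sim one_pos lor1 a hf
  have f2 := t_sim one_pos hL 0 f1
  have e : (fun x => f (sim s L a x)) =
      fun x => f (sim 1 one a (sim 1 L 0 (sim s one 0 x))) := by
    funext x
    congr 1
    funext n
    simp [sim, one, bas, Finset.mul_sum, mul_assoc]
  rw [q.sum_comp fun j => (c j.1 * c' j.1 j.2) • A' j.1 j.2 f (Q.U s L a v), Fintype.sum_sigma, e,
    u, u, a2 _ v f2]
  show um Q one_pos lor1 a (um Q one_pos hL 0 _) = _
  rw [map_sum, map_sum]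
  refine Finset.sum_congr rfl fun i _ => ?_
  rw [map_smul, map_smul, show um Q one_pos hL 0 _ = _ from b2 i _ _ f1, map_sum, Finset.smul_sum]
  refine Finset.sum_congr rfl fun j _ => ?_
  rw [map_smul, smul_smul, Q.transl _ a f _ (b1 i j) hf]
  rfl

/-! ### sums of descendants -/

theorem desc_sum {G : D → D} {t : Ix → Ix → Fld D} {e : Bool} {n : ℕ} {C : Fin n → Fld D}
    (h : ∀ i, DescS Q G t e (C i)) {B : Fld D} (hB : ∀ f v, IsTest f → B f v = ∑ i, C i f v) :
    DescS Q G t e B := by
  choose m k d c α a P P' h1 h2 using h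
  let q := (Fintype.equivFin (Σ i, Fin (m i))).symm
  refine ⟨_, fun j => k (q j).1 (q j).2, fun j => d (q j).1 (q j).2, fun j => c (q j).1 (q j).2,
    fun j => α (q j).1 (q j).2, fun j => a (q j).1 (q j).2, fun j => P (q j).1 (q j).2,
    fun j => P' (q j).1 (q j).2, fun j => h1 _ _, fun f v hf => ?_⟩
  rw [q.sum_comp fun j => c j.1 j.2 • P j.1 j.2 (a j.1 j.2) ((α j.1 j.2).foldr pd f) v,
    Fintype.sum_sigma, hil, hB f v hf, ← Completion.coe_toComplL (𝕜 := ℂ), map_sum]
  exact Finset.sum_congr rfl fun i _ => h2 i f v hf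

/-- the grading as a linear map -/
def gm {G : D → D} (g : Gr Q G) : D →ₗ[ℂ] D where
  toFun := G
  map_add' v w := ext_inner_right ℂ fun y => by simp only [g.herm, inner_add_left]
  map_smul' z v := ext_inner_right ℂ fun y => by
    simp only [g.herm, inner_smul_left, RingHom.id_apply]

theorem desc_all {G : D → D} (g : Gr Q G) {t : Ix → Ix → Fld D} (hM : MfA Q)
    (h : ∀ (e : Bool) k (Φ : Fin k.n → Fld D) a, IsMl Q k Φ →
      (∀ a, if e then Fer Q G (Φ a) else Q.bose (Φ a)) → DescS Q G t e (Φ a))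
    (e : Bool) (B : Fld D) (hB : if e then Fer Q G B else Q.bose B) : DescS Q G t e B := by
  let σ : ℂ := if e then -1 else 1
  have gg : ∀ v, gm g (gm g v) = v := g.inv
  have par : ∀ C, (if e then Fer Q G C else Q.bose C) → Q.fld C ∧ ∀ f v, IsTest f →
      C f v = (2⁻¹ : ℂ) • (C f v + σ • gm g (C f (gm g v))) := fun C hC => by
    cases e
    · refine ⟨Q.bose_fld _ hC, fun f v hf => ?_⟩
      rw [show C f (gm g v) = gm g (C f v) from g.bose C f v hC hf, gg]
      simp only [σ, Bool.false_eq_true, if_false]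
      module
    · refine ⟨hC.1, fun f v hf => ?_⟩
      rw [show C f (gm g v) = -gm g (C f v) from hC.2 f v hf, map_neg, gg]
      simp only [σ, if_true]
      module
  have spl : ∀ C, Q.fld C → ∃ C', (if e then Fer Q G C' else Q.bose C') ∧ ∀ f v, IsTest f →
      C' f v = (2⁻¹ : ℂ) • (C f v + σ • gm g (C f (gm g v))) := fun C hC => by
    obtain ⟨C1, C2, a1, a2, a3⟩ := g.split C hC
    have b : ∀ f v, IsTest f → gm g (C f (gm g v)) = C1 f v - C2 f v := fun f v hf => by
      rw [a3 _ _ hf, show C1 f (gm g v) = gm g (C1 f v) from g.bose C1 f v a1 hf,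
        show C2 f (gm g v) = -gm g (C2 f v) from a2.2 f v hf, map_add, map_neg, gg, gg,
        sub_eq_add_neg]
    cases e
    · refine ⟨C1, a1, fun f v hf => ?_⟩
      rw [b f v hf, a3 f v hf]
      simp only [σ, Bool.false_eq_true, if_false]
      module
    · refine ⟨C2, a2, fun f v hf => ?_⟩
      rw [b f v hf, a3 f v hf]
      simp only [σ, if_true]
      module
  obtain ⟨n, A, h1, h2⟩ := hM B (par B hB).1
  choose k Φ μ hΦ eq using h1
  choose Ψ p1 p2 using fun i b => spl _ ((hΦ i).1 b)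
  refine desc_sum (C := fun i => Ψ i (μ i)) (fun i => h e (k i) (Ψ i) (μ i)
    (fun b L f v hL hf => ?_) (p1 i)) fun f v hf => ?_
  · have gu : ∀ w, gm g (um Q one_pos hL 0 w) = um Q one_pos hL 0 (gm g w) := fun w =>
      (g.GU 1 L 0 w one_pos hL).symm
    have ml : ∀ w, Φ i b f (um Q one_pos hL 0 w) = ∑ c, (k i).ρ L c b •
        um Q one_pos hL 0 (Φ i c (fun x => f (sim 1 L 0 x)) w) := fun w => (hΦ i).2 b L f w hL hf
    show Ψ i b f (um Q one_pos hL 0 v) = ∑ c, _ • um Q one_pos hL 0 _
    simp only [p2 i _ _ _ hf, p2 i _ _ _ (t_sim one_pos hL 0 hf), gu, ml, map_sum, map_smul,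
      map_add, Finset.smul_sum, smul_add, ← Finset.sum_add_distrib]
    exact Finset.sum_congr rfl fun c _ => by module
  · rw [(par B hB).2 f v hf, h2 f _ hf, h2 f _ hf]
    simp only [p2 _ _ _ _ hf, eq, map_sum, Finset.smul_sum, smul_add, ← Finset.sum_add_distrib]

theorem desc_of {G : D → D} (g : Gr Q G) {t : Ix → Ix → Fld D}
    (h : ∀ (e : Bool) B, (if e then Fer Q G B else Q.bose B) → DescS Q G t e B) : Desc Q G t :=
  fun B hB => by
    obtain ⟨C, C', a, b, e⟩ := g.split B hB
    refine ⟨2, ![false, true], ![C, C'], fun j => ?_, fun f v hf => by simp [e f v hf]⟩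
    fin_cases j
    exacts [h false C a, h true C' b]

/-! ### scalar fields -/

theorem scal_of {S : Ix → Ix → Fld D} (hS : Q.IsStress S)
    (hC : ∀ s M a, 0 < s → IsLor M → Cov Q s M a) {L : Fld D} (hL : Q.bose L)
    (h1 : ∀ f, IsTest f → tr S f Q.vac = (3 : ℂ) • L (box f) Q.vac)
    (h2 : ∀ s M a f, 0 < s → IsLor M → IsTest f →
      L f Q.vac = ((s ^ 2 : ℝ) : ℂ) • Q.U s M a (L (fun x => f (sim s M a x)) Q.vac)) :
    Q.IsScalar L 2 ∧ ∀ f v, IsTest f → tr (improve S L) f v = 0 := by
  have hf := Q.bose_fld _ hL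
  obtain ⟨l, hl, hu, -, -, hr, -⟩ := P352.H246.main2 hS
  refine P352.H246.scalar_of_vac hS hl hr hC hL (hu (fun f => (L f Q.vac : D)) ⟨fun f g c a b => ?_,
    (Completion.continuous_coe D).comp (Q.cont L _ hf), fun f a => ?_, fun s M a f v hs hM b => ?_⟩)
  · rw [Q.lin L f g c _ hf a b, Completion.coe_add, Completion.coe_smul]
  · rw [h1 f a, Completion.coe_smul]
    rfl
  · rw [h2 s M a f hs hM b, Completion.inner_coe, Completion.inner_coe, inner_smul_right,
      Q.U_inner _ _ _ _ _ hs hM]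

theorem pow42 (s : ℝ) : s ^ ((4 : ℝ) - 2) = s ^ 2 := by
  rw [show ((4 : ℝ) - 2) = ((2 : ℕ) : ℝ) by norm_num, Real.rpow_natCast]

theorem t_box {f : Fn} (hf : IsTest f) : IsTest (box f) := by
  choose g hg using fun m => t_pd m (t_pd m hf)
  refine ⟨∑ m, (eta m : ℂ) • g m, funext fun y => ?_⟩
  simp only [box, ← hg, ev, SchwartzMap.sum_apply, SchwartzMap.smul_apply, smul_eq_mul]

/-- a scalar field of an extension gives a potential -/
theorem pot_ext {E : Submodule ℂ (Completion D)} {R : Theory E} {e : Fld D → Fld E} {Γ N G'}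
    (x : Ext Q Γ N R G' e)
    {S : Ix → Ix → Fld D} (hS : Q.IsStress S) {L : Fld E} (hL : R.IsScalar L 2)
    (h1 : ∀ f v, IsTest f → tr (fun m n => e (S m n)) f v = (3 : ℂ) • L (box f) v) :
    P352.H246.IsPot Q S fun f => (L f R.vac : Completion D) := by
  have hf := R.bose_fld _ hL.1
  refine ⟨fun f g c a b => by rw [R.lin L f g c _ hf a b]; rfl,
    continuous_subtype_val.comp (R.cont L _ hf), fun f hf => ?_, fun s M a f v hs hM b => ?_⟩
  · refine Eq.trans ?_ (?_ : ((tr (fun m n => e (S m n)) f R.vac : E) : Completion D) = _)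
    · rw [h1 f _ hf]
      rfl
    rw [tr, tr, Submodule.coe_sum, ← Completion.coe_toComplL (𝕜 := ℂ), map_sum]
    refine Finset.sum_congr rfl fun m _ => ?_
    rw [map_smul, Submodule.coe_smul,
      x.agree _ f _ Q.vac (Q.bose_fld _ (hS.bose m m)) hf cyc_vac x.vac]
    rfl
  · have := hL.2.2 s M a f R.vac hs hM b
    rw [R.U_vac _ _ _ hs hM] at this
    rw [this, Submodule.coe_smul, x.U _ _ _ _ hs hM, pow42, inner_smul_right, ← ue_coe hs hM,
      ue_inner hs hM]

section sect

variable {D' : Type*} [NormedAddCommGroup D'] [InnerProductSpace ℂ D'] {R : Theory D'}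

/-- the extension of an isometry to the completions -/
def jc (i : D →ₗᵢ[ℂ] D') : Completion D →L[ℂ] Completion D' := i.toContinuousLinearMap.completion

variable {i : D →ₗᵢ[ℂ] D'}

theorem jc_coe (v : D) : jc i v = (i v : D') := ContinuousLinearMap.completion_apply_coe _ v

theorem jc_map (z : Completion D) : Completion.map i z = jc i z := rfl

theorem jc_inner (z w : Completion D) : inner ℂ (jc i z) (jc i w) = inner ℂ z w :=
  Completion.induction_on₂ z w (isClosed_eq (by fun_prop) (by fun_prop)) fun v w => by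
    rw [jc_coe, jc_coe, Completion.inner_coe, Completion.inner_coe, i.inner_map_map]

theorem jc_om (h : Sect Q R i) : jc i (om Q) = om R := by rw [om, jc_coe, h.vac, om]

theorem jc_ue (h : Sect Q R i) {s : ℝ} {L : Ix → V} (hs : 0 < s) (hL : IsLor L) (a : V)
    (z : Completion D) : jc i (Ue Q s L a z) = Ue R s L a (jc i z) :=
  Completion.induction_on z (isClosed_eq ((jc i).continuous.comp Completion.continuous_map)
    (Completion.continuous_map.comp (jc i).continuous)) fun v => by
      rw [ue_coe hs hL, jc_coe, jc_coe, ue_coe hs hL, h.U _ _ _ _ hs hL]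

/-- from a sector to the theory -/
theorem scal_sect (h : Sect Q R i) {S : Ix → Ix → Fld D} {S' : Ix → Ix → Fld D'}
    (hS : R.IsStress S') (x : ∀ m n, Xt i (S m n) (S' m n)) {l : Fn → Completion D}
    (h1 : ∀ f, IsTest f → (3 : ℂ) • l (box f) = (tr S f Q.vac : D))
    (h2 : ∀ s M a f, 0 < s → IsLor M → IsTest f →
      l f = ((s ^ 2 : ℝ) : ℂ) • Ue Q s M a (l fun x => f (sim s M a x)))
    {B : Fld D'} (hB : R.bose B)
    (h3 : ∀ f, IsTest f → ((B f R.vac : D') : Completion D') = jc i (l f)) :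
    R.IsScalar B 2 ∧ ∀ f v, IsTest f → tr (improve S' B) f v = 0 := by
  refine scal_of hS h.cov hB (fun f hf => Completion.coe_injective D' ?_)
    fun s M a f hs hM hf => Completion.coe_injective D' ?_
  · rw [Completion.coe_smul, h3 _ (t_box hf), ← map_smul, h1 f hf, jc_coe, tr, tr, map_sum, ← h.vac]
    exact congrArg _ (Finset.sum_congr rfl fun m _ => by rw [map_smul, x m m f _ hf])
  · rw [Completion.coe_smul, ← ue_coe hs hM, h3 f hf, h3 _ (t_sim hs hM a hf), ← jc_ue h hs hM,
      ← map_smul, ← h2 s M a f hs hM hf]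

end sect

/-! ### nets -/

theorem lnm_of {A : (V → V) → D → D} {Γ : Completion D →L[ℂ] Completion D}
    {N : Set V → VonNeumannAlgebra (Completion D)} (h : LNg Q id A Γ N) : LNm Q A N := by
  have e : Γ = 1 := ContinuousLinearMap.ext fun z => Completion.induction_on z
    (isClosed_eq Γ.continuous continuous_id) h.ext
  refine ⟨⟨fun s L a s' L' a' v b c d f => (h.mul s L a s' L' a' b c d f).elim (fun k => k v)
    fun k => k.2.2 v, h.add, h.der⟩, h.fld, h.mono, h.cov, fun a b X p q r x => ?_⟩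
  have := (h.loc a b X p q r x).1
  rw [e, one_mul, mul_one] at this
  have k := (N (Wdg a b 0)).commutant.toStarSubalgebra.smul_mem this (2⁻¹ : ℂ)
  rwa [← two_smul ℂ X, smul_smul, inv_mul_cancel₀ two_ne_zero, one_smul] at k

theorem lng_of {A : (V → V) → D → D} {N : Set V → VonNeumannAlgebra (Completion D)}
    (h : LNm Q A N) (g : Gr Q id) : LNg Q id A 1 N :=
  ⟨g, rfl, h.add, h.der, fun _ => rfl, h.fld, h.mono, h.cov, fun O X x => by simpa using x,
    fun a b X p q r x => by
      have := h.loc a b X p q r x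
      rw [one_mul, mul_one, sub_self, zero_mul]
      exact ⟨add_mem this this, zero_mem _⟩⟩

end

end Vale.Agent.N352
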