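import Vale.Agent.N352.PwDef
import Vale.Agent.P352L.Gd.Hull
import Vale.Agent.P352H.Tfg
import Vale.Agent.P352X.R.G3
import Vale.Agent.P352W.Cn.Ft

/-!
# N352, block Tn: adding the identity and the derivatives to a graded theory (helper71)
-/

set_option linter.all false

open Filter Topology MeasureTheory
open scoped ComplexConjugate SchwartzMap LineDeriv
open UniformSpace (Completion)

noncomputable section

namespace Vale.Agent.N352.Tn

open Vale.Agent.P352 Vale.Agent.P352.GF Vale.Agent.P352.BW Vale.Agent.P352.H246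
open Vale.Agent.P352.H496 Vale.Agent.P352.H755 Vale.Agent.P352.H15
open Vale.Agent.P352.SubConf (IsAdj)
open Vale.Agent.P352X Vale.Agent.P352X.EG
open Vale.Agent.P352L Vale.Agent.P352L.StA
open Vale.Agent.P352W.Ft (vol_sim)

variable {D : Type*} [NormedAddCommGroup D] [InnerProductSpace ℂ D] {Q : Theory D} {G : D → D}
  {A : (V → V) → D → D} {T : Ix → Ix → Fld D} {f g : Fn}
  {Γ : Completion D →L[ℂ] Completion D} {N : Set V → VonNeumannAlgebra (Completion D)}

theorem int_pd (m : Ix) (hf : IsTest f) : ∫ x, pd m f x = 0 := by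
  obtain ⟨F, rfl⟩ := hf
  have := Kn.ft_der volume (bas m 1 : V) F 0
  rw [Kn.ft_zero] at this
  rw [Grp.pd_ev]
  simpa [ev] using this

theorem int_lin (z : ℂ) (hf : IsTest f) (hg : IsTest g) :
    ∫ x, (f x + z * g x) = (∫ x, f x) + z * ∫ x, g x := by
  rw [integral_add (P352W.Ft.test_int hf) ((P352W.Ft.test_int hg).const_mul z), integral_const_mul]

theorem int_bar (f : Fn) : ∫ x, bar f x = conj (∫ x, f x) := integral_conj

theorem int_cont : Continuous fun g : Sch => ∫ x, ev g x :=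
  (SchwartzMap.integralCLM ℂ (volume : Measure V) : Sch →L[ℂ] ℂ).continuous

theorem odd_zero (h : Gr Q G) {x : D} (e : G x = -G x) : x = 0 := by
  have z : G x = 0 := (smul_eq_zero.1 (show (2 : ℂ) • G x = 0 by
    linear_combination (norm := module) e)).resolve_left two_ne_zero
  rw [← h.inv x, z, (Gd.gr_lin h).map_zero]

/-! ## the identity -/

/-- multiples of the identity -/
def idz (z : ℂ) : Fld D := fun f v => (z * ∫ x, f x) • v

theorem idz_U (z : ℂ) {s : ℝ} {L : Ix → V} (hs : 0 < s) (hL : IsLor L) (a : V) (f : Fn) (v : D) :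
    idz z f (Q.U s L a v) = (s : ℂ) ^ 4 • Q.U s L a (idz z (fun x => f (sim s L a x)) v) := by
  have : (s : ℂ) ≠ 0 := Complex.ofReal_ne_zero.2 hs.ne'
  rw [idz, idz, U_smul hs hL, vol_sim hs hL, smul_smul]
  congr 1
  push_cast
  field_simp

theorem idz_adj (z : ℂ) : IsAdj (idz z : Fld D) (idz (conj z)) := fun f v w _ => by
  simp only [idz, inner_smul_left, inner_smul_right, int_bar, map_mul]

/-- the theory with the identity -/
def wid (Q : Theory D) : Theory D :=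
  { Q with
    fld := fun B => Q.fld B ∨ ∃ z, B = idz z
    bose := fun B => Q.bose B ∨ ∃ z, B = idz z
    cyclic := fun S h0 h => Q.cyclic S h0 fun B f v hB => h B f v (.inl hB)
    lin := by
      rintro B f g c v (hB | ⟨z, rfl⟩) hf hg
      · exact Q.lin B f g c v hB hf hg
      · simp only [idz, int_lin c hf hg]
        module
    cont := by
      rintro B v (hB | ⟨z, rfl⟩)
      · exact Q.cont B v hB
      · exact (continuous_const.mul int_cont).smul continuous_const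
    adj := by
      rintro B (hB | ⟨z, rfl⟩)
      · exact (Q.adj B hB).imp fun _ h => ⟨.inl h.1, h.2⟩
      · exact ⟨_, .inr ⟨_, rfl⟩, idz_adj z⟩
    bose_fld := fun B h => h.imp_left (Q.bose_fld B)
    loc := by
      rintro B C f g v (hB | ⟨z, rfl⟩) (hC | ⟨w, rfl⟩) hf hg hs
      · exact Q.loc B C f g v hB hC hf hg hs
      · exact (Fss.fl (Q.bose_fld B hB) hf).map_smul _ _
      · exact ((Fss.fl hC hg).map_smul _ _).symm
      · exact smul_comm _ _ _
    transl := by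
      rintro B a f v (hB | ⟨z, rfl⟩) hf
      · exact Q.transl B a f v hB hf
      · simpa using idz_U z one_pos H496.isLor_one a f v }

theorem wid_lng (h : LNg Q G A Γ N) : LNg (wid Q) G A Γ N := by
  have l := Gd.gr_lin h.toGr
  have z0 : ∀ z f, IsTest f → Fer (wid Q) G (idz z) → ∀ v : D, idz z f v = 0 := fun z f hf k v =>
    odd_zero h.toGr ((l.map_smul _ _).trans (k.2 f v hf))
  refine ⟨⟨h.inv, h.herm, ?_, ?_, ?_, h.GU, h.mul⟩, h.vac, h.add, h.der, h.ext, ?_, h.mono, h.cov,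
    h.gam, h.loc⟩
  · rintro B f v (hB | ⟨z, rfl⟩) hf
    exacts [h.bose B f v hB hf, (l.map_smul _ _).symm]
  · rintro B (hB | ⟨z, rfl⟩)
    · obtain ⟨C, C', h1, h2, h3⟩ := h.split B hB
      exact ⟨C, C', .inl h1, ⟨.inl h2.1, h2.2⟩, h3⟩
    · exact ⟨_, idz 0, .inr ⟨z, rfl⟩, ⟨.inr ⟨0, rfl⟩, fun f v _ => by simp [idz, l.map_zero]⟩,
        fun f v _ => by simp [idz]⟩
  · intro B C f g v hB hC hf hg hs
    rcases hB.1 with b | ⟨z, rfl⟩
    · rcases hC.1 with c | ⟨z, rfl⟩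
      · exact h.anti B C f g v ⟨b, hB.2⟩ ⟨c, hC.2⟩ hf hg hs
      · rw [z0 z g hg hC, z0 z g hg hC, neg_zero]
        exact (Fss.fl b hf).map_zero
    · rw [z0 z f hf hB, z0 z f hf hB]
      exact (neg_eq_zero.2 (Fss.fl hC.1 hg).map_zero).symm
  · rintro O B f (hB | ⟨z, rfl⟩) hf
    · exact h.fld O B f hB hf
    · refine ⟨idz (conj z) (bar f), fun v w => idz_adj z f v w hf.1, fun Y _ v w => ?_⟩
      simp only [idz, Completion.coe_smul, inner_smul_left, inner_smul_right, map_smul, int_bar,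
        map_mul, Complex.conj_conj]

theorem wid_mfa (h : MfAll Q) : MfAll (wid Q) := by
  rintro B (hB | ⟨z, rfl⟩)
  · obtain ⟨n, C, h1, h2⟩ := h B hB
    exact ⟨n, C, fun i => have ⟨k, Φ, a, b, e⟩ := h1 i; ⟨k, Φ, a, ⟨fun a => .inl (b.1 a), b.2⟩, e⟩,
      h2⟩
  · refine ⟨1, fun _ => idz z, fun _ => ⟨rp0, fun _ => idz z, (0 : Fin 1),
      ⟨fun _ => .inr ⟨z, rfl⟩, fun a L f v hL _ => ?_⟩, rfl⟩, fun f v _ => by simp⟩
    refine (idz_U (Q := Q) z one_pos hL 0 f v).trans (Eq.symm ?_)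
    refine (Fin.sum_univ_one _).trans ?_
    rw [show a = (0 : Fin 1) from Subsingleton.elim (α := Fin 1) _ _]
    simp [rp0, wid]

theorem wid_fsl (h : FSL Q) : FSL (wid Q) := fun B hB => by
  by_cases k : ∃ z, B = idz z
  · obtain ⟨z, rfl⟩ := k
    refine ⟨{(0, 0)}, fun _ => idz z, fun _ => ⟨.inr ⟨z, rfl⟩, id⟩, fun s f v hs _ => ?_⟩
    refine (idz_U (Q := Q) z hs H496.isLor_one 0 f v).trans ?_
    rw [Finset.sum_singleton, sub_zero, pow_zero, mul_one]
    exact congrArg (· • _) (by exact_mod_cast (Complex.cpow_natCast (s : ℂ) 4).symm)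
  · obtain ⟨F, C, a, b⟩ := h B (hB.resolve_right k)
    exact ⟨F, C, fun p => ⟨.inl (a p).1, fun e => .inl ((a p).2 (e.resolve_right k))⟩, b⟩

/-- the charges of `T` generate the translations -/
def Chg (Q : Theory D) (T : Ix → Ix → Fld D) : Prop :=
  ∀ F n A f v w, IsCutoff F → Q.fld A → IsTest f → HasCompactSupport f →
    Tendsto (fun R => inner ℂ w (T o n (F R) (A f v) - A f (T o n (F R) v))) atTop
      (𝓝 (inner ℂ w ((Complex.I * eta n) • A (pd n f) v)))

theorem wid_chg (hT : ∀ m n, Q.fld (T m n)) (h : Chg Q T) : Chg (wid Q) T := by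
  rintro F n B f v w hF (hB | ⟨z, rfl⟩) hf hc
  · exact h F n B f v w hF hB hf hc
  · simp only [idz, int_pd n hf, mul_zero, zero_smul, smul_zero]
    refine tendsto_const_nhds.congr' ((isTest_cutoff hF).mono fun r hr => ?_)
    simp only [← Fss.fl_apply (hT o n) hr, map_smul, sub_self]

theorem wid_pch (hA : ∀ X, IsSim 0 X → IsLinearMap ℂ (A X)) (hT : ∀ m n, Q.fld (T m n))
    (h : ND.PCh Q T A) : ND.PCh (wid Q) T A := by
  rintro F X B f v w hF hX (hB | ⟨z, rfl⟩) hf hc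
  · exact h F X B f v w hF hX hB hf hc
  · simp only [idz, (hA X hX).map_smul, sub_self]
    refine tendsto_const_nhds.congr' ((isTest_cutoff hF).mono fun r hr => ?_)
    simp only [← Fss.curL_apply hT hX hr, map_smul, sub_self]

/-! ## the derivatives -/

/-- iterated derivatives -/
def pdl : List Ix → Fn → Fn
  | [], f => f
  | m :: α, f => pdl α (pd m f)

theorem pdl_test : ∀ (α : List Ix) {f : Fn}, IsTest f → IsTest (pdl α f)
  | [], _, h => h
  | m :: α, _, h => pdl_test α (Ap.test_pd m h)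

theorem pdl_supp : ∀ (α : List Ix) (f : Fn), tsupport (pdl α f) ⊆ tsupport f
  | [], _ => subset_rfl
  | m :: α, f => (pdl_supp α _).trans (Ap.tsupport_pd m f)

theorem pdl_cpt (α : List Ix) (h : HasCompactSupport f) : HasCompactSupport (pdl α f) :=
  h.isCompact.of_isClosed_subset (isClosed_tsupport _) (pdl_supp α f)

theorem pdl_lin (z : ℂ) : ∀ (α : List Ix) {f g : Fn}, IsTest f → IsTest g →
    pdl α (fun x => f x + z * g x) = fun x => pdl α f x + z * pdl α g x
  | [], _, _, _, _ => rfl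
  | m :: α, _, _, hf, hg => by
    rw [pdl, G3p.pd_lin m z hf hg, pdl_lin z α (Ap.test_pd m hf) (Ap.test_pd m hg)]
    rfl

theorem pdl_bar : ∀ (α : List Ix) {f : Fn}, IsTest f → bar (pdl α f) = pdl α (bar f)
  | [], _, _ => rfl
  | m :: α, _, h => by rw [pdl, pdl_bar α (Ap.test_pd m h), H755.bar_pd h]; rfl

theorem pdl_tr (a : V) : ∀ (α : List Ix) (f : Fn), (fun x => pdl α f (sim 1 GF.one a x)) =
    pdl α fun x => f (sim 1 GF.one a x)
  | [], _ => rfl
  | m :: α, f => by rw [pdl, pdl_tr a α, H755.pd_sim]; rfl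

theorem pdl_pd (n : Ix) : ∀ (α : List Ix) {f : Fn}, IsTest f → pd n (pdl α f) = pdl α (pd n f)
  | [], _, _ => rfl
  | m :: α, f, h => by
    rw [pdl, pdl_pd n α (Ap.test_pd m h), pdl]
    exact congrArg _ (funext fun x => by
      simpa only [Ap.dv_bas] using Ap.dv_comm (Ap.sw_smooth h) (bas n 1) (bas m 1) x)

theorem pdl_clm : ∀ α : List Ix, ∃ P : Sch →L[ℂ] Sch, ∀ g, pdl α (ev g) = ev (P g)
  | [] => ⟨.id _ _, fun _ => rfl⟩
  | m :: α => have ⟨P, h⟩ := pdl_clm α
    ⟨P ∘L LineDeriv.lineDerivOpCLM ℂ Sch (bas m 1 : V), fun g => by rw [pdl, Grp.pd_ev, h]; rfl⟩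

theorem pdl_sep (α β : List Ix) (h : Sep f g) : Sep (pdl α f) (pdl β g) := fun x hx y hy =>
  h x (pdl_supp α f hx) y (pdl_supp β g hy)

/-- multiples of derivatives -/
def dF (z : ℂ) (α : List Ix) (B : Fld D) : Fld D := fun f v => z • B (pdl α f) v

/-- the multiples of derivatives of the fields in `P` -/
def Ex (P : Fld D → Prop) (B : Fld D) : Prop := ∃ z α C, P C ∧ B = dF z α C

theorem ex_of {P : Fld D → Prop} {B : Fld D} (h : P B) : Ex P B :=
  ⟨1, [], B, h, funext₂ fun _ _ => (one_smul _ _).symm⟩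

theorem ex_der {P : Fld D → Prop} {B : Fld D} (h : Ex P B) (z : ℂ) (m : Ix) :
    Ex P fun f v => z • B (pd m f) v := by
  obtain ⟨w, α, C, hC, rfl⟩ := h
  exact ⟨z * w, m :: α, C, hC, funext₂ fun _ _ => smul_smul _ _ _⟩

theorem ex_ind {P p : Fld D → Prop} {B : Fld D} (h : Ex P B) (h0 : ∀ B, P B → p B)
    (h1 : ∀ B (z : ℂ), p B → p fun f v => z • B f v)
    (h2 : ∀ B m, p B → p fun f v => B (pd m f) v) : p B := by
  obtain ⟨w, α, C, hC, rfl⟩ := h
  refine h1 _ w ?_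
  induction α with
  | nil => exact h0 C hC
  | cons m α ih => exact h2 _ m ih

/-- the theory with the derivatives -/
def dcl (Q : Theory D) : Theory D :=
  { Q with
    fld := Ex Q.fld
    bose := Ex Q.bose
    cyclic := fun S h0 h => Q.cyclic S h0 fun B f v hB => h B f v (ex_of hB)
    lin := by
      rintro _ f g c v ⟨z, α, B, hB, rfl⟩ hf hg
      simp only [dF, pdl_lin c α hf hg, Q.lin B _ _ c v hB (pdl_test α hf) (pdl_test α hg)]
      module
    cont := by
      rintro _ v ⟨z, α, B, hB, rfl⟩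
      obtain ⟨P, h⟩ := pdl_clm α
      simp only [dF, h]
      exact ((Q.cont B v hB).comp P.continuous).const_smul z
    adj := by
      rintro _ ⟨z, α, B, hB, rfl⟩
      obtain ⟨B', h1, h2⟩ := Q.adj B hB
      exact ⟨_, ⟨conj z, α, B', h1, rfl⟩, fun f v w hf => by
        simp only [dF, inner_smul_left, inner_smul_right, h2 _ v w (pdl_test α hf), pdl_bar α hf]⟩
    bose_fld := fun B ⟨z, α, C, h, e⟩ => ⟨z, α, C, Q.bose_fld C h, e⟩
    loc := by
      rintro _ _ f g v ⟨z, α, B, hB, rfl⟩ ⟨w, β, C, hC, rfl⟩ hf hg hs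
      have f1 := pdl_test α hf
      have g1 := pdl_test β hg
      simp only [dF, H746.fld_smul (Q.bose_fld B hB) f1, H746.fld_smul hC g1,
        Q.loc B C _ _ v hB hC f1 g1 (pdl_sep α β hs)]
      exact smul_comm _ _ _
    transl := by
      rintro _ a f v ⟨z, α, B, hB, rfl⟩ hf
      simp only [dF, Q.transl B a _ v hB (pdl_test α hf), pdl_tr, U_smul one_pos H496.isLor_one] }

theorem dcl_lng (h : LNg Q G A Γ N) : LNg (dcl Q) G A Γ N := by
  have l := Gd.gr_lin h.toGr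
  have fer : ∀ B, Fer (dcl Q) G B → ∃ z α C, Fer Q G C ∧ ∀ f v, IsTest f → B f v = dF z α C f v := by
    rintro _ ⟨⟨z, α, B, hB, rfl⟩, k⟩
    obtain ⟨C, C', h1, h2, h3⟩ := h.split B hB
    refine ⟨z, α, C', h2, fun f v hf => ?_⟩
    have f1 := pdl_test α hf
    have e := k f v hf
    simp only [dF, h3 _ _ f1, h.bose C _ v h1 f1, h2.2 _ v f1, l.map_smul, l.map_add] at e ⊢
    rw [smul_add, odd_zero h.toGr (x := z • C (pdl α f) v) (by
      rw [l.map_smul]; linear_combination (norm := module) e), zero_add]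
  refine ⟨⟨h.inv, h.herm, ?_, ?_, fun B C f g v hB hC hf hg hs => ?_, h.GU, h.mul⟩, h.vac, h.add,
    h.der, h.ext, ?_, h.mono, h.cov, h.gam, h.loc⟩
  · rintro _ f v ⟨z, α, B, hB, rfl⟩ hf
    simp only [dF, h.bose B _ v hB (pdl_test α hf), l.map_smul]
  · rintro _ ⟨z, α, B, hB, rfl⟩
    obtain ⟨C, C', h1, h2, h3⟩ := h.split B hB
    exact ⟨_, _, ⟨z, α, C, h1, rfl⟩, ⟨⟨z, α, C', h2.1, rfl⟩, fun f v hf => by
      simp only [dF, h2.2 _ v (pdl_test α hf), l.map_smul, smul_neg]⟩, fun f v hf => by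
      simp only [dF, h3 _ v (pdl_test α hf), smul_add]⟩
  · obtain ⟨z, α, B, b, e1⟩ := fer B hB
    obtain ⟨w, β, C, c, e2⟩ := fer C hC
    have f1 := pdl_test α hf
    have g1 := pdl_test β hg
    simp only [e1 _ _ hf, e2 _ _ hg, dF, H746.fld_smul b.1 f1, H746.fld_smul c.1 g1,
      h.anti B C _ _ v b c f1 g1 (pdl_sep α β hs)]
    module
  · rintro O _ f ⟨z, α, B, hB, rfl⟩ hf
    obtain ⟨X, h1, h2⟩ := h.fld O B _ hB
      ⟨pdl_test α hf.1, pdl_cpt α hf.2.1, (pdl_supp α f).trans hf.2.2⟩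
    exact G3p.aff_of (Grp.afs_smul z ⟨h1, h2⟩)

theorem fld_sum {B : Fld D} (hB : Q.fld B) {ι : Type*} (t : Finset ι) (c : ι → ℂ) {f : ι → Fn}
    (hf : ∀ i, IsTest (f i)) (v : D) :
    B (fun x => ∑ i ∈ t, c i * f i x) v = ∑ i ∈ t, c i • B (f i) v := by
  choose g hg using hf
  have := map_sum (Grp.toC (fun f => B f v) (fun f g z => Q.lin B f g z v hB) (Q.cont B v hB))
    (fun i => c i • g i) t
  simp only [map_smul] at this
  simp only [← hg, ← Grp.ev_sum]
  exact this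

open CA.G in
theorem mf_der {k : Rp} {Φ : Fin k.n → Fld D} (h : IsMf (dcl Q) k Φ) (z : ℂ) :
    IsMf (dcl Q) (up k) fun j f v => (z * eta (i1 j)) • Φ (i2 j) (pd (i1 j) f) v := by
  refine ⟨fun j => ex_der (h.1 _) _ _, fun (j : Fin (4 * k.n)) L f v hL hf => ?_⟩
  let W : D →ₗ[ℂ] D := ⟨⟨Q.U 1 L 0, U_add one_pos hL 0⟩, U_smul one_pos hL 0⟩
  have e := fun b n => fld_sum (h.1 b) Finset.univ (fun j => ((1 * L n j : ℝ) : ℂ))
    (fun j => Ap.test_sim one_pos hL 0 (Ap.test_pd j hf)) v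
  refine (congrArg (_ • ·) (h.2 _ L _ v hL (Ap.test_pd _ hf))).trans (Eq.trans ?_ (sum_ic _).symm)
  show _ • ∑ b, _ • W _ = ∑ n, ∑ b, ((L (i1 (ic n b)) (i1 j) : ℂ) * k.ρ L (i2 (ic n b)) (i2 j)) • W _
  simp only [i1_ic, i2_ic, G3p.pd_sim _ 0 one_pos hL hf, e, map_smul, map_sum,
    Finset.smul_sum, smul_smul]
  rw [Finset.sum_comm]
  refine Finset.sum_congr rfl fun b _ => ?_
  rw [Finset.sum_comm]
  simp only [← Finset.sum_smul]
  have k1 : ∀ m, ∑ n, (L n (i1 j) : ℂ) * k.ρ L b (i2 j) * (z * eta n * (1 * L n m : ℝ)) =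
      if m = i1 j then z * eta (i1 j) * k.ρ L b (i2 j) else 0 := fun m => by
    have := congrArg (fun r : ℝ => (r : ℂ) * (z * k.ρ L b (i2 j))) (lor_transpose hL (i1 j) m)
    simp only [bas, Complex.ofReal_sum, Finset.sum_mul] at this
    refine (Finset.sum_congr rfl fun n _ => by push_cast; ring).trans (this.trans ?_)
    split_ifs
    · ring
    · simp
  simp only [k1, ite_smul, zero_smul, Finset.sum_ite_eq', Finset.mem_univ, if_true]

open CA.G in
theorem dcl_mfa (h : MfAll Q) : MfAll (dcl Q) := fun B hB => by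
  have := ex_ind (p := fun B => ∀ z : ℂ, ∃ (n : ℕ) (C : Fin n → Fld D),
    (∀ i, ∃ k Φ a, IsMf (dcl Q) k Φ ∧ C i = Φ a) ∧ ∀ f v, IsTest f → z • B f v = ∑ i, C i f v) hB
    (fun B hB z => ?_) (fun B w a z => by simpa only [smul_smul] using a (z * w))
    (fun B m a z => ?_) 1
  · simpa only [one_smul] using this
  · obtain ⟨n, C, h1, h2⟩ := h B hB
    refine ⟨n, fun i => dF z [] (C i), fun i => ?_, fun f v hf => ?_⟩
    · obtain ⟨k, Φ, a, b, e⟩ := h1 i
      refine ⟨k, fun a => dF z [] (Φ a), a, ⟨fun a => ⟨z, [], _, b.1 a, rfl⟩,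
        fun a L f v hL hf => ?_⟩, congrArg (dF z []) e⟩
      refine (congrArg (z • ·) (b.2 a L f v hL hf)).trans ?_
      simp only [Finset.smul_sum, dF, pdl, dcl, U_smul one_pos hL]
      exact Finset.sum_congr rfl fun _ _ => smul_comm _ _ _
    · rw [h2 f v hf, Finset.smul_sum]
      rfl
  · obtain ⟨n, C, h1, h2⟩ := a z
    choose k Φ a b e using h1
    refine ⟨n, _, fun i => ⟨_, _, ic m (a i), mf_der (b i) (eta m), rfl⟩, fun f v hf => ?_⟩
    simp only [h2 _ v (Ap.test_pd m hf), i1_ic, i2_ic, P352W.Ft.eta_sqC, one_smul, e]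

theorem scl_ex {P : Fld D → Prop} (hf : ∀ B, P B → Q.fld B)
    (hP : ∀ B, P B → ∃ F C, (∀ p, P (C p)) ∧ Scl Q B F C) {B : Fld D} (hB : Ex P B) :
    ∃ (F : Finset (ℂ × ℕ)) (C : ℂ × ℕ → Fld D), (∀ p, Ex P (C p)) ∧
      ∀ (s : ℝ) f v, 0 < s → IsTest f → B f (Q.U s GF.one 0 v) =
        ∑ p ∈ F, ((s : ℂ) ^ (4 - p.1) * (Real.log s : ℂ) ^ p.2) •
          Q.U s GF.one 0 (C p (fun x => f (sim s GF.one 0 x)) v) := by
  have o := H496.isLor_one
  refine ex_ind (p := fun B => ∃ (F : Finset (ℂ × ℕ)) (C : ℂ × ℕ → Fld D), (∀ p, Ex P (C p)) ∧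
      ∀ (s : ℝ) f v, 0 < s → IsTest f → B f (Q.U s GF.one 0 v) =
        ∑ p ∈ F, ((s : ℂ) ^ (4 - p.1) * (Real.log s : ℂ) ^ p.2) •
          Q.U s GF.one 0 (C p (fun x => f (sim s GF.one 0 x)) v)) hB (fun B hB => ?_)
    (fun B z ⟨F, C, a, b⟩ => ⟨F, fun p f v => z • C p f v, fun p => ?_, fun s f v hs hf => ?_⟩)
    fun B m ⟨F, C, a, b⟩ => ⟨F.map ((Equiv.addRight (1 : ℂ)).prodCongr (.refl ℕ)).toEmbedding,
      fun p f v => (1 : ℂ) • C (p.1 - 1, p.2) (pd m f) v, fun p => ex_der (a _) 1 m,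
      fun s f v hs hf => ?_⟩
  · obtain ⟨F, C, a, b⟩ := hP B hB
    exact ⟨F, C, fun p => ex_of (a p), b.2⟩
  · obtain ⟨w, α, E, hE, e⟩ := a p
    exact ⟨z * w, α, E, hE, funext₂ fun _ _ => by beta_reduce; rw [e]; exact smul_smul _ _ _⟩
  · simp only [b s f v hs hf, Finset.smul_sum, U_smul hs o]
    exact Finset.sum_congr rfl fun _ _ => smul_comm _ _ _
  · have s0 : (s : ℂ) ≠ 0 := Complex.ofReal_ne_zero.2 hs.ne'
    have f1 := fun j => Ap.test_sim hs o 0 (Ap.test_pd j hf)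
    beta_reduce
    rw [b s _ v hs (Ap.test_pd m hf), Finset.sum_map]
    refine Finset.sum_congr rfl fun p _ => ?_
    have hC : (dcl Q).fld (C p) := have ⟨z, α, E, h, e⟩ := a p; ⟨z, α, E, ‹∀ B, P B → Q.fld B› E h, e⟩
    show _ = ((s : ℂ) ^ (4 - (p.1 + 1)) * (Real.log s : ℂ) ^ p.2) •
      Q.U s GF.one 0 ((1 : ℂ) • C (p.1 + 1 - 1, p.2) _ v)
    rw [add_sub_cancel_right, one_smul, G3p.pd_sim m 0 hs o hf, fld_sum hC _ _ f1,
      Finset.sum_eq_single m (fun j _ hj => by simp [GF.one, bas, hj]) (by simp), U_smul hs o,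
      smul_smul, ← sub_sub, Complex.cpow_sub _ 1 s0]
    congr 1
    simp only [GF.one, bas, if_true, mul_one, Complex.cpow_one]
    field_simp

theorem dcl_fsl (hF : FSL Q) : FSL (dcl Q) := fun B hB => by
  by_cases h : (dcl Q).bose B
  · obtain ⟨F, C, a, b⟩ := scl_ex (Q := Q) (P := Q.bose) Q.bose_fld (fun B hB => by
      obtain ⟨F, C, h⟩ := hF B (Q.bose_fld _ hB)
      exact ⟨F, C, fun p => (h.1 p).2 hB, h⟩) h
    exact ⟨F, C, fun p => ⟨(dcl Q).bose_fld _ (a p), fun _ => a p⟩, b⟩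
  · obtain ⟨F, C, a, b⟩ := scl_ex (Q := Q) (P := Q.fld) (fun _ => id) (fun B hB => by
      obtain ⟨F, C, h⟩ := hF B hB
      exact ⟨F, C, fun p => (h.1 p).1, h⟩) hB
    exact ⟨F, C, fun p => ⟨a p, fun e => absurd e h⟩, b⟩

theorem dcl_chg (hT : ∀ m n, Q.fld (T m n)) (h : Chg Q T) : Chg (dcl Q) T := by
  rintro F n _ f v w hF ⟨z, α, B, hB, rfl⟩ hf hc
  have := (h F n B _ v w hF hB (pdl_test α hf) (pdl_cpt α hc)).const_mul z
  rw [← inner_smul_right, smul_comm, pdl_pd n α hf] at this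
  refine this.congr' ((isTest_cutoff hF).mono fun r hr => ?_)
  simp only [dF, H746.fld_smul (hT o n) hr, ← smul_sub, inner_smul_right]

theorem dcl_pch (hA : ∀ X, IsSim 0 X → IsLinearMap ℂ (A X)) (hT : ∀ m n, Q.fld (T m n))
    (h : ND.PCh Q T A) : ND.PCh (dcl Q) T A := by
  rintro F X _ f v w hF hX ⟨z, α, B, hB, rfl⟩ hf hc
  have := (h F X B _ v w hF hX hB (pdl_test α hf) (pdl_cpt α hc)).const_mul z
  simp only [dF, (hA X hX).map_smul, ← smul_sub, inner_smul_right]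
  refine this.congr' ((isTest_cutoff hF).mono fun r hr => ?_)
  simp only [← Fss.curL_apply hT hX hr, map_smul, ← smul_sub, inner_smul_right]

theorem hull_chg (hT : ∀ m n, Q.fld (T m n)) (h : Chg Q T) : Chg (hull Q) T :=
  fun F n B f v w hF hB hf hc => lim_sp ((isTest_cutoff hF).mono fun r hr =>
    (Fss.fl (hT o n) hr).isLinear) v w (fun B => (Complex.I * eta n) • B (pd n f) v) (by simp)
    (fun B C a => by rw [smul_add, smul_comm]) (fun B hB => h F n B f v w hF hB hf hc) hB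

theorem hull_pch (hA : ∀ X, IsSim 0 X → IsLinearMap ℂ (A X)) (hT : ∀ m n, Q.fld (T m n))
    (h : ND.PCh Q T A) : ND.PCh (hull Q) T A := fun F X B f v w hF hX hB hf hc => by
  have l := hA X hX
  refine lim_sp ((isTest_cutoff hF).mono fun r hr => ?_) v w
    (fun B => A X (B f v) - B f (A X v)) ?_ (fun B C a => ?_)
    (fun B hB => h F X B f v w hF hX hB hf hc) hB
  · exact funext (Fss.curL_apply hT hX hr) ▸ (Fss.curL hT hX hr).isLinear
  · simpa using l.map_zero
  · simp only [l.map_add, l.map_smul]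
    module

/-! ## the large theory -/

/-- the theory with the identity, all derivatives and all linear combinations -/
def bg (c : Cg D) : Cg D :=
  ⟨hull (dcl (wid c.Q)), c.G, c.A, c.Γ, c.N, Gd.lng (dcl_lng (wid_lng c.hN))⟩

variable {c : Cg D}

theorem bg_fld {B : Fld D} (h : c.Q.fld B) : (bg c).Q.fld B := sp_of (ex_of (.inl h))

theorem bg_bose {B : Fld D} (h : c.Q.bose B) : (bg c).Q.bose B := sp_of (ex_of (.inl h))

theorem bg_big (c : Cg D) : Big (bg c) where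
  one := sp_of (ex_of (.inr ⟨1, funext₂ fun _ _ => by rw [idz, one_mul]⟩))
  der B m hB := sp_ind (p := fun B => (bg c).Q.fld fun f v => B (pd m f) v) hB
    (fun B hB => sp_of (P := Ex (wid c.Q).fld) (by simpa only [one_smul] using ex_der hB 1 m)) (zero_mem _)
    fun B C a h1 h2 => add_mem h1 (Submodule.smul_mem _ a h2)
  add B C := add_mem
  smul z B := Submodule.smul_mem _ z

theorem bg_mfa (h : MfAll c.Q) : MfAll (bg c).Q := P352H.mfa (dcl_mfa (wid_mfa h))

theorem bg_fsl (h : FSL c.Q) : FSL (bg c).Q := P352H.fsl (dcl_fsl (wid_fsl h))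

theorem bg_uvac (h : UVac c.Q) : UVac (bg c).Q := h

theorem bg_chg (hT : ∀ m n, c.Q.fld (T m n)) (h : Chg c.Q T) : Chg (bg c).Q T :=
  hull_chg (fun m n => ex_of (.inl (hT m n))) (dcl_chg (fun m n => .inl (hT m n)) (wid_chg hT h))

theorem bg_st0 (h : Stress0 c.Q T) : Stress0 (bg c).Q T :=
  ⟨fun m n => bg_bose (h.bose m n), h.symm, h.herm, h.cov, h.conserved,
    bg_chg (fun m n => c.Q.bose_fld _ (h.bose m n)) h.charge⟩

theorem bg_str (h : c.Q.IsStress T) : (bg c).Q.IsStress T :=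
  ⟨fun m n => bg_bose (h.bose m n), h.symm, h.herm, h.cov, h.conserved,
    bg_chg (fun m n => c.Q.bose_fld _ (h.bose m n)) h.charge⟩

theorem bg_pch (hT : ∀ m n, c.Q.fld (T m n)) (h : ND.PCh c.Q T c.A) :
    ND.PCh (bg c).Q T (bg c).A :=
  have l := fun X (hX : IsSim 0 X) => (Fsg.gen c hX).isLinear
  hull_pch l (fun m n => ex_of (.inl (hT m n)))
    (dcl_pch l (fun m n => .inl (hT m n)) (wid_pch l hT h))

end Vale.Agent.N352.Tn
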