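import Vale.Agent.N352.Th2

/-!
# N352, block Tn: generators, charges at finite radius (helper71)
-/

set_option linter.all false

open Filter Topology MeasureTheory
open scoped ComplexConjugate SchwartzMap
open UniformSpace (Completion)
open Complex (I)

noncomputable section

namespace Vale.Agent.N352.Tn

open Vale.Agent.P352 Vale.Agent.P352.GF Vale.Agent.P352.BW Vale.Agent.P352.H246
open Vale.Agent.P352.H496 Vale.Agent.P352.H755 Vale.Agent.P352.H15 Vale.Agent.P352.H746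
open Vale.Agent.P352.SubConf (IsAdj)
open Vale.Agent.P352X Vale.Agent.P352X.EB Vale.Agent.P352X.EG

variable {D : Type*} [NormedAddCommGroup D] [InnerProductSpace ℂ D] {Q : Theory D}
  {A : (V → V) → D → D} {T : Ix → Ix → Fld D} {f : Fn} {X : V → V}

/-- the operators `A X` are the generators -/
def Der (Q : Theory D) (A : (V → V) → D → D) : Prop :=
  ∀ (s : ℝ → ℝ) (L : ℝ → Ix → V) (a : ℝ → V) X v, s 0 = 1 → L 0 = GF.one → a 0 = 0 →
    (∀ e, 0 < s e ∧ IsLor (L e)) →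
    (∀ n x, HasDerivAt (fun e => sim (s e) (L e) (a e) x n) (X x n) 0) →
    HasDerivAt (fun e => Q.U (s e) (L e) (a e) v) (I • A X v) 0

section crv

variable {s : ℝ → ℝ} {L : ℝ → Ix → V} {a : ℝ → V} {w : Ix → V} {r : ℝ} {y : V}
  (K : Crv s L a w r y) {Y : D → D}
  (d : ∀ v, HasDerivAt (fun e => Q.U (s e) (L e) (a e) v) (I • Y v) 0)
include K d

theorem der_U {ψ : ℝ → D} {ψ' : D} (hψ : HasDerivAt ψ ψ' 0) :
    HasDerivAt (fun e => Q.U (s e) (L e) (a e) (ψ e)) (I • Y (ψ 0) + ψ') 0 := by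
  have t3 : Tendsto (fun e => Q.U (s e) (L e) (a e) ψ') (𝓝[≠] 0) (𝓝 ψ') := by
    have h1 := (d ψ').continuousAt.tendsto
    rw [U_at0 K] at h1
    exact h1.mono_left nhdsWithin_le_nhds
  have t2 : Tendsto (fun e => Q.U (s e) (L e) (a e) (slope ψ 0 e - ψ')) (𝓝[≠] 0) (𝓝 0) := by
    have h1 := (hasDerivAt_iff_tendsto_slope.1 hψ).sub_const ψ'
    rw [sub_self] at h1
    rw [tendsto_zero_iff_norm_tendsto_zero] at h1 ⊢
    exact h1.congr fun e => by rw [U_nrm0 (K.sp e) (K.lor e)]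
  have t4 := ((hasDerivAt_iff_tendsto_slope.1 (d (ψ 0))).add t2).add t3
  rw [add_zero] at t4
  refine hasDerivAt_iff_tendsto_slope.2 (t4.congr fun e => ?_)
  have e2 : ∀ u : ℝ → D, slope u 0 e = ((e : ℂ))⁻¹ • (u e - u 0) := fun u => by
    rw [slope_def_module, sub_zero, ← Complex.ofReal_inv]
    rfl
  simp only [e2, H746.U_sub' (K.sp e) (K.lor e), U_smul (K.sp e) (K.lor e), U_at0 K, smul_sub]
  abel

theorem gen_cov (hX : ∀ z n, X z n = y n + r * z n + ∑ m, z m * w m n) {ι : Type*} [Fintype ι]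
    {B : ι → Fld D} (hB : ∀ k, Q.fld (B k)) {B0 : Fld D} (hB0 : Q.fld B0) {C : ℝ → ι → ℂ}
    {C' : ι → ℂ} (hC : ∀ k, HasDerivAt (fun e => C e k) (C' k) 0) (hf : IsTest f) (v : D)
    (h0 : ∀ g, IsTest g → ∑ k, C 0 k • B k g v = B0 g v)
    (cov : ∀ e, B0 f (Q.U (s e) (L e) (a e) v) =
      ∑ k, C e k • Q.U (s e) (L e) (a e) (B k (fun x => f (sim (s e) (L e) (a e) x)) v)) :
    Y (B0 f v) - B0 f (Y v) = I • (∑ k, C' k • B k f v + B0 (vf X f) v) := by
  obtain ⟨F, rfl⟩ := exists_fl hf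
  obtain ⟨B1, -, adj⟩ := Q.adj B0 hB0
  have hz : ∀ z u : D, inner ℂ z (B0 (P352.fl F) u) = inner ℂ (B1 (bar (P352.fl F)) z) u := fun z u => by
    rw [← inner_conj_symm, adj _ u z hf, inner_conj_symm]
  have dψ : HasDerivAt (fun e => ∑ k, C e k • B k (P352.fl (K.cs F e)) v)
      (∑ k, (C 0 k • B k (P352.fl (vfS w r y F)) v + C' k • B k (P352.fl F) v)) 0 :=
    HasDerivAt.fun_sum fun k _ => by
      simpa only [K.cs_zero, fcl_apply, ContinuousLinearMap.coe_restrictScalars'] using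
        (hC k).fun_smul (K.der ((fcl (hB k) v).restrictScalars ℝ) F)
  have h1 := der_U K d dψ
  simp only [K.cs_zero, Finset.sum_add_distrib, h0 _ (isTest_fl _)] at h1
  simp only [fl_vfS hX] at h1
  have key : B0 (P352.fl F) (I • Y v) = I • Y (B0 (P352.fl F) v) + (B0 (vf X (P352.fl F)) v +
      ∑ k, C' k • B k (P352.fl F) v) := ext_inner_left ℂ fun z => by
    rw [hz]
    refine HasDerivAt.unique (((innerSL ℂ (B1 (bar (P352.fl F)) z)).restrictScalars ℝ).hasFDerivAt.comp_hasDerivAt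
      (0 : ℝ) (d v)) ((((innerSL ℂ z).restrictScalars ℝ).hasFDerivAt.comp_hasDerivAt (0 : ℝ)
        h1).congr_of_eventuallyEq (Eventually.of_forall fun e => ?_))
    obtain ⟨u, hu⟩ := P352W.Rp.U_lin (Q := Q) (K.sp e) (K.lor e) (a e)
    show inner ℂ _ (Q.U _ _ _ v) = inner ℂ z (Q.U _ _ _ _)
    rw [← hz, cov]
    simp only [hu, map_sum, map_smul, fl_sim (s e) (K.sp e) (K.lor e)]
    rfl
  rw [fld_smul hB0 hf] at key
  linear_combination (norm := module) I • key + Complex.I_mul_I • (Y (B0 (P352.fl F) v) -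
    B0 (P352.fl F) (Y v))

end crv

theorem Der.crv (h : Der Q A) {s : ℝ → ℝ} {L : ℝ → Ix → V} {a : ℝ → V} {w : Ix → V} {r : ℝ}
    {y : V} (K : Crv s L a w r y) (hX : ∀ z n, X z n = y n + r * z n + ∑ m, z m * w m n) (v : D) :
    HasDerivAt (fun e => Q.U (s e) (L e) (a e) v) (I • A X v) 0 :=
  h s L a X v K.s0 K.L0 K.a0 (fun e => ⟨K.sp e, K.lor e⟩) fun n x => K.dX hX n x

/-- the commutators of the generators with multiplets -/
theorem gen_mf (h : Der Q A) (R : Fss.G.M1 Q) {y : V} {w : Ix → V}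
    (hw : ∀ m n, eta n * w m n = -(eta m * w n m))
    (hX : ∀ z n, X z n = y n + 0 * z n + ∑ m, z m * w m n) {k : Rp} {Φ : Fin k.n → Fld D}
    (m : IsMf Q k Φ) (b : Fin k.n) (hf : IsTest f) (v : D) : A X (Φ b f v) - Φ b f (A X v) =
      I • (∑ b', CA.G.sg k w b' b • Φ b' f v + Φ b (vf X f) v) := by
  obtain ⟨L, L0, hL, dL⟩ := exists_lor hw
  have K : Crv (fun _ => 1) L (fun e => e • y) w 0 y :=
    ⟨rfl, L0, zero_smul _ _, fun _ => one_pos, hL, hasDerivAt_const _ _, dL, fun n => by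
      simpa using hasDerivAt_mul_const (x := (0 : ℝ)) (y n)⟩
  have o := H496.isLor_one
  refine gen_cov K (h.crv K hX) hX m.1 (m.1 b) (C := fun e b' => k.ρ (L e) b' b)
    (fun b' => k.der L w b' b L0 hL dL) hf v (fun g _ => ?_) fun e => ?_
  · simp [L0, k.id, Matrix.one_apply]
  · have e1 : ∀ z, Q.U 1 (L e) (e • y) z = Q.U 1 GF.one (e • y) (Q.U 1 (L e) 0 z) := fun z => by
      refine Eq.trans ?_ (R 1 _ _ 1 _ 0 _ one_pos one_pos o (hL e) (.inl rfl)).symm
      simp only [Fss.sim_dil, zero_add, one_smul, smul_zero, add_zero, mul_one]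
    obtain ⟨u, hu⟩ := P352W.Rp.U_lin (Q := Q) one_pos o (e • y)
    rw [e1, Q.transl _ _ f _ (m.1 b) hf, m.2 b _ _ v (hL e) (Ap.test_sim one_pos o _ hf), hu, map_sum]
    refine Finset.sum_congr rfl fun b' _ => ?_
    rw [map_smul, e1, hu]
    congr 4
    funext x
    rw [Fss.sim_dil, N86.c1_sim 1 (L e) (e • y), one_smul]

/-- the commutators of the generators of translations -/
theorem gen_tr (h : Der Q A) (y : V) {B : Fld D} (hB : Q.fld B) (hf : IsTest f) (v : D) :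
    A (fun _ => y) (B f v) - B f (A (fun _ => y) v) = I • B (vf (fun _ => y) f) v := by
  have K : Crv (fun _ => 1) (fun _ => GF.one) (fun e => e • y) (fun _ _ => 0) 0 y :=
    ⟨rfl, rfl, zero_smul _ _, fun _ => one_pos, fun _ => H496.isLor_one, hasDerivAt_const _ _,
      fun _ _ => hasDerivAt_const _ _, fun n => by
      simpa using hasDerivAt_mul_const (x := (0 : ℝ)) (y n)⟩
  have hX : ∀ (z : V) n, y n = y n + 0 * z n + ∑ m, z m * (0 : ℝ) := fun z n => by simp
  simpa using gen_cov K (h.crv K hX) hX (B := fun _ : Unit => B) (fun _ => hB) hB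
    (C := fun _ _ => 1) (C' := fun _ => 0) (fun _ => hasDerivAt_const _ _) hf v (fun g _ => by simp)
    fun e => by simpa using Q.transl B _ f v hB hf

theorem chg_of_pch (h : Der Q A) (hT : ∀ m n, Q.fld (T m n)) (hP : ND.PCh Q T A) : Chg Q T := by
  intro F n B f v w hF hB hf hc
  have := hP F _ B f v w hF (const_sim (bas n (eta n))) hB hf hc
  have e : vf (fun _ => bas n (eta n)) f = fun x => ∑ k ∈ {n}, (eta n : ℂ) * pd n f x := by
    funext x
    simp [vf, bas, apply_ite]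
  rw [gen_tr h _ hB hf, e, fld_sum hB _ _ fun _ => Ap.test_pd n hf, Finset.sum_singleton,
    smul_smul] at this
  refine this.congr' ((isTest_cutoff hF).mono fun r hr => ?_)
  have k : ∀ z, ND.cur T (fun _ => bas n (eta n)) (F r) z = T o n (F r) z := fun z => by
    rw [ND.cur, Finset.sum_eq_single n (fun k _ hk => ?_) (by simp)]
    · simp [bas, P352W.Ft.eta_sqC]
    · simpa [bas, hk] using fld_sum (hT o k) ∅ (fun _ : Unit => 0) (fun _ => hr) z
  simp only [k]

theorem int_vf (hX : IsSim 0 X) (hf : IsTest f) : ∫ x, vf X f x = 0 := by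
  obtain ⟨y, w, hw, hX⟩ := hX
  obtain ⟨L, L0, hL, dL⟩ := exists_lor hw
  have K : Crv (fun _ => 1) L (fun e => e • y) w 0 y :=
    ⟨rfl, L0, zero_smul _ _, fun _ => one_pos, hL, hasDerivAt_const _ _, dL, fun n => by
      simpa using hasDerivAt_mul_const (x := (0 : ℝ)) (y n)⟩
  obtain ⟨F, rfl⟩ := exists_fl hf
  have := K.der (((SchwartzMap.integralCLM ℂ (volume : Measure V) : Sch →L[ℂ] ℂ) ∘L
    toSchL).restrictScalars ℝ) F
  rw [← fl_vfS hX]
  refine this.unique ((hasDerivAt_const (0 : ℝ) (∫ x, P352.fl F x)).congr_of_eventuallyEq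
    (Eventually.of_forall fun e => ?_))
  show ∫ x, P352.fl (K.cs F e) x = _
  rw [Crv.cs, ← fl_sim 1 one_pos (hL e), P352W.Ft.vol_sim one_pos (hL e)]
  simp

theorem cut_cpt {F : ℝ → Fn} (hF : IsCutoff F) : ∀ᶠ R in atTop, In Set.univ (F R) := by
  obtain ⟨a, c, ha, hc, -, -, h⟩ := hF
  obtain ⟨τ, hτ, h5⟩ := ha.isCompact.isBounded.exists_pos_norm_le
  obtain ⟨ρ, hρ, h6⟩ := hc.isCompact.isBounded.exists_pos_norm_le
  filter_upwards [eventually_gt_atTop 0] with R hR
  refine ⟨(h R hR).1, HasCompactSupport.intro (isCompact_closedBall 0 (τ + ρ * R)) fun x hx => ?_,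
    Set.subset_univ _⟩
  by_contra k
  rw [(h R hR).2] at k
  have k1 := h5 _ (subset_tsupport a fun e : a (x o) = 0 => k (by simp [e]))
  have k2 := h6 _ (subset_tsupport c fun e : c (fun n => if n = o then 0 else x n / R) = 0 =>
    k (by simp [e]))
  refine hx (mem_closedBall_zero_iff.2 ((pi_norm_le_iff_of_nonneg (by positivity)).2 fun n => ?_))
  by_cases e : n = o
  · rw [e]; nlinarith [mul_pos hρ hR]
  · have := (norm_le_pi_norm _ n).trans k2
    rw [if_neg e, norm_div, Real.norm_of_nonneg hR.le, div_le_iff₀ hR] at this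
    linarith

/-- **the charges at finite radius** -/
theorem fin_ward (hT : ∀ m n, Q.bose (T m n)) (hP : ND.PCh Q T A) {F : ℝ → Fn} (hF : IsCutoff F)
    (hX : IsSim 0 X) (M : ℝ) : ∀ᶠ R in atTop, ∀ B f v, Q.fld B → In (Metric.ball 0 M) f →
      ND.cur T X (F R) (B f v) - B f (ND.cur T X (F R) v) = A X (B f v) - B f (A X v) := by
  let χ : Fn := (Metric.closedBall 0 M).indicator 1
  obtain ⟨r0, h0, h⟩ := Fss.far hF (f := χ) (HasCompactSupport.intro (isCompact_closedBall 0 M)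
    fun x hx => Set.indicator_of_notMem hx _)
  have t : ∀ r, r0 ≤ r → IsTest (F r) := fun r hr =>
    have ⟨_, _, _, _, _, _, k⟩ := hF; (k r (h0.trans_le hr)).1
  filter_upwards [eventually_ge_atTop r0] with R hR B f v hB hf
  refine ext_inner_left ℂ fun w => tendsto_nhds_unique (tendsto_const_nhds.congr' ?_)
    (hP F X B f v w hF hX hB hf.1 hf.2.1)
  filter_upwards [eventually_ge_atTop r0] with r hr
  simp only [ND.cur, ← Fss.fl_apply hB hf.1, map_sum, ← Finset.sum_sub_distrib]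
  refine congrArg _ (Finset.sum_congr rfl fun n _ => Fss.cm_eq (hT o n) hB hf.1
    (Fss.test_sim0 hX (t R hR) n) (Fss.test_sim0 hX (t r hr) n) (fun x hx y hy =>
      h R r hR hr _ (fun x e => by simp [e]) x hx y (subset_tsupport _ ?_)) v)
  exact (Set.indicator_of_mem (Metric.ball_subset_closedBall (hf.2.2 hy)) _).trans_ne one_ne_zero

/-! ## vector fields on Schwartz functions -/

section xc

variable {E : Type} [NormedAddCommGroup E] [NormedSpace ℝ E]

/-- the derivative along an affine vector field -/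
def xc (N : E →L[ℝ] E) (y : E) : 𝓢(E, ℂ) →L[ℂ] 𝓢(E, ℂ) where
  toFun F := H746.xf N y F
  map_add' F G := by simp only [H746.xf, map_add]
  map_smul' z F := SchwartzMap.ext fun x => by
    show fderiv ℝ (z • (F : E → ℂ)) x _ = z • fderiv ℝ F x _
    rw [fderiv_const_smul F.differentiableAt]
    rfl
  cont := (SchwartzMap.bilinLeftCLM (𝕜 := ℝ) (ContinuousLinearMap.id ℝ (E →L[ℝ] ℂ))
    (tg_aff N y)).continuous.comp (SchwartzMap.fderivCLM ℝ E ℂ).continuous

theorem xc_apply (N : E →L[ℝ] E) (y : E) (F : 𝓢(E, ℂ)) (x : E) :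
    xc N y F x = fderiv ℝ F x (y + N x) := rfl

theorem xc_tens (N : E →L[ℝ] E) (y : E) (F G : 𝓢(E, ℂ)) : xc (N.prodMap N) (y, y) (ST.tens F G) =
    ST.tens (xc N y F) G + ST.tens F (xc N y G) := SchwartzMap.ext fun z => by
  have := ((F.hasFDerivAt z.1).comp z hasFDerivAt_fst).fun_mul
    ((G.hasFDerivAt z.2).comp z hasFDerivAt_snd)
  refine (congrArg (fun l : E × E →L[ℝ] ℂ => l ((y, y) + N.prodMap N z)) this.fderiv).trans ?_
  simp [xc_apply, mul_comm, add_comm]

theorem xc_dg (N : E →L[ℝ] E) (y : E) (k : ℕ) (ρ F : 𝓢(E, ℂ)) :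
    xc (N.prodMap N) (y, y) (Kn.dg k ρ F) = Kn.dg k (xc N 0 ρ) F + Kn.dg k ρ (xc N y F) :=
  SchwartzMap.ext fun z => by
  have := (((ρ.hasFDerivAt _).comp z ((hasFDerivAt_fst.fun_sub hasFDerivAt_snd).fun_const_smul
    ((k : ℝ) + 1))).const_mul (((k : ℂ) + 1) ^ Module.finrank ℝ E)).fun_mul
    ((F.hasFDerivAt z.2).comp z hasFDerivAt_snd)
  refine (congrArg (fun l : E × E →L[ℝ] ℂ => l ((y, y) + N.prodMap N z)) this.fderiv).trans ?_
  simp [xc_apply, Kn.dg_apply, map_sub, smul_sub]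
  ring

/-- complex conjugation -/
def cjS : 𝓢(E, ℂ) →L[ℝ] 𝓢(E, ℂ) := SchwartzMap.postcompCLM (Complex.conjCLE : ℂ →L[ℝ] ℂ)

theorem cjS_apply (F : 𝓢(E, ℂ)) (x : E) : cjS F x = conj (F x) := rfl

end xc

theorem ev_xc {y : V} {w : Ix → V} (hX : ∀ z n, X z n = y n + 0 * z n + ∑ m, z m * w m n)
    (F : Sch) : ev (xc (P352W.Ft.lin 1 w) y F) = vf X (ev F) := funext fun x => by
  refine (xc_apply _ _ _ _).trans ((Ap.dv_eq F.differentiableAt _).symm.trans ?_)
  simp [dv, vf, hX, P352W.Ft.lin_apply, sim, ev]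

end Vale.Agent.N352.Tn
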