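import Vale.Agent.N352.Kn
import Mathlib.Analysis.SpecialFunctions.SmoothTransition

/-!
# N352: the Fourier transform on a finite dimensional space, positive directions
-/

set_option linter.all false

noncomputable section

open Filter Topology Metric MeasureTheory Set
open scoped SchwartzMap ContDiff ENNReal FourierTransform RealInnerProductSpace LineDeriv

namespace Vale.Agent.N352.Kn

open Vale.Agent.P352X
open Vale.Agent.P352X.ST (tens tsl pw mdl frq Bd)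
open Vale.Agent.P352X.Api4 (tenE tenE' ten2 pint sl)

variable {E E' : Type*} [NormedAddCommGroup E] [NormedSpace ℝ E] [NormedAddCommGroup E']
  [NormedSpace ℝ E'] {H : Type*} [NormedAddCommGroup H] [NormedSpace ℂ H] [CompleteSpace H]

/-- Evaluation at a point. -/
def evz (z : E) : 𝓢(E, ℂ) →L[ℂ] ℂ :=
  BoundedContinuousFunction.evalCLM ℂ z ∘L SchwartzMap.toBoundedContinuousFunctionCLM ℂ E ℂ

@[simp] lemma evz_apply (z : E) (F : 𝓢(E, ℂ)) : evz z F = F z := rfl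

lemma pw_add (l : E →L[ℝ] ℝ) (x y : E) : pw l (x + y) = pw l x * pw l y := by
  simp only [pw, map_add, Complex.ofReal_add, mul_add, Complex.exp_add]

lemma pw_add' (l l' : E →L[ℝ] ℝ) (x : E) : pw (l + l') x = pw l x * pw l' x := by
  simp only [pw, ContinuousLinearMap.add_apply, Complex.ofReal_add, mul_add, Complex.exp_add]

open ContinuousLinearMap (fst snd) in
/-- `(t, z) ↦ (t, z - t η)` -/
def shr (η : E) : (ℝ × E) ≃L[ℝ] ℝ × E :=
  .equivOfInverse ((fst ℝ ℝ E).prod (snd ℝ ℝ E - (fst ℝ ℝ E).smulRight η))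
    ((fst ℝ ℝ E).prod (snd ℝ ℝ E + (fst ℝ ℝ E).smulRight η)) (fun z => by simp) fun z => by simp

@[simp] lemma shr_apply (η : E) (z : ℝ × E) : shr η z = (z.1, z.2 - z.1 • η) := rfl

variable (E) in
/-- Multiplication by a positive number. -/
def dl (k : ℕ) : E ≃L[ℝ] E :=
  .equivOfInverse (((k : ℝ) + 1) • .id ℝ E) (((k : ℝ) + 1)⁻¹ • .id ℝ E)
    (fun z => inv_smul_smul₀ (show (k : ℝ) + 1 ≠ 0 by positivity) z)
    fun z => smul_inv_smul₀ (show (k : ℝ) + 1 ≠ 0 by positivity) z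

@[simp] lemma dl_apply (k : ℕ) (z : E) : dl E k z = ((k : ℝ) + 1) • z := rfl

/-- Approximate identities: `ρ ↦ (k + 1) ^ N ρ ((k + 1) z)`. -/
def scl (k : ℕ) : 𝓢(E, ℂ) →L[ℂ] 𝓢(E, ℂ) :=
  (((k : ℂ) + 1) ^ Module.finrank ℝ E) • cp (dl E k)

lemma scl_apply (k : ℕ) (ρ : 𝓢(E, ℂ)) (z : E) :
    scl k ρ z = ((k : ℂ) + 1) ^ Module.finrank ℝ E * ρ (((k : ℝ) + 1) • z) := rfl

/-- Approximations of `F y δ (x - y)`. -/
def dg (k : ℕ) (ρ : 𝓢(E, ℂ)) : 𝓢(E, ℂ) →L[ℂ] 𝓢(E × E, ℂ) := ten2 (scl k ρ)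

lemma dg_apply (k : ℕ) (ρ F : 𝓢(E, ℂ)) (z : E × E) : dg k ρ F z =
    ((k : ℂ) + 1) ^ Module.finrank ℝ E * ρ (((k : ℝ) + 1) • (z.1 - z.2)) * F z.2 := rfl

variable [FiniteDimensional ℝ E]

/-- Convolution in the direction `η`. -/
def cv (η : E) (h : 𝓢(ℝ, ℂ)) : 𝓢(E, ℂ) →L[ℂ] 𝓢(E, ℂ) := pint volume ∘L tenE (shr η) h

lemma cv_apply (η : E) (h : 𝓢(ℝ, ℂ)) (F : 𝓢(E, ℂ)) (z : E) :
    cv η h F z = ∫ t, h t * F (z - t • η) := rfl

lemma clm_cv (Λ : 𝓢(E, ℂ) →L[ℂ] H) (η : E) (h : 𝓢(ℝ, ℂ)) (F : 𝓢(E, ℂ)) :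
    Integrable (fun t : ℝ => h t • Λ (tsl (t • η) F)) ∧
      Λ (cv η h F) = ∫ t : ℝ, h t • Λ (tsl (t • η) F) := by
  have := Api4.par_sch volume (tenE (shr η) h F) Λ
  have e : ∀ t : ℝ, sl t (tenE (shr η) h F) = h t • tsl (t • η) F := fun t =>
    SchwartzMap.ext fun z => rfl
  simp only [e, map_smul] at this
  exact this

/-- Test functions whose Fourier transform vanishes on the positive half line. -/
def Neg (h : 𝓢(ℝ, ℂ)) : Prop :=
  ∀ s : ℝ, 0 ≤ s → ∫ t : ℝ, h t * Complex.exp (Complex.I * (t * s : ℝ)) = 0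

/-- The spectrum of `Λ` in the direction `η` is positive. -/
def Pos (Λ : 𝓢(E, ℂ) →L[ℂ] H) (η : E) : Prop := ∀ h, Neg h → ∀ F, Λ (cv η h F) = 0

lemma Pos.comp {H' : Type*} [NormedAddCommGroup H'] [NormedSpace ℂ H'] [CompleteSpace H']
    {Λ : 𝓢(E, ℂ) →L[ℂ] H} {η : E} (h : Pos Λ η) (A : H →L[ℂ] H') : Pos (A ∘L Λ) η :=
  fun g hg F => by rw [ContinuousLinearMap.comp_apply, h g hg F, map_zero]

variable [MeasurableSpace E] [BorelSpace E] (μ : Measure E) [μ.IsAddHaarMeasure]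

lemma ex_ft : ∃ T : 𝓢(E, ℂ) ≃L[ℂ] 𝓢(E →L[ℝ] ℝ, ℂ), ∀ F l, T F l = ∫ z, pw l z * F z ∂μ := by
  set W := EuclideanSpace ℝ (Fin (Module.finrank ℝ E))
  set lam : E ≃L[ℝ] W := toEuclidean
  have pi0 : (2 * Real.pi) ≠ 0 := by positivity
  let fr : W →ₗ[ℝ] E →L[ℝ] ℝ :=
    { toFun := frq (lam : E →L[ℝ] W)
      map_add' := fun a b => by ext z; simp [ST.frq_apply, inner_add_left, mul_add]
      map_smul' := fun c a => by ext z; simp [ST.frq_apply, inner_smul_left]; ring }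
  have bij : Function.Bijective fr := by
    refine ⟨(injective_iff_map_eq_zero fr).2 fun a ha => ?_, fun l => ?_⟩
    · have := congrArg (fun l : E →L[ℝ] ℝ => l (lam.symm a)) ha
      simp [fr, ST.frq_apply, Real.pi_pos.ne'] at this
      exact norm_eq_zero.1 this
    · refine ⟨(2 * Real.pi)⁻¹ • (InnerProductSpace.toDual ℝ W).symm (l ∘L (lam.symm : W →L[ℝ] E)),
        ?_⟩
      ext z
      simp only [fr, LinearMap.coe_mk, AddHom.coe_mk, ST.frq_apply, real_inner_smul_left,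
        InnerProductSpace.toDual_symm_apply]
      simp
      field_simp
  let e : W ≃L[ℝ] (E →L[ℝ] ℝ) := (LinearEquiv.ofBijective fr bij).toContinuousLinearEquiv
  have he : ∀ a, e a = frq (lam : E →L[ℝ] W) a := fun _ => rfl
  haveI : (volume.map lam.symm).IsAddHaarMeasure := lam.symm.isAddHaarMeasure_map _
  set c := Measure.addHaarScalarFactor μ (volume.map lam.symm)
  have hc : μ = c • volume.map lam.symm := Measure.isAddLeftInvariant_eq_smul _ _
  obtain ⟨d, hd⟩ : ∃ d : ℂ, d = (c : ℝ) := ⟨_, rfl⟩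
  have c0 : d ≠ 0 := by
    rw [hd]
    exact_mod_cast (Measure.addHaarScalarFactor_pos_of_isAddHaarMeasure μ _).ne'
  refine ⟨.equivOfInverse
    (d • (cp e.symm ∘L FourierTransform.fourierInvCLM ℂ 𝓢(W, ℂ) ∘L cp lam.symm))
    (d⁻¹ • (cp lam ∘L FourierTransform.fourierCLM ℂ 𝓢(W, ℂ) ∘L cp e))
    (fun F => ?_) (fun F => ?_), fun F l => ?_⟩
  · simp [cp_symm, smul_smul, inv_mul_cancel₀ c0, mul_inv_cancel₀ c0]
  · simp [symm_cp, smul_smul, inv_mul_cancel₀ c0, mul_inv_cancel₀ c0]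
  · obtain ⟨a, rfl⟩ := e.surjective l
    change d * (𝓕⁻ (cp lam.symm F) : 𝓢(W, ℂ)) (e.symm (e a)) = _
    rw [e.symm_apply_apply, SchwartzMap.fourierInv_coe, Real.fourierInv_eq']
    conv_rhs => rw [hc, integral_smul_nnreal_measure]
    rw [NNReal.smul_def, Complex.real_smul, hd]
    congr 1
    refine Eq.trans ?_ (lam.symm.toHomeomorph.measurableEmbedding.integral_map _).symm
    refine integral_congr_ae (Eventually.of_forall fun w => ?_)
    simp [he, pw, ST.frq_apply, real_inner_comm, mul_comm, cp_apply]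

/-- The Fourier transform, a function on the dual space. -/
def ft : 𝓢(E, ℂ) ≃L[ℂ] 𝓢(E →L[ℝ] ℝ, ℂ) := (ex_ft μ).choose

lemma ft_apply (F : 𝓢(E, ℂ)) (l : E →L[ℝ] ℝ) : ft μ F l = ∫ z, pw l z * F z ∂μ :=
  (ex_ft μ).choose_spec F l

lemma ft_zero (F : 𝓢(E, ℂ)) : ft μ F 0 = ∫ z, F z ∂μ := by simp [ft_apply, pw]

lemma ft_tsl (a : E) (F : 𝓢(E, ℂ)) (l : E →L[ℝ] ℝ) : ft μ (tsl a F) l = pw l a * ft μ F l := by
  rw [ft_apply, ft_apply, ← integral_add_right_eq_self _ a, ← integral_const_mul]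
  refine integral_congr_ae (Eventually.of_forall fun z => ?_)
  simp only [ST.tsl_apply, add_sub_cancel_right, pw_add]
  ring

lemma ft_cv (η : E) (h : 𝓢(ℝ, ℂ)) (F : 𝓢(E, ℂ)) (l : E →L[ℝ] ℝ) : ft μ (cv η h F) l =
    (∫ t : ℝ, h t * Complex.exp (Complex.I * (t * l η : ℝ))) * ft μ F l := by
  have := (clm_cv (evz l ∘L (ft μ : 𝓢(E, ℂ) →L[ℂ] _)) η h F).2
  simp only [ContinuousLinearMap.comp_apply, ContinuousLinearEquiv.coe_coe, evz_apply, ft_tsl,
    smul_eq_mul] at this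
  rw [this, ← integral_mul_const]
  simp only [pw, map_smul, smul_eq_mul, mul_assoc]

lemma ft_der (v : E) (F : 𝓢(E, ℂ)) (l : E →L[ℝ] ℝ) :
    ft μ (∂_{v} F) l = -(Complex.I * l v * ft μ F l) := by
  simpa only [ft_apply, ST.mdl_apply] using Wk.parts μ l F v

lemma ft_scl (k : ℕ) (ρ : 𝓢(E, ℂ)) (l : E →L[ℝ] ℝ) :
    ft μ (scl k ρ) l = ft μ ρ (((k : ℝ) + 1)⁻¹ • l) := by
  have k0 : (k : ℝ) + 1 ≠ 0 := by positivity
  have := Measure.integral_comp_smul_of_nonneg μ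
    (fun z => pw (((k : ℝ) + 1)⁻¹ • l) z * ρ z) ((k : ℝ) + 1) (hR := by positivity)
  have e : ∀ z, pw (((k : ℝ) + 1)⁻¹ • l) (((k : ℝ) + 1) • z) = pw l z := fun z => by
    simp only [pw, ContinuousLinearMap.smul_apply, map_smul, smul_smul, mul_inv_cancel₀ k0,
      one_smul]
  simp only [e] at this
  simp only [ft_apply, scl_apply, mul_left_comm (pw l _), integral_const_mul, this,
    Complex.real_smul]
  have k1 : (k : ℂ) + 1 ≠ 0 := by exact_mod_cast k0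
  push_cast
  field_simp

lemma int_scl (k : ℕ) (ρ : 𝓢(E, ℂ)) : ∫ z, scl k ρ z ∂μ = ∫ z, ρ z ∂μ := by
  rw [← ft_zero, ft_scl, smul_zero, ft_zero]

open ContinuousLinearMap (inl inr) in
omit [FiniteDimensional ℝ E] [MeasurableSpace E] [BorelSpace E] in
lemma pw_pair (L : E × E →L[ℝ] ℝ) (x y : E) :
    pw L (x, y) = pw (L ∘L inl ℝ E E) x * pw (L ∘L inr ℝ E E) y := by
  rw [show (x, y) = (x, 0) + (0, y) by simp, pw_add]
  rfl

open ContinuousLinearMap (inl inr) in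
lemma ft_ten2 (χ F : 𝓢(E, ℂ)) (L : E × E →L[ℝ] ℝ) : ft (μ.prod μ) (ten2 χ F) L =
    ft μ χ (L ∘L inl ℝ E E) * ft μ F (L ∘L inl ℝ E E + L ∘L inr ℝ E E) := by
  have hi : Integrable (fun z => pw L z * ten2 χ F z) (μ.prod μ) := by
    simpa only [← ST.mdl_apply] using (mdl L (ten2 χ F)).integrable
  rw [ft_apply, integral_prod_symm _ hi, ft_apply, ft_apply, ← integral_const_mul]
  refine integral_congr_ae (Eventually.of_forall fun y => ?_)
  simp only
  rw [← integral_add_right_eq_self _ y, ← integral_mul_const]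
  refine integral_congr_ae (Eventually.of_forall fun x => ?_)
  simp only [pw_pair, Api4.ten2_apply, add_sub_cancel_right, pw_add, pw_add']
  ring

end Vale.Agent.N352.Kn
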