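import Vale.Agent.N352.GSq
import Vale.Agent.P352NA.PF.Main

/-!
# N352, block PF for graded theories: tools, translation covariant distributions
-/

set_option linter.all false

open MeasureTheory Measure Set Filter Topology
open scoped SchwartzMap ComplexConjugate NNReal ENNReal

namespace Vale.Agent.N352.G.Pf

open Vale.Agent.P352 Vale.Agent.P352.GF Vale.Agent.P352.BW Vale.Agent.P352.H496
open Vale.Agent.P352.H755 Vale.Agent.P352.H15
open Vale.Agent.P352X Vale.Agent.P352X.Pf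
open UniformSpace (Completion)
open Complex (I)
open TPD (TT)
open CA (Cn Nl Z0 e0)
open KDa (dS mS)
open Two (sq2 g0 gS g0_in g0_ne cont_k meas_sq2 bd_ft ftp ftp_apply wd_sq2 sq2_one)

noncomputable section

variable {D : Type*} [NormedAddCommGroup D] [InnerProductSpace ℂ D] {c : Ctx D} {φ : TT D}

/-- pairs of the cut cones are in the domain of `K` -/
structure KD (c : Ctx D) : Prop where
  a : ∀ r, 0 < r → ∃ C : ℝ, ∀ ψ ψ', Pr (c.N (Rc r 0)) c.Om ψ ψ' → Dm (Bo c.Q) ψ →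
    Dm c.SK ψ ∧ ‖gen c.SK ψ‖ ≤ C * (‖ψ‖ + ‖ψ'‖ + ‖gen (Bo c.Q) ψ‖)
  a2 : ∀ r r' ψ ψ', 0 ≤ r' → r' < r → Pr (c.N (Rc r 0)) c.Om ψ ψ' → Dm (Bo c.Q) ψ →
    Dm (Bo c.Q) ψ' → Pr (c.N (Rc r' 0)) c.Om (I • gen c.SK ψ) (I • gen c.SK ψ')

/-- the tools -/
structure T2 (c : Ctx D) : Prop where
  grp : GRP c
  kd : KD c

theorem nrm_ut (y : V) (v : Completion D) : ‖Ut c.Q y v‖ = ‖v‖ := (ip_ut c.toCg y).nrm v

theorem ugKy (g : GRP c) (y : V) : UG (c.Ky y) := by
  have := g.ugK.cj (A := Ut c.Q y) (ip_ut c.toCg y).uni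
  rw [Sq.star_ut] at this
  exact this

theorem gn_Ky (y : V) {ψ k : Completion D} :
    Gn (c.Ky y) ψ k ↔ Gn c.SK (Ut c.Q (-y) ψ) (Ut c.Q (-y) k) := by
  have e : ∀ v, Ut c.Q y (Ut c.Q (-y) v) = v := fun v => DFunLike.congr_fun (Sq.ut_inv _ y) v
  have e' : ∀ v, Ut c.Q (-y) (Ut c.Q y v) = v := fun v => DFunLike.congr_fun (Sq.ut_inv' _ y) v
  exact ⟨fun h => h.map _ fun t => (e' _).symm, fun h =>
    (h.map (W' := c.Ky y) (Ut c.Q y) fun t => by rw [e]; rfl).cast (e _).symm (e _).symm⟩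

theorem ky (g : GRP c) (y : R2) {ψ} (h : Dm c.SK ψ) (hm : ∀ i, Dm (Mi c.Q i) ψ)
    (hp : Dm (Pa c.Q) ψ) : Gn (c.Ky (tv y)) ψ (gen c.SK ψ -
      ∑ i, ((2 * y i : ℝ) : ℂ) • gen (Mi c.Q i) ψ + (d2 y y : ℝ) • gen (Pa c.Q) ψ) := by
  have p : ∀ {W : ℝ → Completion D →L[ℂ] Completion D} {φ φ' k} (r : ℝ), UG W →
      HasDerivAt φ φ' 0 → φ 0 = ψ → Gn W ψ k →
      HasDerivAt (fun t => W (t * r) (φ t)) (r • I • k + φ') 0 ∧ W (0 * r) (φ 0) = ψ :=
    fun {W φ φ' k} r K d e q => ⟨by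
      simpa only [zero_mul, K.zero] using K.hasDerivAt_comp (hasDerivAt_mul_const r) d (e ▸ q),
      by rw [zero_mul, K.zero, e]⟩
  have a := p (-(2 * y 1)) (Sq.ugM _ 1) h.gn (g.ugK.zero _) (hm 1).gn
  have b := p (-(2 * y 0)) (Sq.ugM _ 0) a.1 a.2 (hm 0).gn
  have d := (p (d2 y y) (Sq.ugT _ va) b.1 b.2 hp.gn).1
  refine (d.congr_of_eventuallyEq (.of_forall fun t => ?_)).congr_deriv ?_
  · have e := g.S_ut t (-y)
    rw [← tvL_apply, map_neg, tvL_apply] at e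
    simp only [Ctx.Ky]
    rw [mul_assoc, e, ← mul_assoc, ← mul_assoc, ← Sq.ut, add_neg_cancel_left,
      show (2 * t) • -y = (t * -(2 * y 0)) • e2 0 + (t * -(2 * y 1)) • e2 1 by
        funext i
        fin_cases i <;> simp [e2] <;> ring, Sq.ga, show d2 (-y) (-y) = d2 y y by simp [d2]]
    rfl
  · simp only [Fin.sum_univ_two, ← Complex.coe_smul]
    module

theorem pr_ut {O O' : Set V} {ψ ψ' : Completion D} (h : Pr (c.N O) c.Om ψ ψ') (y : V)
    (e : ∀ z ∈ O, z + y ∈ O') : Pr (c.N O') c.Om (Ut c.Q y ψ) (Ut c.Q y ψ') :=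
  (ip_ut c.toCg y).pr h e

theorem ae_cone (v : Completion D) : ∀ᵐ p ∂c.nu v, p ∈ Cn := by
  obtain ⟨ν, hν, h1, h2⟩ := EG.SGx.spec c.Q v
  rw [Ctx.nu, ← c.bt.nu_unique SN.isPair_mdot (μ := ν) fun y => (h2 y).symm]
  exact h1

/-- the two point measure -/
def rho (c : Ctx D) (v : Completion D) : Measure V :=
  (c.nu v).withDensity (sq2 fun p => (ft g0 p)⁻¹)

theorem nu_eq {v w : Completion D} {F : V → ℂ} (hF : SN.Bd F)
    (h : c.bt.Phi (ft g0) w = c.bt.Phi F v) : c.nu w = (rho c v).withDensity (sq2 F) := by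
  have e := congrArg (fun u => (c.nu u).withDensity (sq2 fun p => (ft g0 p)⁻¹)) h
  simp only [Ctx.nu, c.bt.nu_Phi hF, c.bt.nu_Phi (bd_ft g0_in.1)] at e
  change (withDensity _ (sq2 _)).withDensity _ = (withDensity _ (sq2 _)).withDensity _ at e
  rw [wd_sq2 _ (bd_ft g0_in.1).1 cont_k.measurable, wd_sq2 _ hF.1 cont_k.measurable] at e
  simp only [mul_inv_cancel₀ (g0_ne _), sq2_one, withDensity_one] at e
  rw [rho, wd_sq2 _ cont_k.measurable hF.1, Ctx.nu, e]
  simp only [mul_comm]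

theorem rel_clm (Λ : Sch →L[ℂ] Completion D) {f g : Sch} {u v : Completion D}
    (hu : ∀ y, g y ≠ 0 → Λ (ST.tsl y f) = Ut c.Q y u)
    (hv : ∀ y, f y ≠ 0 → Λ (ST.tsl y g) = Ut c.Q y v) :
    c.bt.Phi (ft (ev g)) u = c.bt.Phi (ft (ev f)) v := by
  have key : ∀ {f g : Sch} {u : Completion D}, (∀ y, g y ≠ 0 → Λ (ST.tsl y f) = Ut c.Q y u) →
      c.bt.Phi (ft (ev g)) u = Λ (ST.cnv volume g f) := fun {f g u} hu => by
    rw [(ST.clm_cnv Λ g f).2]
    refine (c.bt.smear SN.isPair_mdot continuous_id g.integrable u).2.symm.trans ?_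
    refine integral_congr_ae (.of_forall fun y => ?_)
    by_cases hy : g y = 0
    · simp [hy]
    · simp [hu y hy]
  rw [key hu, key hv, ST.cnv_comm]

/-- translation covariance -/
def TC (c : Ctx D) (φ : TT D) : Prop := ∀ a f, Ut c.Q a (φ f) = φ (ST.tsl a f)

namespace TC

theorem zero : TC c 0 := fun _ _ => by simp

theorem add {ψ : TT D} (h : TC c φ) (h' : TC c ψ) : TC c (φ + ψ) := fun a f => by
  simp [h a f, h' a f]

theorem smul (z : ℂ) (h : TC c φ) : TC c (z • φ) := fun a f => by simp [h a f]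

theorem sub {ψ : TT D} (h : TC c φ) (h' : TC c ψ) : TC c (φ - ψ) := fun a f => by
  simp [h a f, h' a f]

theorem rel (h : TC c φ) (f g : Sch) :
    c.bt.Phi (ft (ev g)) (φ f) = c.bt.Phi (ft (ev f)) (φ g) :=
  rel_clm φ (fun y _ => (h y f).symm) fun y _ => (h y g).symm

theorem lint (h : TC c φ) (f : Sch) :
    ∫⁻ p, sq2 (ft (ev f)) p ∂rho c (φ gS) = ENNReal.ofReal (‖φ f‖ ^ 2) := by
  rw [← c.bt.nu_univ, ofReal_measureReal,
    show c.bt.nu (φ f) = _ from nu_eq (bd_ft ⟨f, rfl⟩) (h.rel f gS),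
    withDensity_apply _ MeasurableSet.univ, restrict_univ]

theorem cone (v : Completion D) : ∀ᵐ p ∂rho c v, p ∈ Cn :=
  withDensity_absolutelyContinuous _ _ (ae_cone v)

theorem mono (h : TC c φ) {f g : Sch} {C : ℝ} (hC : 0 ≤ C)
    (e : ∀ p ∈ Cn, ‖ft (ev f) p‖ ≤ C * ‖ft (ev g) p‖) : ‖φ f‖ ≤ C * ‖φ g‖ := by
  have a : ENNReal.ofReal (‖φ f‖ ^ 2) ≤ ENNReal.ofReal (C ^ 2) * ENNReal.ofReal (‖φ g‖ ^ 2) := by
    rw [← h.lint f, ← h.lint g, ← lintegral_const_mul _ (meas_sq2 (bd_ft ⟨g, rfl⟩).1)]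
    refine lintegral_mono_ae ((cone _).mono fun p hp => ?_)
    rw [sq2, sq2, ← ENNReal.ofReal_mul (by positivity), ← mul_pow]
    exact ENNReal.ofReal_le_ofReal (pow_le_pow_left₀ (norm_nonneg _) (e p hp) 2)
  rw [← ENNReal.ofReal_mul (by positivity), ENNReal.ofReal_le_ofReal_iff (by positivity),
    ← mul_pow] at a
  exact (pow_le_pow_iff_left₀ (norm_nonneg _) (by positivity) two_ne_zero).1 a

theorem nu (h : TC c φ) {f : Sch} (hf : f ∈ Nu) : φ f = 0 := by
  have := h.mono (f := f) (g := f) le_rfl fun p hp => by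
    rw [mem_Nu.1 hf p hp, norm_zero, mul_zero]
  rw [zero_mul] at this
  exact norm_le_zero_iff.1 this

theorem congr (h : TC c φ) {f g : Sch} (hf : f - g ∈ Nu) : φ f = φ g := by
  have := h.nu hf
  rwa [map_sub, sub_eq_zero] at this

theorem inj (h : TC c φ) {f0 : Sch} (h0 : Z0 (ev f0)) (e : φ f0 = 0) : φ = 0 := by
  have a := h.lint f0
  rw [e, norm_zero, zero_pow two_ne_zero, ENNReal.ofReal_zero,
    lintegral_eq_zero_iff (meas_sq2 (bd_ft ⟨f0, rfl⟩).1)] at a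
  have z : rho c (φ gS) = 0 := by
    refine ae_eq_bot.1 (eventually_false_iff_eq_bot.1 ?_)
    filter_upwards [a, cone (φ gS)] with p h1 h2
    rw [sq2, h0 p h2] at h1
    exact (ENNReal.ofReal_pos.2 (pow_pos (norm_pos_iff.2 (Complex.exp_ne_zero _)) 2)).ne' h1
  ext1 g
  have := h.lint g
  rw [z, lintegral_zero_measure, eq_comm, ENNReal.ofReal_eq_zero] at this
  exact norm_eq_zero.1 (pow_eq_zero_iff two_ne_zero |>.1 (le_antisymm this (by positivity)))

/-- contraction along `b` costs at most the factor `s ^ (-2)` -/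
theorem scal (h : TC c φ) {f0 g : Sch} (h0 : Z0 (ev f0)) {s : ℝ} (s0 : 0 < s)
    (s1 : s ≤ 1) (e : ∀ z, g z = f0 (scp 1 s z)) : ‖φ g‖ ≤ (s ^ 2)⁻¹ * ‖φ f0‖ := by
  refine h.mono (by positivity) fun p hp => ?_
  have hp' := (cone_iff p).1 hp
  have hq : scp s⁻¹ 1⁻¹ p ∈ Cn := by
    refine (cone_iff _).2 ⟨by simpa using mul_nonneg (inv_pos.2 s0).le hp'.1, by simpa using hp'.2.1, ?_⟩
    simp only [tx_scp, al_scp, be_scp, d2_smul, d2_smul_l, ← mul_assoc, inv_one, mul_one, one_mul,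
      Real.mul_self_sqrt (inv_pos.2 s0).le]
    nlinarith [hp'.2.2, inv_pos.2 s0]
  rw [show ev g = fun z => ev f0 (scp 1 s z) from funext e, ft_scp one_pos s0, norm_mul, one_mul,
    Complex.norm_real, Real.norm_of_nonneg (by positivity), h0 _ hq, h0 p hp, Complex.norm_exp,
    Complex.norm_exp]
  refine mul_le_mul_of_nonneg_left (Real.exp_le_exp.2 ?_) (by positivity)
  simp only [Complex.neg_re, Complex.ofReal_re, time_eq, al_scp, be_scp, inv_one, one_mul]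
  nlinarith [hp'.1, (one_le_inv₀ s0).2 s1]

/-- a translation covariant distribution that vanishes on an open set vanishes -/
theorem van (h : TC c φ) {O : Set V} (hO : IsOpen O) (hn : O.Nonempty)
    (e : ∀ f : Sch, HasCompactSupport f → tsupport f ⊆ O → φ f = 0) : φ = 0 := by
  obtain ⟨y, hy⟩ := hn
  obtain ⟨δ, δ0, hδ⟩ := Metric.isOpen_iff.1 hO y hy
  ext1 g
  refine ST.vanish_local φ g fun q _ => ⟨δ, δ0, fun f hf => ?_⟩
  have k : tsupport (ST.tsl (y - q) f) ⊆ Metric.ball y δ := fun z hz => by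
    have := hf (tsupport_comp_subset_preimage f (continuous_sub_right (y - q)) hz)
    rw [Metric.mem_ball, dist_eq_norm] at this ⊢
    rwa [show z - y = z - (y - q) - q by abel]
  have z := e _ ((isCompact_closedBall y δ).of_isClosed_subset (isClosed_tsupport _)
    (k.trans Metric.ball_subset_closedBall)) (k.trans hδ)
  have := h (q - y) (ST.tsl (y - q) f)
  rw [z, map_zero] at this
  rw [this]
  congr 1
  ext z
  simp [ST.tsl_apply]

end TC

/-- distributions on test functions with compact support -/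
structure Loc0 (c : Ctx D) (ψ : Sch → Completion D) : Prop where
  add : ∀ f g : Sch, HasCompactSupport f → HasCompactSupport g → ψ (f + g) = ψ f + ψ g
  smul : ∀ (a : ℂ) (f : Sch), HasCompactSupport f → ψ (a • f) = a • ψ f
  tra : ∀ a (f : Sch), HasCompactSupport f → Ut c.Q a (ψ f) = ψ (ST.tsl a f)
  bd : ∀ K, IsCompact K → BD K fun f => ‖ψ f‖

theorem Loc0.cut {ψ : Sch → Completion D} (h : Loc0 c ψ) {χ : Sch} (hχ : HasCompactSupport χ) :
    ∃ Λ : TT D, ∀ f, Λ f = ψ (mu1 χ f) := by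
  have k : ∀ f, HasCompactSupport (mu1 χ f) := fun f =>
    hχ.of_isClosed_subset (isClosed_tsupport _) (supp_mu1 χ f)
  obtain ⟨q, q1, q2, hC⟩ := h.bd _ hχ
  let L : Sch →ₗ[ℂ] Completion D := ⟨⟨fun f => ψ (mu1 χ f), fun f g => by
    rw [map_add, h.add _ _ (k f) (k g)]⟩, fun a f => by
      simp only [map_smul, RingHom.id_apply]
      exact h.smul a _ (k f)⟩
  exact ⟨⟨L, cont_of_bd L (q := fun f => q (mu1 χ f)) (q1.comp (mu1 χ).continuous) (by simp [q2])
    fun f => hC _ (supp_mu1 χ f)⟩, fun _ => rfl⟩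

theorem int_ut (Λ : TT D) : ∃ Φ : 𝓢(V × V, ℂ) →ₗ[ℂ] Completion D,
    (∀ G, Φ G = ∫ y, Ut c.Q y (Λ (Api4.sl y G))) ∧
      ∃ (m : ℕ) (C : ℝ), ∀ G, ‖Φ G‖ ≤ C * ST.sn _ ℂ m G := by
  have n : ∀ y v, ‖Ut c.Q y v‖ = ‖v‖ := fun y v => nrm_ut y v
  have i : ∀ G, Integrable fun y => Ut c.Q y (Λ (Api4.sl y G)) := fun G =>
    (Api4.par_sch volume G Λ).1.norm.mono' (Sq.ut_cont c.toCg continuous_id
      (Λ.continuous.comp (Api4.continuous_sl' G))).aestronglyMeasurable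
      (.of_forall fun y => (n _ _).le)
  obtain ⟨C, N, C0, hC⟩ := ST.clm_sn_c Λ
  refine ⟨⟨⟨fun G => ∫ y, Ut c.Q y (Λ (Api4.sl y G)), fun G G' => ?_⟩, fun a G => ?_⟩,
    fun _ => rfl, N + (volume : Measure V).integrablePower,
    C * 2 ^ (N + (volume : Measure V).integrablePower) *
      ∫ y : V, ((1 + ‖y‖) ^ (volume : Measure V).integrablePower)⁻¹, fun G => ?_⟩
  · simp only [map_add]
    exact integral_add (i G) (i G')
  · simp only [map_smul, RingHom.id_apply]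
    exact integral_smul a _
  · refine (norm_integral_le_of_norm_le ((Api4.integrable_w volume).const_mul
      (C * 2 ^ (N + (volume : Measure V).integrablePower) *
        ST.sn _ ℂ (N + (volume : Measure V).integrablePower) G))
      (.of_forall fun y => ?_)).trans_eq ?_
    · rw [n]
      refine (hC _).trans ((mul_le_mul_of_nonneg_left (Api4.sn_sl G y N
        (volume : Measure V).integrablePower) C0).trans_eq ?_)
      ring
    · rw [integral_const_mul]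
      ring

theorem Loc0.extend {ψ : Sch → Completion D} (h : Loc0 c ψ) :
    ∃ φ : TT D, TC c φ ∧ ∀ f : Sch, HasCompactSupport f → φ f = ψ f := by
  obtain ⟨ρ0, a, -, -, b⟩ := Ap.ex_rho (volume : Measure V) (x := 0) univ_mem
  set ρ : Sch := sch fun z => (ρ0 z : ℂ) with hρ
  have r1 : HasCompactSupport ρ := Ap.cpt_sch (Ap.dc_cx a)
  have r2 : ∀ z, ρ z = ρ0 z := Ap.sch_tst a
  obtain ⟨χ, c1, c2⟩ := ex_one r1
  obtain ⟨Λ, hΛ⟩ := h.cut c1
  obtain ⟨Φ, hΦ, m, C, hC⟩ := int_ut (c := c) Λ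
  let L : Sch →ₗ[ℂ] Completion D := Φ ∘ₗ (Api4.tenE eA ρ).toLinearMap
  have hL : Continuous L := cont_of_bd L (q := fun f => C * ST.sn _ ℂ m (Api4.tenE eA ρ f))
    (continuous_const.mul ((ST.continuous_sn m).comp (Api4.tenE eA ρ).continuous)) (by simp)
    fun f => hC _
  have key : ∀ f : Sch, HasCompactSupport f → L f = ψ f := fun f hf => by
    obtain ⟨χ', d1, d2⟩ := ex_one hf
    obtain ⟨Λ', hΛ'⟩ := h.cut d1
    have e := (Api4.par_sch volume (Api4.tenE eB ρ f) Λ').2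
    have e1 : Api4.pint volume (Api4.tenE eB ρ f) = f := by
      ext z
      rw [Api4.pint_apply]
      change ∫ y, ρ (z - y) * f z = _
      rw [integral_mul_const, integral_sub_left_eq_self (fun y => ρ y) volume z]
      simp only [r2]
      rw [integral_complex_ofReal, b]
      simp
    rw [e1, hΛ', d2 f le_rfl] at e
    rw [e]
    refine (hΦ _).trans (integral_congr_ae (.of_forall fun y => ?_))
    have s1 : tsupport (Api4.sl y (Api4.tenE eA ρ f)) ⊆ tsupport ρ :=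
      tsupport_mul_subset_left (f := fun z => ρ z) (g := fun z => f (z + y))
    have s2 : tsupport (Api4.sl y (Api4.tenE eB ρ f)) ⊆ tsupport f :=
      tsupport_mul_subset_right (f := fun z => ρ (z - y)) (g := fun z => f z)
    change Ut c.Q y (Λ (Api4.sl y (Api4.tenE eA ρ f))) = Λ' (Api4.sl y (Api4.tenE eB ρ f))
    rw [hΛ, hΛ', c2 _ s1, d2 _ s2,
      h.tra y _ (r1.of_isClosed_subset (isClosed_tsupport _) s1)]
    congr 1
    ext z
    change ρ (z - y) * f (z - y + y) = ρ (z - y) * f z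
    rw [sub_add_cancel]
  refine ⟨⟨L, hL⟩, fun a f => ?_, key⟩
  refine DFunLike.congr_fun (ext_cs (φ := Ut c.Q a ∘L ⟨L, hL⟩) (ψ := ⟨L, hL⟩ ∘L ST.tsl a)
    fun f hf => ?_) f
  change Ut c.Q a (L f) = L (ST.tsl a f)
  rw [key f hf, key _ (cs_tsl hf a), h.tra a f hf]

end

end Vale.Agent.N352.G.Pf
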