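import Vale.Agent.N352.GPf0

/-!
# N352, block PF for graded theories: symmetries
-/

set_option linter.all false

open Set Filter Topology
open scoped SchwartzMap

namespace Vale.Agent.N352.G.Pf

open Vale.Agent.P352X Vale.Agent.P352X.Pf
open Vale.Agent.P352 Vale.Agent.P352.GF Vale.Agent.P352.H15
open Vale.Agent.P352.H246 (In)
open UniformSpace (Completion)
open Complex (I)
open TPD (TT)
open KDa (dS mS barL)
open Real (exp)

noncomputable section

variable {D : Type*} [NormedAddCommGroup D] [InnerProductSpace ℂ D] {c : Ctx D}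
  {φ φ' ψ : TT D} {U U' : Completion D →L[ℂ] Completion D} {e e' : V ≃L[ℝ] V} {s : ℝ}

/-- pairs that are local in the cut cones -/
def Lc (c : Ctx D) (φ φ' : TT D) : Prop := ∀ r, 0 < r → ∀ f : Sch, HasCompactSupport f →
  tsupport f ⊆ Rc r 0 → Pr (c.N (Rc r 0)) c.Om (φ f) (φ' (barL f))

theorem Lc.symm (h : Lc c φ φ') : Lc c φ' φ := fun r hr f h1 h2 => by
  have := h r hr (barL f) (by rwa [HasCompactSupport, supp_bar]) (by rwa [supp_bar])
  rw [bar_bar] at this
  exact this.symm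

theorem Lc.zero : Lc c 0 0 := fun _ _ _ _ _ => Pr.zero

theorem Lc.add {ψ' : TT D} (h : Lc c φ φ') (h' : Lc c ψ ψ') : Lc c (φ + ψ) (φ' + ψ') :=
  fun r hr f h1 h2 => (h r hr f h1 h2).add (h' r hr f h1 h2)

theorem Lc.smul (z : ℂ) (h : Lc c φ φ') : Lc c (z • φ) (star z • φ') :=
  fun r hr f h1 h2 => (h r hr f h1 h2).smul z

theorem Lc.tr (h : Lc c φ φ') (t : TC c φ) (t' : TC c φ') {r : ℝ} (hr : 0 < r) (y : V)
    {f : Sch} (h1 : HasCompactSupport f) (h2 : tsupport f ⊆ Rc r y) :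
    Pr (c.N (Rc r y)) c.Om (φ f) (φ' (barL f)) := by
  have k := pr_ut (h r hr (ST.tsl (-y) f) (cs_tsl h1 _) fun z hz => by
    simpa using mem_rc.1 (h2 (supp_tsl _ _ hz))) y (O' := Rc r y)
    fun z hz => mem_rc.2 (by simpa using hz)
  rwa [t, t', bar_tsl, tsl_tsl, tsl_tsl, add_neg_cancel, tsl_zero, tsl_zero] at k

/-- the partner is unique -/
theorem Lc.unique {φ'' : TT D} (h : Lc c φ φ') (h' : Lc c φ φ'') (k : TC c φ')
    (k' : TC c φ'') : φ' = φ'' := by
  refine sub_eq_zero.1 ((k.sub k').van (rc_open 1) (rc_ne one_pos) fun f h1 h2 => ?_)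
  have a := h 1 one_pos (barL f) (by rwa [HasCompactSupport, supp_bar]) (by rwa [supp_bar])
  have b := h' 1 one_pos (barL f) (by rwa [HasCompactSupport, supp_bar]) (by rwa [supp_bar])
  rw [bar_bar] at a b
  exact sub_eq_zero.2 (a.unique b
    (Sq.cyc_sub c.toCg (rc_sub one_pos)))

/-- symmetries that scale `K` -/
structure Sy (c : Ctx D) (U : Completion D →L[ℂ] Completion D) (e : V ≃L[ℝ] V) (s : ℝ) :
    Prop where
  ut : ∀ y, U * Ut c.Q y = Ut c.Q (e y) * U
  s0 : 0 < s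
  be : ∀ z, be (e z) = s * be z
  ck : ∀ z, cK va (e z) = s • e (cK va z)
  sk : ∀ r, U * c.SK r = c.SK (r / s) * U
  geo : ∀ r, 0 < r → ∃ r', 0 < r' ∧ ∃ y, ∀ z, e z ∈ Rc r 0 ↔ z ∈ Rc r' y
  pr : ∀ O O' ψ ψ', (∀ z ∈ O, e z ∈ O') → Pr (c.N O) c.Om ψ ψ' → Pr (c.N O') c.Om (U ψ) (U ψ')

theorem Sy.tc (y : Sy c U e s) (h : TC c φ) : TC c (ac U e φ) := fun a f => by
  obtain ⟨a, rfl⟩ := e.surjective a
  rw [ac_apply, ac_apply, pL_tsl, ← h, ← ContinuousLinearMap.mul_apply, ← y.ut]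
  rfl

theorem Sy.lc (y : Sy c U e s) (h : Lc c φ φ') (t : TC c φ) (t' : TC c φ') :
    Lc c (ac U e φ) (ac U e φ') := fun r hr f h1 h2 => by
  obtain ⟨r', r0, a, k⟩ := y.geo r hr
  exact y.pr _ _ _ _ (fun z hz => (k z).2 hz) (h.tr t t' r0 a (cs_pL e h1)
    fun z hz => (k z).1 (h2 (supp_pL e f hz)))

theorem syS (g : GRP c) (x y : ℝ) : Sy c (Usc c.Q (exp x) (exp y)) (eS x y) (exp y) where
  ut a := Sq.sc_ut _ a (Real.exp_pos x) (Real.exp_pos y)
  s0 := Real.exp_pos y
  be z := by simp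
  ck z := null_ext (by
      simp only [eS_apply, G1.al_cK, tx_scp, al_smul, al_scp, d2_smul, d2_smul_l, ← mul_assoc,
        Real.mul_self_sqrt (mul_pos (Real.exp_pos x) (Real.exp_pos y)).le, mul_comm (exp y) (exp x)])
    (by simp [G1.be_cK]; ring) (by
      simp only [eS_apply, G1.tx_cK, tx_scp, be_scp, tx_smul]
      module)
  sk r := g.sc_S _ _ r (Real.exp_pos x) (Real.exp_pos y)
  geo r hr := ⟨r * exp y, mul_pos hr (Real.exp_pos y), 0, fun z => by
    have hx := Real.exp_pos x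
    have hy := Real.exp_pos y
    simp only [G1.mem_Rc, eS_apply, be_scp, al_scp, mu, md_scp _ _ (mul_pos hx hy).le]
    refine and_congr ⟨fun h => neg_of_mul_neg_right h hy.le, fun h => mul_neg_of_pos_of_neg hy h⟩
      (and_congr (by simp only [mul_assoc]) ?_)
    rw [← mul_pos_iff_of_pos_left hx (b := _ + r * exp y * _)]
    exact iff_of_eq (by congr 1; ring)⟩
  pr O O' ψ ψ' k h := (ip_sc _ (Real.exp_pos x) (Real.exp_pos y)).pr h k

theorem syG (g : GRP c) (w : R2) : Sy c (Ga c.Q w) (eG w) 1 where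
  ut a := Sq.ga_ut _ w a
  s0 := one_pos
  be z := by simp
  ck z := null_ext (by
    simp [G1.al_cK, G1.be_cK, G1.tx_cK, d2_add, d2_add_l, d2_smul, d2_smul_l, d2_comm w]; ring)
    (by simp [G1.be_cK]) (by
      simp only [eG_apply, G1.tx_cK, G1.be_cK, tx_gap, be_gap, one_smul]
      module)
  sk r := by simpa using g.ga_S w r
  geo r hr := ⟨r, hr, pt (-(d2 w w / (4 * r))) 0 ((2 * r)⁻¹ • w), fun z => by
    rw [mem_rc (y := pt _ _ _)]
    simp only [G1.mem_Rc, eG_apply, be_gap, al_gap, be_sub, be_pt, sub_zero, al_sub, al_pt]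
    refine and_congr_right fun _ => and_congr_right fun _ => iff_of_eq ?_
    congr 1
    simp only [mu_eq, al_gap, be_gap, tx_gap, al_sub, be_sub, tx_sub, al_pt, be_pt, tx_pt, d2_add,
      d2_add_l, d2_sub, d2_sub_l, d2_smul, d2_smul_l, d2_comm (tx z) w]
    field_simp
    ring⟩
  pr O O' ψ ψ' k h := (ip_ga _ w).pr h k

/-- the scalings act -/
def aS (c : Ctx D) (x y : ℝ) : TT D →ₗ[ℂ] TT D := ac (Usc c.Q (exp x) (exp y)) (eS x y)

/-- the null rotations act -/
def aG (c : Ctx D) (w : R2) : TT D →ₗ[ℂ] TT D := ac (Ga c.Q w) (eG w)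

theorem aS_aS (x y x' y' : ℝ) : aS c x y (aS c x' y' φ) = aS c (x + x') (y + y') φ :=
  ac_mul (by
    rw [Real.exp_add, Real.exp_add]
    exact Sq.sc _ (Real.exp_pos _) (Real.exp_pos _) (Real.exp_pos _) (Real.exp_pos _))
    fun z => by simp [scp_scp _ (Real.exp_pos _).le (Real.exp_pos _).le, Real.exp_add]

theorem aG_aG (v w : R2) : aG c v (aG c w φ) = aG c (v + w) φ :=
  ac_mul (Sq.ga _ v w) fun z => by simp [gap_gap]

theorem aS_aG (x y : ℝ) (w : R2) :
    aS c x y (aG c w φ) = aG c (exp ((x - y) / 2) • w) (aS c x y φ) :=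
  ac_ac (by rw [← sqrt_ed]; exact Sq.sc_ga _ w (Real.exp_pos _) (Real.exp_pos _)) fun z => by
    have a : exp x = exp ((x - y) / 2) * exp ((x + y) / 2) := by
      rw [← Real.exp_add]; congr 1; ring
    have b : exp ((x + y) / 2) = exp ((x - y) / 2) * exp y := by
      rw [← Real.exp_add]; congr 1; ring
    refine null_ext ?_ (by simp) ?_
    · simp only [eS_apply, eG_apply, al_scp, al_gap, tx_scp, be_scp, sqrt_ee, d2_smul, d2_smul_l]
      rw [a, b]
      ring
    · simp only [eS_apply, eG_apply, tx_scp, tx_gap, be_scp, sqrt_ee, b]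
      module

/-- the scaling groups -/
def Ws (c : Ctx D) (x y t : ℝ) : Completion D →L[ℂ] Completion D :=
  Usc c.Q (exp (x * t)) (exp (y * t))

theorem flS (c : Ctx D) (x y : ℝ) : Fl (Ws c x y) (fun t => eS (x * t) (y * t)) (XS x y) where
  ug := Sq.ugSc _ x y
  e0 z := by simp
  ea s t z := by simp [scp_scp _ (Real.exp_pos _).le (Real.exp_pos _).le, mul_add, Real.exp_add]
  der := by
    have d : ∀ a : ℝ, HasDerivAt (fun t => exp (a * t)) a 0 := fun a => by
      simpa using ((hasDerivAt_id' (0 : ℝ)).const_mul a).exp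
    refine ((((d x).smul_const (alL.smulRight va)).fun_add ((d y).smul_const
      (beL.smulRight vb))).fun_add ((d ((x + y) / 2)).smul_const
        (tvL.comp txL))).congr_of_eventuallyEq (.of_forall fun t => ?_)
    ext1 z
    refine null_ext (by simp) (by simp) ?_
    simp [sqrt_ee]
    congr 2
    ring

theorem flM (c : Ctx D) (i : Fin 2) : Fl (Mi c.Q i) (fun t => eG (t • e2 i)) (XM i) where
  ug := Sq.ugM _ i
  e0 z := by simp
  ea s t z := by simp [gap_gap, add_smul]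
  der := by
    have d := hasDerivAt_id' (0 : ℝ)
    refine ((((d.smul_const (XM i)).const_add 1).fun_add (((d.fun_pow 2).div_const 2).smul_const
      (beL.smulRight va))).congr_of_eventuallyEq (.of_forall fun t => ?_)).congr_deriv (by simp)
    ext1 z
    refine null_ext ?_ (by simp [XM]) (by simp [XM, smul_comm t])
    simp [XM, d2_smul, d2_smul_l]
    ring

theorem ws_bo : Ws c 1 (-1) = Bo c.Q := funext fun t => by simp [Ws, Bo]

variable {W : ℝ → Completion D →L[ℂ] Completion D} {ε : ℝ → V ≃L[ℝ] V} {X : V →L[ℝ] V}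

theorem TC.gn (h : TC c φ) (a : V) (f : Sch) :
    Gn (fun t => Ut c.Q (t • a)) (φ f) (I • φ (dS a f)) := by
  rw [Gn, smul_smul, Complex.I_mul_I, neg_one_smul]
  simpa only [h _ f] using der_tsl φ a f

end

end Vale.Agent.N352.G.Pf
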