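import Vale.Agent.N352.GPf1

/-!
# N352, block PF for graded theories: the class of local distributions of finite type
-/

set_option linter.all false

open Set Filter Topology
open scoped SchwartzMap

namespace Vale.Agent.N352.G.Pf

open Vale.Agent.P352X Vale.Agent.P352X.Pf
open Vale.Agent.P352 Vale.Agent.P352.GF Vale.Agent.P352.H15
open UniformSpace (Completion)
open Complex (I)
open TPD (TT)
open KDa (dS mS barL)
open Real (exp)

noncomputable section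

variable {D : Type*} [NormedAddCommGroup D] [InnerProductSpace ℂ D] {c : Ctx D}
  {φ φ' ψ : TT D} {E E' : Submodule ℂ (TT D)}

/-- members of a family -/
structure Mb (c : Ctx D) (E : Submodule ℂ (TT D)) (φ : TT D) : Prop where
  tc : TC c φ
  par : ∃ φ' ∈ E, Lc c φ φ'
  aS : ∀ x y, aS c x y φ ∈ E
  aG : ∀ w, aG c w φ ∈ E
  dS : ∀ x y f, Dm (Ws c x y) (φ f)
  dM : ∀ i f, Dm (Mi c.Q i) (φ f)

theorem Mb.mono (h : Mb c E φ) (k : E ≤ E') : Mb c E' φ :=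
  ⟨h.tc, h.par.imp fun _ a => ⟨k a.1, a.2⟩, fun x y => k (h.aS x y), fun w => k (h.aG w), h.dS, h.dM⟩

theorem Mb.zero : Mb c E 0 :=
  ⟨.zero, ⟨0, E.zero_mem, .zero⟩, fun _ _ => by simp, fun _ => by simp, fun _ _ _ => dm_zero,
    fun _ _ => dm_zero⟩

theorem Mb.add (h : Mb c E φ) (h' : Mb c E ψ) : Mb c E (φ + ψ) := by
  obtain ⟨a, a1, a2⟩ := h.par
  obtain ⟨b, b1, b2⟩ := h'.par
  exact ⟨h.tc.add h'.tc, ⟨a + b, E.add_mem a1 b1, a2.add b2⟩,
    fun x y => by rw [map_add]; exact E.add_mem (h.aS x y) (h'.aS x y),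
    fun w => by rw [map_add]; exact E.add_mem (h.aG w) (h'.aG w),
    fun x y f => (h.dS x y f).add (h'.dS x y f), fun i f => (h.dM i f).add (h'.dM i f)⟩

theorem Mb.smul (z : ℂ) (h : Mb c E φ) : Mb c E (z • φ) := by
  obtain ⟨a, a1, a2⟩ := h.par
  exact ⟨h.tc.smul z, ⟨_, E.smul_mem _ a1, a2.smul z⟩,
    fun x y => by rw [map_smul]; exact E.smul_mem _ (h.aS x y),
    fun w => by rw [map_smul]; exact E.smul_mem _ (h.aG w),
    fun x y f => (h.dS x y f).smul z, fun i f => (h.dM i f).smul z⟩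

/-- families -/
structure Fam (c : Ctx D) (E : Submodule ℂ (TT D)) : Prop where
  fd : FiniteDimensional ℂ E
  mb : ∀ φ ∈ E, Mb c E φ

theorem Fam.sup' (h : Fam c E) [FiniteDimensional ℂ E'] (h' : ∀ φ ∈ E', Mb c (E ⊔ E') φ) :
    Fam c (E ⊔ E') := by
  haveI := h.fd
  refine ⟨inferInstance, fun φ hφ => ?_⟩
  obtain ⟨a, a1, b, b1, rfl⟩ := Submodule.mem_sup.1 hφ
  exact ((h.mb a a1).mono le_sup_left).add (h' b b1)

theorem Fam.sup (h : Fam c E) (h' : Fam c E') : Fam c (E ⊔ E') :=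
  haveI := h'.fd
  h.sup' fun φ hφ => (h'.mb φ hφ).mono le_sup_right

/-- the class -/
def WW (c : Ctx D) : Submodule ℂ (TT D) where
  carrier := {φ | ∃ E, Fam c E ∧ φ ∈ E}
  add_mem' := fun ⟨_, a, b⟩ ⟨_, a', b'⟩ => ⟨_, a.sup a', Submodule.add_mem_sup b b'⟩
  zero_mem' := ⟨⊥, ⟨inferInstance, fun φ h => by rw [Submodule.mem_bot] at h; exact h ▸ .zero⟩,
    Submodule.zero_mem _⟩
  smul_mem' := fun z _ ⟨E, a, b⟩ => ⟨E, a, E.smul_mem z b⟩

theorem Fam.le (h : Fam c E) : E ≤ WW c := fun _ k => ⟨E, h, k⟩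

theorem mb_W (h : φ ∈ WW c) : Mb c (WW c) φ :=
  let ⟨_, a, b⟩ := h
  (a.mb φ b).mono a.le

theorem hd_lc {A B : ℝ → TT D} {ψ' : TT D} (h : HD A ψ) (h' : HD B ψ')
    (k : ∀ t, Lc c (A t) (B t)) : Lc c ψ ψ' := fun r hr f h1 h2 =>
  Pr.deriv (l := 𝓝[≠] 0) le_rfl (.of_forall fun t => k t r hr f h1 h2) (h f) (h' _)

/-- the generators of the scalings on distributions -/
def dl (c : Ctx D) (x y : ℝ) (φ : TT D) : TT D := dr fun t => aS c (x * t) (y * t) φ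

/-- the generators of the null rotations on distributions -/
def mm (c : Ctx D) (i : Fin 2) (φ : TT D) : TT D := dr fun t => aG c (t • e2 i) φ

variable (g : GRP c)
include g

theorem Fam.dl (h : Fam c E) (k : φ ∈ E) (x y : ℝ) :
    dl c x y φ ∈ E ∧ HD (fun t => aS c (x * t) (y * t) φ) (dl c x y φ) :=
  haveI := h.fd
  (flS c x y).ex (fun _ => (h.mb φ k).aS _ _) ((h.mb φ k).dS x y)

theorem Fam.mm (h : Fam c E) (k : φ ∈ E) (i : Fin 2) :
    mm c i φ ∈ E ∧ HD (fun t => aG c (t • e2 i) φ) (mm c i φ) :=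
  haveI := h.fd
  (flM c i).ex (fun _ => (h.mb φ k).aG _) ((h.mb φ k).dM i)

theorem dl_W (k : φ ∈ WW c) (x y : ℝ) :
    dl c x y φ ∈ WW c ∧ HD (fun t => aS c (x * t) (y * t) φ) (dl c x y φ) :=
  let ⟨_, a, b⟩ := k
  ⟨a.le (a.dl g b x y).1, (a.dl g b x y).2⟩

theorem mm_W (k : φ ∈ WW c) (i : Fin 2) :
    mm c i φ ∈ WW c ∧ HD (fun t => aG c (t • e2 i) φ) (mm c i φ) :=
  let ⟨_, a, b⟩ := k
  ⟨a.le (a.mm g b i).1, (a.mm g b i).2⟩

theorem gen_S (k : φ ∈ WW c) (x y : ℝ) (f : Sch) :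
    I • gen (Ws c x y) (φ f) = dl c x y φ f - φ (vS (XS x y) f) :=
  (flS c x y).gn (dl_W g k x y).2 ((mb_W k).dS x y f)

theorem gen_M (k : φ ∈ WW c) (i : Fin 2) (f : Sch) :
    I • gen (Mi c.Q i) (φ f) = mm c i φ f - φ (vS (XM i) f) :=
  (flM c i).gn (mm_W g k i).2 ((mb_W k).dM i f)

theorem dl_lin (k : φ ∈ WW c) (k' : ψ ∈ WW c) (z : ℂ) (x y : ℝ) :
    dl c x y (φ + z • ψ) = dl c x y φ + z • dl c x y ψ := by
  refine HD.dr_eq ?_
  simp only [map_add, map_smul]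
  exact (dl_W g k x y).2.lin (dl_W g k' x y).2 z

theorem mm_lin (k : φ ∈ WW c) (k' : ψ ∈ WW c) (z : ℂ) (i : Fin 2) :
    mm c i (φ + z • ψ) = mm c i φ + z • mm c i ψ := by
  refine HD.dr_eq ?_
  simp only [map_add, map_smul]
  exact (mm_W g k i).2.lin (mm_W g k' i).2 z

theorem dl_lc (k : φ ∈ WW c) (k' : φ' ∈ WW c) (h : Lc c φ φ') (x y : ℝ) :
    Lc c (dl c x y φ) (dl c x y φ') :=
  hd_lc (dl_W g k x y).2 (dl_W g k' x y).2 fun _ => (syS g _ _).lc h (mb_W k).tc (mb_W k').tc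

theorem mm_lc (k : φ ∈ WW c) (k' : φ' ∈ WW c) (h : Lc c φ φ') (i : Fin 2) :
    Lc c (mm c i φ) (mm c i φ') :=
  hd_lc (mm_W g k i).2 (mm_W g k' i).2 fun _ => (syG g _).lc h (mb_W k).tc (mb_W k').tc

theorem aS_mm (k : φ ∈ WW c) (x y : ℝ) (i : Fin 2) :
    aS c x y (mm c i φ) = (exp ((x - y) / 2) : ℂ) • mm c i (aS c x y φ) := by
  refine ((mm_W g k i).2.ac _ _).unique ?_
  have := (mm_W g ((mb_W k).aS x y) i).2.scale (exp ((x - y) / 2))
  simp only [mul_smul, ← aS_aG] at this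
  exact this

theorem aG_mm (k : φ ∈ WW c) (w : R2) (i : Fin 2) : aG c w (mm c i φ) = mm c i (aG c w φ) := by
  refine ((mm_W g k i).2.ac _ _).unique ?_
  have := (mm_W g ((mb_W k).aG w) i).2
  simp only [aG_aG, add_comm _ w] at this
  simp only [← aG_aG] at this
  exact this

omit g in
/-- maps that are linear on the class -/
def mkL (F : TT D → TT D)
    (h : ∀ φ ψ (z : ℂ), φ ∈ WW c → ψ ∈ WW c → F (φ + z • ψ) = F φ + z • F ψ) :
    WW c →ₗ[ℂ] TT D where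
  toFun x := F x
  map_add' x y := by simpa using h x y 1 x.2 y.2
  map_smul' z x := by
    have k : F 0 = 0 := by simpa using h 0 0 1 (zero_mem _) (zero_mem _)
    simpa [k] using h 0 x z (zero_mem _) x.2

/-- commutation with the scalings -/
theorem dl_comm {F : TT D → TT D}
    (h : ∀ φ ψ (z : ℂ), φ ∈ WW c → ψ ∈ WW c → F (φ + z • ψ) = F φ + z • F ψ) (k : φ ∈ WW c)
    {x y a : ℝ} (e : ∀ t, aS c (x * t) (y * t) (F φ) =
      (exp (a * t) : ℂ) • F (aS c (x * t) (y * t) φ)) :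
    dl c x y (F φ) = F (dl c x y φ) + (a : ℂ) • F φ := by
  obtain ⟨E, hE, k⟩ := k
  haveI := hE.fd
  have d : HasDerivAt (fun t => (exp (a * t) : ℂ)) a 0 := by
    simpa using ((hasDerivAt_id' (0 : ℝ)).const_mul a).exp.ofReal_comp
  exact (flS c x y).one (fun _ => (hE.mb φ k).aS _ _) ((hE.mb φ k).dS x y) k
    (mkL F h ∘ₗ Submodule.inclusion hE.le) d (by simp) e

theorem dl_mm (k : φ ∈ WW c) (i : Fin 2) :
    dl c 0 1 (mm c i φ) = mm c i (dl c 0 1 φ) + ((-(1 / 2) : ℝ) : ℂ) • mm c i φ :=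
  dl_comm g (fun _ _ z a b => mm_lin g a b z i) k fun t => by
    rw [aS_mm g k]
    congr 3
    ring

/-- new families -/
theorem new_W {F : TT D → TT D}
    (h : ∀ φ ψ (z : ℂ), φ ∈ WW c → ψ ∈ WW c → F (φ + z • ψ) = F φ + z • F ψ)
    (tc : ∀ φ ∈ WW c, TC c (F φ)) (lc : ∀ φ ∈ WW c, ∀ φ' ∈ WW c, Lc c φ φ' → Lc c (F φ) (F φ'))
    {a : ℝ} (hS : ∀ φ ∈ WW c, ∀ x y, aS c x y (F φ) = (exp (a * y) : ℂ) • F (aS c x y φ)) {b : ℝ}
    (hG : ∀ φ ∈ WW c, ∀ w, aG c w (F φ) =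
      F (aG c w φ) + ∑ i, ((b * w i : ℝ) : ℂ) • mm c i (aG c w φ))
    (k : φ ∈ WW c) : F φ ∈ WW c := by
  obtain ⟨E, hE, k⟩ := k
  haveI := hE.fd
  let T : E →ₗ[ℂ] TT D := mkL F h ∘ₗ Submodule.inclusion hE.le
  have m : ∀ ψ ∈ E, F ψ ∈ E ⊔ LinearMap.range T := fun ψ hψ =>
    Submodule.mem_sup_right ⟨⟨ψ, hψ⟩, rfl⟩
  refine ⟨_, hE.sup' (E' := LinearMap.range T) ?_, m φ k⟩
  rintro _ ⟨⟨ψ, hψ⟩, rfl⟩
  have w := hE.le hψ
  have q := hE.mb ψ hψ
  obtain ⟨ψ', p1, p2⟩ := q.par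
  refine ⟨tc ψ w, ⟨_, m ψ' p1, lc ψ w ψ' (hE.le p1) p2⟩, fun x y => ?_, fun v => ?_,
    fun x y f => ?_, fun i f => ?_⟩
  · exact (hS ψ w x y).symm ▸ Submodule.smul_mem _ _ (m _ (q.aS x y))
  · exact (hG ψ w v).symm ▸ Submodule.add_mem _ (m _ (q.aG v)) (Submodule.sum_mem _ fun i _ =>
      Submodule.smul_mem _ _ (Submodule.mem_sup_left (hE.mm g (q.aG v) i).1))
  · refine (flS c x y).two (fun _ => q.aS _ _) (q.dS x y) T T
      (a := fun t => (exp (a * (y * t)) : ℂ)) (b := fun _ => 0) ?_ (differentiableAt_const _)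
      (fun t => ?_) f
    · exact (((hasDerivAt_id' (0 : ℝ)).const_mul y).const_mul a).exp.ofReal_comp.differentiableAt
    · rw [zero_smul, add_zero]
      exact hS ψ w _ _
  · refine (flM c i).two (fun _ => q.aG _) (q.dM i) T
      (mkL (mm c i) (fun _ _ z a b => mm_lin g a b z i) ∘ₗ Submodule.inclusion hE.le)
      (a := fun _ => 1) (b := fun t => ((b * t : ℝ) : ℂ)) (differentiableAt_const _) ?_
      (fun t => ?_) f
    · exact ((hasDerivAt_id' (0 : ℝ)).const_mul b).ofReal_comp.differentiableAt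
    · rw [one_smul]
      refine (hG ψ w _).trans ?_
      rw [Finset.sum_eq_single i (fun j _ hj => by simp [e2, hj]) (by simp)]
      simp only [Pi.smul_apply, e2_self, smul_eq_mul, mul_one]
      rfl

end

end Vale.Agent.N352.G.Pf
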