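import Vale.Agent.N352.GPf2
import Vale.Agent.N352.U.Defs

/-!
# N352, block PF for graded theories: the generator `K` on the class, the defect
-/

set_option linter.all false

open Set Filter Topology
open scoped SchwartzMap

namespace Vale.Agent.N352.G.Pf

open Vale.Agent.P352X Vale.Agent.P352X.Pf
open Vale.Agent.P352 Vale.Agent.P352.GF Vale.Agent.P352.H15
open UniformSpace (Completion)
open Complex (I)
open TPD (TT)
open KDa (dS mS barL)
open G1 (Hs)

noncomputable section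

variable {D : Type*} [NormedAddCommGroup D] [InnerProductSpace ℂ D] {c : Ctx D}
  {φ : TT D} {f g : Sch} {y y' : V} {u u' : ℝ}

/-- the defect -/
def R0 (c : Ctx D) (φ : TT D) (f : Sch) : Completion D :=
  I • gen c.SK (φ f) - φ (KS f) - (2 : ℂ) • ∑ i, mm c i φ (mS (xL i) f)

/-- the defect with the centre `y` -/
def RY (c : Ctx D) (φ : TT D) (y : V) (f : Sch) : Completion D :=
  Ut c.Q y (R0 c φ (ST.tsl (-y) f))

/-- the defect for `K(u)` -/
def R (c : Ctx D) (φ : TT D) (u : ℝ) : Sch → Completion D := RY c φ (u • vb)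

variable (t : T2 c) (h : φ ∈ WW c)
include t h

theorem dom {K : Set V} (hK : IsCompact K) (k : K ⊆ Hs 0) :
    (∀ f : Sch, tsupport f ⊆ K → Dm c.SK (φ f)) ∧ BD K fun f => ‖gen c.SK (φ f)‖ := by
  obtain ⟨s, r, r0, hr⟩ := G1.ex_cone hK k
  obtain ⟨C, hC⟩ := t.kd.a r r0
  obtain ⟨φ', -, p⟩ := (mb_W h).par
  have q : ∀ f : Sch, tsupport f ⊆ K → Dm c.SK (φ f) ∧ ‖gen c.SK (φ f)‖ ≤ C *
      (‖φ (ST.tsl (s • va) f)‖ + ‖φ' (barL (ST.tsl (s • va) f))‖ +
        ‖dl c 1 (-1) φ (ST.tsl (s • va) f) - φ (vS (XS 1 (-1)) (ST.tsl (s • va) f))‖) :=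
    fun f hf => by
    have b := (mb_W h).dS 1 (-1) (ST.tsl (s • va) f)
    have b' := gen_S t.grp h 1 (-1) (ST.tsl (s • va) f)
    rw [ws_bo] at b b'
    obtain ⟨a1, a2⟩ := hC _ _ (p r r0 _ (cs_tsl (hK.of_isClosed_subset (isClosed_tsupport _) hf) _)
      fun z hz => hr ⟨_, hf (supp_tsl _ _ hz), by simp⟩) b
    obtain ⟨a3, a4⟩ := a1.comm (t.grp.pa_S (-s))
    rw [Pa, (mb_W h).tc, tsl_tsl, neg_smul, neg_add_cancel, tsl_zero] at a3 a4
    rw [← b', norm_smul, Complex.norm_I, one_mul]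
    exact ⟨a3, by rwa [a4, nrm_ut]⟩
  exact ⟨fun f hf => (q f hf).1, _, by fun_prop, by simp, fun f hf => (q f hf).2⟩

theorem dm (hf : Ad 0 f) : Dm c.SK (φ f) := (dom t h hf.1 hf.2).1 f le_rfl

theorem gn_ky (hf : Ad (be y) f) :
    Gn (c.Ky y) (φ f) (Ut c.Q y (gen c.SK (φ (ST.tsl (-y) f)))) := by
  refine (gn_Ky y).2 ?_
  rw [Sq.ut_apply, neg_add_cancel, Grp.ut0, (mb_W h).tc]
  exact (dm t h (hf.tsl _ (by simp))).gn

theorem ry_eq (hf : Ad (be y) f) : RY c φ y f = I • gen (c.Ky y) (φ f) - φ (KY y f) -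
    (2 : ℂ) • ∑ i, mm c i φ (mS (xL i) f - (tx y i : ℂ) • f) := by
  rw [RY, R0, map_sub, map_sub, map_smul, map_smul, map_sum, (gn_ky t h hf).gen_eq, (mb_W h).tc]
  simp only [fun i => (mb_W (mm_W t.grp h i).1).tc y, tsl_mS, xL_apply]
  rfl

theorem ry_a (hf : Ad 0 f) (s : ℝ) : RY c φ (s • va) f = R0 c φ f := by
  have e : c.Ky (s • va) = c.SK := funext fun r => by
    rw [Ctx.Ky, ← Pa, t.grp.pa_S, Pa, mul_assoc, ← Sq.ut, add_neg_cancel, Grp.ut0, mul_one]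
  rw [ry_eq t h (by simpa using hf), e, R0, show KY (s • va) f = KS f from
    SchwartzMap.ext fun z => by
      rw [KY_apply, KS_apply, show cK va (z - s • va) = cK va z from
        null_ext (by simp [G1.al_cK]) (by simp [G1.be_cK]) (by simp [G1.tx_cK])]
      simp]
  simp

theorem ry_x (hf : Ad 0 f) (x : R2) : RY c φ (tv x) f = R0 c φ f := by
  have m := fun i => congrArg (-I • ·) (gen_M t.grp h i f)
  simp only [neg_I_I] at m
  have p : Gn (Pa c.Q) _ _ := (mb_W h).tc.gn va f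
  have e : KY (tv x) f = KS f + (2 * x 0 : ℂ) • vS (XM 0) f + (2 * x 1 : ℂ) • vS (XM 1) f -
      (d2 x x : ℂ) • dS va f := by
    ext z
    rw [KY_apply, show cK va (z - tv x) = cK va z - (2 * d2 x (tx z)) • va - (2 * be z) • tv x +
      d2 x x • va from null_ext (by simp [G1.al_cK, d2_sub, d2_sub_l, d2_comm x]; ring)
        (by simp [G1.be_cK]) (by simp [G1.tx_cK, smul_sub]), tv_eq, d2_eq x (tx z)]
    simp [KS_apply, vS_apply, dS_apply, XM]
    ring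
  rw [ry_eq t h (by simpa using hf),
    (ky t.grp x (dm t h hf) (fun i => (mb_W h).dM i f) p.dm).gen_eq, e, R0, p.gen_eq]
  simp only [Fin.sum_univ_two, m, map_add, map_sub, map_smul, ← Complex.coe_smul, tx_tv]
  push_cast
  match_scalars <;> simp [← mul_assoc] <;> ring_nf <;> simp

theorem ry_be (hf : Ad (be y) f) (e : be y' = be y) : RY c φ y' f = RY c φ y f := by
  have e' : y' = y + (al (y' - y) • va + tv (tx (y' - y))) :=
    null_ext (by simp) (by simp [e]) (by simp)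
  have k : Ad 0 (ST.tsl (-y) f) := hf.tsl _ (by simp)
  rw [RY.eq_def c φ y, ← ry_a t h k (al (y' - y)), RY.eq_def c φ (_ • va),
    ← ry_x t h (k.tsl _ (by simp)) (tx (y' - y)), RY.eq_def c φ (tv _), tsl_tsl, tsl_tsl,
    Sq.ut_apply, Sq.ut_apply, add_assoc, ← e', ← neg_add, ← neg_add, add_comm (tv _),
    add_comm _ y, ← e', RY]

theorem r_tra (hf : Ad u f) (a : V) :
    Ut c.Q a (R c φ u f) = R c φ (u + be a) (ST.tsl a f) := by
  rw [R, R, ← ry_be t h (y' := a + u • vb) (hf.tsl a (by simp)) (by simp [add_comm]), RY, RY,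
    Sq.ut_apply, tsl_tsl, show -(a + u • vb) + a = -(u • vb) by abel]

theorem r_lin (hf : Ad u f) (hg : Ad u g) (a : ℂ) :
    R c φ u (f + a • g) = R c φ u f + a • R c φ u g := by
  have k := dm t h (hf.tsl (-(u • vb)) (u' := 0) (by simp))
  have k' := dm t h (hg.tsl (-(u • vb)) (u' := 0) (by simp))
  simp only [R, RY, R0, map_add, map_smul, gen_add k (k'.smul a), gen_smul a k', map_sub,
    Fin.sum_univ_two]
  module

theorem r_bd {K : Set V} (hK : IsCompact K) (k : K ⊆ Hs u) : BD K fun f => ‖R c φ u f‖ := by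
  obtain ⟨q, q1, q2, q3⟩ := (dom t h (hK.image (f := fun z => z - u • vb) (by fun_prop)) (by
    rintro _ ⟨z, hz, rfl⟩
    simpa [Hs] using k hz)).2
  have ct := (ST.tsl (E := V) (-(u • vb))).continuous
  refine ⟨fun f => q (ST.tsl (-(u • vb)) f) + ‖φ (KS (ST.tsl (-(u • vb)) f))‖ +
    ‖(2 : ℂ) • ∑ i, mm c i φ (mS (xL i) (ST.tsl (-(u • vb)) f))‖, ((q1.comp ct).add
      ((φ ∘L KS).continuous.comp ct).norm).add (Continuous.norm (Continuous.fun_const_smul
        (continuous_finset_sum _ fun i _ => (mm c i φ ∘L mS (xL i)).continuous.comp ct) _)),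
    by simp [q2], fun f hf => ?_⟩
  beta_reduce
  rw [R, RY, nrm_ut, R0]
  refine norm_sub_le_of_le (norm_sub_le_of_le ?_ le_rfl) le_rfl
  rw [norm_smul, Complex.norm_I, one_mul]
  exact q3 _ fun z hz => ⟨_, hf (supp_tsl _ _ hz), by simp⟩

/-- the tempered family through the test functions with support in `K` -/
theorem ex_tf {K : Set V} (hK : IsCompact K) (k : K ⊆ Hs 0) : ∃ Φ Λ : TT D,
    (∀ g, Gn c.SK (Φ g) (Λ g)) ∧ ∀ f : Sch, tsupport f ⊆ K → Φ f = φ f := by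
  obtain ⟨χ0, a, s, b, -⟩ := Ap.ex_chi hK hs_open k
  obtain ⟨χ, c0, c1, c2⟩ : ∃ χ : Sch, (∀ z, χ z = χ0 z) ∧ HasCompactSupport χ ∧
      tsupport χ ⊆ Hs 0 := ⟨sch fun z => (χ0 z : ℂ), Ap.sch_tst a, Ap.cpt_sch (Ap.dc_cx a),
    (closure_mono (t := Function.support χ0) fun x (hx : _ ≠ _) k =>
      hx (by rw [Ap.sch_tst a, k, Complex.ofReal_zero])).trans s⟩
  obtain ⟨d, q, q1, q2, q3⟩ := dom t h c1 c2
  have m : ∀ g, Dm c.SK (φ (mu1 χ g)) := fun g => d _ (supp_mu1 χ g)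
  let L : Sch →ₗ[ℂ] Completion D := ⟨⟨fun g => gen c.SK (φ (mu1 χ g)), fun f g => by
    rw [map_add, map_add, gen_add (m f) (m g)]⟩, fun z f => by
      simp only [map_smul, RingHom.id_apply]
      exact gen_smul z (m f)⟩
  refine ⟨φ ∘L mu1 χ, ⟨L, cont_of_bd L (q := fun f => q (mu1 χ f)) (q1.comp (mu1 χ).continuous)
    (by simp [q2]) fun f => q3 _ (supp_mu1 χ f)⟩, fun g => (m g).gn, fun f hf => congrArg φ ?_⟩
  ext z
  show mu1 χ f z = f z
  rw [mu1_apply, c0]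
  by_cases hz : z ∈ tsupport f
  · rw [(b z (hf hz)).self_of_nhds, Complex.ofReal_one, one_mul]
  · rw [image_eq_zero_of_notMem_tsupport hz, mul_zero]

theorem r_aff (E : N352.U.EEt c) {lo : ℝ} (hf : Ad lo f) (hi : ℝ) :
    ∃ A B, ∀ u ∈ Ioo lo hi, R c φ u f = A + (u : ℂ) • B := by
  have k : ∀ u ∈ Ioo lo hi, Ad (be (u • vb)) f := fun u hu => hf.le (by simpa using hu.1.le)
  have p : Gn (Pb c.Q) _ _ := (mb_W h).tc.gn vb f
  obtain ⟨Φ, Λ, a, b⟩ := ex_tf t h ((hf.1.isCompact.prod (isCompact_Icc (a := lo) (b := hi))).image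
    (f := fun x : V × ℝ => x.1 - x.2 • vb) (by fun_prop)) (by
      rintro _ ⟨⟨z, u⟩, ⟨hz, hu⟩, rfl⟩
      simpa [Hs] using (show be z < lo from hf.2 hz).trans_le hu.1)
  obtain ⟨k0, k1, e⟩ := E lo hi (φ f) Φ Λ a (fun u hu => ⟨ST.tsl (-(u • vb)) f, by
    rw [b _ fun z hz => ⟨(_, u), ⟨supp_tsl _ _ hz, Ioo_subset_Icc_self hu⟩, by simp⟩,
      (mb_W h).tc]⟩) p.dm
  refine ⟨I • k0 - φ (KS f) - (2 : ℂ) • ∑ i, mm c i φ (mS (xL i) f),
    I • k1 - φ ((4 : ℂ) • vS (XS 0 1) f + (8 : ℂ) • f), fun u hu => ?_⟩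
  rw [R, ry_eq t h (k u hu), e u hu, p.gen_eq, KY_b]
  simp only [map_add, map_sub, map_smul, tx_smul, tx_vb, smul_zero, Pi.zero_apply,
    Complex.ofReal_zero, zero_smul, sub_zero]
  push_cast
  match_scalars <;> simp [← mul_assoc] <;> ring_nf <;> simp

end

end Vale.Agent.N352.G.Pf
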