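import Vale.Agent.N352.GPf4

/-!
# N352, block PF for graded theories: covariance of `S` and `K`
-/

set_option linter.all false

open Set Filter Topology
open scoped SchwartzMap

namespace Vale.Agent.N352.G.Pf

open Vale.Agent.P352X Vale.Agent.P352X.Pf
open Vale.Agent.P352 Vale.Agent.P352.GF Vale.Agent.P352.H15
open UniformSpace (Completion)
open Complex (I)
open TPD (TT)
open KDa (dS mS barL)
open G1 (Hs)
open Real (exp)

noncomputable section

variable {D : Type*} [NormedAddCommGroup D] [InnerProductSpace ℂ D] {c : Ctx D}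
  {φ ψ : TT D} {f : Sch} {U : Completion D →L[ℂ] Completion D} {e : V ≃L[ℝ] V} {s : ℝ}

theorem Sy.be_pL (y : Sy c U e s) (f : Sch) : pL e (mS beL f) = (s : ℂ) • mS beL (pL e f) := by
  rw [← mS_smul]
  exact pL_mS (fun z => by simp [y.be]) f

theorem Sy.ks (y : Sy c U e s) (f : Sch) : pL e (KS f) = (s : ℂ) • KS (pL e f) := by
  ext z
  rw [pL_apply, KS_apply, SchwartzMap.smul_apply, KS_apply, show ⇑(pL e f) = f ∘ e from rfl,
    e.comp_right_fderiv, y.ck, y.be]
  simp
  ring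

theorem Sy.ad (y : Sy c U e s) (hf : Ad 0 f) : Ad 0 (pL e f) :=
  ⟨cs_pL e hf.1, fun z hz => by
    have : P352X.be (e z) < 0 := hf.2 (supp_pL e f hz)
    rw [y.be] at this
    exact neg_of_mul_neg_right this y.s0.le⟩

theorem Sy.gn (y : Sy c U e s) {v : Completion D} (h : Dm c.SK v) :
    gen c.SK (U v) = (s : ℂ) • U (gen c.SK v) :=
  (h.gn.scale U s fun r => by
    rw [← ContinuousLinearMap.mul_apply, ← ContinuousLinearMap.mul_apply U, y.sk,
      mul_div_cancel_left₀ _ y.s0.ne']).gen_eq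

variable (t : T2 c) (E : N352.U.EEt c) (h : φ ∈ WW c)
include t E h

theorem r0_ac (y : Sy c U e s) (hf : Ad 0 f) : R0 c (ac U e φ) f =
    (2 : ℂ) • ac U e (sg c φ) (mS beL f) + (s : ℂ) • ac U e (kp c φ) f +
      (2 : ℂ) • ∑ i, ((s : ℂ) • U (mm c i φ (mS (xL i) (pL e f))) -
        mm c i (ac U e φ) (mS (xL i) f)) := by
  have a := congrArg U ((ex_kr t E h).eq _ (y.ad hf))
  simp only [R0, ac_apply, y.gn (dm t h (y.ad hf)), y.ks, y.be_pL, map_sub, map_add, map_smul,
    Fin.sum_univ_two] at a ⊢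
  linear_combination (norm := module) (s : ℂ) • a

theorem sk_aS (x y : ℝ) : sg c (aS c x y φ) = aS c x y (sg c φ) ∧
    kp c (aS c x y φ) = (exp y : ℂ) • aS c x y (kp c φ) := by
  have k := ex_kr t E h
  have q := syS t.grp x y
  refine sk_eq t E ((mb_W h).aS x y) ⟨q.tc k.ts, (q.tc k.tk).smul _, fun f hf => ?_⟩
  refine (r0_ac t E h q hf).trans ?_
  rw [Finset.sum_eq_zero fun i _ => ?_, smul_zero, add_zero]
  · rfl
  have a := DFunLike.congr_fun (aS_mm t.grp h x y i) (mS (xL i) f)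
  rw [aS, ac_apply, pL_mS (l' := exp ((x + y) / 2) • xL i) (fun z => by simp [sqrt_ee]), mS_smul,
    map_smul, map_smul, ContinuousLinearMap.smul_apply] at a
  have b : (exp ((x + y) / 2) : ℂ) = exp ((x - y) / 2) * exp y := by
    rw [← Complex.ofReal_mul, ← Real.exp_add]
    congr 2
    ring
  rw [b, mul_smul] at a
  exact sub_eq_zero.2 (smul_right_injective _ (Complex.ofReal_ne_zero.2 (Real.exp_pos _).ne') a)

theorem sk_aG (w : R2) : sg c (aG c w φ) = aG c w (sg c φ) - ∑ i, (w i : ℂ) • mm c i (aG c w φ) ∧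
    kp c (aG c w φ) = aG c w (kp c φ) := by
  have k := ex_kr t E h
  have q := syG t.grp w
  have m := fun i => (mb_W (mm_W t.grp ((mb_W h).aG w) i).1).tc.smul (w i)
  refine sk_eq t E ((mb_W h).aG w) ⟨(q.tc k.ts).sub (by
    rw [Fin.sum_univ_two]; exact (m 0).add (m 1)), q.tc k.tk, fun f hf => ?_⟩
  refine (r0_ac t E h q hf).trans ?_
  have a : ∀ i, Ga c.Q w (mm c i φ (mS (xL i) (pL (eG w) f))) =
      mm c i (aG c w φ) (mS (xL i) f) - (w i : ℂ) • mm c i (aG c w φ) (mS beL f) := fun i => by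
    rw [← aG_mm t.grp h, aG, ac_apply, ac_apply, q.be_pL,
      pL_mS (l' := xL i + w i • beL) (fun z => by simp [mul_comm]), mS_add, mS_smul]
    simp
  simp only [a, Fin.sum_univ_two, ContinuousLinearMap.sub_apply, ContinuousLinearMap.add_apply,
    ContinuousLinearMap.smul_apply, aG, Complex.ofReal_one]
  module

theorem kp_aS (x y : ℝ) : aS c x y (kp c φ) = (exp (-1 * y) : ℂ) • kp c (aS c x y φ) := by
  rw [(sk_aS t E h x y).2, smul_smul, ← Complex.ofReal_mul, ← Real.exp_add]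
  simp

theorem sg_W : sg c φ ∈ WW c :=
  new_W t.grp (fun _ _ z a b => (sk_lin t E a b z).1) (fun _ a => (ex_kr t E a).ts)
    (fun _ a _ b k => (sk_lc t E a b k).1) (a := 0)
    (fun _ a x y => by simp [(sk_aS t E a x y).1]) (b := 1)
    (fun _ a w => by simp [(sk_aG t E a w).1]) h

theorem kp_W : kp c φ ∈ WW c :=
  new_W t.grp (fun _ _ z a b => (sk_lin t E a b z).2) (fun _ a => (ex_kr t E a).tk)
    (fun _ a _ b k => (sk_lc t E a b k).2) (fun _ a x y => kp_aS t E a x y) (b := 0)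
    (fun _ a w => by simp [(sk_aG t E a w).2]) h

theorem dl_sg : dl c 0 1 (sg c φ) = sg c (dl c 0 1 φ) := by
  simpa using dl_comm t.grp (fun _ _ z a b => (sk_lin t E a b z).1) h (x := 0) (y := 1) (a := 0)
    fun r => by simp [(sk_aS t E h _ _).1]

theorem dl_kp : dl c 0 1 (kp c φ) = kp c (dl c 0 1 φ) - kp c φ := by
  simpa [sub_eq_add_neg] using dl_comm t.grp (fun _ _ z a b => (sk_lin t E a b z).2) h (x := 0)
    (y := 1) (a := -1) fun r => by rw [kp_aS t E h, one_mul]

end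

end Vale.Agent.N352.G.Pf
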