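import Vale.Agent.N352.GPf6

/-!
# N352, block PF for graded theories: the flow of `K` on weight vectors
-/

set_option linter.all false

open Set Filter Topology
open scoped SchwartzMap ContDiff

namespace Vale.Agent.N352.G.Pf

open Vale.Agent.P352X Vale.Agent.P352X.Pf
open Vale.Agent.P352 Vale.Agent.P352.GF Vale.Agent.P352.H15
open Vale.Agent.P352.H246 (In)
open UniformSpace (Completion)
open Complex (I)
open TPD (TT)
open KDa (dS mS barL)
open G1 (Hs)
open EB (rh cph Reg)
open EB.NA (pe Pol)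
open EB.NA.Pe EB.Ch0

noncomputable section

variable {D : Type*} [NormedAddCommGroup D] [InnerProductSpace ℂ D] {c : Ctx D}
  {φ : TT D} {g : Fn} {l : ℂ} {s e : ℝ} {N : ℕ} {O : Set V}

/-- the flow of `K` has finitely many terms -/
def FL (c : Ctx D) (N : ℕ) (r : ℝ) (φ : TT D) : Prop := ∃ B : ℕ → TT D, ∀ g, In (Hs 0) g →
  ∀ t, 0 ≤ t → Reg (-t) g → c.SK t (φ (sch (pe (r - 4) (-t) g))) =
    ∑ n ∈ Finset.range N, B n (sch (mq (fun z => (t / rh t z) ^ n) g))

variable (t : T2 c) (E : N352.U.EEt c) (h : Ev c l φ)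
include t E h

theorem der_K (hg : In (Hs 0) g) (hs : Reg (-s) g) :
    HasDerivAt (fun s => c.SK s (φ (sch (pe (l.re - 4) (-s) g)))) ((2 : ℂ) • ∑ i, c.SK s
      (mm c i φ (mS (xL i) (sch (pe (l.re - 4) (-s) g)))) +
        c.SK s (kp c φ (sch (pe (l.re - 4) (-s) g)))) s := by
  have k := in_be (e := l.re - 4) hg hs
  have a : Ad 0 (sch (pe (l.re - 4) (-s) g)) := ⟨Ap.cpt_sch (Ap.in_dc k), by
    rw [Api4.tsupport_sch (Ap.in_dc k)]; exact k.2.2⟩
  refine (t.grp.ugK.hasDerivAt_comp (hasDerivAt_id' s) ((hasDerivAt (Ap.in_dc hg) φ hs).scomp s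
    (hasDerivAt_neg s)) (dm t h.mem a).gn).congr_deriv ?_
  rw [one_smul, ← map_smul, sub_add_cancel, gen_K t E h.mem a, sch_Kc _ (Ap.in_dc k), A0,
    h.sg t E]
  simp only [ContinuousLinearMap.add_apply, Fin.sum_univ_two, ContinuousLinearMap.smul_apply,
    ContinuousLinearMap.comp_apply, map_add, map_smul, ContinuousLinearMap.map_smul_of_tower]
  push_cast
  module

theorem fl_step (hm : ∀ i, FL c N (l.re - 1) (mm c i φ)) (hk : FL c N (l.re - 2) (kp c φ)) :
    FL c (N + 1) l.re φ := by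
  choose M hM using hm
  obtain ⟨K, hK⟩ := hk
  let B : ℕ → TT D := fun n => (n + 1 : ℂ)⁻¹ • ((2 : ℂ) • ∑ i, M i n ∘L mS (xL i) + K n)
  refine ⟨fun n => n.casesOn φ B, fun g hg T hT hr => ?_⟩
  have d : ∀ s ∈ Icc 0 T, HasDerivAt (fun s => c.SK s (φ (sch (pe (l.re - 4) (-s) g))) -
      ∑ n ∈ Finset.range N, B n (sch (mq (fun z => (s / rh s z) ^ (n + 1)) g))) 0 s :=
    fun s hs => by
    have r := reg_of_le hg.2.2 hr hs.2
    have k := in_r hg r
    have r' : Reg (-s) (mq (fun z => (rh s z)⁻¹ ^ 2) g) := reg_mono r (supp_mq _)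
    refine ((der_K t E h hg r).fun_sub (HasDerivAt.fun_sum fun n _ =>
      der_t (Ap.in_dc hg) r n (B n))).congr_deriv (sub_eq_zero.2 ?_)
    have a := hK _ k s hs.1 r'
    have b := fun i => hM i _ (in_l (xL i) k) s hs.1 (reg_mono r' (supp_mq _))
    rw [pe_r, show l.re - 2 - 4 + 2 = l.re - 4 by ring] at a
    have e : ∀ (i : Fin 2) n, mq (fun z => (s / rh s z) ^ n) (mq (xL i)
        (mq (fun z => (rh s z)⁻¹ ^ 2) g)) = mq (xL i) (mq (fun z => (s / rh s z) ^ n)
          (mq (fun z => (rh s z)⁻¹ ^ 2) g)) := fun i n => funext fun z => mul_left_comm _ _ _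
    simp only [pe_x, pe_r, show l.re - 1 - 4 - 1 + 2 = l.re - 4 by ring, e,
      fun i => sch_l (xL i) (inn (e := l.re - 4) (Ap.in_dc hg) r).1, fun i n => sch_l (xL i) ((fam_t (Ap.in_dc k) n).dc r')] at b
    simp only [a, b, B, Fin.sum_univ_two, ContinuousLinearMap.smul_apply, smul_smul,
      ContinuousLinearMap.add_apply, ContinuousLinearMap.comp_apply, ← Finset.sum_add_distrib,
      Finset.smul_sum, mul_inv_cancel₀ (Nat.cast_add_one_ne_zero (R := ℂ) _), one_smul]
  have := constant_of_has_deriv_right_zero (fun s hs => (d s hs).continuousAt.continuousWithinAt)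
    (fun s hs => (d s (Ico_subset_Icc_self hs)).hasDerivWithinAt) T (right_mem_Icc.2 hT)
  rw [Finset.sum_range_succ', eq_add_of_sub_eq this, add_comm]
  simp [t.grp.ugK.zero, show mq (fun _ => 0) g = fun _ => 0 from funext fun z => by simp [mq],
    show mq (fun _ => 1) g = g from funext fun z => by simp [mq], Ap.sch_zero]

theorem fl_all (hN : l.re < N) : FL c N l.re φ := by
  induction N generalizing l φ with
  | zero => exact ⟨0, fun g _ s _ _ => by simp [h.neg t E (by simpa using hN)]⟩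
  | succ N ih =>
    push_cast at hN
    exact fl_step t E h (fun i => by simpa using ih (h.mm t.grp i) (by simp; linarith))
      (by simpa using ih (h.kp t E) (by simp; linarith))

theorem Ev.pol (hN : l.re ≤ N) (hg : In (Hs 0) g) :
    Pol N {t | 0 ≤ t ∧ Reg (-t) g} fun t => c.SK t (φ (sch (pe (l.re - 4 - N) (-t) g))) := by
  obtain ⟨B, hB⟩ := fl_all t E h (N := N + 1) (by push_cast; linarith)
  refine (EB.NA.Pol.sum (Finset.range (N + 1)) fun n hn => (pol_t ((pol_r (Ap.in_dc hg) _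
    (N - n)).map (B n).toLinearMap) n).mono (by rw [Finset.mem_range] at hn; omega)).congr
      fun s hs => ?_
  have k : ∀ k, In (Hs 0) (mq (fun z => rh s z ^ k) g) := fun k =>
    Ap.in_mul (Complex.ofRealCLM.contDiff.comp ((smooth_rh.comp
      (contDiff_const.prodMk contDiff_id)).pow k)) hg
  rw [← pe_n (N := N), sub_add_cancel, hB _ (k N) s hs.1 (reg_mono hs.2 (supp_mq _))]
  refine Finset.sum_congr rfl fun n hn => ?_
  rw [ContinuousLinearMap.coe_coe, ← map_smul, ← Api4.sch_const_mul _ (Ap.in_dc (k _))]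
  congr 2
  funext z
  by_cases hz : z ∈ tsupport g
  · have r : (rh s z : ℂ) ≠ 0 := by simpa using (hs.2 z hz).ne'
    obtain ⟨m, rfl⟩ := Nat.exists_eq_add_of_le (Nat.lt_succ_iff.1 (Finset.mem_range.1 hn))
    simp only [mq, Nat.add_sub_cancel_left]
    push_cast
    rw [pow_add, div_pow]
    field_simp
  · simp [mq, image_eq_zero_of_notMem_tsupport hz]

end

end Vale.Agent.N352.G.Pf
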