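import Vale.Agent.N352.GTm
import Vale.Agent.P352X.EG.SG
import Vale.Agent.P352X.EG.BAS
import Vale.Agent.P352X.Api1C

/-!
# N352: the groups without sign on the full Hilbert space
-/

set_option linter.all false

open Filter Topology
open scoped ComplexConjugate

namespace Vale.Agent.N352.G

open Vale.Agent.P352 Vale.Agent.P352.GF Vale.Agent.P352.BW Vale.Agent.P352.H246
open Vale.Agent.P352.H496 Vale.Agent.P352.H755 Vale.Agent.P352.H15
open Vale.Agent.P352X Vale.Agent.P352X.EB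
open Vale.Agent.P352X.EG (Cg Sh sg)
open UniformSpace (Completion)
open Complex (I)
open Real (exp)

noncomputable section

section hilbert

variable {H : Type*} [NormedAddCommGroup H] [InnerProductSpace ℂ H] [CompleteSpace H]

/-- lifts up to the grading -/
structure Up {G : Type*} (m : G → G → G) (Γ : H →L[ℂ] H) (R : (H →L[ℂ] H) → G → Prop) : Prop where
  g2 : Γ * Γ = 1
  mul : ∀ {u v A B}, R u A → R v B → R (u * v) (m A B)
  eq : ∀ {u v A}, R u A → R v A → u = v ∨ u = Γ * v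
  ev : ∀ {u A}, R u A → Γ * u = u * Γ

namespace Up

variable {G : Type*} {m : G → G → G} {Γ : H →L[ℂ] H} {R : (H →L[ℂ] H) → G → Prop} (p : Up m Γ R)
  {a b b' h : H →L[ℂ] H} {A B B' C : G}
include p

theorem gg (X : H →L[ℂ] H) : Γ * (Γ * X) = X := by rw [← mul_assoc, p.g2, one_mul]

theorem sq (ha : R a A) (hb : R b B) (e : A = B) : a * a = b * b := by
  rcases p.eq ha (e ▸ hb) with k | k
  · rw [k]
  · rw [k, mul_assoc, ← mul_assoc b, ← p.ev hb, mul_assoc, p.gg]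

theorem cnj (ha : R a A) (hb : R b B) (hb' : R b' B') (e : m A B = m B' A) :
    a * (b * b) = b' * b' * a := by
  rcases p.eq (p.mul ha hb) (e ▸ p.mul hb' ha) with k | k
  · rw [← mul_assoc, k, mul_assoc, k, mul_assoc]
  · rw [← mul_assoc, k, mul_assoc, mul_assoc, k, ← mul_assoc b', ← p.ev hb', mul_assoc, p.gg,
      mul_assoc]

theorem comm (ha : R a A) (hb : R b B) (hh : R h C) (e : B = m C C) (e' : m A C = m C A) :
    a * b = b * a := by
  have k := p.cnj ha hh hh e'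
  rcases p.eq hb (e ▸ p.mul hh hh) with q | q
  · rw [q, k]
  · rw [q, ← mul_assoc, ← p.ev ha, mul_assoc, k, mul_assoc Γ]

theorem hom (ha : R a A) (hb : R b B) (hh : R h C) (e : B = m C C) (e' : m A C = m C A)
    (hc : R b' B') (e'' : B' = m A B) : b' * b' = a * a * (b * b) := by
  rw [p.sq hc (p.mul ha hb) e'', mul_assoc, ← mul_assoc b, ← p.comm ha hb hh e e', mul_assoc,
    mul_assoc]

end Up

theorem up_lf {K : Type*} [NormedAddCommGroup K] [InnerProductSpace ℂ K] [CompleteSpace K]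
    {Γ : H →L[ℂ] H} {tm : H → H → K} {Ω : H} (d : Dbl Γ tm) (hΩ : Γ Ω = Ω) (n : ‖Ω‖ = 1) :
    Up (· * ·) Γ (Lf Γ tm Ω) := ⟨d.g2, Lf.mul, Lf.eq d hΩ n, Lf.ev⟩

variable {W A : ℝ → H →L[ℂ] H}

theorem opn_uni {u : H →L[ℂ] H} (h : u ∈ unitary (H →L[ℂ] H)) : ‖u‖ ≤ 1 :=
  ContinuousLinearMap.opNorm_le_bound _ zero_le_one fun v => by
    rw [ContinuousLinearMap.norm_map_of_mem_unitary h, one_mul]

/-- continuity at zero suffices -/
theorem ug_of (h0 : W 0 = 1) (ha : ∀ s t, W (s + t) = W s * W t)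
    (hu : ∀ t, W t ∈ unitary (H →L[ℂ] H)) (hc : ∀ z, Tendsto (fun t => W t z) (𝓝 0) (𝓝 z)) :
    UG W :=
  SN.URep.of_lines (fun v => by rw [h0]; rfl) (fun s t v => by rw [ha]; rfl)
    (fun t => inner_unitary (hu t)) fun y v => (hc v).comp
      ((continuous_id.smul continuous_const).tendsto' 0 0 (zero_smul _ y))

theorem tends_of (hu : ∀ t, W t ∈ unitary (H →L[ℂ] H)) {S : Set H} (hS : Dense S)
    (h : ∀ z ∈ S, Tendsto (fun t => W t z) (𝓝 0) (𝓝 z)) (z : H) :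
    Tendsto (fun t => W t z) (𝓝 0) (𝓝 z) := by
  refine Metric.tendsto_nhds.2 fun ε hε => ?_
  obtain ⟨v, hv, e⟩ := hS.exists_dist_lt z (show 0 < ε / 3 by positivity)
  filter_upwards [Metric.tendsto_nhds.1 (h v hv) (ε / 3) (by positivity)] with t ht
  have a : dist (W t z) (W t v) = dist z v := by
    rw [dist_eq_norm, ← map_sub, ContinuousLinearMap.norm_map_of_mem_unitary (hu t), dist_eq_norm]
  have b := dist_triangle4 (W t z) (W t v) v z
  rw [a, dist_comm v z] at b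
  linarith

theorem dm_sq (hu : ∀ t, A t ∈ unitary (H →L[ℂ] H)) (h0 : A 0 = 1) {v w u : H}
    (h : HasDerivAt (fun t => A t v) w 0) (h' : HasDerivAt (fun t => A t w) u 0) :
    Dm (fun t => A t * A t) v :=
  (hasDerivAt_apply (.of_forall fun t => opn_uni (hu t)) h'.continuousAt h
    (by simpa only [h0, ContinuousLinearMap.one_apply] using h)).differentiableAt

end hilbert

variable {D : Type*} [NormedAddCommGroup D] [InnerProductSpace ℂ D] {c : Cg D}
  {u v : Completion D →L[ℂ] Completion D} {A B : V → V} {r s r' s' : ℝ} {O O' : Set V}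
  {ψ ψ' : Completion D}

/-- `u` implements the point map `A` -/
def Ip (c : Cg D) (u : Completion D →L[ℂ] Completion D) (A : V → V) : Prop :=
  ∃ g : Sh c, u = g.U c ∧ ∀ z, g.act z = A z

theorem gd (c : Cg D) : Gd c.Γ := ⟨EG.SGx.g2 c, EG.SGx.gs c⟩

theorem Ip.mul (h : Ip c u A) (h' : Ip c v B) : Ip c (u * v) fun z => A (B z) := by
  obtain ⟨g, rfl, e⟩ := h
  obtain ⟨g', rfl, e'⟩ := h'
  exact ⟨g.mul g', (EG.SGx.U_mul g g').symm, fun z =>
    (g.toSg.act_mul g'.toSg z).trans (by rw [e', e])⟩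

theorem Ip.cast (h : Ip c u A) (e : ∀ z, A z = B z) : Ip c u B :=
  h.imp fun _ k => ⟨k.1, fun z => (k.2 z).trans (e z)⟩

theorem Ip.uni (h : Ip c u A) : u ∈ unitary (Completion D →L[ℂ] Completion D) :=
  h.elim fun g k => k.1 ▸ EG.SGx.uni g

theorem Ip.vac (h : Ip c u A) : u c.Om = c.Om := h.elim fun g k => k.1 ▸ EG.SGx.vac g

theorem Ip.ev (h : Ip c u A) : c.Γ * u = u * c.Γ := h.elim fun g k => k.1 ▸ EG.SGx.gU g

theorem Ip.nrm (h : Ip c u A) (z : Completion D) : ‖u z‖ = ‖z‖ :=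
  ContinuousLinearMap.norm_map_of_mem_unitary h.uni z

theorem Ip.mem (h : Ip c u A) (e : ∀ z ∈ O, A z ∈ O') : ∀ X ∈ c.N O, u * X * star u ∈ c.N O' := by
  obtain ⟨g, rfl, k⟩ := h
  exact fun X hX => c.hN.mono _ _ (Set.image_subset_iff.2 fun z hz => show g.act z ∈ O' from (k z).symm ▸ e z hz) _
    (EG.SGx.alg1 g hX)

theorem Ip.pr (h : Ip c u A) (p : Pr (c.N O) c.Om ψ ψ') (e : ∀ z ∈ O, A z ∈ O') :
    Pr (c.N O') c.Om (u ψ) (u ψ') := p.cov h.uni h.vac (h.mem e)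

theorem up_ip (c : Cg D) : Up (fun A B z => A (B z)) c.Γ (Ip c) := by
  refine ⟨EG.SGx.g2 c, Ip.mul, ?_, Ip.ev⟩
  rintro _ _ A ⟨g, rfl, e⟩ ⟨g', rfl, e'⟩
  obtain ⟨h1, h2, h3⟩ := Grp.sim_inj g.hs g'.hs g.hL g'.hL fun z => (e z).trans (e' z).symm
  have k : EG.SGx.U0 c g.toSg = EG.SGx.U0 c g'.toSg := by simp only [EG.SGx.U0, h1, h2, h3]
  rcases EG.SGx.cas g with a | a <;> rcases EG.SGx.cas g' with b | b <;>
    simp only [a, b, k, EG.SGx.gg, true_or, or_true]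

theorem ip_ug (c : Cg D) {L : Ix → V} (hs : 0 < s) (hL : IsLor L) (a : V) :
    Ip c (Ug c.Q s L a) (sim s L a) := ⟨⟨⟨s, L, a, hs, hL⟩, false⟩, rfl, fun _ => rfl⟩

theorem ip_im (h : Grp.Im c.Q u A) : Ip c u A := by
  obtain ⟨s, L, a, hs, hL, rfl, e⟩ := h
  exact (ip_ug c hs hL a).cast e

theorem ip_one (c : Cg D) : Ip c 1 fun z => z := ip_im (Grp.im_one _)

theorem ip_ut (c : Cg D) (y : V) : Ip c (Ut c.Q y) fun z => z + y := ip_im (Grp.im_ut _ y)

theorem ip_sc0 (c : Cg D) (hr : 0 < r) (hs : 0 < s) : Ip c (P352X.Usc c.Q r s) (scp r s) :=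
  ip_im (Grp.im_sc _ hr hs)

theorem ip_ga0 (c : Cg D) (w : R2) : Ip c (P352X.Ga c.Q w) (gap w) := ip_im (Grp.im_ga _ w)

theorem ip_rt (c : Cg D) (hr : 0 < r) (hs : 0 < s) :
    Ip c (P352X.Usc c.Q √r √s) (scp √r √s) :=
  ip_sc0 c (Real.sqrt_pos.2 hr) (Real.sqrt_pos.2 hs)

theorem scp_rt (hr : 0 ≤ r) (hs : 0 ≤ s) (z : V) : scp √r √s (scp √r √s z) = scp r s z := by
  rw [scp_scp _ (Real.sqrt_nonneg _) (Real.sqrt_nonneg _), Real.mul_self_sqrt hr,
    Real.mul_self_sqrt hs]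

theorem half2 {E : Type*} [AddCommGroup E] [Module ℝ E] (w : E) :
    (1 / 2 : ℝ) • w + (1 / 2 : ℝ) • w = w := by module

theorem ip_sc (c : Cg D) (hr : 0 < r) (hs : 0 < s) : Ip c (Usc c.Q r s) (scp r s) :=
  ((ip_rt c hr hs).mul (ip_rt c hr hs)).cast (scp_rt hr.le hs.le)

theorem ip_ga (c : Cg D) (w : R2) : Ip c (Ga c.Q w) (gap w) :=
  ((ip_ga0 c _).mul (ip_ga0 c _)).cast fun z => (gap_gap _ _ _).trans (by rw [half2])

theorem ip_bo (c : Cg D) (t : ℝ) : Ip c (Bo c.Q t) (scp (exp t) (exp (-t))) :=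
  ip_sc c (Real.exp_pos _) (Real.exp_pos _)

namespace Sq

variable (c)

theorem ut (x y : V) : Ut c.Q (x + y) = Ut c.Q x * Ut c.Q y := EG.SGx.ut_add c.Q x y

theorem ut_half (y : V) : Ut c.Q y = Ut c.Q ((1 / 2 : ℝ) • y) * Ut c.Q ((1 / 2 : ℝ) • y) := by
  rw [← ut, half2]

theorem sc1 : Usc c.Q 1 1 = 1 := by rw [Usc, Real.sqrt_one, Grp.sc1, one_mul]

theorem ga0 : Ga c.Q 0 = 1 := by rw [Ga, smul_zero, Grp.ga0, one_mul]

theorem sc (hr : 0 < r) (hs : 0 < s) (hr' : 0 < r') (hs' : 0 < s') :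
    Usc c.Q (r * r') (s * s') = Usc c.Q r s * Usc c.Q r' s' :=
  (up_ip c).hom (ip_rt c hr hs) (ip_rt c hr' hs')
    (ip_rt c (Real.sqrt_pos.2 hr') (Real.sqrt_pos.2 hs'))
    (funext fun z => (scp_rt (Real.sqrt_nonneg _) (Real.sqrt_nonneg _) z).symm)
    (funext fun z => by
      simp only [scp_scp _ (Real.sqrt_nonneg _) (Real.sqrt_nonneg _), mul_comm])
    (ip_rt c (mul_pos hr hr') (mul_pos hs hs')) (funext fun z => by
      simp only [scp_scp _ (Real.sqrt_nonneg _) (Real.sqrt_nonneg _), Real.sqrt_mul hr.le,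
        Real.sqrt_mul hs.le])

theorem ga (v w : R2) : Ga c.Q (v + w) = Ga c.Q v * Ga c.Q w :=
  (up_ip c).hom (ip_ga0 c _) (ip_ga0 c _) (ip_ga0 c ((1 / 2 : ℝ) • (1 / 2 : ℝ) • w))
    (funext fun z => by simp only [gap_gap, half2])
    (funext fun z => by simp only [gap_gap, add_comm])
    (ip_ga0 c _) (funext fun z => by
      simp only [gap_gap, smul_add])

variable {c} in
/-- linear maps move the translations -/
theorem lin_ut {A : V →L[ℝ] V} (h : Ip c u A) (y : V) : u * Ut c.Q y = Ut c.Q (A y) * u := by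
  rw [ut_half c y, ut_half c (A y), ← map_smul]
  exact (up_ip c).cnj h (ip_ut c _) (ip_ut c _) (funext fun z => map_add A z _)

theorem sc_ut (y : V) (hr : 0 < r) (hs : 0 < s) :
    Usc c.Q r s * Ut c.Q y = Ut c.Q (scp r s y) * Usc c.Q r s :=
  lin_ut (A := scpL r s) (ip_sc c hr hs) y

theorem ga_ut (w : R2) (y : V) : Ga c.Q w * Ut c.Q y = Ut c.Q (gap w y) * Ga c.Q w := by
  rw [← gapL_apply]
  exact lin_ut (A := gapL w) ((ip_ga c w).cast fun z => (gapL_apply _ _).symm) y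

theorem sc_ga (w : R2) (hr : 0 < r) (hs : 0 < s) :
    Usc c.Q r s * Ga c.Q w = Ga c.Q (√(r / s) • w) * Usc c.Q r s := by
  refine (up_ip c).cnj (ip_sc c hr hs) (ip_ga0 c _) (ip_ga0 c _) (funext fun z => ?_)
  obtain ⟨ρ, h1, rfl⟩ : ∃ ρ, 0 < ρ ∧ r = ρ * ρ :=
    ⟨_, Real.sqrt_pos.2 hr, (Real.mul_self_sqrt hr.le).symm⟩
  obtain ⟨σ, h2, rfl⟩ : ∃ σ, 0 < σ ∧ s = σ * σ :=
    ⟨_, Real.sqrt_pos.2 hs, (Real.mul_self_sqrt hs.le).symm⟩
  apply Grp.vext <;> simp only [scp, gap, al_pt, be_pt, tx_pt, Pi.smul_apply, Pi.add_apply,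
    smul_eq_mul, d2, Grp.sq_mul hr, Grp.sq_div hr, Real.sqrt_mul_self h1.le,
    Real.sqrt_mul_self h2.le] <;> field_simp

/-! ### continuity -/

theorem der_ug {s : ℝ → ℝ} {L : ℝ → Ix → V} (s0 : s 0 = 1) (L0 : L 0 = GF.one)
    (h : ∀ t, 0 < s t ∧ IsLor (L t)) (d : ∀ x, DifferentiableAt ℝ (fun t => sim (s t) (L t) 0 x) 0)
    (v : D) : ∃ w : D, HasDerivAt (fun t => Ug c.Q (s t) (L t) 0 v) (w : Completion D) 0 := by
  have k := c.hN.der s L (fun _ => 0) (fun x => deriv (fun t => sim (s t) (L t) 0 x) 0) v s0 L0 rfl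
    h fun n x => hasDerivAt_pi.1 (d x).hasDerivAt n
  simp only [Grp.coe (h _).1 (h _).2]
  exact ⟨_, ((Completion.toComplL : D →L[ℂ] Completion D).restrictScalars ℝ).hasFDerivAt.comp_hasDerivAt
    0 k⟩

theorem dm_sc (x y : ℝ) (v : D) :
    Dm (fun t => Usc c.Q (exp (x * t)) (exp (y * t))) (v : Completion D) := by
  have p : ∀ t, 0 < √(exp t) := fun t => Real.sqrt_pos.2 (Real.exp_pos t)
  have k := der_ug c (s := fun t => √(√(exp (x * t)) * √(exp (y * t))))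
    (L := fun t => bst va vb (√(√(exp (x * t)) / √(exp (y * t))) - 1)
      (√(√(exp (y * t)) / √(exp (x * t))) - 1)) (by simp) (funext fun m => by simp [bst, GF.one])
    (fun t => ⟨Real.sqrt_pos.2 (mul_pos (p (x * t)) (p (y * t))), (Grp.lsc (p _) (p _)).1⟩)
    fun z => by
      simp only [(Grp.lsc (p _) (p _)).2]
      simp only [scp, ← Real.exp_half, ← Real.exp_add]
      exact (ContDiff.differentiable (n := 1) (by fun_prop) one_ne_zero).differentiableAt
  obtain ⟨w, a⟩ := k v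
  obtain ⟨_, b⟩ := k w
  exact dm_sq (A := fun t => P352X.Usc c.Q √(exp (x * t)) √(exp (y * t)))
    (fun t => (ip_sc0 c (p _) (p _)).uni) (by simp [Grp.sc1]) a b

theorem dm_ga (w : R2) (v : D) : Dm (fun t => Ga c.Q (t • w)) (v : Completion D) := by
  have k := der_ug c (s := fun _ => 1) rfl (funext fun m => by simp [H746.nrt, GF.one, GF.mdot])
    (fun t : ℝ => ⟨one_pos, (Grp.lga ((1 / 2 : ℝ) • t • w)).1⟩)
    fun z => by
      simp only [(Grp.lga _).2, gap]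
      exact (ContDiff.differentiable (n := 1) (by fun_prop) one_ne_zero).differentiableAt
  obtain ⟨w', a⟩ := k v
  obtain ⟨_, b⟩ := k w'
  exact dm_sq (A := fun t => P352X.Ga c.Q ((1 / 2 : ℝ) • t • w))
    (fun t => (ip_ga0 c _).uni) (by simp [Grp.ga0]) a b

variable {c} in
theorem ug_dm {W : ℝ → Completion D →L[ℂ] Completion D} (h0 : W 0 = 1)
    (ha : ∀ s t, W (s + t) = W s * W t)
    (hu : ∀ t, W t ∈ unitary (Completion D →L[ℂ] Completion D))
    (d : ∀ v : D, Dm W (v : Completion D)) : UG W :=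
  ug_of h0 ha hu (tends_of hu Completion.denseRange_coe <| by
    rintro _ ⟨v, rfl⟩
    simpa only [h0, ContinuousLinearMap.one_apply] using (d v).continuousAt.tendsto)

theorem ugSc (x y : ℝ) : UG fun t => Usc c.Q (exp (x * t)) (exp (y * t)) :=
  ug_dm (by simpa using sc1 c) (fun s t => by
    simpa only [mul_add, Real.exp_add] using sc c (Real.exp_pos _) (Real.exp_pos _)
      (Real.exp_pos _) (Real.exp_pos _))
    (fun _ => (ip_sc c (Real.exp_pos _) (Real.exp_pos _)).uni) (dm_sc c x y)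

theorem ugB : UG (Bo c.Q) := by
  have := ugSc c 1 (-1)
  simp only [one_mul, neg_mul] at this
  exact this

theorem ugG (w : R2) : UG fun t => Ga c.Q (t • w) :=
  ug_dm (by simpa using ga0 c) (fun s t => by rw [add_smul, ga]) (fun _ => (ip_ga c _).uni)
    (dm_ga c w)

theorem ugM (i : Fin 2) : UG (Mi c.Q i) := ugG c (e2 i)

theorem ugT (y : V) : UG fun t => Ut c.Q (t • y) :=
  (EG.SGx.urep c.Q).comp (A := fun t : ℝ => t • y) (fun s t => add_smul s t y) (by fun_prop)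

theorem ut_apply (x y : V) (v : Completion D) : Ut c.Q x (Ut c.Q y v) = Ut c.Q (x + y) v := by
  rw [ut]
  rfl

theorem ut_cont {X : Type*} [TopologicalSpace X] {a : X → V} {v : X → Completion D}
    (ha : Continuous a) (hv : Continuous v) : Continuous fun x => Ut c.Q (a x) (v x) :=
  continuous_iff_continuousAt.2 fun x => tendsto_apply (.of_forall fun _ => opn_uni (ip_ut c _).uni)
    hv.continuousAt (((EG.SGx.urep c.Q).cont _).continuousAt.comp ha.continuousAt)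

theorem star_ut (y : V) : star (Ut c.Q y) = Ut c.Q (-y) := by
  simpa only [one_smul, neg_smul] using (ugT c y).star_eq 1

theorem ut_inv (y : V) : Ut c.Q y * Ut c.Q (-y) = 1 := by rw [← ut, add_neg_cancel, Grp.ut0]

theorem ut_inv' (y : V) : Ut c.Q (-y) * Ut c.Q y = 1 := by rw [← ut, neg_add_cancel, Grp.ut0]

/-! ### the algebras -/

theorem cyc_sub (e : O ⊆ W0) : Dense {z | ∃ Y ∈ (c.N O).commutant, Y c.Om = z} :=
  (EG.SGx.dns (c := c) va vb Grp.na Grp.nb Grp.nab).mono fun _ q => q.elim fun Y q =>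
    ⟨Y, comm_anti (c.hN.mono _ _ e) Y q.1, q.2⟩

theorem ex_md (hO : IsOpen O) (hn : O.Nonempty) (e : O ⊆ W0) :
    Nonempty (P132.ModData (c.N O) c.Om) :=
  P132.exists_modData _ _ Kin.norm_om (EG.SGx.rs hO hn) fun a ha h0 => by
    ext z
    refine (cyc_sub c e).induction (P := fun z => a z = 0) ?_
      (isClosed_eq a.continuous continuous_const) z
    rintro _ ⟨Y, hY, rfl⟩
    rw [comm_apply ha hY, h0, map_zero]

variable {c}

theorem pr_Al {X X' : D → D} (h : Al c.Q O X X') :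
    Pr (c.N O) c.Om (X c.Q.vac : D) (X' c.Q.vac : D) := .of_afs (EG.SGx.affa h) _

/-! ### the potential -/

variable {T : Ix → Ix → Fld D} {l : Fn → Completion D} {f : Fn}

theorem pot (hl : IsPot c.Q T l) {L : Ix → V} (a : V) (hs : 0 < s) (hL : IsLor L) (hf : IsTest f) :
    Ug c.Q s L a (l fun x => f (sim s L a x)) = ((s ^ 2)⁻¹ : ℝ) • l f := by
  have h1 : ∀ w, inner ℂ (Ug c.Q s L a w) (l f) =
      (s ^ 2 : ℝ) * inner ℂ w (l fun x => f (sim s L a x)) := fun w =>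
    Completion.induction_on w (isClosed_eq (by fun_prop) (by fun_prop)) fun v => by
      rw [Grp.coe hs hL, hl.cov s L a f v hs hL hf]
  refine ext_inner_left ℂ fun z => ?_
  have h2 : z = Ug c.Q s L a (star (Ug c.Q s L a) z) :=
    (DFunLike.congr_fun (ip_ug c hs hL a).uni.2 z).symm
  have h3 : ((s ^ 2 : ℝ) : ℂ) ≠ 0 := Complex.ofReal_ne_zero.2 (by positivity)
  rw [h2, Grp.ug_inner hs hL, ← Complex.coe_smul, inner_smul_right, h1, Complex.ofReal_inv,
    inv_mul_cancel_left₀ h3]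

theorem bose_ev {B : Fld D} (h : c.Q.bose B) (hf : IsTest f) :
    c.Γ (B f c.Q.vac : D) = (B f c.Q.vac : D) := by
  rw [c.hN.ext, ← c.hN.bose B f _ h hf, c.hN.vac]

theorem l_even (hT : c.Q.IsStress T) (hl : IsPot c.Q T l) (hf : IsTest f) : c.Γ (l f) = l f := by
  refine hl.unique (l' := fun f => c.Γ (l f)) ⟨fun f g z a b => ?_, c.Γ.continuous.comp hl.cont,
    fun f hf => ?_, fun s L a f v hs hL hf => ?_⟩ f hf
  · rw [hl.lin f g z a b, map_add, map_smul]
  · rw [← map_smul, hl.trace f hf, GF.tr, ← Completion.coe_toComplL (𝕜 := ℂ)]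
    simp only [map_sum, map_smul, Completion.coe_toComplL, bose_ev (hT.bose _ _) hf]
  · rw [← (gd c).gi, ← (gd c).gi, c.hN.ext, c.hN.ext, ← c.hN.GU _ _ _ _ hs hL,
      hl.cov s L a f _ hs hL hf]

end Sq

end

end Vale.Agent.N352.G
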