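import Vale.Agent.N352.GDefs
import Vale.Agent.P352X.Api1P
import Vale.Agent.P352.BW.H49.Ab
import Vale.Agent.P352.BW.Mb
import Vale.Agent.P352.BW.H820.Tk
import Vale.Agent.P352.BW.T.NAd
import Vale.Agent.P132.Bd8.B6

/-!
# N352: the even part of the tensor square, lifts, the modular group of the double
-/

set_option linter.all false

open Filter Topology
open scoped ComplexConjugate BoundedContinuousFunction

namespace Vale.Agent.N352.G

open Vale.Agent.P352 Vale.Agent.P352.BW Vale.Agent.P352X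
open Vale.Agent.P352X.EG (sg)
open Vale.Agent.P132 (ModData expB)
open Complex (I)

noncomputable section

variable {H K : Type*} [NormedAddCommGroup H] [InnerProductSpace ℂ H] [CompleteSpace H]
  [NormedAddCommGroup K] [InnerProductSpace ℂ K] [CompleteSpace K]
  {Γ : H →L[ℂ] H} {tm : H → H → K} {e : Bool} {x y x' y' Ω : H} {u v u' v' : H →L[ℂ] H}
  {U U' : K →L[ℂ] K} {M : VonNeumannAlgebra H}

theorem sg_sq (e : Bool) : sg e * sg e = 1 := by cases e <;> simp [sg]

theorem conj_sg (e : Bool) : conj (sg e) = sg e := by cases e <;> simp [sg]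

@[simp] theorem sg_false : sg false = 1 := rfl

@[simp] theorem sg_true : sg true = -1 := rfl

/-- vectors of parity `e` -/
def Pv (Γ : H →L[ℂ] H) (e : Bool) (x : H) : Prop := Γ x = sg e • x

/-- the part of parity `e` of a vector -/
def pp (Γ : H →L[ℂ] H) (e : Bool) (x : H) : H := (1 / 2 : ℂ) • (x + sg e • Γ x)

/-- the part of parity `e` of an operator -/
def po (Γ : H →L[ℂ] H) (e : Bool) (X : H →L[ℂ] H) : H →L[ℂ] H :=
  (1 / 2 : ℂ) • (X + sg e • (Γ * X * Γ))

theorem pp_add (x : H) : pp Γ false x + pp Γ true x = x := by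
  simp only [pp, sg_false, sg_true]
  module

theorem po_add (X : H →L[ℂ] H) : po Γ false X + po Γ true X = X := by
  simp only [po, sg_false, sg_true]
  module

theorem po_mem {X : H →L[ℂ] H} (h : X ∈ M) (h' : Γ * X * Γ ∈ M) (e : Bool) : po Γ e X ∈ M :=
  smul_mem_vn _ (add_mem h (smul_mem_vn _ h'))

theorem po_vac (hΩ : Γ Ω = Ω) (e : Bool) (X : H →L[ℂ] H) : po Γ e X Ω = pp Γ e (X Ω) := by
  simp [po, pp, hΩ]

/-- gradings -/
structure Gd (Γ : H →L[ℂ] H) : Prop where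
  g2 : Γ * Γ = 1
  gs : star Γ = Γ

namespace Gd

variable (d : Gd Γ)
include d

theorem gg (x : H) : Γ (Γ x) = x := DFunLike.congr_fun d.g2 x

theorem gg' (X : H →L[ℂ] H) : Γ * (Γ * X) = X := by rw [← mul_assoc, d.g2, one_mul]

theorem gi (x y : H) : inner ℂ (Γ x) y = inner ℂ x (Γ y) := by
  rw [← star_inner, d.gs]

theorem uni : Γ ∈ unitary (H →L[ℂ] H) := ⟨by rw [d.gs, d.g2], by rw [d.gs, d.g2]⟩

theorem nrm (x : H) : ‖Γ x‖ = ‖x‖ := ContinuousLinearMap.norm_map_of_mem_unitary d.uni x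

theorem pv_pp (e : Bool) (x : H) : Pv Γ e (pp Γ e x) := by
  cases e <;> simp only [Pv, pp, map_smul, map_add, d.gg, sg_false, sg_true] <;> module

theorem par_po (e : Bool) (X : H →L[ℂ] H) : Par Γ e (po Γ e X) := by
  have : Γ * (Γ * X * Γ) * Γ = X := by
    rw [← mul_assoc, ← mul_assoc, d.g2, one_mul, mul_assoc, d.g2, mul_one]
  cases e <;> simp only [Par, po, mul_smul_comm, smul_mul_assoc, mul_add, add_mul, this, sg_false,
    sg_true] <;> module

theorem inn_pv (h : Pv Γ e x) (y : H) : inner ℂ x (Γ y) = sg e * inner ℂ x y := by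
  rw [← d.gi, h, inner_smul_left, conj_sg]

theorem orth (h : Pv Γ false x) (h' : Pv Γ true y) : inner ℂ x y = 0 := by
  have := d.inn_pv h y
  rw [h', inner_smul_right] at this
  simp only [sg_false, sg_true] at this
  linear_combination -(1 / 2) * this

theorem par_app (h : Par Γ e u) (x : H) : Γ (u x) = sg e • u (Γ x) := by
  have := DFunLike.congr_fun h (Γ x)
  simpa only [ContinuousLinearMap.mul_apply, d.gg, ContinuousLinearMap.smul_apply] using this

theorem par_star (h : Par Γ e u) : Par Γ e (star u) := by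
  have := congrArg star h
  rwa [star_mul, star_mul, d.gs, star_smul, ← mul_assoc, show star (sg e) = sg e from conj_sg e] at this

theorem par_ev : Par Γ false u ↔ Γ * u = u * Γ := by
  rw [Par, sg_false, one_smul]
  exact ⟨fun h => by rw [← d.gg' (u * Γ), ← mul_assoc Γ u, h],
    fun h => by rw [h, mul_assoc, d.g2, mul_one]⟩

theorem par_mul (h : Par Γ e u) (h' : Par Γ e v) : Par Γ false (u * v) := by
  have : Γ * (u * v) * Γ = (Γ * u * Γ) * (Γ * v * Γ) := by
    simp only [mul_assoc, d.gg']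
  rw [Par, this, h, h', smul_mul_smul_comm, sg_sq, sg_false]

theorem ext_pv {a b : H} (h : ∀ e x, Pv Γ e x → inner ℂ x a = inner ℂ x b) : a = b :=
  ext_inner_left ℂ fun x => by
    rw [← pp_add (Γ := Γ) x, inner_add_left, inner_add_left, h _ _ (d.pv_pp _ _), h _ _ (d.pv_pp _ _)]

theorem gam_comm (h : ∀ X ∈ M, Γ * X * Γ ∈ M) {Z : H →L[ℂ] H} (hZ : Z ∈ M.commutant) :
    Γ * Z * Γ ∈ M.commutant := by
  have := conj_comm d.uni (M := M) (M' := M) (by simpa only [d.gs] using h) hZ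
  rwa [d.gs] at this

end Gd

namespace Dbl

variable (d : Dbl Γ tm)
include d

theorem gd : Gd Γ := ⟨d.g2, d.gs⟩

theorem ext {a b : K} (h : ∀ x y, inner ℂ (tm x y) a = inner ℂ (tm x y) b) : a = b :=
  d.dns.eq_of_inner_right ℂ fun z hz => by
    induction hz using Submodule.span_induction with
    | mem _ k => obtain ⟨x, y, rfl⟩ := k; exact h x y
    | zero => simp
    | add _ _ _ _ p q => simpa only [inner_add_left] using congrArg₂ (· + ·) p q
    | smul z _ _ p => simpa only [inner_smul_left] using congrArg (conj z * ·) p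

theorem add_l (x x' y : H) : tm (x + x') y = tm x y + tm x' y := d.ext fun a b => by
  simp only [inner_add_right, d.inn, map_add]
  ring

theorem add_r (x y y' : H) : tm x (y + y') = tm x y + tm x y' := d.ext fun a b => by
  simp only [inner_add_right, d.inn, map_add]
  ring

theorem smul_l (z : ℂ) (x y : H) : tm (z • x) y = z • tm x y := d.ext fun a b => by
  simp only [inner_smul_right, d.inn, map_smul]
  ring

theorem smul_r (z : ℂ) (x y : H) : tm x (z • y) = z • tm x y := d.ext fun a b => by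
  simp only [inner_smul_right, d.inn, map_smul]
  ring

theorem nrm (x y : H) : ‖tm x y‖ ≤ 1 * ‖x‖ * ‖y‖ := by
  have a : ‖tm x y‖ ^ 2 = ‖inner ℂ (tm x y) (tm x y)‖ := by
    rw [inner_self_eq_norm_sq_to_K, norm_pow]
    simp
  have b : ∀ x y : H, ‖inner ℂ x y‖ ≤ ‖x‖ * ‖y‖ := norm_inner_le_norm
  have c1 := mul_le_mul (b x x) (b y y) (norm_nonneg _) (by positivity)
  have c2 := mul_le_mul (b x (Γ x)) (b y (Γ y)) (norm_nonneg _) (by positivity)
  rw [d.gd.nrm, d.gd.nrm] at c2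
  rw [d.inn, norm_div, Complex.norm_ofNat] at a
  have c3 := norm_add_le (inner ℂ x x * inner ℂ y y) (inner ℂ x (Γ x) * inner ℂ y (Γ y))
  rw [norm_mul, norm_mul] at c3
  refine (pow_le_pow_iff_left₀ (norm_nonneg _) (by positivity) two_ne_zero).1 ?_
  nlinarith

/-- the product as a bounded bilinear map -/
def L : H →L[ℂ] H →L[ℂ] K :=
  (LinearMap.mk₂ ℂ tm d.add_l d.smul_l d.add_r d.smul_r).mkContinuous₂ 1 d.nrm

theorem L_apply (x y : H) : d.L x y = tm x y := rfl

theorem cont : Continuous fun p : H × H => tm p.1 p.2 := d.L.continuous₂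

theorem gam (x y : H) : tm (Γ x) (Γ y) = tm x y := d.ext fun a b => by
  simp only [d.inn, d.gd.gg]
  ring

theorem inn_l (h : Pv Γ e x) (h' : Pv Γ e y) (a b : H) :
    inner ℂ (tm x y) (tm a b) = inner ℂ x a * inner ℂ y b := by
  rw [d.inn, d.gd.inn_pv h, d.gd.inn_pv h']
  linear_combination (inner ℂ x a * inner ℂ y b / 2) * sg_sq e

theorem cross (h : Pv Γ e x) (h' : Pv Γ (!e) y) : tm x y = 0 := by
  have := d.gam x y
  rw [h, h', d.smul_l, d.smul_r, smul_smul, show sg e * sg (!e) = -1 by cases e <;> simp] at this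
  linear_combination (norm := module) -(1 / 2 : ℂ) • this

theorem split (x y : H) :
    tm x y = tm (pp Γ false x) (pp Γ false y) + tm (pp Γ true x) (pp Γ true y) := by
  conv_lhs => rw [← pp_add (Γ := Γ) x, ← pp_add (Γ := Γ) y]
  rw [d.add_l, d.add_r, d.add_r, d.cross (d.gd.pv_pp false x) (d.gd.pv_pp true y),
    d.cross (d.gd.pv_pp true x) (d.gd.pv_pp false y), add_zero, zero_add]

theorem dense_of {A : Set H} (hA : Dense A) (S : Submodule ℂ K)
    (h : ∀ x ∈ A, ∀ y ∈ A, tm x y ∈ S) : Dense (S : Set K) := by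
  have k : ∀ p : H × H, tm p.1 p.2 ∈ S.topologicalClosure := fun p =>
    (hA.prod hA).induction (P := fun p => tm p.1 p.2 ∈ S.topologicalClosure)
      (fun p hp => S.le_topologicalClosure (h _ hp.1 _ hp.2))
      (S.isClosed_topologicalClosure.preimage d.cont) p
  refine dense_closure.1 (d.dns.mono (Submodule.span_le (p := S.topologicalClosure).2 ?_))
  rintro _ ⟨x, y, rfl⟩
  exact k (x, y)

theorem ext_op {A B : K →L[ℂ] K} (h : ∀ x y, A (tm x y) = B (tm x y)) : A = B := by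
  refine ContinuousLinearMap.ext_on d.dns ?_
  rintro _ ⟨x, y, rfl⟩
  exact h x y

theorem tp_eq (h : Tp tm u v U) (h' : Tp tm u v U') : U = U' :=
  d.ext_op fun x y => (h x y).trans (h' x y).symm

theorem tp_star (h : Tp tm u v U) (p : Par Γ e u) (q : Par Γ e v) :
    Tp tm (star u) (star v) (star U) := fun x y => by
  refine d.ext fun a b => ?_
  rw [inner_star, h, d.inn, d.inn]
  simp only [inner_star, d.gd.par_app (d.gd.par_star p), d.gd.par_app (d.gd.par_star q),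
    inner_smul_right]
  linear_combination (-(inner ℂ (u a) (Γ x) * inner ℂ (v b) (Γ y)) / 2) * sg_sq e

/-- `a ↦ a ⊗ x + x ⊗ a` is injective -/
theorem sym_inj (h : Pv Γ e x) (h0 : x ≠ 0) {a : H} (ha : Pv Γ e a) (k : tm a x + tm x a = 0) :
    a = 0 := by
  have n : inner ℂ x x ≠ 0 := by rwa [Ne, inner_self_eq_zero]
  have p := congrArg (inner ℂ (tm x x)) k
  rw [inner_add_right, d.inn_l h h, d.inn_l h h, inner_zero_right] at p
  have p' : inner ℂ x a = 0 := by
    refine mul_left_cancel₀ (mul_ne_zero two_ne_zero n) ?_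
    linear_combination p
  have q := congrArg (inner ℂ (tm a x)) k
  rw [inner_add_right, d.inn_l ha h, d.inn_l ha h, inner_zero_right, p', mul_zero, add_zero] at q
  exact inner_self_eq_zero.1 ((mul_eq_zero.1 q).resolve_right n)

end Dbl

theorem Tp.mul (h : Tp tm u v U) (h' : Tp tm u' v' U') : Tp tm (u * u') (v * v') (U * U') :=
  fun x y => by simp only [ContinuousLinearMap.mul_apply, h' x y, h _ _]

theorem Tp.one : Tp tm 1 1 1 := fun _ _ => rfl

/-! ## lifts -/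

/-- `u` is an even unitary that fixes `Ω`, with tensor square `U` -/
structure Lf (Γ : H →L[ℂ] H) (tm : H → H → K) (Ω : H) (u : H →L[ℂ] H) (U : K →L[ℂ] K) :
    Prop where
  uni : u ∈ unitary (H →L[ℂ] H)
  ev : Γ * u = u * Γ
  vac : u Ω = Ω
  tp : Tp tm u u U

namespace Lf

theorem one : Lf Γ tm Ω 1 1 := ⟨one_mem _, by simp, rfl, .one⟩

theorem mul (h : Lf Γ tm Ω u U) (h' : Lf Γ tm Ω v U') : Lf Γ tm Ω (u * v) (U * U') :=
  ⟨mul_mem h.uni h'.uni, by rw [← mul_assoc, h.ev, mul_assoc, h'.ev, mul_assoc],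
    by rw [ContinuousLinearMap.mul_apply, h'.vac, h.vac], h.tp.mul h'.tp⟩

theorem cast (h : Lf Γ tm Ω u U) (e : U = U') : Lf Γ tm Ω u U' := e ▸ h

variable (d : Dbl Γ tm) (hΩ : Γ Ω = Ω) (n : ‖Ω‖ = 1)
include d hΩ n

theorem eq (h : Lf Γ tm Ω u U) (h' : Lf Γ tm Ω v U) : u = v ∨ u = Γ * v := by
  have k : ∀ e x' y', Pv Γ e x' → Pv Γ e y' → ∀ x y, inner ℂ x' (u x) * inner ℂ y' (u y) =
      inner ℂ x' (v x) * inner ℂ y' (v y) := fun e x' y' p q x y => by
    rw [← d.inn_l p q, ← d.inn_l p q, ← h.tp, ← h'.tp]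
  have ev : ∀ x', Pv Γ false x' → ∀ x, inner ℂ x' (u x) = inner ℂ x' (v x) := fun x' p x => by
    have := k false x' Ω p (by simpa [Pv] using hΩ) x Ω
    rwa [h.vac, h'.vac, inner_self_eq_norm_sq_to_K, n, RCLike.ofReal_one, one_pow, mul_one,
      mul_one] at this
  by_cases a : ∀ x', Pv Γ true x' → ∀ x, inner ℂ x' (u x) = inner ℂ x' (v x)
  · exact .inl (ContinuousLinearMap.ext fun x => d.gd.ext_pv fun e x' p => by
      cases e
      exacts [ev x' p x, a x' p x])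
  push Not at a
  obtain ⟨x0, p0, y0, a⟩ := a
  have b : inner ℂ x0 (u y0) = -inner ℂ x0 (v y0) :=
    (mul_self_eq_mul_self_iff.1 (k true x0 x0 p0 p0 y0 y0)).resolve_left a
  have b0 : inner ℂ x0 (v y0) ≠ 0 := fun z => a (by rw [b, z, neg_zero])
  refine .inr (ContinuousLinearMap.ext fun x => d.gd.ext_pv fun e x' p => ?_)
  rw [ContinuousLinearMap.mul_apply, d.gd.inn_pv p]
  cases e
  · rw [sg_false, one_mul, ev x' p x]
  · refine mul_left_cancel₀ b0 ?_
    have := k true x0 x' p0 p y0 x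
    rw [b] at this
    rw [sg_true]
    linear_combination -this

theorem sq (h : Lf Γ tm Ω u U) (h' : Lf Γ tm Ω v U) : u * u = v * v := by
  rcases eq d hΩ n h h' with e | e
  · rw [e]
  · rw [e, mul_assoc, ← mul_assoc v, ← h'.ev, mul_assoc, d.gd.gg']

theorem cnj {a b b' : H →L[ℂ] H} {A B B' : K →L[ℂ] K} (ha : Lf Γ tm Ω a A) (hb : Lf Γ tm Ω b B)
    (hb' : Lf Γ tm Ω b' B') (e : A * B = B' * A) : a * (b * b) = b' * b' * a := by
  rcases eq d hΩ n (ha.mul hb) ((hb'.mul ha).cast e.symm) with k | k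
  · rw [← mul_assoc, k, mul_assoc, k, mul_assoc]
  · rw [← mul_assoc, k, mul_assoc, mul_assoc, k, ← mul_assoc b', ← hb'.ev, mul_assoc, d.gd.gg',
      mul_assoc]

end Lf

/-! ## the modular group -/

theorem mod_hol (E : ModData M Ω) {X : H →L[ℂ] H} (hX : X ∈ M) : ∃ φ : ℂ → H,
    DifferentiableOn ℂ φ {z | -(1 / 2) < z.im ∧ z.im < 0} ∧
    ContinuousOn φ {z | -(1 / 2) ≤ z.im ∧ z.im ≤ 0} ∧ (∃ C, ∀ z, ‖φ z‖ ≤ C) ∧
    ∀ t : ℝ, φ t = E.U t (X Ω) ∧ φ (t - I / 2) = E.U t (E.J (star X Ω)) := by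
  have B : BStmt E := bblock E
  have h2 : ∀ h : ℝ, ((1 + Real.exp (h / 2) : ℝ) : ℂ) ≠ 0 := fun h =>
    Complex.ofReal_ne_zero.2 (by positivity)
  have hat : ∀ t h : ℝ, Real.exp (h / 2) * At (t : ℂ) h = (expB t - At (t : ℂ)) h := by
    intro t h
    have h1 := B.at_apply (t : ℂ) h (by norm_num) (by simp)
    rw [BoundedContinuousFunction.coe_sub, Pi.sub_apply, h1, Vale.Agent.P132.expB_apply]
    have := h2 h
    field_simp
    push_cast
    ring_nf
  have hat2 : ∀ t : ℝ, At ((t : ℂ) - I / 2) = expB t - At (t : ℂ) := by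
    intro t
    ext h
    rw [← hat, B.at_apply ((t : ℂ) - I / 2) h (by norm_num) (by norm_num),
      B.at_apply (t : ℂ) h (by norm_num) (by simp), mul_div_assoc', Complex.ofReal_exp,
      ← Complex.exp_add]
    congr 2
    push_cast
    ring_nf
    rw [Complex.I_sq]
    ring
  have hk : ∀ t : ℝ, E.Th (At (t : ℂ)) (E.J (star X Ω)) = E.Th (expB t - At (t : ℂ)) (X Ω) :=
    fun t => E.kms X hX _ _ fun h => (hat t h).symm
  refine ⟨fun z => E.Th (At z) (X Ω + E.J (star X Ω)), fun z hz => ?_, B.at_cont _,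
    ⟨‖X Ω + E.J (star X Ω)‖, fun z => ?_⟩, fun t => ⟨?_, ?_⟩⟩
  · exact (ContinuousLinearMap.apply ℂ H _).differentiableAt.comp_differentiableWithinAt z
      (B.at_diff z hz)
  · exact ((E.Th (At z)).le_of_opNorm_le ((E.norm_Th_le _).trans (B.at_norm z)) _).trans_eq
      (one_mul _)
  · show E.Th _ _ = _
    rw [map_add, hk t, ← ContinuousLinearMap.add_apply, ← map_add, add_sub_cancel]
    rfl
  · show E.Th _ _ = _
    rw [hat2 t, map_add, ← hk t, ← ContinuousLinearMap.add_apply, ← map_add, add_sub_cancel]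
    rfl

theorem mod_uni (E : ModData M Ω) (t : ℝ) : E.U t ∈ unitary (H →L[ℂ] H) :=
  ⟨by rw [E.star_U, E.U_neg_mul_U], by rw [E.star_U, E.U_mul_U_neg]⟩

/-- unitaries that fix the vector and normalize the algebra commute with the modular objects -/
theorem mod_nat (E : ModData M Ω) (hu : u ∈ unitary (H →L[ℂ] H)) (h0 : u Ω = Ω)
    (h1 : ∀ X ∈ M, u * X * star u ∈ M) (h2 : ∀ X ∈ M, star u * X * u ∈ M) :
    (∀ F z, u (E.Th F z) = E.Th F (u z)) ∧ ∀ z, u (E.J z) = E.J (u z) :=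
  T.n M Ω E (Unitary.linearIsometryEquiv ⟨u, hu⟩) h0
    (fun X hX => ⟨_, h1 X hX, fun z => congrArg (fun w => u (X w)) (DFunLike.congr_fun hu.1 z)⟩)
    fun X hX => ⟨_, h2 X hX, fun z => (DFunLike.congr_fun hu.2 _).symm⟩

/-- the algebra generated by a set -/
def gv (S : Set (K →L[ℂ] K)) : VonNeumannAlgebra K :=
  VonNeumannAlgebra.commutant
    { toStarSubalgebra := StarSubalgebra.centralizer ℂ S, centralizer_centralizer' := by simp }

theorem mem_gv {S : Set (K →L[ℂ] K)} (hS : ∀ y ∈ S, star y ∈ S) {X : K →L[ℂ] K} :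
    X ∈ (gv S).commutant ↔ ∀ y ∈ S, y * X = X * y := by
  rw [gv, VonNeumannAlgebra.commutant_commutant]
  exact (StarSubalgebra.mem_centralizer_iff ℂ).trans
    ⟨fun h y hy => (h y hy).1, fun h y hy => ⟨h y hy, h _ (hS y hy)⟩⟩

theorem sub_gv {S : Set (K →L[ℂ] K)} (hS : ∀ y ∈ S, star y ∈ S) : ∀ y ∈ S, y ∈ gv S :=
  fun y hy => mem_of_comm fun Z hZ v => (DFunLike.congr_fun ((mem_gv hS).1 hZ y hy) v).symm

theorem gv_le {S : Set (K →L[ℂ] K)} (hS : ∀ y ∈ S, star y ∈ S) {N : VonNeumannAlgebra K}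
    (h : ∀ y ∈ S, y ∈ N) : ∀ X ∈ gv S, X ∈ N := fun X hX =>
  mem_cc.1 (comm_anti (fun Z hZ => (mem_gv hS).2 fun y hy => comm_mul (h y hy) hZ) X (mem_cc.2 hX))

theorem gv_conj {S : Set (K →L[ℂ] K)} (hS : ∀ y ∈ S, star y ∈ S) (hU : U ∈ unitary (K →L[ℂ] K))
    (h : ∀ y ∈ S, U * y * star U ∈ S) : ∀ X ∈ gv S, U * X * star U ∈ gv S := fun X hX => by
  have := conj_comm (U := star U) (Unitary.star_mem hU) (M := (gv S).commutant)
    (M' := (gv S).commutant) (fun Z hZ => (mem_gv hS).2 fun y hy => ?_) (mem_cc.2 hX)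
  · rwa [star_star, mem_cc] at this
  have e := congrArg (fun A => star U * A * U) ((mem_gv hS).1 hZ _ (h y hy))
  simp only [← mul_assoc, hU.1, one_mul] at e
  simpa only [mul_assoc, hU.1, mul_one, star_star] using e

/-- the tensor products of pairs of the same parity -/
def Ts (Γ : H →L[ℂ] H) (tm : H → H → K) (M : VonNeumannAlgebra H) : Set (K →L[ℂ] K) :=
  {z | ∃ e x y, x ∈ M ∧ y ∈ M ∧ Par Γ e x ∧ Par Γ e y ∧ Tp tm x y z}

namespace Dbl

variable (d : Dbl Γ tm)
include d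

theorem ts_star : ∀ z ∈ Ts Γ tm M, star z ∈ Ts Γ tm M := by
  rintro z ⟨e, x, y, a, b, p, q, h⟩
  exact ⟨e, _, _, star_mem a, star_mem b, d.gd.par_star p, d.gd.par_star q, d.tp_star h p q⟩

theorem ts_comm : ∀ z ∈ Ts Γ tm M, ∀ w ∈ Ts Γ tm M.commutant, z * w = w * z := by
  rintro z ⟨e, x, y, a, b, -, -, h⟩ w ⟨e', x', y', a', b', -, -, h'⟩
  exact d.tp_eq (h.mul h') (comm_mul a a' ▸ comm_mul b b' ▸ h'.mul h)

theorem ts_conj (h : Lf Γ tm Ω u U) (k : ∀ X ∈ M, u * X * star u ∈ M) :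
    ∀ z ∈ Ts Γ tm M, U * z * star U ∈ Ts Γ tm M := by
  rintro z ⟨e, x, y, a, b, p, q, t⟩
  have ev := d.gd.par_ev.2 h.ev
  have s := d.gd.par_ev.1 (d.gd.par_star ev)
  have pa : ∀ x, Par Γ e x → Par Γ e (u * x * star u) := fun x p => by
    rw [Par, ← mul_assoc, ← mul_assoc, h.ev, mul_assoc, ← s, ← mul_assoc, mul_assoc u,
      mul_assoc u, p, mul_smul_comm, smul_mul_assoc]
  exact ⟨e, _, _, k x a, k y b, pa x p, pa y q, (h.tp.mul t).mul (d.tp_star h.tp ev ev)⟩

theorem ts_total (hΩ : Γ Ω = Ω) (hg : ∀ X ∈ M, Γ * X * Γ ∈ M)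
    (hc : Dense {z | ∃ a ∈ M, a Ω = z}) (S : Submodule ℂ K)
    (h : ∀ z ∈ Ts Γ tm M, z (tm Ω Ω) ∈ S) : Dense (S : Set K) := by
  refine d.dense_of hc S ?_
  rintro _ ⟨a, ha, rfl⟩ _ ⟨b, hb, rfl⟩
  have k : ∀ e, tm (pp Γ e (a Ω)) (pp Γ e (b Ω)) ∈ S := fun e => by
    obtain ⟨z, hz⟩ := d.mp e _ _ (d.gd.par_po e a) (d.gd.par_po e b)
    rw [← po_vac hΩ, ← po_vac hΩ, ← hz]
    exact h z ⟨e, _, _, po_mem ha (hg a ha) e, po_mem hb (hg b hb) e, d.gd.par_po e a,
      d.gd.par_po e b, hz⟩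
  rw [d.split]
  exact add_mem (k _) (k _)

theorem ts_cyc (hΩ : Γ Ω = Ω) (hg : ∀ X ∈ M, Γ * X * Γ ∈ M)
    (hc : Dense {z | ∃ a ∈ M, a Ω = z}) :
    Dense {z | ∃ a ∈ gv (Ts Γ tm M), a (tm Ω Ω) = z} :=
  d.ts_total hΩ hg hc ((Subalgebra.toSubmodule (gv (Ts Γ tm M)).toSubalgebra).map
    (ContinuousLinearMap.apply ℂ K (tm Ω Ω)).toLinearMap)
    fun z hz => ⟨z, sub_gv d.ts_star z hz, rfl⟩

/-- **The modular group of the double is the tensor square of the modular group.** -/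
theorem mod (hΩ : Γ Ω = Ω) (hg : ∀ X ∈ M, Γ * X * Γ ∈ M) (E : ModData M Ω)
    {N : VonNeumannAlgebra K} (E2 : ModData N (tm Ω Ω)) (h1 : ∀ z ∈ Ts Γ tm M, z ∈ N)
    (h2 : ∀ z ∈ Ts Γ tm M.commutant, z ∈ N.commutant) (t : ℝ) :
    Lf Γ tm Ω (E.U t) (E2.U t) := by
  have g := mod_nat E d.gd.uni hΩ (by simpa only [d.gs] using hg) (by simpa only [d.gs] using hg)
  have ev : ∀ t, Γ * E.U t = E.U t * Γ := fun t => ContinuousLinearMap.ext (g.1 _)
  choose W hW using fun t => d.mp false _ _ (d.gd.par_ev.2 (ev t)) (d.gd.par_ev.2 (ev t))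
  have lf : ∀ t, Lf Γ tm Ω (E.U t) (W t) := fun t => ⟨mod_uni E t, ev t, E.U_xi t, hW t⟩
  have add : ∀ s t, W (s + t) = W s * W t := fun s t =>
    d.tp_eq (hW _) (E.U_add s t ▸ (hW s).mul (hW t))
  have w0 : W 0 = 1 := d.tp_eq (hW 0) (E.U_zero ▸ Tp.one)
  have st : ∀ t, star (W t) = W (-t) := fun t =>
    d.tp_eq (d.tp_star (hW t) (d.gd.par_ev.2 (ev t)) (d.gd.par_ev.2 (ev t))) (E.star_U t ▸ hW _)
  have uni : ∀ t, W t ∈ unitary (K →L[ℂ] K) := fun t =>
    ⟨by rw [st, ← add, neg_add_cancel, w0], by rw [st, ← add, add_neg_cancel, w0]⟩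
  have hg' : ∀ X ∈ M.commutant, Γ * X * Γ ∈ M.commutant := fun X => d.gd.gam_comm hg
  have c1 := d.ts_cyc hΩ hg E.cyc
  have c2 := d.ts_cyc hΩ hg' E.cyc'
  have le : ∀ X ∈ gv (Ts Γ tm M.commutant), X ∈ (gv (Ts Γ tm M)).commutant :=
    gv_le d.ts_star fun w hw => (mem_gv d.ts_star).2 fun z hz => d.ts_comm z hz w hw
  obtain ⟨E1⟩ := P132.exists_modData (gv (Ts Γ tm M)) (tm Ω Ω) E2.norm_xi c1 fun a ha h0 => by
    ext z
    refine c2.induction (P := fun z => a z = 0) ?_ (isClosed_eq a.continuous continuous_const) z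
    rintro _ ⟨Y, hY, rfl⟩
    rw [comm_apply ha (le Y hY), h0, map_zero]
  have i1 : ∀ t, ∀ X ∈ gv (Ts Γ tm M), W t * X * star (W t) ∈ gv (Ts Γ tm M) := fun t =>
    gv_conj d.ts_star (uni t) (d.ts_conj (lf t) fun X hX => E.star_U t ▸ E.sg_mem hX t)
  have i2 : ∀ t, ∀ X ∈ gv (Ts Γ tm M.commutant), W t * X * star (W t) ∈ gv (Ts Γ tm M.commutant) :=
    fun t => gv_conj d.ts_star (uni t)
      (d.ts_conj (lf t) fun X hX => E.star_U t ▸ E.sg_mem_commutant hX t)
  have key : ∀ t z, W t z = E1.U t z := by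
    choose e x y hx hy px py hz using fun z : Ts Γ tm M => z.2
    refine H49.main (ι := Ts Γ tm M) E1 (fun t => inner_unitary (uni t))
      (fun s t z => by rw [add]; rfl) (fun t => (mod_nat E1 (uni t) ?_ (i1 t) ?_).1)
      (fun z => E1.J (star z.1 (tm Ω Ω))) (fun z => z.1 (tm Ω Ω))
      (fun z => tm (E.J (star (x z) Ω)) (E.J (star (y z) Ω)))
      (fun z => E1.kms _ (sub_gv d.ts_star _ z.2)) (fun z => ?_) (fun z w => ?_) ?_
    · rw [hW, E.U_xi]
    · simpa only [st, neg_neg] using i1 (-t)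
    · obtain ⟨φ, a1, a2, ⟨C, a3⟩, a4⟩ := mod_hol E (hx z)
      obtain ⟨ψ, b1, b2, ⟨C', b3⟩, b4⟩ := mod_hol E (hy z)
      refine ⟨fun w => tm (φ w) (ψ w), 1 * C * C', fun v => ?_, fun v => ?_, fun w _ _ => ?_,
        fun t => ⟨?_, ?_⟩⟩
      · exact (innerSL ℂ v).differentiable.comp_differentiableOn
          ((d.L.differentiable.comp_differentiableOn a1).clm_apply b1)
      · exact (innerSL ℂ v).continuous.comp_continuousOn
          (d.cont.comp_continuousOn (a2.prodMk b2))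
      · exact (d.nrm _ _).trans (by
          have := (norm_nonneg _).trans (a3 w)
          gcongr
          exacts [a3 w, b3 w])
      · rw [hz, hW, ← (a4 t).1, ← (b4 t).1]
      · rw [hW, ← (a4 t).2, ← (b4 t).2]
    · rw [E1.inner_J_J, d.tp_star (hz z) (px z) (py z), d.tp_star (hz w) (px w) (py w), d.inn,
        d.inn, g.2, g.2, E.inner_J_J, E.inner_J_J, E.inner_J_J, E.inner_J_J, d.gd.gi, d.gd.gi]
    · have := d.ts_total hΩ hg E.cyc (Submodule.span ℂ (Set.range fun z : Ts Γ tm M =>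
        star z.1 (tm Ω Ω))) fun z hz =>
          Submodule.subset_span ⟨⟨star z, d.ts_star z hz⟩, by simp only [star_star]⟩
      refine (E1.J.surjective.denseRange.dense_image E1.J.continuous this).mono ?_
      rintro _ ⟨a, ha, rfl⟩
      induction ha using Submodule.span_induction with
      | mem _ k => obtain ⟨z, rfl⟩ := k; exact Submodule.subset_span ⟨z, rfl⟩
      | zero => simp
      | add _ _ _ _ p q => rw [map_add]; exact add_mem p q
      | smul z _ _ p => rw [map_smulₛₗ]; exact Submodule.smul_mem _ _ p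
  have eq : ∀ t, E1.U t = W t := fun t => (ContinuousLinearMap.ext (key t)).symm
  have ge := (tk _ _ _ E1 (fun t X hX => by
    rw [ModData.sg, eq, eq, ← st]
    exact i2 t X hX) c2).2 le
  have l1 := gv_le d.ts_star h1
  have l2 : ∀ X ∈ N, X ∈ gv (Ts Γ tm M) := fun X hX => mem_cc.1
    (comm_anti (fun Z hZ => gv_le d.ts_star h2 Z (ge Z hZ)) X (mem_cc.2 hX))
  exact (lf t).cast (ContinuousLinearMap.ext fun z => (key t z).trans
    (eblock _ _ _ E1 E2 (LinearIsometryEquiv.refl ℂ K) rfl (fun X hX => ⟨X, l1 X hX, fun _ => rfl⟩)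
      (fun X hX => ⟨X, l2 X hX, fun _ => rfl⟩) t z))

end Dbl

end

end Vale.Agent.N352.G
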