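import Vale.Agent.P352X.R.WK.Ker

/-!
# N352: the kernel theorem in `n` variables
-/

set_option linter.all false

noncomputable section

open Filter Topology Metric MeasureTheory Set
open scoped SchwartzMap ContDiff ENNReal

namespace Vale.Agent.N352.Kn

open Vale.Agent.P352X
open Vale.Agent.P352X.ST (tens tsl)
open Vale.Agent.P352X.Api4 (tenE tenE')

universe u v

variable {E E' E'' X : Type*} [NormedAddCommGroup E] [NormedSpace ℝ E] [NormedAddCommGroup E']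
  [NormedSpace ℝ E'] [NormedAddCommGroup E''] [NormedSpace ℝ E''] [NormedAddCommGroup X]
  [NormedSpace ℝ X]

/-- Substitution of a linear isomorphism. -/
abbrev cp (e : E ≃L[ℝ] E') : 𝓢(E', ℂ) →L[ℂ] 𝓢(E, ℂ) :=
  SchwartzMap.compCLMOfContinuousLinearEquiv ℂ e

lemma cp_apply (e : E ≃L[ℝ] E') (F : 𝓢(E', ℂ)) (z : E) : cp e F z = F (e z) := rfl

lemma cp_symm (e : E ≃L[ℝ] E') (F : 𝓢(E, ℂ)) : cp e (cp e.symm F) = F :=
  SchwartzMap.ext fun z => by rw [cp_apply, cp_apply, e.symm_apply_apply]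

lemma symm_cp (e : E ≃L[ℝ] E') (F : 𝓢(E', ℂ)) : cp e.symm (cp e F) = F :=
  SchwartzMap.ext fun z => by rw [cp_apply, cp_apply, e.apply_symm_apply]

lemma tenE_eq (e : E'' ≃L[ℝ] E × E') (f : 𝓢(E, ℂ)) (g : 𝓢(E', ℂ)) :
    tenE e f g = cp e (tens f g) := rfl

lemma tsupport_cp (e : E ≃L[ℝ] E') (F : 𝓢(E', ℂ)) : tsupport (cp e F) = e ⁻¹' tsupport F := by
  have : (cp e F : E → ℂ) = F ∘ e.toHomeomorph := rfl
  rw [this, tsupport_comp_eq_preimage]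
  rfl

lemma compact_cp (e : E ≃L[ℝ] E') {F : 𝓢(E', ℂ)} (h : HasCompactSupport F) :
    HasCompactSupport (cp e F) := h.comp_homeomorph e.toHomeomorph

lemma compact_tens {f : 𝓢(E, ℂ)} {g : 𝓢(E', ℂ)} (hf : HasCompactSupport f)
    (hg : HasCompactSupport g) : HasCompactSupport (tens f g) :=
  (hf.isCompact.prod hg.isCompact).of_isClosed_subset (isClosed_tsupport _) (ST.tsupport_tens f g)

lemma compact_tenE (e : E'' ≃L[ℝ] E × E') {f : 𝓢(E, ℂ)} {g : 𝓢(E', ℂ)} (hf : HasCompactSupport f)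
    (hg : HasCompactSupport g) : HasCompactSupport (tenE e f g) :=
  compact_cp e (compact_tens hf hg)

section ext

variable [FiniteDimensional ℝ E] [FiniteDimensional ℝ E'] {G : Type*} [NormedAddCommGroup G]
  [NormedSpace ℂ G] [CompleteSpace G]

theorem kerE (e : E'' ≃L[ℝ] E × E') (Λ : 𝓢(E'', ℂ) →L[ℂ] G) {U : Set (E × E')} (hU : IsOpen U)
    (h0 : ∀ (f : 𝓢(E, ℂ)) (g : 𝓢(E', ℂ)), HasCompactSupport f → HasCompactSupport g →
      tsupport f ×ˢ tsupport g ⊆ U → Λ (tenE e f g) = 0)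
    (h : 𝓢(E'', ℂ)) (hh : tsupport h ⊆ e ⁻¹' U) : Λ h = 0 := by
  rw [← cp_symm e h]
  refine ST.ker2 (Λ ∘L cp e) hU h0 _ ?_
  rw [tsupport_cp]
  intro z hz
  simpa using hh hz

theorem extE (e : E'' ≃L[ℝ] E × E') {Λ Λ' : 𝓢(E'', ℂ) →L[ℂ] G}
    (h0 : ∀ (f : 𝓢(E, ℂ)) (g : 𝓢(E', ℂ)), HasCompactSupport f → HasCompactSupport g →
      Λ (tenE e f g) = Λ' (tenE e f g)) : Λ = Λ' := by
  ext h
  refine sub_eq_zero.1 (kerE e (Λ - Λ') isOpen_univ (fun f g hf hg _ => ?_) h (subset_univ _))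
  simp [h0 f g hf hg]

/-- The kernel theorem for families, with uniform bounds. -/
theorem kernelFam {J : Type*} (e : E'' ≃L[ℝ] E × E')
    (B : J → 𝓢(E, ℂ) →ₗ[ℂ] 𝓢(E', ℂ) →ₗ[ℂ] G) {C : ℝ} {m : ℕ} (hC : 0 ≤ C)
    (h : ∀ j f g, ‖B j f g‖ ≤ C * ST.sn E ℂ m f * ST.sn E' ℂ m g) :
    ∃ W : J → 𝓢(E'', ℂ) →L[ℂ] G, (∀ j f g, W j (tenE e f g) = B j f g) ∧
      ∃ (C' : ℝ) (N : ℕ), 0 ≤ C' ∧ ∀ j F, ‖W j F‖ ≤ C' * ST.sn E'' ℂ N F := by
  let b : 𝓢(E, ℂ) → 𝓢(E', ℂ) → lp (fun _ : J => G) ∞ := fun f g =>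
    ⟨fun j => B j f g, memℓp_infty ⟨_, by rintro _ ⟨j, rfl⟩; exact h j f g⟩⟩
  have hb : ∀ f g j, b f g j = B j f g := fun _ _ _ => rfl
  obtain ⟨W, hW⟩ := Wk.kernel (H := lp (fun _ : J => G) ∞) (LinearMap.mk₂ ℂ b
    (fun f f' g => lp.ext (funext fun j => by simp [hb]))
    (fun c f g => lp.ext (funext fun j => by simp [hb]))
    (fun f g g' => lp.ext (funext fun j => by simp [hb]))
    (fun c f g => lp.ext (funext fun j => by simp [hb]))) (C := C) (m := m) fun f g => by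
      simp only [Api4.sn_eq]
      exact lp.norm_le_of_forall_le (by positivity) fun j => h j f g
  obtain ⟨C', N, hC', h'⟩ := ST.clm_sn_c (W ∘L cp e.symm)
  refine ⟨fun j => lp.evalCLM ℂ (fun _ : J => G) ∞ j ∘L W ∘L cp e.symm, fun j f g => ?_,
    C', N, hC', fun j F => ?_⟩
  · simp only [ContinuousLinearMap.comp_apply, tenE_eq, symm_cp, hW]
    rfl
  · exact (lp.norm_apply_le_norm ENNReal.top_ne_zero _ j).trans (h' F)

theorem kernelE (e : E'' ≃L[ℝ] E × E') (B : 𝓢(E, ℂ) →ₗ[ℂ] 𝓢(E', ℂ) →ₗ[ℂ] G) {C : ℝ} {m : ℕ}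
    (h : ∀ f g, ‖B f g‖ ≤ C * ST.sn E ℂ m f * ST.sn E' ℂ m g) :
    ∃ W : 𝓢(E'', ℂ) →L[ℂ] G, ∀ f g, W (tenE e f g) = B f g := by
  obtain ⟨W, hW⟩ := Wk.kernel B (C := C) (m := m) (by simpa only [Api4.sn_eq] using h)
  exact ⟨W ∘L cp e.symm, fun f g => by
    simp only [ContinuousLinearMap.comp_apply, tenE_eq, symm_cp, hW]⟩

end ext

variable (X) in
/-- Splitting off the first variable. -/
def ce (n : ℕ) : (Fin (n + 1) → X) ≃L[ℝ] X × (Fin n → X) :=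
  (Fin.consEquivL ℝ (fun _ : Fin (n + 1) => X)).symm

@[simp] lemma ce_apply {n : ℕ} (x : Fin (n + 1) → X) : ce X n x = (x 0, Fin.tail x) := rfl

@[simp] lemma ce_symm {n : ℕ} (z : X × (Fin n → X)) : (ce X n).symm z = Fin.cons z.1 z.2 := rfl

/-- `F ↦ f (x 0) F (x 1, ...)` -/
def cons {n : ℕ} (f : 𝓢(X, ℂ)) : 𝓢(Fin n → X, ℂ) →L[ℂ] 𝓢(Fin (n + 1) → X, ℂ) := tenE (ce X n) f

/-- `f ↦ f (x 0) F (x 1, ...)` -/
def cons' {n : ℕ} (F : 𝓢(Fin n → X, ℂ)) : 𝓢(X, ℂ) →L[ℂ] 𝓢(Fin (n + 1) → X, ℂ) :=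
  tenE' (ce X n) F

@[simp] lemma cons_apply {n : ℕ} (f : 𝓢(X, ℂ)) (F : 𝓢(Fin n → X, ℂ)) (x : Fin (n + 1) → X) :
    cons f F x = f (x 0) * F (Fin.tail x) := rfl

@[simp] lemma cons'_eq {n : ℕ} (f : 𝓢(X, ℂ)) (F : 𝓢(Fin n → X, ℂ)) : cons' F f = cons f F := rfl

variable (X) in
/-- The constant function in no variables. -/
def nil : 𝓢(Fin 0 → X, ℂ) :=
  ST.mkS (fun _ => 1) fun k n => ⟨_, 1, ST.Bd.const 1 n, fun z => by
    rw [Subsingleton.elim z 0, norm_zero, norm_one, mul_one]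
    exact pow_le_one₀ le_rfl zero_le_one⟩

@[simp] lemma nil_apply (x : Fin 0 → X) : nil X x = 1 := rfl

lemma eq_nil (F : 𝓢(Fin 0 → X, ℂ)) : F = F 0 • nil X :=
  SchwartzMap.ext fun z => by simp [Subsingleton.elim z 0]

/-- Products `f 0 (x 0) ... f (n-1) (x (n-1))`. -/
def pt : {n : ℕ} → (Fin n → 𝓢(X, ℂ)) → 𝓢(Fin n → X, ℂ)
  | 0, _ => nil X
  | _ + 1, f => cons (f 0) (pt (Fin.tail f))

@[simp] lemma pt_zero (f : Fin 0 → 𝓢(X, ℂ)) : pt f = nil X := rfl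

lemma pt_succ {n : ℕ} (f : Fin (n + 1) → 𝓢(X, ℂ)) : pt f = cons (f 0) (pt (Fin.tail f)) := rfl

@[simp] lemma pt_cons {n : ℕ} (g : 𝓢(X, ℂ)) (f : Fin n → 𝓢(X, ℂ)) :
    pt (Fin.cons g f : Fin (n + 1) → 𝓢(X, ℂ)) = cons g (pt f) := rfl

lemma pt_apply : ∀ {n : ℕ} (f : Fin n → 𝓢(X, ℂ)) (x : Fin n → X), pt f x = ∏ i, f i (x i)
  | 0, _, _ => by simp
  | _ + 1, f, x => by
    rw [pt_succ, cons_apply, pt_apply, Fin.prod_univ_succ]
    rfl

lemma compact_pt : ∀ {n : ℕ} {f : Fin n → 𝓢(X, ℂ)}, (∀ i, HasCompactSupport (f i)) →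
    HasCompactSupport (pt f)
  | 0, _, _ => (Set.toFinite _).isCompact
  | _ + 1, _, h => compact_tenE _ (h 0) (compact_pt fun i => h i.succ)

section extn

variable [FiniteDimensional ℝ X] {G : Type u} [NormedAddCommGroup G] [NormedSpace ℂ G]
  [CompleteSpace G]

theorem ext_cons {n : ℕ} {Λ Λ' : 𝓢(Fin (n + 1) → X, ℂ) →L[ℂ] G}
    (h0 : ∀ (f : 𝓢(X, ℂ)) (F : 𝓢(Fin n → X, ℂ)), HasCompactSupport f → HasCompactSupport F →
      Λ (cons f F) = Λ' (cons f F)) : Λ = Λ' := extE (ce X n) h0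

/-- Distributions that agree on products of functions with compact support agree. -/
theorem ext_pt' : ∀ {n : ℕ} {Λ Λ' : 𝓢(Fin n → X, ℂ) →L[ℂ] G},
    (∀ f : Fin n → 𝓢(X, ℂ), (∀ i, HasCompactSupport (f i)) → Λ (pt f) = Λ' (pt f)) → Λ = Λ'
  | 0, Λ, Λ', h => by
    ext F
    rw [eq_nil F, map_smul, map_smul]
    exact congrArg _ (h Fin.elim0 fun i => i.elim0)
  | n + 1, Λ, Λ', h => ext_cons fun f F hf _ => by
    have : Λ ∘L cons f = Λ' ∘L cons f := ext_pt' fun g hg =>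
      h (Fin.cons f g) (Fin.cases hf hg)
    exact congrArg (fun T : 𝓢(Fin n → X, ℂ) →L[ℂ] G => T F) this

theorem ext_pt {n : ℕ} {Λ Λ' : 𝓢(Fin n → X, ℂ) →L[ℂ] G}
    (h : ∀ f : Fin n → 𝓢(X, ℂ), Λ (pt f) = Λ' (pt f)) : Λ = Λ' := ext_pt' fun f _ => h f

theorem eq_pt {n : ℕ} (Λ Λ' : 𝓢(Fin n → X, ℂ) →L[ℂ] G)
    (h : ∀ f : Fin n → 𝓢(X, ℂ), Λ (pt f) = Λ' (pt f)) (F : 𝓢(Fin n → X, ℂ)) : Λ F = Λ' F := by
  rw [ext_pt h]

end extn

section kern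

variable {Y : Type v} [NormedAddCommGroup Y] [NormedSpace ℝ Y] [FiniteDimensional ℝ Y] {G : Type u}
  [NormedAddCommGroup G] [NormedSpace ℂ G] [CompleteSpace G]

/-- The kernel theorem in `n` variables, for families. -/
theorem kernelNF : ∀ (n : ℕ) {J : Type v} (B : J → MultilinearMap ℂ (fun _ : Fin n => 𝓢(Y, ℂ)) G)
    {C : ℝ} {m : ℕ}, 0 ≤ C → (∀ j f, ‖B j f‖ ≤ C * ∏ i, ST.sn Y ℂ m (f i)) →
    ∃ W : J → 𝓢(Fin n → Y, ℂ) →L[ℂ] G, (∀ j f, W j (pt f) = B j f) ∧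
      ∃ (C' : ℝ) (N : ℕ), 0 ≤ C' ∧ ∀ j F, ‖W j F‖ ≤ C' * ST.sn (Fin n → Y) ℂ N F
  | 0, J, B, C, m, hC, h => by
    let ev : 𝓢(Fin 0 → Y, ℂ) →L[ℂ] ℂ := BoundedContinuousFunction.evalCLM ℂ 0 ∘L
      SchwartzMap.toBoundedContinuousFunctionCLM ℂ (Fin 0 → Y) ℂ
    obtain ⟨C', N, hC', h'⟩ := ST.clm_sn_c ev
    refine ⟨fun j => ev.smulRight (B j Fin.elim0), fun j f => ?_, C * C', N, by positivity,
      fun j F => ?_⟩
    · rw [ContinuousLinearMap.smulRight_apply, show ev (pt f) = 1 from rfl, one_smul,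
        Subsingleton.elim f Fin.elim0]
    · rw [ContinuousLinearMap.smulRight_apply, norm_smul, mul_comm, mul_assoc]
      exact mul_le_mul (by simpa using h j Fin.elim0) (h' F) (norm_nonneg _) hC
  | n + 1, J, B, C, m, hC, h => by
    have hb : ∀ j g f, ‖(B j).curryLeft g f‖ ≤
        ST.sn Y ℂ m g * (C * ∏ i, ST.sn Y ℂ m (f i)) := fun j g f => by
      refine (h j _).trans (le_of_eq ?_)
      rw [Fin.prod_univ_succ, mul_left_comm]
      rfl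
    obtain ⟨W, hW, C', N, hC', hN⟩ := kernelNF n (J := J × 𝓢(Y, ℂ))
      (fun p => ((ST.sn Y ℂ m p.2 : ℂ)⁻¹) • (B p.1).curryLeft p.2) (C := C) (m := m) hC
      fun p f => by
        rw [MultilinearMap.smul_apply, norm_smul, norm_inv, Complex.norm_real,
          Real.norm_of_nonneg (apply_nonneg _ _)]
        refine inv_mul_le_of_le_mul₀ (apply_nonneg _ _) ?_ (hb _ _ _)
        exact mul_nonneg hC (Finset.prod_nonneg fun _ _ => apply_nonneg _ _)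
    set T : J → 𝓢(Y, ℂ) → 𝓢(Fin n → Y, ℂ) →L[ℂ] G :=
      fun j g => (ST.sn Y ℂ m g : ℂ) • W (j, g) with hT
    have hT1 : ∀ j g f, T j g (pt f) = (B j).curryLeft g f := fun j g f => by
      simp only [hT, ContinuousLinearMap.smul_apply, hW, MultilinearMap.smul_apply, smul_smul]
      by_cases h0 : ST.sn Y ℂ m g = 0
      · have := hb j g f
        rw [h0, zero_mul, norm_le_zero_iff] at this
        rw [this, smul_zero]
      · rw [mul_inv_cancel₀ (by exact_mod_cast h0), one_smul]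
    have hadd : ∀ j g g', T j (g + g') = T j g + T j g' := fun j g g' => ext_pt fun f => by
      simp only [ContinuousLinearMap.add_apply, hT1, map_add, MultilinearMap.add_apply]
    have hsm : ∀ j (c : ℂ) g, T j (c • g) = c • T j g := fun j c g => ext_pt fun f => by
      simp only [ContinuousLinearMap.smul_apply, hT1, map_smul, MultilinearMap.smul_apply]
    obtain ⟨W', hW', r⟩ := kernelFam (ce Y n) (fun j => LinearMap.mk₂ ℂ (fun g F => T j g F)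
      (fun g g' F => by rw [hadd]; rfl) (fun c g F => by rw [hsm]; rfl)
      (fun g F F' => map_add _ _ _) (fun c g F => map_smul _ _ _)) (C := C') (m := max m N) hC'
      fun j g F => by
        simp only [LinearMap.mk₂_apply, hT, ContinuousLinearMap.smul_apply, norm_smul,
          Complex.norm_real, Real.norm_of_nonneg (apply_nonneg _ _)]
        calc _ ≤ ST.sn Y ℂ (max m N) g * (C' * ST.sn _ ℂ (max m N) F) :=
              mul_le_mul (ST.sn_mono (le_max_left _ _) g) ((hN _ F).trans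
                (mul_le_mul_of_nonneg_left (ST.sn_mono (le_max_right _ _) F) hC'))
                (norm_nonneg _) (apply_nonneg _ _)
          _ = _ := by ring
    refine ⟨W', fun j f => (hW' j (f 0) (pt (Fin.tail f))).trans ?_, r⟩
    rw [LinearMap.mk₂_apply, hT1, MultilinearMap.curryLeft_apply, Fin.cons_self_tail]

/-- **The kernel theorem in `n` variables.** -/
theorem kernelN {n : ℕ} (B : MultilinearMap ℂ (fun _ : Fin n => 𝓢(Y, ℂ)) G) {C : ℝ} {m : ℕ}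
    (hC : 0 ≤ C) (h : ∀ f, ‖B f‖ ≤ C * ∏ i, ST.sn Y ℂ m (f i)) :
    ∃ W : 𝓢(Fin n → Y, ℂ) →L[ℂ] G, ∀ f, W (pt f) = B f :=
  have ⟨W, hW, _⟩ := kernelNF n (J := PUnit) (fun _ => B) hC fun _ => h
  ⟨W ⟨⟩, hW ⟨⟩⟩

end kern


end Vale.Agent.N352.Kn
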