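import Vale.Agent.P352X.Api1C

/-!
# N352: the potential is local relative to the dual net. Vocabulary and rows
(see notes/P352/helper54.md)
-/

set_option linter.all false

open MeasureTheory Filter Topology
open scoped ComplexConjugate ContDiff

namespace Vale.Agent.N352.Nt

open Vale.Agent.P352 Vale.Agent.P352.GF Vale.Agent.P352.BW Vale.Agent.P352.H246
open Vale.Agent.P352.H496 Vale.Agent.P352.H755 Vale.Agent.P352.H15 Vale.Agent.P352X
open Vale.Agent.P132 (jconj)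
open UniformSpace (Completion)
open Complex (I)

noncomputable section

/-- the null vectors `a(w)` -/
def aw (w : R2) : V := pt 1 (d2 w w / 2) w

/-- the point map of `G^b_w` -/
def gw (w : R2) (z : V) : V :=
  pt (al z) (be z + d2 w (tx z) + d2 w w * al z / 2) (tx z + al z • w)

/-- the chart of the group generated by the boosts, the null rotations that fix `b` and the
translations -/
abbrev G7 := ℝ × R2 × V

variable {D : Type*} [NormedAddCommGroup D] [InnerProductSpace ℂ D] (c : Ctx D)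

/-- null rotations `G^b_w` that fix `b` -/
def Gw (w : R2) : Completion D →L[ℂ] Completion D :=
  Ug c.Q 1 (H746.nrt vb (tv ((1 / 2 : ℝ) • w))) 0

/-- the solvable group -/
def g7 (q : G7) : Completion D →L[ℂ] Completion D := Bo c.Q q.1 * Gw c q.2.1 * Ut c.Q q.2.2

/-- smooth operators -/
def Sm (X : Completion D →L[ℂ] Completion D) : Prop :=
  ContDiff ℝ ∞ fun q : G7 => g7 c q * X * star (g7 c q)

/-- the special conformal group of direction `a(w)` and centre `y` -/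
def Kf (w : R2) (y : V) (t : ℝ) : Completion D →L[ℂ] Completion D :=
  Ut c.Q y * Gw c w * c.SK t * star (Ut c.Q y * Gw c w)

/-- the net is its own dual net -/
def Du : Prop := ∀ O X, (∀ a b y, IsNull a → IsNull b → 0 < mdot a b → O ⊆ Wdg a b y →
  X ∈ c.N (Wdg a b y)) → X ∈ c.N O

/-- `K` is a compact set in a wedge, and `U` lies in the opposite wedge -/
def Op (U K : Set V) : Prop := IsCompact K ∧ ∃ a b y, IsNull a ∧ IsNull b ∧ 0 < mdot a b ∧
  U ⊆ Wdg a b y ∧ K ⊆ Wdg b a y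

/-- products of smooth operators that are localized in compact subsets of `M` opposite to `U` -/
inductive Pd (U M : Set V) : (Completion D →L[ℂ] Completion D) → Prop
  | one : Pd U M 1
  | mul (K : Set V) (Y Z : Completion D →L[ℂ] Completion D) : Op U K → K ⊆ M → Y ∈ c.N K →
      Sm c Y → Pd U M Z → Pd U M (Y * Z)

/-- row GW: the group relations -/
structure GW : Prop where
  lor : ∀ w : R2, IsLor (H746.nrt vb (tv ((1 / 2 : ℝ) • w))) ∧
    ∀ z, sim 1 (H746.nrt vb (tv ((1 / 2 : ℝ) • w))) 0 z = gw w z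
  zero : Gw c 0 = 1
  add : ∀ v w, Gw c (v + w) = Gw c v * Gw c w
  star : ∀ w, star (Gw c w) = Gw c (-w)
  gb : ∀ s, Gb c.Q s = Gw c (s • e2 0)
  ut : ∀ w y, Gw c w * Ut c.Q y = Ut c.Q (gw w y) * Gw c w
  sc : ∀ r s w, 0 < r → 0 < s →
    Usc c.Q r s * Gw c w = Gw c (Real.sqrt (s / r) • w) * Usc c.Q r s
  J : ∀ w z, c.J (Gw c w z) = Gw c (-w) (c.J z)
  mem : ∀ w O O' X, X ∈ c.N O → (∀ z ∈ O, gw w z ∈ O') → Gw c w * X * Gw c (-w) ∈ c.N O'
  ug : ∀ w y, UG (Kf c w y)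
  vac : ∀ w y t, Kf c w y t c.Om = c.Om

/-- row SMO: smooth operators -/
structure SMO : Prop where
  one : Sm c 1
  add : ∀ X Y, Sm c X → Sm c Y → Sm c (X + Y)
  smul : ∀ (z : ℂ) X, Sm c X → Sm c (z • X)
  mul : ∀ X Y, Sm c X → Sm c Y → Sm c (X * Y)
  star : ∀ X, Sm c X → Sm c (star X)
  gw : ∀ w X, Sm c X → Sm c (Gw c w * X * Gw c (-w))
  ut : ∀ y X, Sm c X → Sm c (Ut c.Q y * X * Ut c.Q (-y))
  J : ∀ X, Sm c X → Sm c (jconj c.J X)
  good : ∀ X, Sm c X → c.Good X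
  dt : ∀ y X, Sm c X → Dm (fun t => Ut c.Q (t • y)) (X c.Om)
  apx : ∀ K O X, IsCompact K → IsOpen O → K ⊆ O → X ∈ c.N K →
    ∃ (K' : Set V) (Y : ℕ → Completion D →L[ℂ] Completion D), IsCompact K' ∧ K' ⊆ O ∧
      (∀ n, Y n ∈ c.N K' ∧ Sm c (Y n) ∧ ‖Y n‖ ≤ ‖X‖) ∧
      ∀ v, Tendsto (fun n => Y n v) atTop (𝓝 (X v)) ∧
        Tendsto (fun n => Star.star (Y n) v) atTop (𝓝 (Star.star X v))
  dense : ∀ O : Set V, IsOpen O → O.Nonempty → Dense {z | ∃ X ∈ c.N O, Sm c X ∧ X c.Om = z}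
  lo : ∀ w y K X, IsCompact K → (∀ z ∈ K, mdot (aw w) (z - y) < 0) → X ∈ c.N K → Sm c X →
    Dm (Kf c w y) (X c.Om)
  hi : Du c → ∀ w y K X, IsCompact K → (∀ z ∈ K, 0 < mdot (aw w) (z - y)) → X ∈ c.N K → Sm c X →
    Dm (Kf c w y) (X c.Om)

/-- row TRI: the dependence on the plane -/
def TRI : Prop := ∀ (w : R2) (y : V) (a u : Fin 3 → ℝ) ψ, ∑ i, a i = 0 → ∑ i, a i * u i = 0 →
  ∑ i, a i * u i ^ 2 = 2 → (∀ i, Dm (Kf c w (y + u i • vb)) ψ) → Dm (Pb c.Q) ψ →
  ∑ i, (a i : ℂ) • gen (Kf c w (y + u i • vb)) ψ = (4 : ℂ) • gen (Pb c.Q) ψ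

/-- row ADD: the generators are additive in the direction -/
def ADD : Prop := ∀ (n : ℕ) (a : Fin n → ℝ) (w : Fin n → R2) (y : V) ψ,
  ∑ i, a i • aw (w i) = 0 → (∀ i, Dm (Kf c (w i) y) ψ) →
  ∑ i, (a i : ℂ) • gen (Kf c (w i) y) ψ = 0

/-- row DER: the generators are derivations on space-like separated operators -/
def DER : Prop := ∀ U K w y X Z, IsCompact U → Op U K → (∀ z ∈ U ∪ K, y - z ∈ Fc) →
  X ∈ c.N U → Sm c X → Z ∈ c.N K → Sm c Z →
  gen (Kf c w y) (X (Z c.Om)) = X (gen (Kf c w y) (Z c.Om)) + Z (gen (Kf c w y) (X c.Om))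

/-- row TAN: the generators are tangent to the commutants of the local algebras -/
def TAN : Prop := ∀ U U' M w y Z, IsCompact U → U.Nonempty → IsCompact U' → U ⊆ interior U' →
  IsCompact M → U' ⊆ M → (∀ z ∈ M, y - z ∈ Fc) → Pd c U' M Z → Dm (Kf c w y) (Z c.Om) ∧
    Dm (Kf c w y) (star Z c.Om) ∧ Pr (c.N U).commutant c.Om (I • gen (Kf c w y) (Z c.Om))
      (I • gen (Kf c w y) (star Z c.Om))

/-- row CLO: from the products to the commutant -/
def CLO : Prop := ∀ U ξ ξ', IsCompact U → (∀ M Z, IsCompact M → U ⊆ M → Pd c U M Z →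
  inner ℂ (star Z c.Om) ξ = inner ℂ ξ' (Z c.Om)) → Pr (c.N U) c.Om ξ ξ'

/-- **The potential is local.** -/
def LOC : Prop := ∀ O f, In O f → Pr (c.N O) c.Om (c.l f) (c.l (bar f))

end

end Vale.Agent.N352.Nt
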