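import Vale.Agent.P352X.R.EE
import Vale.Agent.P352X.Api2b
import Vale.Agent.N352.NDef

/-!
# N352, row ADD, part A: geometry
-/

set_option linter.all false

open MeasureTheory Filter Topology Set
open scoped SchwartzMap ComplexConjugate ContDiff

namespace Vale.Agent.N352.Nt.Ad

open Vale.Agent.P352 Vale.Agent.P352.GF Vale.Agent.P352.BW
open Vale.Agent.P352.H246 hiding nv
open Vale.Agent.P352.H496 hiding Bx
open Vale.Agent.P352.H755 Vale.Agent.P352.H15 Vale.Agent.P352X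
open Vale.Agent.P352X.EE
open Vale.Agent.P132 (jconj)
open UniformSpace (Completion)

noncomputable section

variable {D : Type*} [NormedAddCommGroup D] [InnerProductSpace ℂ D] {c : Ctx D}
  {X X' Z : Completion D →L[ℂ] Completion D} {z z0 : V} {w w1 w2 : R2} {A L L0 : ℝ}

lemma nv_id (w : R2) (d : V) :
    2 * al d * mdot (nv w) d = mu d + d2 (tx d - al d • w) (tx d - al d • w) := by
  simp only [md_nv, mu_eq, d2, Pi.sub_apply, Pi.smul_apply, smul_eq_mul]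
  ring

lemma nv_nv (w u : R2) : mdot (nv w) (nv u) = d2 (w - u) (w - u) / 2 := by
  rw [md_nv]
  simp only [nv, al_pt, be_pt, tx_pt, d2, Pi.sub_apply]
  ring

lemma cone' (dd : DD c) (z0 : V) (w : R2) : ∃ R ∈ 𝓝 z0,
    (∀ f, In R f → Pr (c.N R) c.Om (c.l f) (c.l (bar f))) ∧
      ∀ z ∈ R, mdot (nv w) z < mdot (nv w) z0 + 1 ∧ al z0 - 1 < al z ∧
        ∀ u, d2 u u ≤ 1 → mdot (nv u) z0 - 2 < mdot (nv u) z := by
  have w0 := d2_nonneg w
  set δ := (1 + d2 w w)⁻¹ with hδ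
  have d0 : 0 < δ := by positivity
  have d1 : δ + δ * d2 w w = 1 := by rw [← mul_one_add, inv_mul_cancel₀ (by positivity)]
  have e : ∀ w, mdot (nv w) vb = 1 := fun w => by simp [md_nv]
  refine ⟨{z | z - (z0 - δ • nv w + vb) ∈ HM.Rg (nv w) vb (1 / 4)}, IsOpen.mem_nhds ?_ ?_,
    fun f => dd _ _ _ _ f (null_nv w) null_vb (e w) (by norm_num), fun z hz => ?_⟩
  · simp only [HM.Rg, mem_setOf_eq, setOf_and]
    refine IsOpen.inter ?_ (IsOpen.inter ?_ ?_) <;> exact isOpen_lt (by fun_prop) (by fun_prop)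
  · have e' : z0 - (z0 - δ • nv w + vb) = δ • nv w - vb := by abel
    rw [mem_setOf_eq, e']
    simp only [mem_setOf_eq, HM.Rg, md_sub, md_sub_l, md_smul, md_smul_l, (null_nv w).1, e,
      md_comm vb (nv w), null_vb.1]
    refine ⟨by norm_num, by norm_num, by linarith⟩
  · obtain ⟨a, b, k⟩ := hz
    set ζ := z - (z0 - δ • nv w + vb) with hζ
    have hm : 0 < mu (ζ + (2 : ℝ) • vb) := by
      simp only [mu, md_add, md_add_l, md_smul, md_smul_l, null_vb.1, md_comm ζ vb]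
      linarith
    have h := fut (z := ζ + (2 : ℝ) • vb) (w := w) hm (by
      rw [md_add, md_smul, e]
      linarith)
    have k1 : ∀ u, 0 < mdot (nv u) (ζ + (2 : ℝ) • vb) := fun u => by
      have := nv_id u (ζ + (2 : ℝ) • vb)
      have q := d2_nonneg (tx (ζ + (2 : ℝ) • vb) - al (ζ + (2 : ℝ) • vb) • u)
      exact (pos_iff_pos_of_mul_pos (by linarith : 0 < al (ζ + (2 : ℝ) • vb) *
        mdot (nv u) (ζ + (2 : ℝ) • vb))).1 h.1
    rw [hζ, md_sub, md_add, md_sub, md_smul, (null_nv w).1, e] at a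
    simp only [hζ, nv, al_add, al_sub, al_smul, al_vb, al_pt] at h
    have := mul_nonneg d0.le w0
    refine ⟨by linarith, by linarith, fun u hu => ?_⟩
    have k2 := k1 u
    rw [hζ, md_add, md_sub, md_add, md_sub, md_smul, md_smul, e, nv_nv] at k2
    have k3 : d2 (u - w) (u - w) / 2 ≤ 1 + d2 w w := by
      have := d2_nonneg (u + w)
      simp only [d2, Pi.add_apply, Pi.sub_apply] at this hu ⊢
      nlinarith
    have k4 := mul_le_mul_of_nonneg_left k3 d0.le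
    nlinarith

lemma dc_be {α β : ℝ} (hz : z ∈ dc (pt α β 0) 1) : β - 1 < be z := by
  have e2 : be (bas o 1) = 1 := by simp [be_eq, bas, o]
  have := ((mem_Fc _).1 hz.1).1
  simp only [be_sub, be_pt, e2] at this
  linarith

/-- the standing assumptions on the two operators -/
structure St (c : Ctx D) (A : ℝ) (X X' : Completion D →L[ℂ] Completion D) : Prop where
  J : JC c
  dd : DD c
  hA : 40 ≤ A
  hX : X ∈ c.N (dc (pt (3 * A) (-A) 0) 1)
  hX' : X' ∈ c.N (dc (pt A (-A) 0) 1)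

namespace St

variable (s : St c A X X')
include s

lemma spg (h2 : -1 / 2 ≤ al z0) (h : ∀ z, (z ∈ Bx (3 * A) (-A) ∧ -A - 1 < be z) ∨ z ∈ Bx (-A) A →
      mdot (nv w) z0 + 1 < mdot (nv w) z)
    (h1 : (d2 w1 w1 ≤ 1 / 100 ∧ w ≠ w1 ∧ -1 ≤ mdot (nv w1) z0) ∨ 4 * A ≤ al z0) :
    Sp c (jconj c.J X' * X) z0 := by
  obtain ⟨R, a, b, k⟩ := cone' s.dd z0 w
  have hA := s.hA
  have hb : 0 < mdot vb (nv w) := by simp [md_vb, nv]
  refine ⟨R, a, mul_mem (comm_Y s.J s.hX' null_vb (null_nv w) hb (s := al z0 - 1)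
    (fun z hz => ⟨?_, h _ (.inr ?_)⟩) fun z hz => ⟨(k z hz).1, (k z hz).2.1⟩) ?_, b⟩
  · have := (abs_le.1 (dc_Bx' hz).1).1
    rw [md_vb, al_jr]
    linarith
  · obtain ⟨b1, b2, b3⟩ := dc_Bx' hz
    exact ⟨by rwa [al_jr, neg_sub_neg, abs_sub_comm], by
      rwa [be_jr, ← neg_add', abs_neg, ← sub_neg_eq_add], by rwa [tx_jr]⟩
  rcases h1 with ⟨p1, p2, p3⟩ | p
  · refine comm_X s.J s.hX (null_nv w1) (null_nv w) ?_ (s := mdot (nv w1) z0 - 2)
      (fun z hz => ⟨?_, h z (.inl ⟨dc_Bx' hz, dc_be hz⟩)⟩)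
      fun z hz => ⟨(k z hz).1, (k z hz).2.2 w1 (by linarith)⟩
    · rw [nv_nv]
      exact half_pos ((d2_nonneg _).lt_of_ne' fun e => p2 (sub_eq_zero.1 ((d2_eq_zero _).1 e)).symm)
    · obtain ⟨b1, b2, b3⟩ := dc_Bx' hz
      have q := d2_nonneg (w1 + tx z)
      have q1 := d2_nonneg w1
      have b4 := (abs_le.1 b1).2
      have b5 := (abs_le.1 b2).2
      simp only [d2_add, d2_add_l, d2_comm (tx z) w1] at q
      rw [md_nv w1 z]
      nlinarith
  · refine comm_X s.J s.hX null_vb (null_nv w) hb (s := al z0 - 1)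
      (fun z hz => ⟨?_, h z (.inl ⟨dc_Bx' hz, dc_be hz⟩)⟩) fun z hz => ⟨(k z hz).1, (k z hz).2.1⟩
    have := (abs_le.1 (dc_Bx' hz).1).2
    rw [md_vb]
    linarith

lemma strip (h0 : -1 / 2 ≤ al z0) (h0' : al z0 ≤ 1 / 2) (p1 : d2 w1 w1 ≤ 1 / 100)
    (p2 : d2 w2 w2 ≤ 1 / 100) (h1 : -1 ≤ mdot (nv w1) z0) (h2 : mdot (nv w2) z0 ≤ 1) :
    Sp c (jconj c.J X' * X) z0 := by
  obtain ⟨σ, s1, s2⟩ : ∃ σ : ℝ, σ * σ = 1 ∧ 0 ≤ σ * tx z0 0 := (le_total 0 (tx z0 0)).elim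
    (fun h => ⟨1, by norm_num, by linarith⟩) fun h => ⟨-1, by norm_num, by linarith⟩
  have hA := s.hA
  have e : d2 (w2 + σ • e2 0) (w2 + σ • e2 0) = d2 w2 w2 + 2 * (σ * w2 0) + 1 := by
    rw [d2_add, d2_add_l, d2_add_l, d2_smul, d2_smul, d2_smul_l, d2_smul_l, d2_e2, d2_e2_l, d2_e2,
      e2_self]
    linear_combination s1
  have q0 := d2_nonneg w2
  have q1 : (σ * w2 0) ^ 2 ≤ (1 / 10) ^ 2 := by
    have := sq_le_d2 w2 0
    nlinarith
  obtain ⟨q2, q3⟩ := abs_le_of_sq_le_sq' q1 (by norm_num)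
  refine s.spg (w := w2 + σ • e2 0) h0 (fun z hz => ?_) (.inl ⟨p1, fun k => ?_, h1⟩)
  · have e1 : mdot (nv (w2 + σ • e2 0)) z0 ≤ 2 := by
      rw [md_nv] at h2 ⊢
      rw [e, d2_add_l, d2_smul_l, d2_e2_l]
      nlinarith
    have q := d2_nonneg (w2 + σ • e2 0 - tx z)
    rw [d2_sub, d2_sub_l, d2_sub_l, d2_comm (tx z)] at q
    rw [md_nv _ z]
    generalize d2 (w2 + σ • e2 0) (w2 + σ • e2 0) = m at e q ⊢
    have m1 : 4 / 5 ≤ m := by linarith
    have m2 : m ≤ 121 / 100 := by linarith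
    rcases hz with ⟨⟨b1, b2, b3⟩, -⟩ | ⟨b1, b2, b3⟩
    all_goals
      have b4 := (abs_le.1 b1).1
      have b5 := (abs_le.1 b2).1
      nlinarith
  · rw [← k, e] at p1
    linarith

lemma far (hL : 4 * A ≤ L) (h0 : -1 / 2 ≤ al z0) (h0' : al z0 ≤ 2 * L)
    (h2 : be z0 + A + 3 < 3 / 8 * ((4 * L)⁻¹ * d2 (tx z0) (tx z0)))
    (h1 : (d2 w1 w1 ≤ 1 / 100 ∧ (4 * L)⁻¹ • tx z0 ≠ w1 ∧ -1 ≤ mdot (nv w1) z0) ∨ 4 * A ≤ al z0) :
    Sp c (jconj c.J X' * X) z0 := by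
  have hA := s.hA
  have L0 : 0 < L := by linarith
  set x := tx z0
  have x0 := d2_nonneg x
  set τ := (4 * L)⁻¹
  have t0 : 0 < τ := by positivity
  have t1 : τ * L = 1 / 4 := by
    simp only [τ]
    field_simp
  refine s.spg h0 (w := τ • x) (fun z hz => ?_) h1
  have b : -A - 1 / 2 ≤ al z ∧ -A - 1 ≤ be z ∧ d2 (tx z) (tx z) ≤ 4 := by
    rcases hz with ⟨⟨b1, b2, b3⟩, -⟩ | ⟨b1, b2, b3⟩
    all_goals exact ⟨by linarith [(abs_le.1 b1).1], by linarith [(abs_le.1 b2).1], b3⟩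
  obtain ⟨b1, b2, b3⟩ := b
  rw [md_nv, md_nv, d2_smul, d2_smul_l, d2_smul_l]
  have c1 : d2 x (tx z) ≤ d2 x x / 4 + 4 := by
    have := d2_nonneg (x - (2 : ℝ) • tx z)
    simp only [d2_sub, d2_sub_l, d2_smul, d2_smul_l, d2_comm (tx z) x] at this
    linarith
  have c2 : τ * (al z0 - al z) ≤ 3 / 4 :=
    (mul_le_mul_of_nonneg_left (by linarith : al z0 - al z ≤ 3 * L) t0.le).trans_eq (by linarith)
  have c4 := mul_le_mul_of_nonneg_left c2 (mul_nonneg t0.le x0)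
  have c5 := mul_le_mul_of_nonneg_left c1 t0.le
  have c6 : τ ≤ 1 / 4 := by nlinarith
  nlinarith

lemma low (h0 : 4 * A ≤ al z0) (h1 : be z0 ≤ -A - 2) : Sp c (jconj c.J X' * X) z0 := by
  have hA := s.hA
  refine s.spg (w := 0) (w1 := 0) (by linarith) (fun z hz => ?_) (.inr h0)
  simp only [md_nv, d2_zero, d2_zero_l, zero_div, zero_mul, add_zero, sub_zero]
  rcases hz with ⟨-, b⟩ | ⟨-, b2, -⟩
  · linarith
  · linarith [(abs_le.1 b2).1]

end St

/-- near `z` the cutoff is one or the step is constant -/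
def Fl (χ Ξ : V → ℝ) (z : V) : Prop := (∀ᶠ x in 𝓝 z, χ x = 1) ∨ ∀ᶠ x in 𝓝 z, Ξ x = Ξ z

variable {R : ℝ → ℝ}

lemma Xi1 (L0 : 0 < L) (R1 : ∀ t ≥ (1 : ℝ), R t = 1) (h : 1 < be z ∨ 2 * L < al z) :
    ∀ᶠ x in 𝓝 z, Xi R L x = 1 := h.elim
  (fun h => (cont_be.continuousAt.eventually (eventually_gt_nhds h)).mono fun x h => by
    rw [Xi, R1 _ h.le, sub_self, zero_mul, sub_zero])
  fun h => (cont_al.continuousAt.eventually (eventually_gt_nhds h)).mono fun x h => by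
    rw [Xi, kp0 ((le_div_iff₀ L0).2 h.le), mul_zero, sub_zero]

lemma Xi0 (L0 : 0 < L) (R0 : ∀ t ≤ (-1 : ℝ), R t = 0) (h : be z < -1) (h' : al z < L) :
    ∀ᶠ x in 𝓝 z, Xi R L x = 0 :=
  ((cont_be.continuousAt.eventually (eventually_lt_nhds h)).and
    (cont_al.continuousAt.eventually (eventually_lt_nhds h'))).mono fun x h => by
    rw [Xi, R0 _ h.1.le, kp1 ((div_le_one L0).2 h.2.le)]
    norm_num

/-- product cutoffs -/
def cu (L M u B : ℝ) (z : V) : ℝ := uL (3 * L) (al z) * vL M (tx z) * sg u B (be z)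

lemma cu1 {M u B : ℝ} (L0 : 0 < L) (M0 : 0 < M) (h1 : 1 / 2 < al z) (h2 : al z < 3 * L)
    (h3 : d2 (tx z) (tx z) < M) (h4 : -B - 2 < be z) (h5 : be z < u + 1 / 2) :
    ∀ᶠ x in 𝓝 z, cu L M u B x = 1 := by
  filter_upwards [cont_al.continuousAt.eventually (Ioo_mem_nhds h1 h2),
    cont_be.continuousAt.eventually (Ioo_mem_nhds h4 h5),
    (by fun_prop : Continuous fun z => d2 (tx z) (tx z)).continuousAt.eventually
    (eventually_lt_nhds h3)] with y y1 y2 y3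
  rw [cu, uL, chi1 y1.1.le, kp1 ((div_le_one (by linarith)).2 y1.2.le), vL1 M0 y3,
    sg1 y2.1.le y2.2.le]
  norm_num

lemma cu0 {M u B : ℝ} (h : al z < -1 / 2) : ∀ᶠ x in 𝓝 z, cu L M u B x = 0 :=
  (cont_al.continuousAt.eventually (eventually_lt_nhds h)).mono fun x h => by
    rw [cu, uL, chi0 h.le, zero_mul, zero_mul, zero_mul]

lemma tst_cu {M u B : ℝ} (L0 : 0 < L) (M0 : 0 < M) : Tst (cu L M u B) := by
  simpa only [tp_apply, Complex.ofReal_re] using! Ap.tst_re (dc_tp (tst_uL (L := 3 * L)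
    (by linarith)) (tst_vL M0) (tst_sg (u0 := u) (A := B)))

lemma sm_Xi (hR : ContDiff ℝ ∞ R) : ContDiff ℝ ∞ (Xi R L) := by
  unfold Xi
  fun_prop

lemma nv0 (z : V) : mdot (nv 0) z = be z := by simp [md_nv]

lemma St.fl (s : St c A X X') (hL : 4 * A ≤ L) (R0 : ∀ t ≤ (-1 : ℝ), R t = 0)
    (R1 : ∀ t ≥ (1 : ℝ), R t = 1) (h0 : -1 / 2 ≤ al z) (h : ¬Sp c (jconj c.J X' * X) z) :
    Fl (ch 1 A L) (Xi R L) z := by
  have hA := s.hA
  have L0 : 0 < L := by linarith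
  by_cases k1 : 1 < be z ∨ 2 * L < al z
  · exact .inr ((Xi1 L0 R1 k1).mono fun x h => h.trans (Xi1 L0 R1 k1).self_of_nhds.symm)
  by_cases k2 : be z < -1 ∧ al z < L
  · exact .inr ((Xi0 L0 R0 k2.1 k2.2).mono fun x h =>
      h.trans (Xi0 L0 R0 k2.1 k2.2).self_of_nhds.symm)
  rw [not_or, not_lt, not_lt] at k1
  rw [not_and_or, not_lt, not_lt] at k2
  have z0 : d2 (0 : R2) 0 ≤ 1 / 100 := by simp
  refine .inl (cu1 (M := 32 * A * L) (u := 1) (B := A) L0 (by positivity) (not_le.1 fun k => h ?_)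
    (by linarith) (not_le.1 fun k => h ?_) (not_le.1 fun k => h ?_) (by linarith))
  · exact s.strip h0 k z0 z0 (by rw [nv0]; exact k2.resolve_right (by linarith))
      (by rw [nv0]; exact k1.1)
  · have e : 8 * A ≤ (4 * L)⁻¹ * d2 (tx z) (tx z) := by
      rw [le_inv_mul_iff₀ (by positivity)]
      linarith
    refine s.far (w1 := 0) hL h0 k1.2 (by linarith) (k2.imp (fun k' => ⟨z0, fun q => ?_,
      by rwa [nv0]⟩) fun k' => by linarith)
    rw [(smul_eq_zero.1 q).resolve_left (by positivity), d2_zero] at k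
    nlinarith
  · exact s.low (hL.trans (k2.resolve_left (by linarith))) k

lemma al_gw (w : R2) (z : V) : al (gw w z) = al z := al_pt _ _ _

lemma be_gw (w : R2) (z : V) : be (gw w z) = mdot (nv (-w)) z := by
  simp only [gw, be_pt, md_nv, d2_neg, d2_neg_l]
  ring

lemma cont_gw (w : R2) : Continuous (gw w) := by
  unfold gw
  fun_prop

lemma sm_gw (w : R2) : ContDiff ℝ ∞ (gw w) := by
  unfold gw
  fun_prop

lemma gw_gw (v w : R2) (z : V) : gw v (gw w z) = gw (v + w) z := by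
  refine null_ext (by simp [gw]) ?_ ?_
  · simp only [gw, al_pt, be_pt, tx_pt, d2, Pi.add_apply, Pi.smul_apply, smul_eq_mul]
    ring
  · simp only [gw, al_pt, tx_pt, smul_add]
    abel

lemma gw_zero (z : V) : gw 0 z = z := by simp [gw]

/-- the region between the two surfaces -/
lemma St.mid (s : St c A X X') (hL0 : 4 * A ≤ L0) (hL : L0 ≤ L) (R0 : ∀ t ≤ (-1 : ℝ), R t = 0)
    (R1 : ∀ t ≥ (1 : ℝ), R t = 1) (hw : d2 w w ≤ 1 / 100) (h0 : -1 / 2 ≤ al z)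
    (h : ¬Sp c (jconj c.J X' * X) z) : ∀ᶠ x in 𝓝 z, cu L (200 * L ^ 2) (300 * L ^ 2) (300 * L ^ 2) x *
      (Xi R L x - Xi R L0 (gw w x)) = Xi R L x - Xi R L0 (gw w x) := by
  have hA := s.hA
  have l0 : 0 < L0 := by linarith
  have l1 : 0 < L := by linarith
  have ct : Tendsto (gw w) (𝓝 z) (𝓝 (gw w z)) := (cont_gw w).continuousAt
  by_cases k1 : (1 < be z ∨ 2 * L < al z) ∧ (1 < be (gw w z) ∨ 2 * L0 < al (gw w z))
  · filter_upwards [Xi1 l1 R1 k1.1, ct.eventually (Xi1 l0 R1 k1.2)] with x a b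
    rw [a, b, sub_self, mul_zero]
  by_cases k2 : be z < -1 ∧ be (gw w z) < -1 ∧ al z < L0
  · filter_upwards [Xi0 l1 R0 k2.1 (by linarith [k2.2.2]),
      ct.eventually (Xi0 l0 R0 k2.2.1 (by rw [al_gw]; exact k2.2.2))] with x a b
    rw [a, b, sub_self, mul_zero]
  have z0 : d2 (0 : R2) 0 ≤ 1 / 100 := by simp
  have hw' : d2 (-w) (-w) ≤ 1 / 100 := by rwa [d2_neg, d2_neg_l, neg_neg]
  obtain ⟨p1, w2, p2, p3⟩ : al z ≤ 2 * L ∧ ∃ u, d2 u u ≤ 1 / 100 ∧ mdot (nv u) z ≤ 1 := by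
    rw [not_and_or, not_or, not_or, not_lt, not_lt, not_lt, not_lt, al_gw, be_gw] at k1
    rcases k1 with k | k
    · exact ⟨k.2, 0, z0, by rw [nv0]; exact k.1⟩
    · exact ⟨by linarith [k.2], -w, hw', k.1⟩
  obtain ⟨w1, p4⟩ : ∃ u, (d2 u u ≤ 1 / 100 ∧ -1 ≤ mdot (nv u) z) ∨ 4 * A ≤ al z := by
    rw [not_and_or, not_and_or, not_lt, not_lt, not_lt, be_gw] at k2
    rcases k2 with k | k | k
    · exact ⟨0, .inl ⟨z0, by rwa [nv0]⟩⟩
    · exact ⟨-w, .inl ⟨hw', k⟩⟩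
    · exact ⟨0, .inr (hL0.trans k)⟩
  have a1 : 1 / 2 < al z := not_le.1 fun k => h
    ((p4.resolve_right (by linarith)).elim fun a b => s.strip h0 k a p2 b p3)
  have x0 := d2_nonneg (tx z)
  have u2 := d2_nonneg w2
  have t1 : (4 * L)⁻¹ * L = 1 / 4 := by field_simp
  have t0 : 0 < (4 * L)⁻¹ := by positivity
  rw [md_nv] at p3
  have p5 := mul_nonneg u2 (by linarith : 0 ≤ al z)
  have a2 : d2 (tx z) (tx z) < 200 * L ^ 2 := not_le.1 fun k => h (by
    have e : 50 * L ≤ (4 * L)⁻¹ * d2 (tx z) (tx z) := by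
      rw [le_inv_mul_iff₀ (by positivity)]
      linarith
    have q := d2_nonneg ((4 * L)⁻¹ • tx z - (4 : ℝ) • w2)
    simp only [d2_sub, d2_sub_l, d2_smul, d2_smul_l, d2_comm (tx z) w2] at q
    have q1 : d2 w2 (tx z) ≤ (4 * L)⁻¹ * d2 (tx z) (tx z) / 8 + 8 * L * d2 w2 w2 := by
      refine le_of_mul_le_mul_left ?_ t0
      nlinarith
    refine s.far (w1 := w1) (hL0.trans hL) h0 p1 (by nlinarith)
      (p4.imp_left fun k' => ⟨k'.1, fun e' => ?_, k'.2⟩)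
    have := k'.1
    rw [← e', d2_smul, d2_smul_l] at this
    nlinarith)
  have q2 : ∀ u, d2 u u ≤ 1 / 100 → |d2 u (tx z)| ≤ 100 * L ^ 2 + 1 := fun u hu => by
    have a := d2_nonneg (u - tx z)
    have b := d2_nonneg (u + tx z)
    simp only [d2_sub, d2_sub_l, d2_add, d2_add_l, d2_comm (tx z) u] at a b
    exact abs_le.2 ⟨by linarith, by linarith⟩
  have l2 : 160 * L ≤ L ^ 2 := by nlinarith
  refine (cu1 (M := 200 * L ^ 2) (u := 300 * L ^ 2) (B := 300 * L ^ 2) l1 (by positivity) a1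
    (by linarith) a2 (not_le.1 fun k => h ?_) (by linarith [(abs_le.1 (q2 _ p2)).2])).mono
    fun x e => by rw [e, one_mul]
  rcases p4 with ⟨b1, b2⟩ | b
  · rw [md_nv] at b2
    have := mul_le_mul b1 p1 (by linarith) (by norm_num)
    exfalso
    linarith [(abs_le.1 (q2 _ b1)).1]
  · exact s.low b (by linarith)

/-- covariance of the local region -/
lemma sp_gw (G : GRP c) (g : GW c) (h : Sp c Z (gw w z)) : Sp c (Gw c (-w) * Z * Gw c w) z := by
  obtain ⟨R, a, b, k⟩ := h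
  have i1 : Gw c w * Gw c (-w) = 1 := by rw [← g.add, add_neg_cancel, g.zero]
  have i2 : Gw c (-w) * Gw c w = 1 := by rw [← g.add, neg_add_cancel, g.zero]
  refine ⟨gw w ⁻¹' R, (cont_gw w).continuousAt.preimage_mem_nhds a,
    VonNeumannAlgebra.mem_commutant_iff.2 fun Y hY => ?_, fun f hf => ?_⟩
  · have e := VonNeumannAlgebra.mem_commutant_iff.1 b _ (g.mem w _ R Y hY fun z hz => hz)
    calc Y * (Gw c (-w) * Z * Gw c w)
        = Gw c (-w) * Gw c w * Y * (Gw c (-w) * Z * Gw c w) := by rw [i2, one_mul]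
      _ = Gw c (-w) * (Gw c w * Y * Gw c (-w) * Z) * Gw c w := by simp only [mul_assoc]
      _ = Gw c (-w) * Z * Gw c w * Y * (Gw c (-w) * Gw c w) := by rw [e]; simp only [mul_assoc]
      _ = _ := by rw [i2, mul_one]
  · obtain ⟨l1, l2⟩ := g.lor (-w)
    have f1 := Ap.in_mono (O' := R) (Ap.in_sim one_pos l1 0 hf) fun x hx => by
      simpa only [mem_preimage, l2, gw_gw, add_neg_cancel, gw_zero] using hx
    have p := G.pr_ug (O' := gw w ⁻¹' R) (k _ f1) 0 one_pos l1 fun x hx => by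
      simpa only [mem_preimage, l2, gw_gw, add_neg_cancel, gw_zero] using hx
    have e1 := G.pot 1 _ 0 f one_pos l1 hf.1
    have e2 := G.pot 1 _ 0 _ one_pos l1 (Ap.test_bar hf.1)
    simp only [one_pow, inv_one, one_smul] at e1 e2
    exact p.cast e1.symm e2.symm

end

end Vale.Agent.N352.Nt.Ad
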