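import Vale.Agent.N352.NAdA

/-!
# N352, row ADD, part B: the improved special conformal charge on a general surface
-/

set_option linter.all false

open MeasureTheory Filter Topology Set
open scoped SchwartzMap ComplexConjugate ContDiff

namespace Vale.Agent.N352.Nt.Ad

open Vale.Agent.P352 Vale.Agent.P352.GF Vale.Agent.P352.BW
open Vale.Agent.P352.H246 hiding nv
open Vale.Agent.P352.H496 hiding Bx
open Vale.Agent.P352.H755 Vale.Agent.P352.H15 Vale.Agent.P352X
open Vale.Agent.P352X.EE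
open Vale.Agent.P132 (jconj)
open UniformSpace (Completion)

noncomputable section

variable {D : Type*} [NormedAddCommGroup D] [InnerProductSpace ℂ D] {c : Ctx D}
  {Z : Completion D →L[ℂ] Completion D} {z a : V} {f g : Fn} {χ Ξ χ' Ξ' ψ u v : V → ℝ}
  {m n : Ix}

/-! ### components -/

/-- `T^{mn}(f) Ω` -/
def T0 (c : Ctx D) (m n : Ix) (f : Fn) : Completion D := (c.T m n f c.Q.vac : D)

lemma dis_T0 (m n : Ix) : Dis (T0 c m n) := fun f g a hf hg => by
  simp only [T0, c.Q.lin _ f g a _ (c.Q.bose_fld _ (c.hT.bose _ _)) hf hg, Completion.coe_add,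
    Completion.coe_smul]

lemma Tv_eq (F : Ix → Ix → Fn) : c.Tv F = ∑ m, ∑ n, T0 c m n (F m n) := by
  simp only [Ctx.Tv, Ctx.Tf, T0]
  change Completion.toComplL (𝕜 := ℂ) _ = _
  simp only [map_sum]
  rfl

lemma TT_bas (hf : IsTest f) :
    TT c (bas m 1) (bas n 1) f = (eta m * eta n) • T0 c m n f := by
  rw [TT, Far.Tv_hk c _ _ hf, Finset.sum_eq_single m, Finset.sum_eq_single n]
  · simp [bas, T0, ← Complex.coe_smul]
  all_goals simp +contextual [bas]

lemma loc_T0 (G : GRP c) (m n : Ix) (hf : Dc f) (e : bar f = f)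
    (h : ∀ z ∈ tsupport f, Sp c Z z) : lam (Z c.Om) (star Z c.Om) (T0 c m n f) = 0 := by
  have := loc_T G (bas m 1) (bas n 1) hf e h
  rw [TT_bas (Far.isTest_dc hf), map_smul] at this
  exact (smul_eq_zero.1 this).resolve_left (mul_ne_zero (eta_ne m) (eta_ne n))

lemma _root_.Vale.Agent.P352X.EE.Dis.sum {φ : Fn → Completion D} (h : Dis φ) {ι : Type*}
    (s : Finset ι) {f : ι → Fn} (hf : ∀ i, IsTest (f i)) :
    φ (fun x => ∑ i ∈ s, f i x) = ∑ i ∈ s, φ (f i) := by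
  classical
  induction s using Finset.induction_on with
  | empty => simpa using h.zero
  | insert i s hi ih =>
    simp only [Finset.sum_insert hi]
    rw [h.add (hf i) (Ap.sw_sum fun i _ => hf i), ih]

lemma tcx (hu : Tst u) : IsTest fun x => (u x : ℂ) := Far.isTest_dc (Ap.dc_cx hu)

/-! ### local operators -/

/-- local linear operators that kill the constants -/
structure Lop (P : (V → ℝ) → V → ℝ) : Prop where
  loc : ∀ u v z, u =ᶠ[𝓝 z] v → P u z = P v z
  cst : ∀ k z, P (fun _ => k) z = 0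
  sub : ∀ u v, ContDiff ℝ ∞ u → ContDiff ℝ ∞ v → ∀ z, P (fun x => u x - v x) z = P u z - P v z
  sm : ∀ u, ContDiff ℝ ∞ u → ContDiff ℝ ∞ (P u)

variable {P : (V → ℝ) → V → ℝ}

lemma Lop.fl (h : Lop P) (k : Fl χ Ξ z) : ∀ᶠ x in 𝓝 z, χ x * P Ξ x = P Ξ x := k.elim
  (fun k => k.mono fun x e => by rw [e, one_mul]) fun k => k.eventually_nhds.mono fun x e => by
    rw [h.loc Ξ _ x e, h.cst, mul_zero]

lemma Lop.tst (h : Lop P) (hψ : Tst ψ) : Tst (P ψ) :=
  ⟨h.sm _ hψ.1, hψ.2.isCompact.of_isClosed_subset (isClosed_tsupport _)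
    (Ap.tsupp_sub (isClosed_tsupport _) fun x hx => by_contra fun k =>
      hx ((h.loc _ _ x (notMem_tsupport_iff_eventuallyEq.1 k)).trans (h.cst 0 x)))⟩

/-- the two surfaces bound the region where `ψ` lives, up to points where the defect vanishes -/
def Cmp (c : Ctx D) (Z : Completion D →L[ℂ] Completion D) (χ Ξ χ' Ξ' ψ : V → ℝ) : Prop :=
  ∀ z, ¬Sp c Z z → (∀ᶠ x in 𝓝 z, χ x = 0 ∧ χ' x = 0 ∧ ψ x = 0) ∨
    (Fl χ Ξ z ∧ Fl χ' Ξ' z ∧ ∀ᶠ x in 𝓝 z, ψ x = Ξ x - Ξ' x)

lemma Lop.cmp (h : Lop P) {φ : Fn → Completion D} (d : Dis φ)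
    (l : ∀ f, Dc f → bar f = f → (∀ z ∈ tsupport f, Sp c Z z) →
      lam (Z c.Om) (star Z c.Om) (φ f) = 0) (hχ : Tst χ) (hΞ : ContDiff ℝ ∞ Ξ) (hχ' : Tst χ')
    (hΞ' : ContDiff ℝ ∞ Ξ') (hψ : Tst ψ) (k : Cmp c Z χ Ξ χ' Ξ' ψ) :
    lam (Z c.Om) (star Z c.Om) (φ fun x => (χ x * P Ξ x : ℝ)) =
      lam (Z c.Om) (star Z c.Om) (φ fun x => (χ' x * P Ξ' x : ℝ)) +
        lam (Z c.Om) (star Z c.Om) (φ fun x => (P ψ x : ℝ)) := by
  have t1 : Tst fun x => χ x * P Ξ x := Ap.cs_mul_r hχ (h.sm _ hΞ)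
  have t2 : Tst fun x => χ' x * P Ξ' x := Ap.cs_mul_r hχ' (h.sm _ hΞ')
  have t3 := h.tst hψ
  have t4 : Tst fun x => χ x * P Ξ x - χ' x * P Ξ' x - P ψ x := Ap.cs_sub (Ap.cs_sub t1 t2) t3
  have := l _ (Ap.dc_cx t4) (Ap.bar_cx _) fun z hz => by_contra fun s => by
    rw [Ap.tsupport_cx] at hz
    refine notMem_tsupport_iff_eventuallyEq.2 ?_ hz
    rcases k z s with k | ⟨k1, k2, k3⟩
    · filter_upwards [k.eventually_nhds] with x e
      rw [e.self_of_nhds.1, e.self_of_nhds.2.1, h.loc ψ (fun _ => 0) x (e.mono fun _ e => e.2.2),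
        h.cst]
      simp
    · filter_upwards [h.fl k1, h.fl k2, k3.eventually_nhds] with x e1 e2 e3
      rw [e1, e2, h.loc ψ _ x e3, h.sub _ _ hΞ hΞ', sub_self, Pi.zero_apply]
  rw [← map_add, ← d.add (tcx t2) (tcx t3), ← add_zero (lam _ _ (φ fun x => _ + _)), ← this,
    ← map_add, ← d.add (Ap.sw_add (tcx t2) (tcx t3)) (tcx t4)]
  congr 2
  funext x
  push_cast
  ring

lemma dr_congr (e : u =ᶠ[𝓝 z] v) (m : Ix) : dr m u z = dr m v z := by
  refine EventuallyEq.deriv_eq ?_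
  have : ContinuousAt (fun t : ℝ => z + t • bas m 1) 0 := by fun_prop
  have k := this.tendsto.eventually (show ∀ᶠ y in 𝓝 (z + (0 : ℝ) • bas m 1), u y = v y by
    rw [zero_smul, add_zero]; exact e)
  simp only [← Ap.bas_smul] at k
  exact k

lemma dif {G : Type*} [NormedAddCommGroup G] [NormedSpace ℝ G] {u : V → G}
    (hu : ContDiff ℝ ∞ u) : Differentiable ℝ u := hu.differentiable (by simp)

lemma lop_dr (m : Ix) : Lop (dr m) :=
  ⟨fun _ _ _ e => dr_congr e m, fun k z => by simp [dr], fun u v hu hv z => by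
    rw [Ap.dr_eq (dif hu z), Ap.dr_eq (dif hv z), Ap.dr_eq ((dif hu z).fun_sub (dif hv z)),
      fderiv_fun_sub (dif hu z) (dif hv z)]
    rfl, fun _ hu => Ap.smooth_dr hu m⟩

lemma lop_dens {X : V → V} (hX : ContDiff ℝ ∞ X) (m n : Ix) :
    Lop fun u z => dr m u z * (eta n * X z n) :=
  ⟨fun _ _ _ e => by rw [dr_congr e], fun k z => by rw [(lop_dr m).cst, zero_mul],
    fun u v hu hv z => by rw [(lop_dr m).sub u v hu hv, sub_mul], fun u hu =>
      (Ap.smooth_dr hu m).mul (by fun_prop)⟩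

/-- the wave operator on real functions -/
def bx (u : V → ℝ) (z : V) : ℝ := ∑ m, eta m * dr m (dr m u) z

lemma sm_bx (hu : ContDiff ℝ ∞ u) : ContDiff ℝ ∞ (bx u) :=
  ContDiff.sum fun m _ => contDiff_const.mul (Ap.smooth_dr (Ap.smooth_dr hu m) m)

lemma box_cx (hu : ContDiff ℝ ∞ u) : (box fun x => (u x : ℂ)) = fun x => (bx u x : ℂ) := by
  funext z
  simp only [box, bx, Complex.ofReal_sum, Complex.ofReal_mul]
  refine Finset.sum_congr rfl fun m _ => ?_
  rw [show pd m (fun x => (u x : ℂ)) = fun x => (dr m u x : ℂ) from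
    funext fun x => Ap.pd_cx (dif hu x) m, Ap.pd_cx (dif (Ap.smooth_dr hu m) z)]

lemma dr_md (k : ℝ) (a : V) (m : Ix) : (dr m fun x => k * mdot a x) = fun _ => k * (eta m * a m) := by
  funext z
  rw [Ap.dr_eq (dif (by fun_prop) z), show fderiv ℝ (fun x => k * mdot a x) z = _ from
    ((mdL a).hasFDerivAt.const_mul k).fderiv]
  simp [H755.mdot_bas]

lemma lop_bx (a : V) : Lop fun u => bx fun x => u x * mdot a x := by
  refine ⟨fun u v z e => Finset.sum_congr rfl fun m _ => congrArg _ (dr_congr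
    (e.eventually_nhds.mono fun x e => dr_congr (e.mono fun y e => by simp only [e]) m) m),
    fun k z => Finset.sum_eq_zero fun m _ => by rw [dr_md, (lop_dr m).cst, mul_zero],
    fun u v hu hv z => ?_, fun u hu => sm_bx (by fun_prop)⟩
  have h1 : ContDiff ℝ ∞ fun x => u x * mdot a x := by fun_prop
  have h2 : ContDiff ℝ ∞ fun x => v x * mdot a x := by fun_prop
  simp only [bx, sub_mul, ← Finset.sum_sub_distrib, ← mul_sub]
  refine Finset.sum_congr rfl fun m _ => congrArg _ ?_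
  rw [show dr m (fun x => u x * mdot a x - v x * mdot a x) = _ from
    funext ((lop_dr m).sub _ _ h1 h2), (lop_dr m).sub _ _ (Ap.smooth_dr h1 m) (Ap.smooth_dr h2 m)]

lemma sm_cK (a : V) : ContDiff ℝ ∞ (cK a) := by
  unfold cK
  fun_prop

/-! ### the charge -/

/-- the improved special conformal charge of the density `χ dΞ`, on the vacuum -/
def Jv (c : Ctx D) (χ Ξ : V → ℝ) (a : V) : Completion D :=
  c.Tv (dens χ Ξ (cK a)) + (6 : ℝ) • c.l fun x => (χ x * bx (fun x => Ξ x * mdot a x) x : ℝ)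

lemma dr_mul (hu : ContDiff ℝ ∞ u) (hv : ContDiff ℝ ∞ v) (m : Ix) (z : V) :
    dr m (fun x => u x * v x) z = dr m u z * v z + u z * dr m v z := by
  rw [Ap.dr_eq (dif hu z), Ap.dr_eq (dif hv z), Ap.dr_eq ((dif hu z).fun_mul (dif hv z)),
    fderiv_fun_mul (dif hu z) (dif hv z)]
  simp [mul_comm, add_comm]

lemma dr_cK (a : V) (m n : Ix) (z : V) : dr m (fun x => eta n * cK a x n) z =
    2 * (eta m * eta n) * (a m * z n - z m * a n) + bas m (eta m) n * (2 * mdot a z) := by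
  have h1 := (((mdL a).hasFDerivAt (x := z)).const_mul 2).mul (hasFDerivAt_apply n z)
  have h2 := ((mdL.hasFDerivAt (x := z)).clm_apply (hasFDerivAt_id z)).mul_const (a n)
  rw [Ap.dr_eq (dif (contDiff_const.mul (contDiff_pi.1 (sm_cK a) n)) z),
    show fderiv ℝ (fun x => eta n * cK a x n) z = _ from ((h1.sub h2).const_mul (eta n)).fderiv]
  simp [H755.mdot_bas, md_comm (bas m 1)]
  by_cases h : n = m
  · subst h
    simp [bas]
    ring
  · simp [bas, h]
    ring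

/-- Stokes -/
lemma stokes (hψ : Tst ψ) (a : V) : (∑ m, ∑ n, T0 c m n fun x =>
    (dr m ψ x * (eta n * cK a x n) : ℝ)) + (6 : ℝ) • c.l (fun x => (bx (fun x => ψ x * mdot a x) x : ℝ)) =
    0 := by
  have s : ∀ n, ContDiff ℝ ∞ fun x => eta n * cK a x n := fun n =>
    contDiff_const.mul (contDiff_pi.1 (sm_cK a) n)
  have t1 : ∀ n, Tst fun x => ψ x * (eta n * cK a x n) := fun n => Ap.cs_mul_r hψ (s n)
  have t2 : ∀ m n, Tst fun x => dr m ψ x * (eta n * cK a x n) := fun m n =>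
    (lop_dens (sm_cK a) m n).tst hψ
  have t3 : ∀ m n, Tst fun x => ψ x * (a m * x n) := fun m n => Ap.cs_mul_r hψ (by fun_prop)
  have t4 : Tst fun x => ψ x * mdot a x := Ap.cs_mul_r hψ (by fun_prop)
  set A := fun m n => (2 * (eta m * eta n) : ℂ) • T0 c m n fun x => (ψ x * (a m * x n) : ℝ)
  have e1 : ∀ m n, T0 c m n (pd m fun x => (ψ x * (eta n * cK a x n) : ℝ)) =
      T0 c m n (fun x => (dr m ψ x * (eta n * cK a x n) : ℝ)) + (A m n - A n m) +
        (bas m (eta m) n * 2 : ℂ) • T0 c m n fun x => (ψ x * mdot a x : ℝ) := fun m n => by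
    have d := dis_T0 (c := c) m n
    have sy : T0 c n m (fun x => (ψ x * (a n * x m) : ℝ)) = T0 c m n _ :=
      congrArg _ (c.hT.symm n m _ _ (tcx (t3 n m)))
    simp only [A]
    rw [sy, mul_comm (eta n : ℂ), sub_eq_add_neg, ← neg_smul, ← add_assoc,
      ← d _ _ _ (tcx (t2 m n)) (tcx (t3 m n)),
      ← d _ _ _ (Ap.sw_lin _ (tcx (t2 m n)) (tcx (t3 m n))) (tcx (t3 n m)),
      ← d _ _ _ (Ap.sw_lin _ (Ap.sw_lin _ (tcx (t2 m n)) (tcx (t3 m n))) (tcx (t3 n m))) (tcx t4)]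
    congr 1
    funext x
    rw [Ap.pd_cx (dif (t1 n).1 x), dr_mul hψ.1 (s n), dr_cK]
    push_cast
    ring
  have e2 : ∑ m, ∑ n, T0 c m n (pd m fun x => (ψ x * (eta n * cK a x n) : ℝ)) = 0 := by
    rw [Finset.sum_comm]
    refine Finset.sum_eq_zero fun n _ => ?_
    have := congrArg (Completion.toComplL (𝕜 := ℂ)) (c.hT.conserved n _ c.Q.vac (tcx (t1 n)))
    simp only [map_sum, map_zero] at this
    exact this
  have e3 := c.hl.trace _ (tcx t4)
  rw [box_cx t4.1, GF.tr] at e3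
  have e4 : ((∑ m, (eta m : ℂ) • c.T m m (fun x => (ψ x * mdot a x : ℝ)) c.Q.vac : D) :
      Completion D) = ∑ m, (eta m : ℂ) • T0 c m m fun x => (ψ x * mdot a x : ℝ) := by
    change Completion.toComplL (𝕜 := ℂ) _ = _
    simp only [map_sum, map_smul]
    rfl
  have e5 : ∀ m, ∑ n, (bas m (eta m) n * 2 : ℂ) • T0 c m n (fun x => (ψ x * mdot a x : ℝ)) =
      (2 : ℂ) • (eta m : ℂ) • T0 c m m fun x => (ψ x * mdot a x : ℝ) := fun m => by
    rw [Finset.sum_eq_single m, smul_smul, mul_comm]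
    all_goals simp +contextual [bas]
  simp only [e1, Finset.sum_add_distrib, Finset.sum_sub_distrib, e5, ← Finset.smul_sum] at e2
  rw [Finset.sum_comm (f := fun m n => A n m), sub_self, add_zero, ← e4, ← e3, smul_smul] at e2
  rw [← e2, ← Complex.coe_smul]
  norm_num

/-- independence of the surface -/
theorem Jv_cmp (G : GRP c) (hχ : Tst χ) (hΞ : ContDiff ℝ ∞ Ξ) (hχ' : Tst χ')
    (hΞ' : ContDiff ℝ ∞ Ξ') (hψ : Tst ψ) (k : Cmp c Z χ Ξ χ' Ξ' ψ) (a : V) :
    lam (Z c.Om) (star Z c.Om) (Jv c χ Ξ a) = lam (Z c.Om) (star Z c.Om) (Jv c χ' Ξ' a) := by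
  have e := congrArg (lam (Z c.Om) (star Z c.Om)) (stokes (c := c) hψ a)
  have e1 := fun m n => (lop_dens (sm_cK a) m n).cmp (dis_T0 m n) (fun _ => loc_T0 G m n) hχ hΞ hχ'
    hΞ' hψ k
  have e2 := (lop_bx a).cmp dis_l (fun _ => loc_l) hχ hΞ hχ' hΞ' hψ k
  have e3 : ∀ χ Ξ m n, P352X.dens χ Ξ (cK a) m n =
      fun x => ((χ x * (dr m Ξ x * (eta n * cK a x n)) : ℝ) : ℂ) := fun χ Ξ m n =>
    funext fun x => by rw [P352X.dens, mul_assoc]
  simp only [Jv, Tv_eq, e3, map_add, map_sum, map_smul, map_zero, e1, e2,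
    Finset.sum_add_distrib, smul_add] at e ⊢
  linear_combination e

/-- linearity in the direction -/
theorem Jv_sum (hχ : Tst χ) (hΞ : ContDiff ℝ ∞ Ξ) {ι : Type*} (s : Finset ι) (r : ι → ℝ)
    (a : ι → V) : Jv c χ Ξ (∑ i ∈ s, r i • a i) = ∑ i ∈ s, r i • Jv c χ Ξ (a i) := by
  have t1 : ∀ a m n, IsTest (dens χ Ξ (cK a) m n) := fun a m n =>
    (Ap.in_dens hχ (subset_univ _) hΞ (sm_cK a) m n).1
  have t2 : ∀ a, IsTest fun x => ((χ x * bx (fun x => Ξ x * mdot a x) x : ℝ) : ℂ) := fun a =>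
    tcx (Ap.cs_mul_r hχ ((lop_bx a).sm _ hΞ))
  have lin : ∀ (r : ℝ) a b, Jv c χ Ξ (a + r • b) = Jv c χ Ξ a + r • Jv c χ Ξ b := fun r a b => by
    have e1 : ∀ m n, T0 c m n (dens χ Ξ (cK (a + r • b)) m n) =
        T0 c m n (dens χ Ξ (cK a) m n) + r • T0 c m n (dens χ Ξ (cK b) m n) := fun m n => by
      rw [← Complex.coe_smul, ← dis_T0 m n _ _ _ (t1 a m n) (t1 b m n)]
      congr 1
      funext x
      simp only [P352X.dens, cK, md_add_l, md_smul_l, Pi.sub_apply, Pi.smul_apply, Pi.add_apply,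
        smul_eq_mul]
      push_cast
      ring
    have e2 : ∀ x, bx (fun x => Ξ x * mdot (a + r • b) x) x =
        bx (fun x => Ξ x * mdot a x) x + r * bx (fun x => Ξ x * mdot b x) x := fun x => by
      have s : ∀ a, ContDiff ℝ ∞ fun x => Ξ x * mdot a x := fun a => by fun_prop
      have s' := fun a => dif (Ap.smooth_cx (s a))
      have s'' := fun a h => dif (Ap.smooth_dv (Ap.smooth_cx (s a)) h)
      have q : ∀ h, dv h (fun x => ((Ξ x * mdot (a + r • b) x : ℝ) : ℂ)) = fun x =>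
          dv h (fun x => ((Ξ x * mdot a x : ℝ) : ℂ)) x +
            r * dv h (fun x => ((Ξ x * mdot b x : ℝ) : ℂ)) x := fun h => funext fun x => by
        rw [← Ap.dv_cmul, ← Ap.dv_add (s' a x) ((s' b x).const_mul _)]
        congr 1
        funext y
        simp only [md_add_l, md_smul_l]
        push_cast
        ring
      rw [← Complex.ofReal_inj, Complex.ofReal_add, Complex.ofReal_mul,
        ← congrFun (box_cx (s _)) x, ← congrFun (box_cx (s _)) x, ← congrFun (box_cx (s _)) x]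
      simp only [box, ← Ap.dv_bas, q, Finset.mul_sum, ← Finset.sum_add_distrib]
      refine Finset.sum_congr rfl fun m _ => ?_
      rw [Ap.dv_add (s'' a _ x) ((s'' b _ x).const_mul _), Ap.dv_cmul]
      ring
    have e3 : c.l (fun x => ((χ x * bx (fun x => Ξ x * mdot (a + r • b) x) x : ℝ) : ℂ)) =
        c.l (fun x => ((χ x * bx (fun x => Ξ x * mdot a x) x : ℝ) : ℂ)) +
          r • c.l fun x => ((χ x * bx (fun x => Ξ x * mdot b x) x : ℝ) : ℂ) := by
      rw [← Complex.coe_smul, ← c.hl.lin _ _ _ (t2 a) (t2 b)]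
      congr 1
      funext x
      rw [e2]
      push_cast
      ring
    simp only [Jv, Tv_eq, e1, e3, Finset.sum_add_distrib, ← Finset.smul_sum]
    module
  have z0 : Jv c χ Ξ 0 = 0 := by simpa using lin 1 0 0
  classical
  induction s using Finset.induction_on with
  | empty => simpa using z0
  | insert i s hi ih => rw [Finset.sum_insert hi, Finset.sum_insert hi, add_comm, lin, ih, add_comm]

/-! ### covariance -/

variable {L : Ix → V}

lemma sim_bas (L : Ix → V) (m : Ix) : sim 1 L 0 (bas m 1) = L m := by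
  funext n
  simp [sim, bas]

lemma dv_sim (hL : IsLor L) (hf : ContDiff ℝ ∞ f) (m : Ix) :
    (pd m fun x => f (sim 1 L 0 x)) = fun x => ∑ k, (L m k : ℂ) * pd k f (sim 1 L 0 x) := by
  funext x
  have := Ap.dv_aff ((conf_lor hL).cle : V →L[ℝ] V) 0 (x := x) (dif hf _) (bas m 1)
  simp only [add_zero, ContinuousLinearEquiv.coe_coe, Conf.cle_apply, sim_bas] at this
  rw [← Ap.dv_bas, this, dv]

lemma box_sim (hL : IsLor L) (hf : ContDiff ℝ ∞ f) (x : V) :
    box (fun x => f (sim 1 L 0 x)) x = box f (sim 1 L 0 x) := by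
  have e : ∀ m, pd m (pd m fun x => f (sim 1 L 0 x)) x =
      ∑ k, ∑ l, (L m k * L m l : ℂ) * pd l (pd k f) (sim 1 L 0 x) := fun m => by
    have s : ∀ k, ContDiff ℝ ∞ fun x => pd k f (sim 1 L 0 x) := fun k =>
      (Ap.smooth_pd hf k).comp (conf_lor hL).cle.contDiff
    rw [dv_sim hL hf, ← Ap.dv_bas, Ap.dv_sum fun k _ => (dif (s k) x).const_mul _]
    refine Finset.sum_congr rfl fun k _ => ?_
    rw [Ap.dv_cmul, Ap.dv_bas, dv_sim hL (Ap.smooth_pd hf k), Finset.mul_sum]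
    simp only [mul_assoc]
  simp only [box, e, Finset.mul_sum]
  rw [Finset.sum_comm]
  refine Finset.sum_congr rfl fun k _ => ?_
  rw [Finset.sum_comm]
  simp only [← mul_assoc, ← Finset.sum_mul, ← Complex.ofReal_mul, ← Complex.ofReal_sum,
    lor_transpose hL]
  rw [Finset.sum_eq_single k]
  all_goals simp +contextual [bas]

theorem Jv_cov (G : GRP c) (hL : IsLor L) (hχ : Tst χ) (hΞ : ContDiff ℝ ∞ Ξ) (a : V) :
    Ug c.Q 1 L 0 (Jv c (fun x => χ (sim 1 L 0 x)) (fun x => Ξ (sim 1 L 0 x)) a) =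
      Jv c χ Ξ (sim 1 L 0 a) := by
  have cf := conf_lor hL
  set b := sim 1 L 0 a
  have t1 : ∀ m n, IsTest (dens χ Ξ (cK b) m n) := fun m n =>
    (Ap.in_dens hχ (subset_univ _) hΞ (sm_cK b) m n).1
  have t2 : IsTest fun x => ((χ x * bx (fun x => Ξ x * mdot b x) x : ℝ) : ℂ) :=
    tcx (Ap.cs_mul_r hχ ((lop_bx b).sm _ hΞ))
  have e1 := G.pot 1 L 0 _ one_pos hL t2
  have e2 : ∀ x, bx (fun x => Ξ x * mdot b x) (sim 1 L 0 x) =
      bx (fun x => Ξ (sim 1 L 0 x) * mdot a x) x := fun x => by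
    have s : ContDiff ℝ ∞ fun x => Ξ x * mdot b x := by fun_prop
    have s' : ContDiff ℝ ∞ fun x => Ξ (sim 1 L 0 x) * mdot a x :=
      (hΞ.comp cf.cle.contDiff).mul (by fun_prop)
    rw [← Complex.ofReal_inj, ← congrFun (box_cx s) _, ← congrFun (box_cx s') _,
      ← box_sim hL (Ap.smooth_cx s)]
    simp only [b, md_LL hL]
  have e3 : ∀ m n, T0 c m n (dens χ Ξ (cK b) m n) = ∑ k, ∑ l, Ug c.Q 1 L 0 (T0 c k l fun x =>
      (L k m * L l n : ℂ) * dens χ Ξ (cK b) m n (sim 1 L 0 x)) := fun m n => by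
    have := congrArg (Completion.toComplL (𝕜 := ℂ))
      (c.hT.cov m n 1 L 0 _ c.Q.vac one_pos hL (t1 m n))
    simp only [map_sum, map_smul, c.Q.U_vac _ _ _ one_pos hL] at this
    refine this.trans (Finset.sum_congr rfl fun k _ => Finset.sum_congr rfl fun l _ => ?_)
    rw [(dis_T0 k l).smul _ (Ap.test_sim one_pos hL 0 (t1 m n)), map_smul, T0,
      G.coe _ _ _ _ one_pos hL]
    rfl
  have e4 : ∀ k l x, ∑ m, ∑ n, (L k m * L l n : ℂ) * dens χ Ξ (cK b) m n (sim 1 L 0 x) =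
      dens (fun x => χ (sim 1 L 0 x)) (fun x => Ξ (sim 1 L 0 x)) (cK a) k l x := fun k l x => by
    have q1 := congrFun (dv_sim hL (Ap.smooth_cx hΞ) k) x
    rw [Ap.pd_cx (u := fun x => Ξ (sim 1 L 0 x)) (dif (hΞ.comp cf.cle.contDiff) x)] at q1
    simp only [Ap.pd_cx (dif hΞ _)] at q1
    have q2 : eta l * cK a x l = ∑ n, L l n * (eta n * cK b (sim 1 L 0 x) n) := by
      have : cK b (sim 1 L 0 x) = sim 1 L 0 (cK a x) := by
        rw [cK, cK, md_LL hL, md_LL hL]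
        simp only [b, ← cf.cle_apply, map_sub, map_smul]
      rw [this, ← H755.mdot_bas, ← md_LL hL, sim_bas, GF.mdot]
      exact Finset.sum_congr rfl fun n _ => by ring
    simp only [P352X.dens, q2]
    push_cast
    rw [q1]
    simp only [Finset.mul_sum, Finset.sum_mul]
    rw [Finset.sum_comm]
    exact Finset.sum_congr rfl fun m _ => Finset.sum_congr rfl fun n _ => by ring
  simp only [one_pow, inv_one, one_smul, e2] at e1
  rw [Jv, Jv, map_add, ContinuousLinearMap.map_smul_of_tower, e1, Tv_eq, Tv_eq]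
  congr 1
  simp only [e3, map_sum]
  have t3 := fun k l m n => Ap.sw_cmul (L k m * L l n : ℂ) (Ap.test_sim one_pos hL 0 (t1 m n))
  symm
  calc _ = ∑ k, ∑ l, ∑ m, ∑ n, Ug c.Q 1 L 0 (T0 c k l fun x =>
      (L k m * L l n : ℂ) * dens χ Ξ (cK b) m n (sim 1 L 0 x)) := by
        simp only [← Finset.sum_product', Finset.univ_product_univ]
        exact Fintype.sum_equiv ⟨fun p => (p.2.2.1, p.2.2.2, p.1, p.2.1),
          fun p => (p.2.2.1, p.2.2.2, p.1, p.2.1), fun _ => rfl, fun _ => rfl⟩ _ _ fun _ => rfl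
    _ = _ := by
      refine Finset.sum_congr rfl fun k _ => Finset.sum_congr rfl fun l _ => ?_
      simp only [← map_sum]
      congr 1
      rw [← funext (e4 k l), (dis_T0 k l).sum _ fun m => Ap.sw_sum fun n _ => t3 k l m n]
      exact Finset.sum_congr rfl fun m _ => ((dis_T0 k l).sum _ (t3 k l m)).symm

end

end Vale.Agent.N352.Nt.Ad
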