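import Vale.Agent.N352.NAdB

/-!
# N352, row ADD, part C: the charge on the null plane
-/

set_option linter.all false

open MeasureTheory Filter Topology Set
open scoped SchwartzMap ComplexConjugate ContDiff

namespace Vale.Agent.N352.Nt.Ad

open Vale.Agent.P352 Vale.Agent.P352.GF Vale.Agent.P352.BW
open Vale.Agent.P352.H246 hiding nv
open Vale.Agent.P352.H496 hiding Bx
open Vale.Agent.P352.H755 Vale.Agent.P352.H15 Vale.Agent.P352X
open Vale.Agent.P352X.EE
open Vale.Agent.P132 (jconj)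
open UniformSpace (Completion)

noncomputable section

variable {D : Type*} [NormedAddCommGroup D] [InnerProductSpace ℂ D] {c : Ctx D}
  {X X' Z : Completion D →L[ℂ] Completion D} {A L : ℝ} {u ρ ρ' σ R θ p q : ℝ → ℝ} {v : R2 → ℝ}

lemma tp3 {φ : Fn → Completion D} (h : Dis φ) (a : ℝ) (hu : Tst u) (hv : Tst v) (hρ : Tst ρ)
    (hρ' : Tst ρ') (e : ∀ t, σ t = ρ t + a * ρ' t) :
    φ (tp u v σ) = φ (tp u v ρ) + a • φ (tp u v ρ') := by
  rw [← Complex.coe_smul, ← h _ _ a (test_tp hu hv hρ) (test_tp hu hv hρ')]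
  congr 1
  funext z
  simp only [tp_apply, e]
  push_cast
  ring

lemma Tv_lin {F G : Ix → Ix → Fn} (a : ℝ) (hF : ∀ m n, IsTest (F m n)) (hG : ∀ m n, IsTest (G m n)) :
    c.Tv (fun m n x => F m n x + a * G m n x) = c.Tv F + a • c.Tv G := by
  simp only [Tv_eq, fun m n => dis_T0 (c := c) m n _ _ a (hF m n) (hG m n), Finset.sum_add_distrib,
    ← Finset.smul_sum, Complex.coe_smul]

lemma tst_t (hρ : Tst ρ) : Tst fun t => t * ρ t := Ap.cs_mul_l contDiff_id hρ

lemma Tv_hX (h : V) (hu : Tst u) (hv : Tst v) (hρ : Tst ρ) :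
    c.Tv (hX h (cK va) (tp u v ρ)) = TT c h va (tp u (fun x => d2 x x * v x) ρ) +
      (2 : ℝ) • TT c h vb (tp u v fun t => t * (t * ρ t)) +
      (2 : ℝ) • TT c h (ex 0) (tp u (fun x => x 0 * v x) fun t => t * ρ t) +
      (2 : ℝ) • TT c h (ex 1) (tp u (fun x => x 1 * v x) fun t => t * ρ t) := by
  have t1 := Ap.test_hk h va (test_tp hu (tst_q hv) hρ)
  have t2 := Ap.test_hk h vb (test_tp hu hv (tst_t (tst_t hρ)))
  have t3 := fun i => Ap.test_hk h (ex i) (test_tp hu (tst_x i hv) (tst_t hρ))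
  simp only [TT]
  rw [← Tv_lin 2 t1 t2, ← Tv_lin 2 (fun m n => Ap.sw_lin _ (t1 m n) (t2 m n)) (t3 0),
    ← Tv_lin 2 (fun m n => Ap.sw_lin _ (Ap.sw_lin _ (t1 m n) (t2 m n)) (t3 0 m n)) (t3 1)]
  congr 1
  funext m n z
  rw [hX, Ap.cK_va, pt_eq, tv_eq]
  simp only [hk, tp_apply, Pi.add_apply, Pi.smul_apply, smul_eq_mul]
  push_cast
  ring

lemma bx_pq (hp : ContDiff ℝ ∞ p) (hq : ContDiff ℝ ∞ q) (z : V) :
    bx (fun z => p (al z) * q (be z)) z = 2 * (deriv p (al z) * deriv q (be z)) := by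
  have e : ∀ {p q : ℝ → ℝ}, ContDiff ℝ ∞ p → ContDiff ℝ ∞ q → ∀ h,
      dv h (fun z => ((p (al z) * q (be z) : ℝ) : ℂ)) = fun z =>
        ((al h * (deriv p (al z) * q (be z)) + be h * (p (al z) * deriv q (be z)) : ℝ) : ℂ) :=
    fun {p q} hp hq h => funext fun z => by
      have a := ((hp.differentiable (by simp) _).hasDerivAt.comp_hasFDerivAt z
        alL.hasFDerivAt).mul ((hq.differentiable (by simp) _).hasDerivAt.comp_hasFDerivAt z
        beL.hasFDerivAt)
      rw [Ap.dv_cx (dif (by fun_prop) z),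
        show fderiv ℝ (fun z => p (al z) * q (be z)) z = _ from a.fderiv]
      simp
      ring
  have s : ContDiff ℝ ∞ fun z => p (al z) * q (be z) := by fun_prop
  rw [← Complex.ofReal_inj, ← congrFun (box_cx s) z, Ap.box_eq (Ap.smooth_cx s)]
  simp only [e hp hq, al_vb, be_vb, al_ex, be_ex, zero_mul, one_mul, zero_add, Ap.dv_const,
    e hp (sm_d hq), al_va, be_va, add_zero, Finset.sum_const_zero, sub_zero]
  push_cast
  rfl

lemma uf (hL : 1 ≤ L) (t : ℝ) : uL (3 * L) t * fL L t = fL L t := by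
  have L0 : 0 < L := by linarith
  by_cases h : deriv kp (t / L) = 0
  · rw [fL, h, mul_zero, mul_zero]
  · have h1 := (one_le_div L0).1 (not_lt.1 (mt dkp1 h))
    have h2 := (div_le_iff₀ L0).1 (not_lt.1 (mt dkp0 h))
    rw [uL, chi1 (by linarith), kp1 ((div_le_one (by linarith)).2 (by linarith)), one_mul, one_mul]

lemma Jv_eq (hA : 40 ≤ A) (hL : 4 * A ≤ L) (hR : ContDiff ℝ ∞ R) (R0 : ∀ t ≤ (-1 : ℝ), R t = 0)
    (R1 : ∀ t ≥ (1 : ℝ), R t = 1) : Jv c (ch 1 A L) (Xi R L) va =
      c.Tv (hX va (cK va) (tp (uL L) (vL (32 * A * L)) (deriv R))) -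
        c.Tv (hX vb (cK va) (tp (fL L) (vL (32 * A * L)) fun t => (1 - R t) * sg 1 A t)) -
        (12 : ℝ) • c.l (tp (fL L) (vL (32 * A * L)) fun t =>
          deriv (fun t => (1 - R t) * t) t * sg 1 A t) := by
  have L0 : 0 < L := by linarith
  have tv : Tst (vL (32 * A * L)) := tst_vL (by positivity)
  have sq : ContDiff ℝ ∞ fun t => (1 - R t) * t := by fun_prop
  have tg : (cK va).HasTemperateGrowth := by
    unfold cK
    fun_prop
  have t1 := Ap.test_hX va tg (test_tp (tst_uL L0) tv (tst_dR hR R0 R1))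
  have ts : Tst fun t => (1 - R t) * sg 1 A t := Ap.cs_mul_l (contDiff_const.sub hR) tst_sg
  have t2 := Ap.test_hX vb tg (test_tp (tst_fL L0) tv ts)
  have t3 := test_tp (tst_fL L0) tv (Ap.cs_mul_l (sm_d sq) (tst_sg (u0 := 1) (A := A)))
  rw [Jv, sub_eq_add_neg, sub_eq_add_neg, ← neg_one_smul ℝ (c.Tv _), ← Tv_lin _ t1 t2,
    show (12 : ℝ) = 6 * 2 by norm_num, mul_smul, ← smul_neg, ← neg_smul, ← Complex.coe_smul (-2),
    ← dis_l.smul _ t3]
  congr 2
  · funext m n z
    have := congrFun (dens_eq zero_le_one (by linarith) hL hR R0 R1 m 0) z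
    simp only [P352X.dens, hk, tp_apply] at this
    simp only [P352X.dens, hX, tp_apply]
    have e : eta 0 * vb 0 = 1 / 2 := by simp [eta, o, vb]
    rw [e] at this
    push_cast at this ⊢
    linear_combination 2 * (eta n * cK va z n : ℂ) * this
  · congr 1
    funext z
    have := (lop_bx va).sub (fun _ => 1) (fun z => (1 - R (be z)) * kp (al z / L)) contDiff_const
      (by fun_prop) z
    simp only [(lop_bx va).cst] at this
    have e : (fun x => (1 - R (be x)) * kp (al x / L) * mdot va x) =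
        fun x => (fun t => kp (t / L)) (al x) * (fun t => (1 - R t) * t) (be x) :=
      funext fun x => by simp only [md_va]; ring
    rw [e, bx_pq (p := fun t => kp (t / L)) (by fun_prop) sq, (der_kp L _).deriv] at this
    simp only [Xi, this, ch, tp_apply]
    rw [← Complex.ofReal_mul, Complex.ofReal_inj]
    linear_combination (-2 * vL (32 * A * L) (tx z) * sg 1 A (be z) *
      deriv (fun t => (1 - R t) * t) (be z)) * uf (L := L) (by linarith) (al z)

/-- the second moment of the null energy -/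
lemma slab (T : T2 c) (bb : BB c) (s : St c A X X') (gX : c.Good X) (gX' : c.Good X') (hρ : Tst ρ)
    (r : tsupport ρ ⊆ Icc (-1) 1) :
    Tendsto (fun L => lam ((jconj c.J X' * X) c.Om) (star (jconj c.J X' * X) c.Om)
      (TT c va va (tp (uL L) (fun x => d2 x x * vL (32 * A * L) x) ρ))) atTop
      (𝓝 (-∫ u, (ρ u : ℂ) * inner ℂ (star (jconj c.J X') c.Om) (gen (c.Ky (u • vb)) (X c.Om)))) := by
  have hA := s.hA
  have A0 : 0 < A := by linarith
  have tk : Tst fun t => kp t * kp (-t) := tst_of (by fun_prop) (-2) 2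
    (fun t h => by rw [kp0 (t := -t) (by linarith), mul_zero]) fun t h => by rw [kp0 h.le, zero_mul]
  have t0 : Tst (vL (32 * A)) := tst_vL (by positivity)
  have b := bb 2 1 _ 1 _ 1 X X' chi (k3 (fun t => kp t * kp (-t)) (vL (32 * A))) _ 0 one_pos
    one_pos one_pos (fun z hz => ⟨by linarith [(abs_le.1 (dc_Bx' hz).2.1).2],
      by linarith [(abs_le.1 (dc_Bx' hz).1).1]⟩) (fun z hz => ⟨by
      linarith [(abs_le.1 (dc_Bx' hz).2.1).2], by linarith [(abs_le.1 (dc_Bx' hz).1).1]⟩)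
    s.hX gX s.hX' gX' sm_chi (fun _ => chi0) (fun _ => chi1) ⟨Ap.cs_prod tk t0, by
      filter_upwards [continuous_fst.continuousAt.eventually (Ioo_mem_nhds neg_one_lt_zero one_pos),
        (by fun_prop : Continuous fun y : P3 => d2 y.2 y.2).continuousAt.eventually
        (eventually_lt_nhds (b := 32 * A) (by simpa using A0))] with y y1 y2
      rw [k3, kp1 y1.2.le, kp1 (by linarith [y1.1]), vL1 (by positivity) y2]
      norm_num⟩ hρ (r.trans (Icc_subset_Ioo (by linarith) (by linarith)))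
  simp only [tv_zero, zero_add, sub_zero] at b
  have w := (wn T.grp T.bas (dis_T va va) (fun _ => Far.perp_Tv T.grp va va)
    (fun L hL _ => sc_T T.grp hL (sc_a hL) (sc_a hL)) tk (tst_q t0) hρ
    (U := fun L t => kp (t / L) * kp (-(t / L))) (W := fun L x => d2 x x * vL (32 * A * L) x)
    fun L hL t x => by
      have L0 := one_pos.trans_le hL
      rw [vL_sc L0, d2_smul, d2_smul_l, ← mul_assoc _ _ (d2 x x), ← mul_inv,
        Real.mul_self_sqrt L0.le]
      field_simp) (star (jconj c.J X' * X) c.Om)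
  have := w.sub b
  rw [inner_zero_right, zero_sub] at this
  refine this.congr' ?_
  filter_upwards [eventually_ge_atTop (1 : ℝ)] with L hL
  have L0 := one_pos.trans_le hL
  have tv := tst_q (tst_vL (M := 32 * A * L) (by positivity))
  have e0 : ∀ t : ℝ, EE.chi t * (kp (t / L) * kp (-(t / L))) = uL L t := fun t => by
    rcases le_total t (-1 / 2) with h | h
    · rw [uL, chi0 h, zero_mul, zero_mul]
    · rw [uL, kp1 (t := -(t / L)) (neg_le.1 ((le_div_iff₀ L0).2 (by linarith))), mul_one]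
  have tkL : Tst fun t => kp (t / L) * kp (-(t / L)) := by
    simpa only [smul_eq_mul, div_eq_inv_mul] using! Ap.cs_smul (inv_ne_zero L0.ne') tk
  have e1 := (dis_T (c := c) va va).tp (U := fun t => (1 - EE.chi t) * (kp (t / L) * kp (-(t / L))))
    (W := fun x => d2 x x * vL (32 * A * L) x) (-1) tkL tv (tst_uL L0) tv hρ fun t x => by
      rw [← e0]; ring
  rw [neg_one_smul, ← sub_eq_add_neg] at e1
  beta_reduce
  rw [sub_eq_iff_eq_add, ← sub_eq_iff_eq_add', EE.lam_apply, ← sub_add, add_comm,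
    ← inner_sub_right, ← e1, star_mul, ContinuousLinearMap.mul_apply, ContinuousLinearMap.mul_apply]
  symm
  unfold Ctx.om2
  congr 3 <;> funext m n z
  · simp only [bar, P352X.hk, pr, kL, k3, tp_apply, pl_1, pl_2, vL_sc L0, ← e0, star_mul',
      Complex.star_def, Complex.conj_ofReal]
    push_cast
    ring
  · simp only [P352X.hk, pr, kL, k3, tp_apply, pl_1, pl_2, vL_sc L0]
    push_cast
    ring

/-- the other terms on the slab -/
lemma rest (G : GRP c) (B : BAS c) (S : Sl c Z 1 A) (hA : 0 < A) (hρ : Tst ρ) (hθ : Tst θ)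
    (r : tsupport θ ⊆ Icc (-1) 1) (e : ∀ t, t * ρ t = deriv (deriv θ) t) : Nul c Z fun L =>
      TT c va vb (tp (uL L) (vL (32 * A * L)) fun t => t * (t * ρ t)) +
      TT c va (ex 0) (tp (uL L) (fun x => x 0 * vL (32 * A * L) x) fun t => t * ρ t) +
      TT c va (ex 1) (tp (uL L) (fun x => x 1 * vL (32 * A * L) x) fun t => t * ρ t) := by
  have hτ := tst_d hθ
  have r' := tsupport_deriv_subset.trans r
  have h2 : Tst fun t => t * deriv θ t + θ t := Ap.cs_add (tst_t hτ) hθ
  have r0 : ∀ t, deriv θ t ≠ 0 → |t| ≤ 1 := fun t h => abs_le.2 (r' (subset_tsupport _ h))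
  have r1 : ∀ t, deriv (deriv θ) t ≠ 0 → |t| ≤ 1 := fun t h =>
    abs_le.2 (r' (support_deriv_subset h))
  have r2 : ∀ t, t * deriv θ t + θ t ≠ 0 → |t| ≤ 1 := fun t h => by_contra fun k => h (by
    rw [by_contra fun j => k (r0 t j), by_contra fun j => k (abs_le.2 (r (subset_tsupport _ j))),
      mul_zero, add_zero])
  have p : ∀ L > (0 : ℝ), 0 < 32 * A * L := fun L hL => by positivity
  have tv : ∀ L > (0 : ℝ), Tst (vL (32 * A * L)) := fun L hL => tst_vL (p L hL)
  have t0 : Tst (vL (32 * A)) := tst_vL (by positivity)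
  have z : ∀ i, ∀ L > (0 : ℝ), ∀ x, d2 x x < 32 * A * L → di i (vL (32 * A * L)) x = 0 :=
    fun i L hL => di0 i fun x => vL1 (p L hL)
  have f1 := nul_a G B S hA (ad_T G (fun _ => sc_b) fun _ => sc_b) h2 r2 tv t0 fun L hL x => by
    rw [vL_sc hL, ← mul_inv, Real.mul_self_sqrt hL.le]
  have f2 := fun i => nul_a G B S hA (ad_T G (fun _ => sc_b) fun L _ => sc_e L i) hτ r0
    (fun L hL => tst_x i (tv L hL)) (tst_x i t0) fun L hL x => by
      rw [vL_sc hL, mul_one, Pi.smul_apply, smul_eq_mul, ← mul_assoc, ← mul_assoc, ← mul_assoc,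
        ← mul_inv, Real.mul_self_sqrt hL.le]
  have f3 := nul_a G B S hA (ad_l G) (tst_d hτ) r1 tv t0 fun L hL x => by rw [vL_sc hL]
  have g1 := fun i => nul_x S hA (fun _ => loc_T G (ex i) vb) h2 r2
    (fun L hL => tst_di i (tv L hL)) (z i)
  have g2 := fun i j => nul_x S hA (fun _ => loc_T G (ex j) (ex i)) hτ r0
    (fun L hL => tst_x i (tst_di j (tv L hL))) fun L hL x hx => by rw [z j L hL x hx, mul_zero]
  have g3 := fun i => nul_x S hA (fun _ => loc_l) hτ r0
    (fun L hL => tst_di i (tst_di i (tv L hL))) fun L hL => di0 i (z i L hL)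
  have := (((g1 0).add (g1 1)).sub f1).add (((((g2 0 0).add (g2 0 1)).sub (f2 0)).add
    (((g2 1 0).add (g2 1 1)).sub (f2 1))).sub ((((f3.const_smul (2 : ℝ)).sub (g3 0)).sub
      (g3 1)).const_smul (3 : ℝ)))
  simp only [add_zero, sub_zero, smul_zero] at this
  refine this.congr' ?_
  filter_upwards [eventually_gt_atTop (0 : ℝ)] with L hL
  simp only [← map_add, ← map_sub, ← map_smul]
  congr 1
  have hu := tst_uL hL
  have hv := tv L hL
  have e1 : ∀ i j, TT c (ex j) (ex i) (tp (uL L) (di j fun x => x i * vL (32 * A * L) x) (deriv θ)) =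
      TT c (ex j) (ex i) (tp (uL L) (fun x => x i * di j (vL (32 * A * L)) x) (deriv θ)) +
        e2 j i • TT c (ex j) (ex i) (tp (uL L) (vL (32 * A * L)) (deriv θ)) :=
    fun i j => (dis_T _ _).tp _ hu (tst_x i (tst_di j hv)) hu hv hτ fun t x => by
      rw [di_x hv]
      ring
  have e2 := tp3 (dis_T (c := c) va vb) 2 hu hv (tst_t (tst_t hρ)) hτ
    (σ := deriv fun t => t * deriv θ t + θ t) fun t => by
      rw [show deriv (fun t => t * deriv θ t + θ t) t = _ from (((hasDerivAt_id' t).mul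
        (hτ.diff t).hasDerivAt).add (hθ.diff t).hasDerivAt).deriv, e]
      ring
  rw [cons G _ hu hv h2] at e2
  rw [funext e, cons G _ hu (tst_x 0 hv) hτ, cons G _ hu (tst_x 1 hv) hτ, e1, e1, e1, e1]
  simp only [← e, e2_self, one_smul, show P352X.e2 0 1 = 0 from rfl, show P352X.e2 1 0 = 0 from rfl,
    zero_smul]
  linear_combination (norm := module) e2 - trace G hu hv hτ

/-- the charge on the null plane -/
theorem eval (T : T2 c) (bb : BB c) (s : St c A X X') (gX : c.Good X) (gX' : c.Good X')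
    (hR : ContDiff ℝ ∞ R) (R0 : ∀ t ≤ (-1 : ℝ), R t = 0) (R1 : ∀ t ≥ (1 : ℝ), R t = 1) (hθ : Tst θ)
    (r : tsupport θ ⊆ Icc (-1) 1) (e : ∀ t, t * deriv R t = deriv (deriv θ) t) :
    Tendsto (fun L => lam ((jconj c.J X' * X) c.Om) (star (jconj c.J X' * X) c.Om)
      (Jv c (ch 1 A L) (Xi R L) va)) atTop (𝓝 (-∫ u, ((deriv R u : ℝ) : ℂ) *
        inner ℂ (star (jconj c.J X') c.Om) (gen (c.Ky (u • vb)) (X c.Om)))) := by
  have hA := s.hA
  have A0 : 0 < A := by linarith
  have G := T.grp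
  have t1 := tst_dR hR R0 R1
  have t0 : Tst (vL (32 * A)) := tst_vL (by positivity)
  have ts : Tst fun t => (1 - R t) * sg 1 A t := Ap.cs_mul_l (contDiff_const.sub hR) tst_sg
  have sq : ContDiff ℝ ∞ fun t => (1 - R t) * t := by fun_prop
  set Z := jconj c.J X' * X
  have f1 := nul_f (Z := Z) G T.bas (ad_T G (fun _ => sc_b) fun _ => sc_a) ts
    (W := fun L x => d2 x x * vL (32 * A * L) x) (tst_q t0) fun L hL x => by
      rw [vL_sc hL, inv_mul_cancel₀ (Real.sqrt_pos.2 hL).ne', d2_smul, d2_smul_l,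
        ← mul_assoc _ _ (d2 x x), ← mul_inv, Real.mul_self_sqrt hL.le, one_mul, mul_assoc (L⁻¹)]
  have f2 := nul_f (Z := Z) G T.bas (ad_T G (fun _ => sc_b) fun _ => sc_b) (tst_t (tst_t ts))
    (W := fun L => vL (32 * A * L)) t0 fun L hL x => by
      rw [vL_sc hL, ← mul_inv, Real.mul_self_sqrt hL.le]
  have f3 := fun i => nul_f (Z := Z) G T.bas (ad_T G (fun _ => sc_b) fun L _ => sc_e L i) (tst_t ts)
    (W := fun L x => x i * vL (32 * A * L) x) (tst_x i t0) fun L hL x => by
      rw [vL_sc hL, mul_one, Pi.smul_apply, smul_eq_mul, ← mul_assoc, ← mul_assoc, ← mul_assoc,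
        ← mul_inv, Real.mul_self_sqrt hL.le]
  have f4 := nul_f (Z := Z) G T.bas (ad_l G) (Ap.cs_mul_l (sm_d sq) (tst_sg (u0 := 1) (A := A)))
    (W := fun L => vL (32 * A * L)) t0 fun L hL x => by rw [vL_sc hL]
  have := (((slab T bb s gX gX' t1 (Ap.tsupp_sub isClosed_Icc (dR R0 R1))).add
    ((rest G T.bas (fun L hL z => sp s.J s.dd (by linarith) s.hX s.hX' hL) A0 t1 hθ r e).const_smul
      (2 : ℝ))).sub (((f1.add (f2.const_smul (2 : ℝ))).add ((f3 0).const_smul (2 : ℝ))).add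
        ((f3 1).const_smul (2 : ℝ)))).sub (f4.const_smul (12 : ℝ))
  simp only [add_zero, sub_zero, smul_zero] at this
  refine this.congr' ?_
  filter_upwards [eventually_ge_atTop (4 * A)] with L hL
  have L0 : 0 < L := by linarith
  have tv : Tst (vL (32 * A * L)) := tst_vL (by positivity)
  simp only [Z, ← map_add, ← map_sub, ← map_smul]
  congr 1
  rw [Jv_eq hA hL hR R0 R1, Tv_hX _ (tst_uL L0) tv t1, Tv_hX _ (tst_fL L0) tv ts]
  module

end

end Vale.Agent.N352.Nt.Ad
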