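import Vale.Agent.N352.NDef
import Vale.Agent.P352X.EG.LIFT

/-!
# N352: row CLO, from the products to the commutant
-/

set_option linter.all false

open Filter Topology

namespace Vale.Agent.N352.Nt

open Vale.Agent.P352 Vale.Agent.P352.GF Vale.Agent.P352.BW Vale.Agent.P352.H246
open Vale.Agent.P352.H496 Vale.Agent.P352.H755 Vale.Agent.P352.H15 Vale.Agent.P352X
open UniformSpace (Completion)

noncomputable section

variable {D : Type*} [NormedAddCommGroup D] [InnerProductSpace ℂ D] {c : Ctx D}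

theorem al_mono {Q : Theory D} {O O' : Set V} (e : O ⊆ O') {X X' : D → D} (h : Al Q O X X') :
    Al Q O' X X' := by
  induction h with
  | one => exact .one
  | add X X' Y Y' _ _ a b => exact .add _ _ _ _ a b
  | smul z X X' _ a => exact .smul _ _ _ a
  | fld A B g X X' h1 h2 h3 h4 _ a =>
    exact .fld _ _ _ _ _ h1 h2 h3 ⟨h4.1, h4.2.1, h4.2.2.trans e⟩ a

theorem al_cpt {Q : Theory D} {O : Set V} {X X' : D → D} (h : Al Q O X X') :
    ∃ C, IsCompact C ∧ C ⊆ O ∧ Al Q C X X' := by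
  induction h with
  | one => exact ⟨∅, isCompact_empty, Set.empty_subset _, .one⟩
  | add X X' Y Y' _ _ a b =>
    obtain ⟨C, a1, a2, a3⟩ := a
    obtain ⟨C', b1, b2, b3⟩ := b
    exact ⟨C ∪ C', a1.union b1, Set.union_subset a2 b2,
      .add _ _ _ _ (al_mono Set.subset_union_left a3) (al_mono Set.subset_union_right b3)⟩
  | smul z X X' _ a => exact a.imp fun C a => ⟨a.1, a.2.1, .smul _ _ _ a.2.2⟩
  | fld A B g X X' h1 h2 h3 h4 _ a =>
    obtain ⟨C, a1, a2, a3⟩ := a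
    exact ⟨C ∪ tsupport g, a1.union h4.2.1, Set.union_subset a2 h4.2.2, .fld _ _ _ _ _ h1 h2 h3
      ⟨h4.1, h4.2.1, Set.subset_union_right⟩ (al_mono Set.subset_union_left a3)⟩

/-- **The algebras of wedges are inner regular.** -/
theorem wdg_reg (t : T1 c) {a b : V} (ha : IsNull a) (hb : IsNull b) (hab : 0 < mdot a b) (y : V)
    {x : Completion D →L[ℂ] Completion D}
    (hx : ∀ K, IsCompact K → K ⊆ Wdg b a y → ∀ Y ∈ c.N K, Y * x = x * Y) :
    x ∈ c.N (Wdg a b y) := by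
  refine mem_of_comm fun Z hZ => ?_
  let 𝒜 : Set (Completion D →L[ℂ] Completion D) :=
    {Y | ∃ C, IsCompact C ∧ C ⊆ Wdg b a y ∧ Y ∈ c.N C}
  have sub : ∀ Y ∈ 𝒜, Y ∈ (c.N (Wdg a b y)).commutant := fun Y ⟨C, _, k, k'⟩ => by
    rw [t.jc.dual a b y ha hb hab]
    exact c.N_mono k _ k'
  have hs : ∀ Y ∈ 𝒜, star Y ∈ 𝒜 := fun Y ⟨C, k1, k2, k3⟩ => ⟨C, k1, k2, star_mem k3⟩
  have hc : ∀ Y ∈ 𝒜, Y * x = x * Y := fun Y ⟨C, k1, k2, k3⟩ => hx C k1 k2 Y k3
  have hd : Dense {z | ∃ Y ∈ 𝒜, Y c.Om = z} := by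
    obtain ⟨p, hp⟩ := wdg_nonempty hb ha (by rwa [H755.md_comm]) y
    obtain ⟨C, c1, c2, c3⟩ := exists_compact_subset (wdg_open b a y) hp
    refine (t.grp.rs _ isOpen_interior ⟨p, c2⟩).mono ?_
    rintro z ⟨X, hX, e⟩
    exact ⟨X, ⟨C, c1, c3, c.N_mono interior_subset _ hX⟩, e⟩
  have p : Pr (c.N (Wdg a b y)) c.Om (x c.Om) (star x c.Om) :=
    t.jc.core a b y _ _ ha hb hab fun X X' hX => by
      obtain ⟨C, c1, c2, c3⟩ := al_cpt hX
      rw [star_inner]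
      exact (t.grp.affa _ _ _ c3).2 x
        (VonNeumannAlgebra.mem_commutant_iff.2 (hx C c1 c2)) _ _
  have k : ∀ A ∈ 𝒜, ∀ B ∈ 𝒜, inner ℂ (A c.Om) ((x * Z) (B c.Om)) =
      inner ℂ (A c.Om) ((Z * x) (B c.Om)) := fun A hA B hB => by
    have e := pr_iff.1 p (star A * Z * B) (mul_mem (mul_mem (sub _ (hs A hA)) hZ) (sub B hB))
    have e1 : B (x c.Om) = x (B c.Om) := DFunLike.congr_fun (hc B hB) _
    have e2 : ∀ v, star A (x v) = x (star A v) := DFunLike.congr_fun (hc _ (hs A hA))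
    rw [star_inner] at e
    simp only [ContinuousLinearMap.mul_apply, e1, ← e2, inner_star] at e ⊢
    exact e.symm
  refine fun v => (congrFun (Continuous.ext_on hd (x * Z).continuous (Z * x).continuous ?_) v).symm
  rintro _ ⟨B, hB, rfl⟩
  exact hd.eq_of_inner_right ℂ (by rintro _ ⟨A, hA, rfl⟩; exact k A hA B hB)

variable {U U' M M' : Set V} {Y Z : Completion D →L[ℂ] Completion D}

theorem Op.anti {K : Set V} (h : Op U K) (e : U' ⊆ U) : Op U' K := by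
  obtain ⟨k, a, b, y, ha, hb, hab, h1, h2⟩ := h
  exact ⟨k, a, b, y, ha, hb, hab, e.trans h1, h2⟩

theorem Pd.mono (h : Pd c U M Z) (e' : U' ⊆ U) (e : M ⊆ M') : Pd c U' M' Z := by
  induction h with
  | one => exact .one
  | mul K Y Z h1 h2 h3 h4 _ ih => exact .mul K Y Z (h1.anti e') (h2.trans e) h3 h4 ih

theorem Pd.mul' (h : Pd c U M Y) (h' : Pd c U M Z) : Pd c U M (Y * Z) := by
  induction h with
  | one => rwa [one_mul]
  | mul K X Y h1 h2 h3 h4 _ ih => exact mul_assoc X Y Z ▸ .mul K X _ h1 h2 h3 h4 ih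

theorem Pd.of {K : Set V} (h1 : Op U K) (h2 : K ⊆ M) (h3 : Y ∈ c.N K) (h4 : Sm c Y) :
    Pd c U M Y := mul_one Y ▸ .mul K Y 1 h1 h2 h3 h4 .one

theorem Pd.star (s : SMO c) (h : Pd c U M Z) : Pd c U M (star Z) := by
  induction h with
  | one =>
    rw [star_one]
    exact .one
  | mul K Y Z h1 h2 h3 h4 _ ih =>
    exact star_mul Y Z ▸ ih.mul' (.of h1 h2 (star_mem h3) (s.star Y h4))

/-- **row CLO** -/
theorem clo_row (t : T1 c) (s : SMO c) (du : Du c) : CLO c := by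
  intro U ξ ξ' hU h
  refine pr_iff.2 fun Z hZ => EG.LiftAux.dns2 {Y | ∃ M, IsCompact M ∧ U ⊆ M ∧ Pd c U M Y}
    ⟨U, hU, subset_rfl, .one⟩
    (fun Y ⟨M, k1, k2, k3⟩ Y' ⟨M', l1, l2, l3⟩ => ⟨M ∪ M', k1.union l1,
      k2.trans Set.subset_union_left, (k3.mono subset_rfl Set.subset_union_left).mul'
        (l3.mono subset_rfl Set.subset_union_right)⟩)
    (fun Y ⟨M, k1, k2, k3⟩ => ⟨M, k1, k2, k3.star s⟩) Z (fun x hx => comm_mul (du U x ?_) hZ)
    ξ c.Om c.Om ξ' fun Y ⟨M, k1, k2, k3⟩ => star_inner Y _ _ ▸ h M Y k1 k2 k3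
  refine fun a b y ha hb hab hW => wdg_reg t ha hb hab y fun K hK hKW X hX => ?_
  obtain ⟨K', Y, k1, k2, k3, k4⟩ := s.apx K _ X hK (wdg_open b a y) hKW hX
  ext v
  refine tendsto_nhds_unique (k4 (x v)).1 ((x.continuous.tendsto _).comp (k4 v).1 |>.congr
    fun n => (DFunLike.congr_fun (hx (Y n) ⟨U ∪ K', hU.union k1, Set.subset_union_left,
      .of ⟨k1, a, b, y, ha, hb, hab, hW, k2⟩ Set.subset_union_right (k3 n).1 (k3 n).2.1⟩) v).symm)

end

end Vale.Agent.N352.Nt
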