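import Vale.Agent.N352.NAll
import Vale.Agent.N352.NAdd

/-!
# N352: the potential is local relative to the dual net
-/

set_option linter.all false

namespace Vale.Agent.N352.Nt

open Vale.Agent.P352X

variable {D : Type*} [NormedAddCommGroup D] [InnerProductSpace ℂ D] {c : Ctx D}

/-- **N2** -/
theorem n2 (t : T3 c) (bb : BB c) (dd : DD c) (g1 : G1 c) (du : Du c) : LOC c :=
  loc_of t bb dd g1 du (Ad.add_row t bb dd (gw_row t.toT2.toT1) (smo_row t.toT2.toT1))

end Vale.Agent.N352.Nt
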