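import Vale.Agent.N352.NGw
import Vale.Agent.P352X.R.GOOD.B

/-!
# N352: smearing over the solvable group
-/

set_option linter.all false

noncomputable section

open Filter Topology Metric Set MeasureTheory Function
open scoped ContDiff

namespace Vale.Agent.N352.Nt.S7

open Vale.Agent.P352 Vale.Agent.P352.GF Vale.Agent.P352X
open Vale.Agent.P352X.Gd (St st_const cur cur_sm)
open Real (exp)

/-- the boosts -/
def bo (t : ℝ) (z : V) : V := pt (exp t * al z) (exp (-t) * be z) (tx z)

@[simp] theorem al_bo (t : ℝ) (z : V) : al (bo t z) = exp t * al z := al_pt _ _ _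
@[simp] theorem be_bo (t : ℝ) (z : V) : be (bo t z) = exp (-t) * be z := be_pt _ _ _
@[simp] theorem tx_bo (t : ℝ) (z : V) : tx (bo t z) = tx z := tx_pt _ _ _

theorem bo_eq (t : ℝ) (z : V) : scp (exp t) (exp (-t)) z = bo t z := by
  rw [scp, sqrt_exp_neg, one_smul, bo]

/-- the linear part of the inverse -/
def Lm (t : ℝ) (w : R2) (y : V) : V := gw (-w) (bo (-t) y)

/-- the group law -/
def ml (q r : G7) : G7 := (q.1 + r.1, exp r.1 • q.2.1 + r.2.1, Lm r.1 r.2.1 q.2.2 + r.2.2)

/-- the inverse -/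
def iv (p : G7) : G7 := (-p.1, -(exp (-p.1) • p.2.1), -Lm (-p.1) (-(exp (-p.1) • p.2.1)) p.2.2)

/-- the point map -/
def ac (q : G7) (z : V) : V := bo q.1 (gw q.2.1 (z + q.2.2))

theorem Lm_add (t w x y) : Lm t w (x + y) = Lm t w x + Lm t w y :=
  null_ext (by simp [Lm]; ring) (by simp [Lm, d2_add]; ring) (by simp [Lm]; module)

theorem Lm_neg (t w x) : Lm t w (-x) = -Lm t w x :=
  null_ext (by simp [Lm]) (by simp [Lm, d2_neg]; ring) (by simp [Lm]; module)

theorem Lm_zero (x) : Lm 0 0 x = x := null_ext (by simp [Lm]) (by simp [Lm]) (by simp [Lm])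

theorem Lm_0 (t w) : Lm t w 0 = 0 := null_ext (by simp [Lm]) (by simp [Lm]) (by simp [Lm])

theorem Lm_Lm (t w t' w' x) : Lm t' w' (Lm t w x) = Lm (t + t') (exp t' • w + w') x := by
  have := Real.exp_ne_zero t
  have := Real.exp_ne_zero t'
  apply Grp.vext <;> simp [Lm, d2, Real.exp_add, Real.exp_neg, -tx_0, -tx_1] <;> field_simp <;> ring

theorem ml_iv (p : G7) : ml p (iv p) = 0 := by simp [ml, iv]

theorem iv_ml (p : G7) : ml (iv p) p = 0 := by
  simp [ml, iv, smul_smul, ← Real.exp_add, Lm_neg, Lm_Lm, Lm_zero]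

theorem ml_assoc (p q r : G7) : ml (ml p q) r = ml p (ml q r) := by
  simp [ml, smul_smul, add_assoc, Real.exp_add, mul_comm, Lm_add, Lm_Lm]

theorem zero_ml (p : G7) : ml 0 p = p := by simp [ml, Lm_0]

theorem iv_ml_ml (q p : G7) : ml (iv q) (ml q p) = p := by rw [← ml_assoc, iv_ml, zero_ml]

theorem ml_iv_ml (q p : G7) : ml q (ml (iv q) p) = p := by rw [← ml_assoc, ml_iv, zero_ml]

theorem ac_zero (z : V) : ac 0 z = z := null_ext (by simp [ac]) (by simp [ac]) (by simp [ac])

theorem ac_ml (q r : G7) (z : V) : ac q (ac r z) = ac (ml q r) z := by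
  have := Real.exp_ne_zero q.1
  have := Real.exp_ne_zero r.1
  apply Grp.vext <;> simp [ac, ml, Lm, d2, Real.exp_add, Real.exp_neg, -tx_0, -tx_1] <;>
    field_simp <;> ring

section

variable {X : Type*} [NormedAddCommGroup X] [NormedSpace ℝ X] {a b : X → G7}

@[fun_prop] theorem sm_ml (ha : ContDiff ℝ ∞ a) (hb : ContDiff ℝ ∞ b) :
    ContDiff ℝ ∞ fun x => ml (a x) (b x) := by
  unfold ml Lm gw bo
  fun_prop

@[fun_prop] theorem sm_iv (ha : ContDiff ℝ ∞ a) : ContDiff ℝ ∞ fun x => iv (a x) := by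
  unfold iv Lm gw bo
  fun_prop

end

theorem ct_ac : Continuous fun p : G7 × V => ac p.1 p.2 := by
  unfold ac gw bo
  fun_prop

theorem ct_ml : Continuous (uncurry ml) := (sm_ml contDiff_fst contDiff_snd).continuous

theorem ct_iv : Continuous iv := (sm_iv contDiff_id).continuous

theorem int_ml {E : Type*} [NormedAddCommGroup E] [NormedSpace ℝ E] (q : G7) (F : G7 → E) :
    ∫ p, F (ml q p) = ∫ p, F p := by
  let e : G7 ≃ₜ G7 := ⟨⟨ml q, ml (iv q), iv_ml_ml q, ml_iv_ml q⟩, ct_ml.uncurry_left q,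
    ct_ml.uncurry_left _⟩
  have m : Continuous fun p : ℝ × R2 => Lm p.1 p.2 q.2.2 := by
    unfold Lm gw bo
    fun_prop
  exact ((measurePreserving_add_left volume q.1).skew_product (μc := volume.prod volume)
    (μd := volume.prod volume)
    (g := fun a (b : R2 × V) => (exp a • q.2.1 + b.1, Lm a b.1 q.2.2 + b.2))
    (Continuous.measurable (by fun_prop)) (.of_forall fun a =>
      ((measurePreserving_add_left volume (exp a • q.2.1)).skew_product (μc := volume)
        (μd := volume) (g := fun w (y : V) => Lm a w q.2.2 + y) (Continuous.measurable (by fun_prop))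
        (.of_forall fun w => map_add_left_eq_self _ _)).map_eq)).integral_comp
    e.measurableEmbedding F

theorem loc {A : Set G7} (hA : IsCompact A) (x : G7) : ∃ K, IsCompact K ∧ ∀ q ∈ ball x 1, ∀ p ∉ K,
    ml (iv q) p ∉ A :=
  ⟨_, ((isCompact_closedBall x 1).prod hA).image ct_ml, fun q hq p hp h =>
    hp ⟨(q, _), ⟨ball_subset_closedBall hq, h⟩, ml_iv_ml q p⟩⟩

theorem bump {U : Set G7} (hU : U ∈ 𝓝 0) : ∃ h : G7 → ℝ, ContDiff ℝ ∞ h ∧ HasCompactSupport h ∧
    tsupport h ⊆ U ∧ (∀ p, 0 ≤ h p) ∧ ∫ p, h p = 1 := by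
  obtain ⟨r, r0, hr⟩ := nhds_basis_closedBall.mem_iff.1 hU
  let b : ContDiffBump (0 : G7) := ⟨r / 2, r, half_pos r0, half_lt_self r0⟩
  exact ⟨b.normed volume, b.contDiff_normed, b.hasCompactSupport_normed,
    b.tsupport_normed_eq.trans_subset hr, b.nonneg_normed, b.integral_normed⟩

variable {H : Type*} [NormedAddCommGroup H] [InnerProductSpace ℂ H] [CompleteSpace H] {C : ℝ}

section K

variable (K : Set G7) [CompactSpace K] {S : G7 → H →L[ℂ] H}

theorem cK : IsCompact K := isCompact_iff_compactSpace.2 inferInstance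

/-- the measure on `K` -/
def mK : Measure K := volume.comap Subtype.val

instance : IsFiniteMeasure (mK K) :=
  ⟨by rw [mK, comap_subtype_coe_apply (cK K).measurableSet]; simpa using (cK K).measure_lt_top⟩

theorem int_K {ψ : G7 → H} (h : ∀ p ∉ K, ψ p = 0) : ∫ k : K, ψ k ∂mK K = ∫ p, ψ p :=
  (integral_subtype_comap (cK K).measurableSet ψ).trans
    (setIntegral_eq_integral_of_forall_compl_eq_zero h)

theorem intK (h : St S C) (φ : C(K, H)) : Integrable (fun k : K => S k (φ k)) (mK K) :=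
  ((h.comp continuous_subtype_val).app φ.continuous).integrable_of_hasCompactSupport
    (.of_compactSpace _)

theorem leK (h : St S C) (φ : C(K, H)) (k : K) : ‖S k (φ k)‖ ≤ C * ‖φ‖ :=
  ((S k).le_of_opNorm_le (h.bd _) _).trans (mul_le_mul_of_nonneg_left (φ.norm_coe_le_norm k) h.nn)

/-- integration against a strongly continuous family -/
def TK (h : St S C) : C(K, H) →L[ℂ] H :=
  LinearMap.mkContinuous
    { toFun φ := ∫ k : K, S k (φ k) ∂mK K
      map_add' φ ψ := by simp [integral_add (intK K h φ) (intK K h ψ)]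
      map_smul' a φ := by simp [integral_smul] } (C * (mK K).real univ) fun φ =>
    (norm_integral_le_of_norm_le_const (.of_forall (leK K h φ))).trans_eq (mul_right_comm _ _ _)

variable (H) in
/-- products of scalar functions and vectors -/
def mv : C(K, ℂ) →L[ℂ] H →L[ℂ] C(K, H) :=
  LinearMap.mkContinuous₂ (LinearMap.mk₂ ℂ (fun φ v => φ • ContinuousMap.const K v)
    (fun _ _ _ => add_smul _ _ _) (fun _ _ _ => by ext; simp [mul_smul])
    (fun _ _ _ => by ext; simp) fun _ _ _ => by ext; simp [smul_smul, mul_comm]) 1 fun φ v =>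
    (ContinuousMap.norm_le _ (by positivity)).2 fun k => by
      simpa [norm_smul] using mul_le_mul_of_nonneg_right (φ.norm_coe_le_norm k) (norm_nonneg v)

/-- operator valued integration -/
def LK (h : St S C) : C(K, ℂ) →L[ℂ] H →L[ℂ] H :=
  (ContinuousLinearMap.compL ℂ H _ H (TK K h)).comp (mv H K)

theorem LK_apply (h : St S C) (φ v) : LK K h φ v = ∫ k : K, φ k • S k v ∂mK K := by
  simp only [← map_smul]
  rfl

/-- the inclusion -/
def jK : C(K, G7) := ⟨Subtype.val, continuous_subtype_val⟩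

end K

variable {h : G7 → ℝ} {S : G7 → H →L[ℂ] H} {X Z : H →L[ℂ] H}

theorem int_h (sh : Continuous h) (ch : HasCompactSupport h) {Φ : G7 → H} (hΦ : Continuous Φ) :
    Integrable fun p => (h p : ℂ) • Φ p :=
  ((Complex.continuous_ofReal.comp sh).smul hΦ).integrable_of_hasCompactSupport
    (ch.comp_left (g := fun x : ℝ => (x : ℂ)) Complex.ofReal_zero).smul_right

theorem approx {E : Type*} [NormedAddCommGroup E] [NormedSpace ℝ E] [CompleteSpace E]
    (sh : Continuous h) (ch : HasCompactSupport h) (h0 : ∀ p, 0 ≤ h p)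
    (h1 : ∫ p, h p = 1) {Φ : G7 → E} (hΦ : Continuous Φ) {x : E} {ε : ℝ}
    (k : ∀ p ∈ tsupport h, ‖Φ p - x‖ ≤ ε) : ‖(∫ p, h p • Φ p) - x‖ ≤ ε := by
  have e : ∫ p, h p • x = x := by rw [integral_smul_const, h1, one_smul]
  rw [← e, ← integral_sub ((sh.fun_smul hΦ).integrable_of_hasCompactSupport ch.smul_right)
    ((sh.fun_smul continuous_const).integrable_of_hasCompactSupport ch.smul_right)]
  refine (norm_integral_le_of_norm_le ((sh.integrable_of_hasCompactSupport ch).mul_const ε)
    (.of_forall fun p => ?_)).trans_eq (by rw [integral_mul_const, h1, one_mul])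
  rw [← smul_sub, norm_smul, Real.norm_of_nonneg (h0 p)]
  by_cases c : p ∈ tsupport h
  · exact mul_le_mul_of_nonneg_left (k p c) (h0 p)
  · simp [image_eq_zero_of_notMem_tsupport c]

/-- `X` is the strong integral -/
def Si (h : G7 → ℝ) (S : G7 → H →L[ℂ] H) (X : H →L[ℂ] H) : Prop :=
  ∀ v, X v = ∫ p, (h p : ℂ) • S p v

theorem ex_si (k : St S C) (sh : Continuous h) (ch : HasCompactSupport h) : ∃ X, Si h S X := by
  have := isCompact_iff_compactSpace.1 ch
  exact ⟨LK (tsupport h) k ⟨fun p => h p, by fun_prop⟩, fun v => (LK_apply _ k _ v).trans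
    (int_K _ (ψ := fun p => (h p : ℂ) • S p v) fun p c => by
      simp [image_eq_zero_of_notMem_tsupport c])⟩

theorem Si.star (m : Si h S X) (sh : Continuous h) (ch : HasCompactSupport h) (k : St S C)
    (k' : St (fun p => star (S p)) C) : Si h (fun p => star (S p)) (star X) := fun v =>
  ext_inner_left ℂ fun w => by
    rw [ContinuousLinearMap.star_eq_adjoint, ContinuousLinearMap.adjoint_inner_right,
      ← inner_conj_symm, m, ← integral_inner (int_h sh ch (k.ct w)), ← integral_conj,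
      ← integral_inner (int_h sh ch (k'.ct v))]
    simp only [inner_smul_right, map_mul, Complex.conj_ofReal, inner_conj_symm,
      ContinuousLinearMap.star_eq_adjoint, ContinuousLinearMap.adjoint_inner_right]

theorem Si.mem (m : Si h S X) (sh : Continuous h) (ch : HasCompactSupport h) (k : St S C)
    {M : VonNeumannAlgebra H} (hM : ∀ p ∈ tsupport h, S p ∈ M) : X ∈ M := by
  rw [← M.commutant_commutant, VonNeumannAlgebra.mem_commutant_iff]
  refine fun Y hY => ContinuousLinearMap.ext fun v => ?_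
  rw [ContinuousLinearMap.mul_apply, ContinuousLinearMap.mul_apply, m, m,
    ← Y.integral_comp_comm (int_h sh ch (k.ct v))]
  refine integral_congr_ae (.of_forall fun p => ?_)
  by_cases c : p ∈ tsupport h
  · have := congrArg (· v) (VonNeumannAlgebra.mem_commutant_iff.1 hY _ (hM p c))
    simp only [ContinuousLinearMap.mul_apply] at this
    simp only [map_smul, this]
  · simp [image_eq_zero_of_notMem_tsupport c]

/-- unitary representations -/
structure Rp (g : G7 → H →L[ℂ] H) : Prop where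
  mul : ∀ q r, g q * g r = g (ml q r)
  one : g 0 = 1
  uni : ∀ q, g q ∈ unitary (H →L[ℂ] H)
  ct : ∀ z, Continuous fun p => g p z

namespace Rp

variable {g : G7 → H →L[ℂ] H} (r : Rp g)
include r

theorem st : St g 1 := ⟨r.ct, fun p => ContinuousLinearMap.opNorm_le_bound _ zero_le_one fun z => by
  rw [ContinuousLinearMap.norm_map_of_mem_unitary (r.uni p), one_mul], zero_le_one⟩

theorem star_eq (p : G7) : star (g p) = g (iv p) := by
  rw [← mul_one (star _), ← r.one, ← ml_iv p, ← r.mul, ← mul_assoc, (r.uni p).1, one_mul]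

theorem ad (Z : H →L[ℂ] H) : St (fun p => g p * Z * star (g p)) (1 * ‖Z‖ * 1) := by
  simpa only [r.star_eq] using (r.st.mul (st_const Z le_rfl)).mul (r.st.comp ct_iv)

theorem chg (sh : Continuous h) (ch : HasCompactSupport h) {Φ : G7 → H} (hΦ : Continuous Φ)
    (q : G7) : g q (∫ p, (h p : ℂ) • g p (Φ p)) =
      ∫ p, (h (ml (iv q) p) : ℂ) • g p (Φ (ml (iv q) p)) := by
  rw [← (g q).integral_comp_comm (int_h sh ch (r.st.app hΦ)), ← int_ml q fun p =>
    (h (ml (iv q) p) : ℂ) • g p (Φ (ml (iv q) p))]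
  simp only [iv_ml_ml, map_smul, ← r.mul, ContinuousLinearMap.mul_apply]

theorem good (sh : ContDiff ℝ ∞ h) (ch : HasCompactSupport h)
    (m : Si h (fun p => g p * Z * star (g p)) X) : ContDiff ℝ ∞ fun q => g q * X * star (g q) := by
  refine contDiff_iff_contDiffAt.2 fun x => ?_
  obtain ⟨K, hK, k⟩ := loc ch x
  have := isCompact_iff_compactSpace.1 hK
  have s : ContDiff ℝ ∞ fun z : G7 × G7 => (h (ml (iv z.1) z.2) : ℂ) :=
    Complex.ofRealCLM.contDiff.comp (sh.comp (by fun_prop))
  refine (((LK K (r.ad Z)).restrictScalars ℝ).contDiff.comp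
    (cur_sm (jK K) ⟨_, s.continuous⟩ s)).contDiffAt.congr_of_eventuallyEq ?_
  filter_upwards [ball_mem_nhds x one_pos] with q hq
  ext v
  have e : ∀ p, star (g (ml (iv q) p)) (star (g q) v) = star (g p) v := fun p => by
    rw [← ContinuousLinearMap.mul_apply, ← star_mul, r.mul, ml_iv_ml]
  refine Eq.trans ?_ ((LK_apply K (r.ad Z) _ v).trans (int_K K (ψ := fun p =>
    (h (ml (iv q) p) : ℂ) • (g p * Z * star (g p)) v) fun p c => by
      simp [image_eq_zero_of_notMem_tsupport (k q hq p c)])).symm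
  rw [ContinuousLinearMap.mul_apply, ContinuousLinearMap.mul_apply, m]
  refine (r.chg sh.continuous ch (Φ := fun p => Z (star (g p) (star (g q) v))) (Z.continuous.comp
    (by simpa only [r.star_eq] using (r.st.comp ct_iv).ct _)) q).trans ?_
  simp only [ContinuousLinearMap.mul_apply, e]

/-- approximation by smooth operators -/
theorem apx (Z : H →L[ℂ] H) {U : Set G7} (hU : U ∈ 𝓝 0) : ∃ Y : ℕ → H →L[ℂ] H,
    (∀ n, (∀ M : VonNeumannAlgebra H, (∀ p ∈ U, g p * Z * star (g p) ∈ M) → Y n ∈ M) ∧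
      (ContDiff ℝ ∞ fun q => g q * Y n * star (g q)) ∧ ‖Y n‖ ≤ ‖Z‖) ∧
    ∀ v, Tendsto (fun n => Y n v) atTop (𝓝 (Z v)) ∧
      Tendsto (fun n => star (Y n) v) atTop (𝓝 (star Z v)) := by
  choose h h1 h2 h3 h4 h5 using fun n : ℕ =>
    bump (inter_mem hU (ball_mem_nhds 0 (Nat.one_div_pos_of_nat (n := n))))
  choose Y hY using fun n => ex_si (r.ad Z) (h1 n).continuous (h2 n)
  have key : ∀ {Z : H →L[ℂ] H} {Y : ℕ → H →L[ℂ] H},
      (∀ n, Si (h n) (fun p => g p * Z * star (g p)) (Y n)) → ∀ v,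
      Tendsto (fun n => Y n v) atTop (𝓝 (Z v)) := fun {Z Y} hY v => by
    refine Metric.tendsto_nhds.2 fun ε hε => ?_
    obtain ⟨δ, δ0, hδ⟩ := Metric.continuousAt_iff.1
      (((r.ad Z).ct v).continuousAt (x := 0)) (ε / 2) (half_pos hε)
    filter_upwards [tendsto_one_div_add_atTop_nhds_zero_nat.eventually (gt_mem_nhds δ0)] with n hn
    rw [dist_eq_norm, hY n v]
    simp only [Complex.coe_smul]
    refine (approx (h1 n).continuous (h2 n) (h4 n) (h5 n) ((r.ad Z).ct v) fun p hp => ?_).trans_lt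
      (half_lt_self hε)
    simpa only [dist_eq_norm, r.one, star_one, mul_one, one_mul] using
      (hδ ((h3 n hp).2.trans hn)).le
  refine ⟨Y, fun n => ⟨fun M hM => (hY n).mem (h1 n).continuous (h2 n) (r.ad Z)
    fun p hp => hM p (h3 n hp).1, r.good (h1 n) (h2 n) (hY n), ?_⟩, fun v => ⟨key hY v,
      key (fun n => ?_) v⟩⟩
  · refine ContinuousLinearMap.opNorm_le_bound _ (norm_nonneg _) fun v => ?_
    rw [hY n v, ← sub_zero (∫ _, _)]
    simp only [Complex.coe_smul]
    refine approx (h1 n).continuous (h2 n) (h4 n) (h5 n) ((r.ad Z).ct v) fun p _ => ?_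
    simpa only [sub_zero, one_mul, mul_one] using ContinuousLinearMap.le_of_opNorm_le _
      ((r.ad Z).bd p) v
  · have e : ∀ p, star (g p * Z * star (g p)) = g p * star Z * star (g p) := fun p => by
      simp only [star_mul, star_star, mul_assoc]
    simpa only [e] using (hY n).star (h1 n).continuous (h2 n) (r.ad Z) (by
      simpa only [e, norm_star] using r.ad (star Z))

end Rp

end Vale.Agent.N352.Nt.S7
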