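import Vale.Agent.N352.NSmA
import Vale.Agent.P352X.R.KD.B
import Vale.Agent.P352X.R.G1.A
import Vale.Agent.P132.Bd8.B6

/-!
# N352: row SMO, smooth operators
-/

set_option linter.all false

noncomputable section

open Filter Topology Metric Set
open scoped ContDiff

namespace Vale.Agent.N352.Nt

open Vale.Agent.P352 Vale.Agent.P352.GF Vale.Agent.P352.BW Vale.Agent.P352.H246
open Vale.Agent.P352.H496 Vale.Agent.P352.H755 Vale.Agent.P352.H15 Vale.Agent.P352X
open Vale.Agent.P352X.Grp (Im im_ut im_sc im_gb im_ug im_one)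
open Vale.Agent.P132 (jconj)
open UniformSpace (Completion)
open S7

variable {D : Type*} [NormedAddCommGroup D] [InnerProductSpace ℂ D] {c : Ctx D}
  {X Y : Completion D →L[ℂ] Completion D} {K O : Set V}

namespace S7

theorem im_g7 (c : Ctx D) (q : G7) : Im c.Q (g7 c q) (ac q) := by
  have := ((im_sc c.Q (Real.exp_pos q.1) (Real.exp_pos (-q.1))).mul c.hN.toRep
    (im_gw c q.2.1)).mul c.hN.toRep (im_ut _ q.2.2)
  simp only [bo_eq] at this
  exact this

theorem rp (g : GRP c) : Rp (g7 c) where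
  mul q r := ((im_g7 c q).mul c.hN.toRep (im_g7 c r)).ext (im_g7 c _) (ac_ml q r)
  one := (im_g7 c 0).ext (im_one _) ac_zero
  uni q := im_uni (im_g7 c q)
  ct z := g.sc_cont (fun _ => ⟨Real.exp_pos _, Real.exp_pos _⟩) (by fun_prop) (by fun_prop)
    (g.ug_cont (fun _ => ⟨one_pos, (lgw _).1⟩) continuous_const (by unfold H746.nrt; fun_prop)
      continuous_const (g.ut_cont (by fun_prop) continuous_const))

theorem g7_w (c : Ctx D) (w : R2) : g7 c (0, w, 0) = Gw c w := by simp [g7, Bo, Grp.sc1, Grp.ut0]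

theorem g7_y (c : Ctx D) (y : V) : g7 c (0, 0, y) = Ut c.Q y := by simp [g7, Bo, Grp.sc1, Gw_zero]

theorem g7_t (c : Ctx D) (t : ℝ) : g7 c (t, 0, 0) = Bo c.Q t := by simp [g7, Grp.ut0, Gw_zero]

theorem g7_vac (c : Ctx D) (q : G7) : star (g7 c q) c.Om = c.Om := by
  conv_lhs => rw [← im_vac (im_g7 c q)]
  exact DFunLike.congr_fun (im_uni (im_g7 c q)).1 _

theorem sm_g (g : GRP c) (h : Sm c X) (r : G7) : Sm c (g7 c r * X * star (g7 c r)) := by
  have := h.comp (sm_ml contDiff_id (contDiff_const (c := r)))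
  simpa only [Sm, Function.comp_def, id, ← (rp g).mul, star_mul, mul_assoc] using this

theorem sm_gw (g : GRP c) (w : R2) (h : Sm c X) : Sm c (Gw c w * X * Gw c (-w)) := by
  simpa only [g7_w, Gw_star] using sm_g g h (0, w, 0)

theorem sm_ut (g : GRP c) (y : V) (h : Sm c X) : Sm c (Ut c.Q y * X * Ut c.Q (-y)) := by
  simpa only [g7_y, g.star_ut] using sm_g g h (0, 0, y)

theorem sm_vac (h : Sm c X) {γ : ℝ → G7} (hγ : ContDiff ℝ ∞ γ)
    {W : ℝ → Completion D →L[ℂ] Completion D} (e : ∀ t, g7 c (γ t) = W t) : Dm W (X c.Om) := by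
  have := (((ContinuousLinearMap.apply ℂ _ c.Om).restrictScalars ℝ).contDiff.comp
    (h.comp hγ)).differentiable (by simp) 0
  refine this.congr_of_eventuallyEq (.of_forall fun t => ?_)
  show W t (X c.Om) = g7 c (γ t) (X (star (g7 c (γ t)) c.Om))
  rw [g7_vac, e]

theorem sm_J (t : T1 c) (h : Sm c X) : Sm c (jconj c.J X) := by
  let L : (Completion D →L[ℂ] Completion D) →L[ℝ] Completion D →L[ℂ] Completion D :=
    ⟨(P132.G6.jst c.J c.J_J).toAlgHom.toLinearMap, P132.G6.continuous_jst _ _⟩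
  have s : ContDiff ℝ ∞ fun q : G7 => ((q.1, -q.2.1, jr q.2.2) : G7) := by
    unfold jr
    fun_prop
  have e : ∀ q : G7, jconj c.J (g7 c (q.1, -q.2.1, jr q.2.2)) = g7 c q := fun q => by
    ext z
    rw [P132.jconj_apply, im_J t.jc (im_g7 c _) (im_g7 c q) fun z => ?_, c.J_J]
    refine null_ext (by simp [ac]; ring) ?_ (by simp [ac]; module)
    simp [ac, d2_neg, d2_neg_l, d2_add]
    ring
  have : ContDiff ℝ ∞ fun q : G7 => jconj c.J (g7 c (q.1, -q.2.1, jr q.2.2) * X *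
      star (g7 c (q.1, -q.2.1, jr q.2.2))) := L.contDiff.comp (h.comp s)
  simpa only [Sm, jconj_mul' _ c.J_J, ← jconj_star _ c.J_J, e] using this

theorem apx (g : GRP c) (hK : IsCompact K) (hO : IsOpen O) (e : K ⊆ O) (hX : X ∈ c.N K) :
    ∃ (K' : Set V) (Y : ℕ → Completion D →L[ℂ] Completion D), IsCompact K' ∧ K' ⊆ O ∧
      (∀ n, Y n ∈ c.N K' ∧ Sm c (Y n) ∧ ‖Y n‖ ≤ ‖X‖) ∧
      ∀ v, Tendsto (fun n => Y n v) atTop (𝓝 (X v)) ∧
        Tendsto (fun n => star (Y n) v) atTop (𝓝 (star X v)) := by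
  obtain ⟨δ, δ0, hδ⟩ := nhds_basis_closedBall.mem_iff.1
    (hK.eventually_forall_of_forall_eventually (P := fun (p : G7) z => ac p z ∈ O) (x₀ := 0)
      fun z hz => ct_ac.continuousAt.eventually (hO.mem_nhds (by simpa [ac_zero] using e hz)))
  obtain ⟨Y, h1, h2⟩ := (rp g).apx X (closedBall_mem_nhds 0 δ0)
  refine ⟨_, Y, ((isCompact_closedBall 0 δ).prod hK).image ct_ac, ?_, fun n => ⟨(h1 n).1 _
    fun p hp => im_mem (im_g7 c p)
      (fun z hz => by exact ⟨(p, z), ⟨hp, hz⟩, rfl⟩) X hX, (h1 n).2⟩, h2⟩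
  rintro _ ⟨p, hp, rfl⟩
  exact hδ hp.1 _ hp.2

theorem lo0 (g : GRP c) (hK : IsCompact K) (k : ∀ z ∈ K, be z < 0) (hX : X ∈ c.N K) (h : Sm c X) :
    Dm c.SK (X c.Om) := by
  obtain ⟨s, r, r0, hr⟩ := G1.ex_cone hK k
  have a := KDa.dom g r0 (Pr.of_mem (g.mem_ut hX (s • va) fun z hz => hr ⟨z, hz, rfl⟩))
    (sm_vac (sm_ut g _ h) (γ := fun t => (t, 0, 0)) (by fun_prop) (g7_t c))
  have b := (a.comm (g.pa_S (-s))).1
  rwa [Pa, neg_smul, ContinuousLinearMap.mul_apply, ContinuousLinearMap.mul_apply, g.ut_apply,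
    neg_add_cancel, g.ut0, Ut, g.vac] at b

theorem jr_wdg {a b : V} (y : V) : jr '' Wdg (-jr b) (-jr a) (jr y) = Wdg a b y := by
  have e : ∀ a z, mdot (-jr a) (jr z - jr y) = -mdot a (z - y) := fun a z => by
    simp [mdot_null, d2_neg_l]
    ring
  ext z
  refine ⟨?_, fun h => ⟨jr z, ⟨by rw [e]; linarith [h.2], by rw [e]; linarith [h.1]⟩, jr_jr z⟩⟩
  rintro ⟨x, h, rfl⟩
  rw [← jr_jr x] at h
  exact ⟨by linarith [h.2, e a (jr x)], by linarith [h.1, e b (jr x)]⟩

theorem null_jr {a : V} (h : IsNull a) : IsNull (-jr a) :=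
  ⟨by rw [md_neg, md_neg_l, neg_neg, md_jr, h.1], by
    have := h.2
    rw [time_eq a] at this
    simpa [time_eq (-jr a)] using this⟩

theorem mem_J (j : JC c) (d : Du c) (hX : X ∈ c.N K) : jconj c.J X ∈ c.N (jr '' K) :=
  d _ _ fun a b y ha hb hab e => jr_wdg (a := a) (b := b) y ▸ j.alg _ _ _ (null_jr hb) (null_jr ha)
    (by rwa [md_neg, md_neg_l, neg_neg, md_jr, md_comm]) X (c.N_mono (fun z hz => by
      obtain ⟨x, h, k⟩ := jr_wdg (a := a) (b := b) y ▸ e ⟨z, hz, rfl⟩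
      rwa [← jr_jr z, ← k, jr_jr]) X hX)

theorem hi0 (t : T1 c) (d : Du c) (hK : IsCompact K) (k : ∀ z ∈ K, 0 < be z) (hX : X ∈ c.N K)
    (h : Sm c X) : Dm c.SK (X c.Om) := by
  have a := lo0 t.grp (hK.image (f := jr) (by unfold jr; fun_prop))
    (by rintro _ ⟨z, hz, rfl⟩; simpa using k z hz) (mem_J t.jc d hX) (sm_J t h)
  have b := (a.gn.anti_neg c.J (W' := c.SK) fun s => t.jc.S s _).dm
  rwa [P132.jconj_apply, c.J_J, c.J_Om] at b

theorem frame (g : GRP c) (w : R2) (y : V) (hK : IsCompact K) (hX : X ∈ c.N K) (h : Sm c X)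
    (k : ∀ K' Y, IsCompact K' → (∀ z ∈ K', ∃ x ∈ K, be z = mdot (aw w) (x - y)) → Y ∈ c.N K' →
      Sm c Y → Dm c.SK (Y c.Om)) : Dm (Kf c w y) (X c.Om) := by
  have u := im_uni (im_fr c w y)
  have i := (im_gw c (-w)).mul c.hN.toRep (im_ut c.Q (-y))
  have e : star (Ut c.Q y * Gw c w) = Gw c (-w) * Ut c.Q (-y) := by
    rw [star_mul, Gw_star, g.star_ut]
  have a := k ((fun z => gw (-w) (z + -y)) '' K) _ (hK.image (by unfold gw; fun_prop))
    (by rintro _ ⟨z, hz, rfl⟩; exact ⟨z, hz, by rw [be_gw_neg, sub_eq_add_neg]⟩)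
    (im_mem i (fun _ => mem_image_of_mem _) X hX) (by
      simpa only [star_mul, Gw_star, g.star_ut, mul_assoc] using sm_gw g (-w) (sm_ut g (-y) h))
  rw [← e, star_star, ContinuousLinearMap.mul_apply, im_vac (im_fr c w y)] at a
  have b := (a.gn.map (W' := Kf c w y) (Ut c.Q y * Gw c w) fun s => by
    rw [Kf, ContinuousLinearMap.mul_apply _ (star _), ← ContinuousLinearMap.mul_apply (star _), u.1]
    rfl).dm
  rwa [← ContinuousLinearMap.mul_apply, ← mul_assoc, u.2, one_mul] at b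

end S7

/-- row SMO -/
theorem smo_row (t : T1 c) : SMO c where
  one := by simpa only [Sm, mul_one, ((rp t.grp).uni _).2] using contDiff_const
  add X Y a b := by simpa only [Sm, mul_add, add_mul] using a.add b
  smul z X a := by simpa only [Sm, mul_smul_comm, smul_mul_assoc] using a.const_smul z
  mul X Y a b := by
    have := a.mul b
    simp only [mul_assoc, ← mul_assoc (star (g7 c _)) (g7 c _), ((rp t.grp).uni _).1, one_mul] at this
    simpa only [Sm, mul_assoc] using this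
  star X a := by
    have := (starL' ℝ : (Completion D →L[ℂ] Completion D) ≃L[ℝ] _).contDiff.comp a
    simpa only [Sm, Function.comp_def, starL'_apply, star_mul, star_star, mul_assoc] using this
  gw w X := sm_gw t.grp w
  ut y X := sm_ut t.grp y
  J X := sm_J t
  good X a := by
    have g := t.grp
    have := a.comp (f := fun q : ℝ × ℝ × ℝ => (q.1, q.2.2 • e2 0, q.2.1 • vb)) (by fun_prop)
    unfold Ctx.Good
    convert this using 2 with q
    simp only [Function.comp, g7, ← (gw_row t).gb, star_mul, g.ugGb.star_eq, g.ugB.star_eq]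
    have e : ∀ s u Z, Gb c.Q s * (Pb c.Q u * Z) = Pb c.Q u * (Gb c.Q s * Z) := fun s u Z => by
      rw [← mul_assoc, g.gb_pb, mul_assoc]
    rw [← Pb, g.ugPb.star_eq]
    simp only [mul_assoc, e]
  dt y X a := sm_vac a (γ := fun s => (0, 0, s • y)) (by fun_prop) fun _ => g7_y c _
  apx K O X a b d e := apx t.grp a b d e
  dense O hO hn := by
    obtain ⟨x, hx⟩ := hn
    obtain ⟨K, k1, k2, k3⟩ := exists_compact_subset hO hx
    refine dense_closure.1 ((t.grp.rs _ isOpen_interior ⟨x, k2⟩).mono ?_)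
    rintro _ ⟨X, hX, rfl⟩
    obtain ⟨K', Y, -, a, b, d⟩ := apx t.grp k1 hO k3 (c.N_mono interior_subset X hX)
    exact mem_closure_of_tendsto (d _).1
      (.of_forall fun n => ⟨Y n, c.N_mono a _ (b n).1, (b n).2.1, rfl⟩)
  lo w y K X a b d e := frame t.grp w y a d e fun K' Y a' b' => lo0 t.grp a' fun z hz => by
    obtain ⟨x, h, k⟩ := b' z hz
    exact k ▸ b x h
  hi u w y K X a b d e := frame t.grp w y a d e fun K' Y a' b' => hi0 t u a' fun z hz => by
    obtain ⟨x, h, k⟩ := b' z hz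
    exact k ▸ b x h

end Vale.Agent.N352.Nt
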