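import Vale.Agent.N352.NClo
import Vale.Agent.P352X.Api2d

/-!
# N352: row TAN, the generators are tangent to the commutants of the local algebras
-/

set_option linter.all false

open Filter Topology

namespace Vale.Agent.N352.Nt

open Vale.Agent.P352 Vale.Agent.P352.GF Vale.Agent.P352.BW Vale.Agent.P352.H246
open Vale.Agent.P352.H496 Vale.Agent.P352.H755 Vale.Agent.P352.H15 Vale.Agent.P352X
open UniformSpace (Completion)
open Complex (I)

noncomputable section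

section abs

variable {H : Type*} [NormedAddCommGroup H] [InnerProductSpace ℂ H] [CompleteSpace H]
  {W : ℝ → H →L[ℂ] H} {Ω : H} {S R : Set (H →L[ℂ] H)}

/-- the commutator with the generator -/
def dl (W : ℝ → H →L[ℂ] H) (A : H →L[ℂ] H) (ψ : H) : H := gen W (A ψ) - A (gen W ψ)

theorem dl_adj (g : UG W) {A : H →L[ℂ] H} {φ ψ : H} (h1 : Dm W φ) (h2 : Dm W (star A φ))
    (h3 : Dm W ψ) (h4 : Dm W (A ψ)) :
    inner ℂ φ (dl W A ψ) = -inner ℂ (dl W (star A) φ) ψ := by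
  rw [dl, dl, inner_sub_right, inner_sub_left, g.symm h1.gn h4.gn, ← star_inner A φ,
    g.symm h2.gn h3.gn, star_inner A (gen W φ), neg_sub]

/-- the commutator of `Y` with the generator commutes with `R` on the domain `E` -/
theorem dl_one (g : UG W) {E : Set H} (dm : ∀ v ∈ E, Dm W v) (eo : Ω ∈ E)
    (rs : ∀ x ∈ R, ∀ v ∈ E, x v ∈ E) (rm : ∀ x ∈ R, ∀ y ∈ R, x * y ∈ R)
    (rt : ∀ x ∈ R, star x ∈ R) (hd : Dense {z | ∃ x ∈ R, x Ω = z}) {Y : H →L[ℂ] H}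
    (hY : ∀ v ∈ E, Y v ∈ E) (hY' : ∀ v ∈ E, star Y v ∈ E)
    (k : ∀ x ∈ R, dl W (star Y) (x Ω) = x (gen W (star Y Ω))) {x : H →L[ℂ] H} (hx : x ∈ R)
    {v : H} (hv : v ∈ E) : dl W Y (x v) = x (dl W Y v) := by
  refine hd.eq_of_inner_right ℂ ?_
  rintro _ ⟨p, hp, rfl⟩
  have a := rs p hp Ω eo
  have b := rs _ (rt x hx) _ a
  have e := rs x hx v hv
  rw [dl_adj g (dm _ a) (dm _ (hY' _ a)) (dm _ e) (dm _ (hY _ e)), ← star_inner x (p Ω),
    dl_adj g (dm _ b) (dm _ (hY' _ b)) (dm v hv) (dm _ (hY v hv)), ← star_inner x, k p hp]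
  exact congrArg (fun z => -inner ℂ z v) (k _ (rm _ (rt x hx) p hp)).symm

theorem dl_mul (Y Z : H →L[ℂ] H) (ψ : H) : dl W (Y * Z) ψ = dl W Y (Z ψ) + Y (dl W Z ψ) := by
  simp [dl]

end abs

variable {D : Type*} [NormedAddCommGroup D] [InnerProductSpace ℂ D] {c : Ctx D}

theorem null_aw (w : R2) : IsNull (aw w) :=
  ⟨by simp [aw, mdot_null], by
    have := d2_nonneg w
    show 0 < 1 + d2 w w / 2 / 2
    positivity⟩

theorem below {M : Set V} {y : V} (h : ∀ z ∈ M, y - z ∈ Fc) (w : R2) :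
    ∀ z ∈ M, mdot (aw w) (z - y) < 0 := fun z hz => by
  have := Ap.null_pos (null_aw w) (h z hz)
  rw [H755.md_sub] at this ⊢
  linarith

theorem Op.comm (j : JC c) {U K : Set V} (h : Op U K) : ∀ Y ∈ c.N K, Y ∈ (c.N U).commutant :=
  let ⟨_, _, _, _, ha, hb, hab, h1, h2⟩ := h
  j.loc ha hb hab h1 h2

theorem Pd.mem (s : SMO c) {U M : Set V} {Z : Completion D →L[ℂ] Completion D} (h : Pd c U M Z) :
    Z ∈ c.N M ∧ Sm c Z := by
  induction h with
  | one => exact ⟨one_mem _, s.one⟩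
  | mul K Y Z h1 h2 h3 h4 _ ih => exact ⟨mul_mem (c.N_mono h2 Y h3) ih.1, s.mul _ _ h4 ih.2⟩

theorem Pd.comm (j : JC c) {U M : Set V} {Z : Completion D →L[ℂ] Completion D} (h : Pd c U M Z) :
    Z ∈ (c.N U).commutant := by
  induction h with
  | one => exact one_mem _
  | mul K Y Z h1 h2 h3 h4 _ ih => exact mul_mem (h1.comm j Y h3) ih

/-- **row TAN** -/
theorem tan_row (t : T1 c) (g : GW c) (s : SMO c) (d : DER c) : TAN c := by
  intro U U' M w y Z hU hne hU' hi hM hUM hy hZ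
  let R : Set (Completion D →L[ℂ] Completion D) := {X | X ∈ c.N U' ∧ Sm c X}
  let E : Set (Completion D) := {v | ∃ X ∈ c.N M, Sm c X ∧ X c.Om = v}
  have dm : ∀ v ∈ E, Dm (Kf c w y) v := fun v ⟨A, a, b, e⟩ =>
    e ▸ s.lo w y M A hM (below hy w) a b
  have eo : c.Om ∈ E := ⟨1, one_mem _, s.one, rfl⟩
  have ac : ∀ {O X}, O ⊆ M → X ∈ c.N O → Sm c X → ∀ v ∈ E, X v ∈ E :=
    fun e h1 h2 v ⟨A, a, b, k⟩ => ⟨_, mul_mem (c.N_mono e _ h1) a, s.mul _ _ h2 b, congrArg _ k⟩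
  have hd : Dense {z | ∃ x ∈ R, x c.Om = z} :=
    (s.dense _ isOpen_interior (hne.mono hi)).mono (by
      rintro _ ⟨X, a, b, e⟩
      exact ⟨X, ⟨c.N_mono interior_subset X a, b⟩, e⟩)
  have rm : ∀ x ∈ R, ∀ y ∈ R, x * y ∈ R := fun x hx y hy =>
    ⟨mul_mem hx.1 hy.1, s.mul _ _ hx.2 hy.2⟩
  have rt : ∀ x ∈ R, star x ∈ R := fun x hx => ⟨star_mem hx.1, s.star _ hx.2⟩
  have key : ∀ x ∈ R, ∀ v ∈ E, dl (Kf c w y) Z (x v) = x (dl (Kf c w y) Z v) := by
    intro x hx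
    induction hZ with
    | one => simp [dl]
    | mul K Y Z h1 h2 h3 h4 h5 ih =>
      intro v hv
      rw [dl_mul, dl_mul, ih v hv, ← comm_apply hx.1 (h5.comm t.jc), map_add,
        comm_apply hx.1 (h1.comm t.jc Y h3)]
      refine congrArg (· + _) (dl_one (g.ug w y) dm eo (R := R) (fun x hx => ac hUM hx.1 hx.2)
        rm rt hd (ac h2 h3 h4)
        (ac h2 (star_mem h3) (s.star Y h4)) (fun p hp => ?_) hx
        (ac subset_rfl (h5.mem s).1 (h5.mem s).2 v hv))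
      rw [dl, ← comm_apply hp.1 (h1.comm t.jc _ (star_mem h3)), d U' K w y p (star Y) hU' h1
        (fun z hz => hy z (hz.elim (@hUM z) (@h2 z))) hp.1 hp.2 (star_mem h3) (s.star Y h4),
        add_sub_cancel_right]
  have z1 := ac subset_rfl (hZ.mem s).1 (hZ.mem s).2
  have z2 := dm _ (ac subset_rfl (star_mem (hZ.mem s).1) (s.star _ (hZ.mem s).2) _ eo)
  have g0 : Gn (Kf c w y) c.Om 0 := gn_of_fix (g.vac w y)
  refine ⟨dm _ (z1 _ eo), z2, fun X hX => ?_⟩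
  obtain ⟨K', Y, k1, k2, k3, k4⟩ := s.apx U _ X hU isOpen_interior hi (mem_cc.1 hX)
  refine tendsto_nhds_unique ((k4 c.Om).2.inner tendsto_const_nhds)
    ((tendsto_const_nhds.inner (k4 c.Om).1).congr fun n => ?_)
  have hx : Y n ∈ R := ⟨c.N_mono (k2.trans interior_subset) _ (k3 n).1, (k3 n).2.1⟩
  have e := congrArg (inner ℂ c.Om) (key _ hx _ eo)
  have y1 := ac hUM hx.1 hx.2 _ eo
  rw [dl_adj (g.ug w y) g0.dm z2 (dm _ y1) (dm _ (z1 _ y1))] at e
  simp only [dl, g0.gen_eq, map_zero, sub_zero] at e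
  rw [inner_smul_left, inner_smul_right, star_inner, ← e, Complex.conj_I]
  ring

end

end Vale.Agent.N352.Nt
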