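import Vale.Agent.N352.Tn
import Vale.Agent.P352X.EG.SG
import Vale.Agent.P352X.TR
import Vale.Agent.P352W.Net.Vn
import Vale.Agent.P352W.Net.Bic

/-!
# N352, block Tn: the tensor square of a graded net (helper71)
-/

set_option linter.all false

open Filter Topology MeasureTheory
open scoped ComplexConjugate
open UniformSpace (Completion)
open ContinuousLinearMap (adjoint)

noncomputable section

namespace Vale.Agent.N352.Tn

open Vale.Agent.P352 Vale.Agent.P352.GF Vale.Agent.P352.BW Vale.Agent.P352.H246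
open Vale.Agent.P352.H496 Vale.Agent.P352.H755 Vale.Agent.P352.H15
open Vale.Agent.P352.SubConf (IsAdj)
open Vale.Agent.P352X Vale.Agent.P352X.EB Vale.Agent.P352X.EG
open Vale.Agent.P352W.Net (cmt vn hl mem_cmt mem_vn vn_comm vn_mono vn_loc vn_cov mem_hl hl_weak)

variable {D : Type*} [NormedAddCommGroup D] [InnerProductSpace ℂ D]

/-- the tensor square of the Hilbert space -/
abbrev H2 (D : Type*) [NormedAddCommGroup D] [InnerProductSpace ℂ D] : Type _ :=
  HH (Completion D) (Completion D)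

theorem sg_sq (e : Bool) : sg e * sg e = 1 := by cases e <;> simp [sg]

theorem sg_conj (e : Bool) : conj (sg e) = sg e := by cases e <;> simp [sg]

theorem star_cm {H : Type*} [NormedAddCommGroup H] [InnerProductSpace ℂ H] [CompleteSpace H]
    {G U : H →L[ℂ] H} (hG : star G = G) (h : G * U = U * G) : G * star U = star U * G := by
  have := congrArg star h
  rw [star_mul, star_mul, hG] at this
  exact this.symm

variable (c : Cg D)

/-- the total grading -/
def G2 : H2 D →L[ℂ] H2 D := mp c.Γ c.Γ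

/-- the similitudes on the tensor square -/
def U2 (s : ℝ) (L : Ix → V) (a : V) : H2 D →L[ℂ] H2 D := mp (Ug c.Q s L a) (Ug c.Q s L a)

/-- the vacuum of the tensor square -/
def O2 : H2 D := tm c.Om c.Om

/-- bounded operators of parity `e` -/
def Par (e : Bool) (X : Completion D →L[ℂ] Completion D) : Prop := c.Γ * X = sg e • (X * c.Γ)

/-- the products of operators of `M` of equal parity -/
def Gs (M : VonNeumannAlgebra (Completion D)) : Set (H2 D →L[ℂ] H2 D) :=
  {Z | ∃ e, ∃ X ∈ M, ∃ Y ∈ M, Par c e X ∧ Par c e Y ∧ Z = mp X Y}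

/-- the operators that commute with these products -/
def Cw (O : Set V) : Set (H2 D →L[ℂ] H2 D) := {Z | ∀ g ∈ Gs c (c.N O), g * Z = Z * g}

/-- the part of parity `e` -/
def pp (e : Bool) (X : Completion D →L[ℂ] Completion D) : Completion D →L[ℂ] Completion D :=
  (1 / 2 : ℂ) • (X + sg e • (c.Γ * X * c.Γ))

theorem G2_sq : G2 c * G2 c = 1 := by rw [G2, mp_mul, SGx.g2, mp_one]

theorem G2_G2 (z : H2 D) : G2 c (G2 c z) = z := DFunLike.congr_fun (G2_sq c) z

theorem G2_star : star (G2 c) = G2 c := by rw [G2, star_mp, SGx.gs]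

theorem G2_inner (z w : H2 D) : inner ℂ (G2 c z) w = inner ℂ z (G2 c w) := by
  rw [← ContinuousLinearMap.adjoint_inner_right, ← ContinuousLinearMap.star_eq_adjoint, G2_star]

theorem G2_O2 : G2 c (O2 c) = O2 c := by rw [G2, O2, mp_tm, SGx.gv]

theorem norm_O2 : ‖O2 c‖ = 1 := by rw [O2, norm_tm, Kin.norm_om, mul_one]

theorem gam_gam (z : Completion D) : c.Γ (c.Γ z) = z := DFunLike.congr_fun (SGx.g2 c) z

theorem gam_inner (z w : Completion D) : inner ℂ (c.Γ z) w = inner ℂ z (c.Γ w) := by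
  rw [← ContinuousLinearMap.adjoint_inner_right, ← ContinuousLinearMap.star_eq_adjoint, SGx.gs]

section U

variable {s s' : ℝ} {L L' : Ix → V} (hs : 0 < s) (hL : IsLor L) (a : V)
include hs hL

theorem G2_U2 : G2 c * U2 c s L a = U2 c s L a * G2 c := by
  have := SGx.gU0 c ⟨s, L, a, hs, hL⟩
  rw [G2, U2, mp_mul, mp_mul]
  exact congrArg₂ _ this this

theorem U2_uni : U2 c s L a ∈ unitary (H2 D →L[ℂ] H2 D) :=
  mp_uni (SGx.uni0 c ⟨s, L, a, hs, hL⟩).1 (SGx.uni0 c ⟨s, L, a, hs, hL⟩).1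

theorem U2_inner (z w : H2 D) : inner ℂ (U2 c s L a z) (U2 c s L a w) = inner ℂ z w := by
  rw [← ContinuousLinearMap.adjoint_inner_right, ← ContinuousLinearMap.star_eq_adjoint]
  exact congrArg _ (DFunLike.congr_fun (U2_uni c hs hL a).1 w)

theorem U2_O2 : U2 c s L a (O2 c) = O2 c := by
  have e : Ug c.Q s L a c.Om = c.Om := by rw [Cg.Om, om, Grp.coe hs hL, c.Q.U_vac _ _ _ hs hL]
  rw [U2, O2, mp_tm, e]

theorem U2_tm (v w : D) : U2 c s L a (tm (v : Completion D) (w : Completion D)) =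
    tm ((c.Q.U s L a v : D) : Completion D) ((c.Q.U s L a w : D) : Completion D) := by
  rw [U2, mp_tm, Grp.coe hs hL, Grp.coe hs hL]

/-- `U ⊗ U` is a true representation on the even vectors -/
theorem U2_mul (hs' : 0 < s') (hL' : IsLor L') (a' : V) {z : H2 D} (hz : G2 c z = z) :
    U2 c s L a (U2 c s' L' a' z) =
      U2 c (s * s') (fun m => sim 1 L 0 (L' m)) (sim s L a a') z := by
  have k := G2_U2 c (mul_pos hs hs') (ue_lor hL hL') (sim s L a a')
  show (U2 c s L a * U2 c s' L' a') z = _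
  rw [U2, U2, mp_mul]
  rcases SGx.mul0 c ⟨s, L, a, hs, hL⟩ ⟨s', L', a', hs', hL'⟩ with e | e
  · exact congrArg (fun X => mp X X z) e
  · refine (congrArg (fun X => mp X X z) e).trans ?_
    simp only [← mp_mul]
    exact (DFunLike.congr_fun k z).trans (congrArg (U2 c _ _ _) hz)

end U

/-! ## the spectrum -/

theorem cone_add : ∀ p ∈ Kin.Cone, ∀ q ∈ Kin.Cone, p + q ∈ Kin.Cone := by
  rintro p ⟨h1, h2⟩ q ⟨h3, h4⟩
  refine ⟨add_nonneg h1 h3, ?_⟩
  rw [H496.gm] at h2 h4 ⊢
  change 0 ≤ p 0 at h1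
  change 0 ≤ q 0 at h3
  have h5 : (p 1 * q 1 + p 2 * q 2 + p 3 * q 3) ^ 2 ≤ (p 0 * q 0) ^ 2 := by
    have : (p 1 * q 1 + p 2 * q 2 + p 3 * q 3) ^ 2 ≤
        (p 1 ^ 2 + p 2 ^ 2 + p 3 ^ 2) * (q 1 ^ 2 + q 2 ^ 2 + q 3 ^ 2) := by
      nlinarith [sq_nonneg (p 1 * q 2 - p 2 * q 1), sq_nonneg (p 1 * q 3 - p 3 * q 1),
        sq_nonneg (p 2 * q 3 - p 3 * q 2)]
    refine this.trans ?_
    rw [mul_pow]
    exact mul_le_mul (by nlinarith) (by nlinarith) (by positivity) (by positivity)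
  have := abs_le_of_sq_le_sq' h5 (by positivity)
  simp only [Pi.add_apply]
  nlinarith [this.2]

theorem cone_pt : ∀ p ∈ Kin.Cone, ∀ q ∈ Kin.Cone, p + q = 0 → p = 0 ∧ q = 0 := by
  rintro p ⟨h1, h2⟩ q ⟨h3, h4⟩ e
  have e0 : p o + q o = 0 := congrFun e o
  have t : 0 < GF.mdot (bas o 1) (bas o 1) := by simp [H496.gm, bas, o]
  have k : ∀ p : V, GF.mdot (bas o 1) p = p o := fun p => by simp [H496.gm, bas, o]
  exact ⟨Kin.eq_zero_of_orth t h2 (by rw [k]; linarith),
    Kin.eq_zero_of_orth t h4 (by rw [k]; linarith)⟩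

theorem mdot_add (p q y : V) : GF.mdot (p + q) y = GF.mdot p y + GF.mdot q y := by
  simp only [H496.gm, Pi.add_apply]
  ring

theorem op_ut (Q : Theory D) (y : V) : (SGx.urep Q).op y = Ut Q y := ContinuousLinearMap.ext fun _ => rfl

theorem bc_cone (Q : Theory D) (C : SN.BC GF.mdot fun y z => Ut Q y z) (z : Completion D) :
    ∀ᵐ p ∂C.nu z, p ∈ Kin.Cone := by
  obtain ⟨ν, h1, h2, h3⟩ := SGx.spec Q z
  rw [← C.nu_unique SN.isPair_mdot (μ := ν) fun y => (h3 y).symm]
  exact h2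

/-- the translations of the tensor square -/
theorem urep2 : SN.URep fun y z => U2 c 1 GF.one y z := urep (SGx.urep c.Q) (SGx.urep c.Q)

/-- **the spectrum condition on the tensor square** -/
theorem spec2 (z : H2 D) : ∃ ν : Measure V, IsFiniteMeasure ν ∧
    (∀ᵐ p ∂ν, 0 ≤ p o ∧ 0 ≤ GF.mdot p p) ∧
      ∀ a, inner ℂ z (U2 c 1 GF.one a z) = ∫ p, Complex.exp (Complex.I * GF.mdot p a) ∂ν := by
  obtain ⟨C⟩ := SN.exists_BC SN.isPair_mdot (SGx.urep c.Q)
  obtain ⟨C2⟩ := SN.exists_BC SN.isPair_mdot (urep (SGx.urep c.Q) (SGx.urep c.Q))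
  exact ⟨C2.nu z, C2.fin z, cone2 SN.isPair_mdot mdot_add C C C2 Kin.meas_cone cone_add
    (bc_cone c.Q C) (bc_cone c.Q C) z, fun a => (C2.char SN.isPair_mdot z a).symm⟩

theorem P0_eq (hU : UVac c.Q) (C : SN.BC GF.mdot fun y z => Ut c.Q y z) (x : Completion D) :
    C.P {0} x = inner ℂ c.Om x • c.Om := by
  have p0 : ∀ y, GF.mdot 0 y = 0 := fun y => by simp [GF.mdot]
  have m0 : MeasurableSet ({0} : Set V) := measurableSet_singleton _
  obtain ⟨κ, e⟩ := hU (C.P {0} x) fun a => by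
    rw [← Ug_apply c.Q one_pos H496.isLor_one]
    exact P0_inv SN.isPair_mdot p0 C a x
  have f : C.P {0} c.Om = c.Om := P0_fix SN.isPair_mdot p0 C fun a => by
    rw [Cg.Om, om, SGx.ut_coe, c.Q.U_vac _ _ _ one_pos H496.isLor_one]
  have g : inner ℂ c.Om x = κ := by
    rw [← f, ← inner_conj_symm, ← P_idem _ m0, inner_conj_symm, f, e, inner_smul_right,
      Kin.inner_om, mul_one]
  rw [g, e]

/-- **the vacuum of the tensor square is unique** -/
theorem uvac2 (hU : UVac c.Q) {z : H2 D} (hz : ∀ a, U2 c 1 GF.one a z = z) :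
    z = inner ℂ (O2 c) z • O2 c := by
  obtain ⟨C⟩ := SN.exists_BC SN.isPair_mdot (SGx.urep c.Q)
  obtain ⟨C2⟩ := SN.exists_BC SN.isPair_mdot (urep (SGx.urep c.Q) (SGx.urep c.Q))
  have e := P0_tm SN.isPair_mdot mdot_add C C C2 Kin.meas_cone cone_pt (bc_cone c.Q C)
    (bc_cone c.Q C)
  have f := P0_fix SN.isPair_mdot (fun y => by simp [GF.mdot]) C2 hz
  have g : mp (C.P {0}) (C.P {0}) = (innerSL ℂ (O2 c)).smulRight (O2 c) := ext fun x y => by
    rw [mp_tm, P0_eq c hU, P0_eq c hU, tm_smul_l, map_smul, ContinuousLinearMap.smulRight_apply,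
      innerSL_apply_apply, O2, inner_tm, smul_smul]
  rw [e, g] at f
  exact f.symm

/-! ## parities -/

variable {c} {e e' : Bool} {X Y : Completion D →L[ℂ] Completion D}

theorem Par.apply (h : Par c e X) (z : Completion D) : c.Γ (X z) = sg e • X (c.Γ z) :=
  DFunLike.congr_fun h z

theorem Par.star (h : Par c e X) : Par c e (star X) := by
  have := congrArg Star.star h
  rw [star_mul, star_smul, star_mul, SGx.gs, RCLike.star_def, sg_conj] at this
  rw [Par, this, smul_smul, sg_sq, one_smul]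

theorem par_one : Par c false 1 := by simp [Par, sg]

theorem par_gam : Par c false c.Γ := by simp [Par, sg]

theorem Par.mul (h : Par c e X) (h' : Par c e' Y) : Par c (xor e e') (X * Y) := by
  rw [Par, ← mul_assoc, h, smul_mul_assoc, mul_assoc, h', mul_smul_comm, smul_smul, mul_assoc]
  congr 1
  cases e <;> cases e' <;> simp [sg]

theorem par_pp (e : Bool) (X : Completion D →L[ℂ] Completion D) : Par c e (pp c e X) := by
  simp only [Par, pp, mul_smul_comm, smul_mul_assoc, mul_add, add_mul, smul_add, smul_smul,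
    ← mul_assoc, SGx.g2, one_mul]
  rw [mul_assoc (c.Γ * X), SGx.g2, mul_one]
  cases e <;> simp [sg, add_comm]

theorem pp_mem {O : Set V} (h : X ∈ c.N O) (e : Bool) : pp c e X ∈ c.N O :=
  (c.N O).toStarSubalgebra.smul_mem (add_mem h
    ((c.N O).toStarSubalgebra.smul_mem (c.hN.gam O X h) _)) _

theorem gam_com {O : Set V} (h : X ∈ (c.N O).commutant) : c.Γ * X * c.Γ ∈ (c.N O).commutant :=
  VonNeumannAlgebra.mem_commutant_iff.2 fun g hg => by
    have := VonNeumannAlgebra.mem_commutant_iff.1 h _ (c.hN.gam O g hg)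
    calc g * (c.Γ * X * c.Γ) = c.Γ * (c.Γ * g * c.Γ * X) * c.Γ := by
          simp only [← mul_assoc, SGx.g2, one_mul]
      _ = c.Γ * X * c.Γ * g := by
          rw [this]
          simp only [mul_assoc, SGx.g2, mul_one]

theorem pp_com {O : Set V} (h : X ∈ (c.N O).commutant) (e : Bool) :
    pp c e X ∈ (c.N O).commutant :=
  (c.N O).commutant.toStarSubalgebra.smul_mem (add_mem h
    ((c.N O).commutant.toStarSubalgebra.smul_mem (gam_com h) _)) _

theorem pp_add (X : Completion D →L[ℂ] Completion D) : pp c false X + pp c true X = X := by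
  simp only [pp, sg, cond_false, cond_true]
  module

theorem pp_star (e : Bool) (X : Completion D →L[ℂ] Completion D) :
    star (pp c e X) = pp c e (star X) := by
  simp only [pp, star_smul, star_add, star_mul, SGx.gs, RCLike.star_def, sg_conj, mul_assoc]
  simp [map_ofNat]

theorem pp_apply (e : Bool) (X : Completion D →L[ℂ] Completion D) (z : Completion D) :
    pp c e X z = (1 / 2 : ℂ) • (X z + sg e • c.Γ (X (c.Γ z))) := rfl

theorem G2_mp (h : Par c e X) (h' : Par c e Y) : G2 c * mp X Y = mp X Y * G2 c := by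
  rw [G2, mp_mul, mp_mul, h, h', mp_smul_l, mp_smul_r, smul_smul, sg_sq, one_smul]

theorem Gs_star {M : VonNeumannAlgebra (Completion D)} : ∀ g ∈ Gs c M, star g ∈ Gs c M := by
  rintro _ ⟨e, X, hX, Y, hY, p, q, rfl⟩
  exact ⟨e, _, star_mem hX, _, star_mem hY, p.star, q.star, star_mp X Y⟩

theorem Gs_even {M : VonNeumannAlgebra (Completion D)} : ∀ g ∈ Gs c M, G2 c * g = g * G2 c := by
  rintro _ ⟨e, X, -, Y, -, p, q, rfl⟩
  exact G2_mp p q

/-- operators of the algebras of opposite wedges commute up to the sign -/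
theorem wedge_sign {a b : V} (ha : IsNull a) (hb : IsNull b) (hab : GF.mdot a b = 1)
    (hX : X ∈ c.N (Wdg b a 0)) (hY : Y ∈ c.N (Wdg a b 0)) (p : Par c e X) (q : Par c e' Y) :
    X * Y = sg (e && e') • (Y * X) := by
  have h := c.hN.loc a b X ha hb hab hX
  have k : c.Γ * X * c.Γ = sg e • X := by rw [p, smul_mul_assoc, mul_assoc, SGx.g2, mul_one]
  rw [k] at h
  cases e
  · have := VonNeumannAlgebra.mem_commutant_iff.1 h.1 Y hY
    simp only [sg, cond_false, one_smul, ← two_smul ℂ X, mul_smul_comm, smul_mul_assoc] at this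
    simpa [sg] using (smul_right_injective _ two_ne_zero this).symm
  · have := VonNeumannAlgebra.mem_commutant_iff.1 h.2 Y hY
    simp only [sg, cond_true, neg_smul, one_smul, sub_neg_eq_add, ← two_smul ℂ X, mul_smul_comm,
      smul_mul_assoc] at this
    have h2 := congrArg (· * c.Γ) (smul_right_injective _ two_ne_zero this)
    simp only [mul_assoc, SGx.g2, mul_one] at h2
    rw [← mul_assoc c.Γ, q, smul_mul_assoc, mul_assoc Y, SGx.g2, mul_one, mul_smul_comm] at h2
    rw [h2, smul_smul, Bool.true_and, sg_sq, one_smul]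

/-- **weak commutation of products of affiliated operators** -/
theorem wk_tm {O : Set V} {Z : H2 D →L[ℂ] H2 D} (hZ : Z ∈ Cw c O) {A A' B B' : D → D}
    (hA : T.Afs (c.N O) A A') (hB : T.Afs (c.N O) B B') (pA : ∀ v, A (c.G v) = sg e • c.G (A v))
    (pB : ∀ v, B (c.G v) = sg e • c.G (B v)) (v1 v2 w1 w2 : D) :
    inner ℂ (tm ((A' w1 : D) : Completion D) ((B' w2 : D) : Completion D))
        (Z (tm (v1 : Completion D) (v2 : Completion D))) =
      inner ℂ (tm (w1 : Completion D) (w2 : Completion D))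
        (Z (tm ((A v1 : D) : Completion D) ((B v2 : D) : Completion D))) := by
  have lim : ∀ {a : ℕ → Completion D →L[ℂ] Completion D} {A : D → D},
      (∀ v : D, Tendsto (fun n => a n v) atTop (𝓝 ((A v : D) : Completion D))) →
      (∀ v, A (c.G v) = sg e • c.G (A v)) → ∀ v : D,
      Tendsto (fun n => pp c e (a n) v) atTop (𝓝 ((A v : D) : Completion D)) := by
    intro a A h p v
    have := ((h v).add (((c.Γ.continuous.tendsto _).comp (h (c.G v))).const_smul (sg e))).const_smul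
      (1 / 2 : ℂ)
    rw [p, Completion.coe_smul, ← c.hN.ext (A v), map_smul, gam_gam, smul_smul, sg_sq, one_smul,
      ← two_smul ℂ, smul_smul, show (1 / 2 * 2 : ℂ) = 1 by norm_num, one_smul] at this
    simpa only [pp_apply, c.hN.ext, Function.comp_def] using this
  have adj : ∀ {A A' : D → D}, (∀ v w, inner ℂ (A v) w = inner ℂ v (A' w)) →
      (∀ v, A (c.G v) = sg e • c.G (A v)) → ∀ v, A' (c.G v) = sg e • c.G (A' v) := by
    intro A A' h p v
    refine ext_inner_left ℂ fun u => ?_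
    rw [← h, ← c.hN.herm, inner_smul_right, ← c.hN.herm, ← h, p, inner_smul_left, sg_conj,
      ← mul_assoc, sg_sq, one_mul]
  obtain ⟨a, a1, a2, a3, -⟩ := tr_afs hA
  obtain ⟨b, b1, b2, b3, -⟩ := tr_afs hB
  refine tendsto_nhds_unique ((tendsto_tm (lim a3 (adj hA.1 pA) w1) (lim b3 (adj hB.1 pB) w2)).inner
    (𝕜 := ℂ) tendsto_const_nhds) ((tendsto_const_nhds.inner ((Z.continuous.tendsto _).comp
      (tendsto_tm (lim a2 pA v1) (lim b2 pB v2)))).congr fun n => ?_)
  have := DFunLike.congr_fun (hZ _ ⟨e, _, pp_mem (a1 n) e, _, pp_mem (b1 n) e, par_pp e _,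
    par_pp e _, rfl⟩) (tm (v1 : Completion D) (v2 : Completion D))
  rw [Function.comp_apply, ← mp_tm, ← ContinuousLinearMap.mul_apply, ← this, ← pp_star, ← pp_star,
    ← mp_tm, ← star_mp, ContinuousLinearMap.star_eq_adjoint,
    ContinuousLinearMap.adjoint_inner_left]
  rfl

theorem Cw_anti {O O' : Set V} (h : O ⊆ O') : ∀ Z ∈ Cw c O', Z ∈ Cw c O := by
  rintro Z hZ _ ⟨e, X, hX, Y, hY, p⟩
  exact hZ _ ⟨e, X, c.hN.mono _ _ h X hX, Y, c.hN.mono _ _ h Y hY, p⟩

theorem mp_Cw {O : Set V} (hX : X ∈ (c.N O).commutant) (hY : Y ∈ (c.N O).commutant) :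
    mp X Y ∈ Cw c O := by
  rintro _ ⟨e, A, hA, B, hB, -, -, rfl⟩
  rw [mp_mul, mp_mul, VonNeumannAlgebra.mem_commutant_iff.1 hX A hA,
    VonNeumannAlgebra.mem_commutant_iff.1 hY B hB]

/-! ## the even subspace and the net -/

section net

variable {K : Type*} [NormedAddCommGroup K] [InnerProductSpace ℂ K] [CompleteSpace K]

variable (c) in
/-- `j` is an isometry onto the even vectors -/
structure Em (j : K →L[ℂ] H2 D) : Prop where
  iso : ∀ z, adjoint j (j z) = z
  rng : ∀ z, j (adjoint j z) = (1 / 2 : ℂ) • (z + G2 c z)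

/-- the reduction of an operator -/
def rd (j : K →L[ℂ] H2 D) (Z : H2 D →L[ℂ] H2 D) : K →L[ℂ] K := adjoint j ∘L Z ∘L j

variable (c) in
/-- the algebra that is generated by the products -/
def N0 (j : K →L[ℂ] H2 D) (O : Set V) : VonNeumannAlgebra K := vn (rd j '' Gs c (c.N O))

variable (c) in
/-- **the net of the tensor square** -/
def N2 (j : K →L[ℂ] H2 D) : Set V → VonNeumannAlgebra K := hl (N0 c j)

variable {j : K →L[ℂ] H2 D} {Z Z' : H2 D →L[ℂ] H2 D} {O O' : Set V}

theorem rd_apply (Z : H2 D →L[ℂ] H2 D) (z : K) : rd j Z z = adjoint j (Z (j z)) := rfl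

theorem rd_in (Z : H2 D →L[ℂ] H2 D) (z w : K) :
    inner ℂ z (rd j Z w) = inner ℂ (j z) (Z (j w)) :=
  ContinuousLinearMap.adjoint_inner_right j z (Z (j w))

theorem rd_star (Z : H2 D →L[ℂ] H2 D) : star (rd j Z) = rd j (star Z) := by
  simp only [rd, ContinuousLinearMap.star_eq_adjoint, ContinuousLinearMap.adjoint_comp,
    ContinuousLinearMap.adjoint_adjoint, ContinuousLinearMap.comp_assoc]

theorem gs_star (M : VonNeumannAlgebra (Completion D)) :
    ∀ g ∈ rd j '' Gs c M, star g ∈ rd j '' Gs c M := by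
  rintro _ ⟨g, hg, rfl⟩
  exact ⟨_, Gs_star g hg, (rd_star g).symm⟩

theorem N0_mono (O O' : Set V) (h : O ⊆ O') : ∀ x ∈ N0 c j O, x ∈ N0 c j O' :=
  vn_mono (gs_star _) (gs_star _) (Set.image_mono <| by
    rintro _ ⟨e, X, hX, Y, hY, p⟩
    exact ⟨e, X, c.hN.mono _ _ h X hX, Y, c.hN.mono _ _ h Y hY, p⟩)

theorem N2_mono (O O' : Set V) (h : O ⊆ O') : ∀ x ∈ N2 c j O, x ∈ N2 c j O' := fun x hx =>
  mem_hl.2 fun U h1 h2 => mem_hl.1 hx U h1 (h.trans h2)

theorem N0_le (O : Set V) : ∀ x ∈ N0 c j O, x ∈ N2 c j O := fun x hx =>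
  mem_hl.2 fun U _ h2 => N0_mono _ _ h2 x hx

theorem N2_open (h : IsOpen O) : N2 c j O = N0 c j O :=
  VonNeumannAlgebra.ext fun x => ⟨fun hx => mem_hl.1 hx O h subset_rfl, N0_le O x⟩

theorem gs_N0 (h : Z ∈ Gs c (c.N O)) : rd j Z ∈ N0 c j O :=
  mem_vn.2 fun y hy => ((mem_cmt (gs_star _)).1 hy _ ⟨Z, h, rfl⟩).symm

/-- products of operators of equal parity are in the net -/
theorem mp_N2 (hX : X ∈ c.N O) (hY : Y ∈ c.N O) (p : Par c e X) (q : Par c e Y) :
    rd j (mp X Y) ∈ N2 c j O := N0_le O _ (gs_N0 ⟨e, X, hX, Y, hY, p, q, rfl⟩)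

variable (m : Em c j)
include m

theorem Em.inner (z w : K) : inner ℂ (j z) (j w) = inner ℂ z w := by
  rw [← ContinuousLinearMap.adjoint_inner_right, m.iso]

theorem Em.inj {z w : K} (h : j z = j w) : z = w := by rw [← m.iso z, h, m.iso]

theorem Em.even (z : K) : G2 c (j z) = j z := by
  have := m.rng (j z)
  rw [m.iso] at this
  have h2 := congrArg (G2 c) this
  rw [map_smul, map_add, G2_G2, add_comm, ← this] at h2
  exact h2

theorem Em.sur {z : H2 D} (h : G2 c z = z) : j (adjoint j z) = z := by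
  rw [m.rng, h, ← two_smul ℂ, smul_smul]
  norm_num

theorem Em.adj_G2 (z : H2 D) : adjoint j (G2 c z) = adjoint j z := ext_inner_left ℂ fun u => by
  rw [ContinuousLinearMap.adjoint_inner_right, ContinuousLinearMap.adjoint_inner_right, ← G2_inner,
    m.even]

theorem Em.j_rd (h : G2 c * Z = Z * G2 c) (z : K) : j (rd j Z z) = Z (j z) :=
  m.sur ((DFunLike.congr_fun h (j z)).trans (congrArg Z (m.even z)))

theorem Em.rd_adj (h : G2 c * Z = Z * G2 c) (z : H2 D) : rd j Z (adjoint j z) = adjoint j (Z z) := by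
  have k : Z (G2 c z) = G2 c (Z z) := (DFunLike.congr_fun h z).symm
  rw [rd_apply, m.rng, map_smul, map_add, map_smul, map_add, k, m.adj_G2, ← two_smul ℂ, smul_smul]
  norm_num

theorem Em.rd_mul (Z : H2 D →L[ℂ] H2 D) (h : G2 c * Z' = Z' * G2 c) :
    rd j Z * rd j Z' = rd j (Z * Z') :=
  ContinuousLinearMap.ext fun z => congrArg (fun u => adjoint j (Z u)) (m.j_rd h z)

theorem Em.rd_one : rd j 1 = 1 := ContinuousLinearMap.ext m.iso

/-- even operators that commute with the products give operators of the commutant -/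
theorem Em.cw_N0 (h : Z ∈ Cw c O) (p : G2 c * Z = Z * G2 c) : rd j Z ∈ (N0 c j O).commutant := by
  rw [N0, vn_comm, mem_cmt (gs_star _)]
  rintro _ ⟨g, hg, rfl⟩
  rw [m.rd_mul _ p, m.rd_mul _ (Gs_even g hg), h g hg]

theorem Em.cw_N2 {U : Set V} (hU : IsOpen U) (k : O ⊆ U) (h : Z ∈ Cw c U)
    (p : G2 c * Z = Z * G2 c) : rd j Z ∈ (N2 c j O).commutant :=
  VonNeumannAlgebra.mem_commutant_iff.2 fun x hx =>
    VonNeumannAlgebra.mem_commutant_iff.1 (m.cw_N0 h p) x (mem_hl.1 hx U hU k)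

/-- products of operators of the commutant, of equal parity, are in the commutant of the net -/
theorem Em.mp_com {U : Set V} (hU : IsOpen U) (k : O ⊆ U) (hX : X ∈ (c.N U).commutant)
    (hY : Y ∈ (c.N U).commutant) (p : Par c e X) (q : Par c e Y) :
    rd j (mp X Y) ∈ (N2 c j O).commutant := m.cw_N2 hU k (mp_Cw hX hY) (G2_mp p q)

theorem Em.up {y : K →L[ℂ] K} (h : y ∈ (N0 c j O).commutant) :
    j ∘L y ∘L adjoint j ∈ Cw c O := fun g hg => ContinuousLinearMap.ext fun z => by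
  have k := DFunLike.congr_fun (VonNeumannAlgebra.mem_commutant_iff.1 h _ (gs_N0 hg)) (adjoint j z)
  show g (j (y (adjoint j z))) = j (y (adjoint j (g z)))
  rw [← m.j_rd (Gs_even g hg), ← m.rd_adj (Gs_even g hg)]
  exact congrArg j k

/-- weak commutation with the commutant of the net -/
theorem Em.weak {v1 v2 w1 w2 : K} (h : ∀ U, IsOpen U → O ⊆ U → ∀ Z ∈ Cw c U,
    Inner.inner ℂ (j w1) (Z (j v1)) = Inner.inner ℂ (j w2) (Z (j v2))) :
    ∀ y ∈ (N2 c j O).commutant, Inner.inner ℂ w1 (y v1) = Inner.inner ℂ w2 (y v2) :=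
  hl_weak N0_mono fun U h1 h2 y hy => by
    simpa only [ContinuousLinearMap.comp_apply, m.iso, m.inner] using h U h1 h2 _ (m.up hy)

theorem Em.loc (a b : V) (x : K →L[ℂ] K) (ha : IsNull a) (hb : IsNull b) (hab : GF.mdot a b = 1)
    (hx : x ∈ N2 c j (Wdg b a 0)) : x ∈ (N2 c j (Wdg a b 0)).commutant := by
  rw [N2_open (open_Wdg _ _ _)] at hx ⊢
  refine vn_loc (gs_star _) (gs_star _) ?_ x hx
  rintro _ ⟨_, ⟨e, X, hX, Y, hY, p, q, rfl⟩, rfl⟩ _ ⟨_, ⟨e', X', hX', Y', hY', p', q', rfl⟩, rfl⟩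
  rw [m.rd_mul _ (G2_mp p q), m.rd_mul _ (G2_mp p' q'), mp_mul, mp_mul,
    wedge_sign ha hb hab hX hX' p p', wedge_sign ha hb hab hY hY' q q', mp_smul_l, mp_smul_r,
    smul_smul, sg_sq, one_smul]

/-- covariance under operators that implement a map of regions -/
theorem Em.cov0 {u : Completion D →L[ℂ] Completion D} (hu : u ∈ unitary _) (p : Par c false u)
    (h : ∀ X ∈ c.N O, u * X * star u ∈ c.N O') :
    ∀ x ∈ N0 c j O, ∃ y ∈ N0 c j O', y * rd j (mp u u) = rd j (mp u u) * x := by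
  have g := G2_mp p p
  have g' := G2_mp p.star p.star
  refine vn_cov (gs_star _) (gs_star _) _ (rd j (mp (star u) (star u))) ?_ ?_ ?_
  · rw [m.rd_mul _ g', mp_mul, hu.2, mp_one, m.rd_one]
  · rw [m.rd_mul _ g, mp_mul, hu.1, mp_one, m.rd_one]
  · rintro _ ⟨_, ⟨e, X, hX, Y, hY, a, b, rfl⟩, rfl⟩
    have k : ∀ {X}, Par c e X → Par c e (u * X * star u) := fun h => by
      simpa using (p.mul h).mul p.star
    refine ⟨_, ⟨_, ⟨e, _, h X hX, _, h Y hY, k a, k b, rfl⟩, rfl⟩, ?_⟩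
    rw [m.rd_mul _ g, m.rd_mul _ (G2_mp a b), mp_mul, mp_mul]
    simp only [mul_assoc, hu.1, mul_one]

theorem Em.cov {s : ℝ} {L : Ix → V} (hs : 0 < s) (hL : IsLor L) (a : V) (O : Set V) :
    ∀ x ∈ N2 c j O, ∃ y ∈ N2 c j (sim s L a '' O),
      y * rd j (U2 c s L a) = rd j (U2 c s L a) * x := by
  intro x hx
  let g : Sh c := ⟨⟨s, L, a, hs, hL⟩, false⟩
  have u := U2_uni c hs hL a
  have g1 := G2_U2 c hs hL a
  have g2 : G2 c * star (U2 c s L a) = star (U2 c s L a) * G2 c := star_cm (G2_star c) g1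
  have i1 : rd j (U2 c s L a) * rd j (star (U2 c s L a)) = 1 := by
    rw [m.rd_mul _ g2, u.2, m.rd_one]
  have i2 : rd j (star (U2 c s L a)) * rd j (U2 c s L a) = 1 := by
    rw [m.rd_mul _ g1, u.1, m.rd_one]
  refine ⟨rd j (U2 c s L a) * x * rd j (star (U2 c s L a)), mem_hl.2 fun U h1 h2 => ?_,
    by rw [mul_assoc, i2, mul_one]⟩
  obtain ⟨y, hy, e⟩ := m.cov0 (O := g.act ⁻¹' U) (O' := U) (SGx.uni g)
    (by simpa [Par, sg] using SGx.gU g)
    (fun X hX => c.hN.mono _ _ (Set.image_preimage_subset _ _) _ (SGx.alg1 g hX)) x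
    (mem_hl.1 hx _ (h1.preimage g.toSg.cont) (Set.image_subset_iff.1 h2))
  have e' : y * rd j (U2 c s L a) = rd j (U2 c s L a) * x := e
  rwa [← e', mul_assoc, i1, mul_one]

end net

/-! ## theories on the even vectors -/

section dbl

variable {E : Type*} [NormedAddCommGroup E] [InnerProductSpace ℂ E]

/-- the extension of an isometry to the completion -/
def jE (i : E →ₗᵢ[ℂ] H2 D) : Completion E →L[ℂ] H2 D := i.toContinuousLinearMap.fromCompletion

theorem jE_coe (i : E →ₗᵢ[ℂ] H2 D) (v : E) : jE i v = i v :=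
  ContinuousLinearMap.fromCompletion_apply_coe _ _

variable (c) in
/-- the theory `q` on `E` lives on the even vectors of the tensor square -/
structure Dbl (q : Theory E) (i : E →ₗᵢ[ℂ] H2 D) : Prop where
  even : ∀ v, G2 c (i v) = i v
  dense : ∀ z, G2 c z = z → z ∈ closure (Set.range i)
  vac : i q.vac = O2 c
  U : ∀ s L a v, 0 < s → IsLor L → i (q.U s L a v) = U2 c s L a (i v)

theorem em_of {i : E →ₗᵢ[ℂ] H2 D} (h1 : ∀ v, G2 c (i v) = i v)
    (h2 : ∀ z, G2 c z = z → z ∈ closure (Set.range i)) : Em c (jE i) := by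
  have inn : ∀ z w, inner ℂ (jE i z) (jE i w) = inner ℂ z w := fun z w =>
    Completion.induction_on₂ z w (isClosed_eq (by fun_prop) (by fun_prop)) fun v w => by
      rw [jE_coe, jE_coe, Completion.inner_coe, i.inner_map_map]
  have iso : ∀ z, adjoint (jE i) (jE i z) = z := fun z => ext_inner_left ℂ fun w => by
    rw [ContinuousLinearMap.adjoint_inner_right, inn]
  have ev : ∀ z, G2 c (jE i z) = jE i z := fun z =>
    Completion.induction_on z (isClosed_eq (by fun_prop) (by fun_prop)) fun v => by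
      rw [jE_coe, h1]
  refine ⟨iso, fun z => ?_⟩
  have k : jE i (adjoint (jE i) ((1 / 2 : ℂ) • (z + G2 c z))) = (1 / 2 : ℂ) • (z + G2 c z) := by
    refine closure_minimal (t := {u | jE i (adjoint (jE i) u) = u}) ?_
      (isClosed_eq (by fun_prop) (by fun_prop)) (h2 _ ?_)
    · rintro _ ⟨v, rfl⟩
      show jE i (adjoint (jE i) (i v)) = i v
      rw [← jE_coe, iso]
    · rw [map_smul, map_add, G2_G2, add_comm]
  rw [← k]
  refine congrArg _ (ext_inner_left ℂ fun w => ?_)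
  rw [ContinuousLinearMap.adjoint_inner_right, ContinuousLinearMap.adjoint_inner_right,
    inner_smul_right, inner_add_right, ← G2_inner, ev]
  ring

variable {q : Theory E} {i : E →ₗᵢ[ℂ] H2 D} (d : Dbl c q i)
include d

theorem Dbl.em : Em c (jE i) := em_of d.even d.dense

theorem Dbl.om : jE i (om q) = O2 c := (jE_coe _ _).trans d.vac

theorem Dbl.ug {s : ℝ} {L : Ix → V} (hs : 0 < s) (hL : IsLor L) (a : V) (z : Completion E) :
    jE i (Ug q s L a z) = U2 c s L a (jE i z) :=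
  Completion.induction_on z (isClosed_eq (by fun_prop) (by fun_prop)) fun v => by
    rw [Grp.coe hs hL, jE_coe, jE_coe, d.U _ _ _ _ hs hL]

theorem Dbl.ug_eq {s : ℝ} {L : Ix → V} (hs : 0 < s) (hL : IsLor L) (a : V) :
    Ug q s L a = rd (jE i) (U2 c s L a) := ContinuousLinearMap.ext fun z => by
  rw [rd_apply, ← d.ug hs hL, d.em.iso]

theorem Dbl.mul (s : ℝ) (L : Ix → V) (a : V) (s' : ℝ) (L' : Ix → V) (a' : V) (v : E) (hs : 0 < s)
    (hs' : 0 < s') (hL : IsLor L) (hL' : IsLor L') : q.U s L a (q.U s' L' a' v) =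
      q.U (s * s') (fun m => sim 1 L 0 (L' m)) (sim s L a a') v := i.injective <| by
  rw [d.U _ _ _ _ hs hL, d.U _ _ _ _ hs' hL', d.U _ _ _ _ (mul_pos hs hs') (ue_lor hL hL'),
    U2_mul c hs hL a hs' hL' a' (d.even v)]

theorem Dbl.uvac (hU : UVac c.Q) : UVac q := fun z hz =>
  ⟨inner ℂ (O2 c) (jE i z), d.em.inj <| by
    rw [map_smul, d.om]
    exact uvac2 c hU fun a => by
      rw [← d.ug one_pos H496.isLor_one, Ug_apply q one_pos H496.isLor_one, hz]⟩

/-- **the net of the doubled theory** -/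
theorem Dbl.lnm {A : (V → V) → E → E} (R : Rep q A)
    (h : ∀ B f, q.fld B → In Set.univ f → ∃ X' : E → E,
      (∀ v w, inner ℂ (B f v) w = inner ℂ v (X' w)) ∧ ∀ U, IsOpen U → tsupport f ⊆ U →
        ∀ Z ∈ Cw c U, ∀ v w, inner ℂ (i (X' w)) (Z (i v)) = inner ℂ (i w) (Z (i (B f v)))) :
    LNm q A (N2 c (jE i)) := by
  refine ⟨R, fun O B f hB hf => ?_, N2_mono, fun s L y O X hX hs hL => ?_, d.em.loc⟩
  · obtain ⟨X', a, b⟩ := h B f hB ⟨hf.1, hf.2.1, Set.subset_univ _⟩
    refine ⟨X', a, fun Y hY v w => d.em.weak (fun U h1 h2 Z hZ => ?_) Y hY⟩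
    simpa only [jE_coe] using b U h1 (hf.2.2.trans h2) Z hZ v w
  · obtain ⟨Y, hY, e⟩ := d.em.cov hs hL y O X hX
    rw [← d.ug_eq hs hL] at e
    exact ⟨Y, hY, fun z => by
      simpa only [← Ug_apply q hs hL, ContinuousLinearMap.mul_apply] using DFunLike.congr_fun e z⟩

end dbl

end Vale.Agent.N352.Tn
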