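import Vale.Agent.N352.Enl
import Vale.Agent.P352NA.DEN

/-!
# N352, block Tn: the theory of the pointwise products (helper71)
-/

set_option linter.all false

open Filter Topology MeasureTheory
open scoped ComplexConjugate SchwartzMap
open UniformSpace (Completion)
open Bornology (IsBounded)

noncomputable section

namespace Vale.Agent.N352.Tn

open Vale.Agent.P352 Vale.Agent.P352.GF Vale.Agent.P352.BW Vale.Agent.P352.H246
open Vale.Agent.P352.H496 Vale.Agent.P352.H755 Vale.Agent.P352.H15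
open Vale.Agent.P352.SubConf (IsAdj)
open Vale.Agent.P352X Vale.Agent.P352X.EB Vale.Agent.P352X.EG
open Vale.Agent.P352L Vale.Agent.P352L.StA
open Vale.Agent.P352W.Ft (vol_sim linE linE_apply sim_eq lin_apply)
open Vale.Agent.P352W.Net (vn_loc)

variable {D : Type*} [NormedAddCommGroup D] [InnerProductSpace ℂ D] {c : Cg D}
  {B C B' C' B1 C1 : Fld D} {f h : Fn} {U : Set V}

/-! ## the vacuum is cyclic for the commutants -/

theorem com_conj (g : Sh c) {O O' : Set V} (e : g.act '' O ⊆ O')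
    {Y : Completion D →L[ℂ] Completion D} (hY : Y ∈ (c.N O').commutant) :
    star (g.U c) * Y * g.U c ∈ (c.N O).commutant :=
  VonNeumannAlgebra.mem_commutant_iff.2 fun X hX => by
    have u := SGx.uni g
    have := VonNeumannAlgebra.mem_commutant_iff.1 hY _ (c.hN.mono _ _ e _ (SGx.alg1 g hX))
    calc _ = star (g.U c) * (g.U c * X * star (g.U c) * Y) * g.U c := by
          simp only [← mul_assoc, u.1, one_mul]
      _ = _ := by
          rw [this]
          simp only [mul_assoc, u.1, mul_one]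

theorem com_dense (hU : IsBounded U) : Dense {z | ∃ Y ∈ (c.N U).commutant, Y c.Om = z} := by
  obtain ⟨g0, hg⟩ := SGx.exa U hU
  let g : Sh c := ⟨g0, false⟩
  have u := SGx.uni g
  have sur : Function.Surjective (star (g.U c) :) := fun z =>
    ⟨g.U c z, DFunLike.congr_fun u.1 z⟩
  refine (sur.denseRange.dense_image (star (g.U c)).continuous
    (SGx.dns (c := c) va vb Grp.na Grp.nb Grp.nab)).mono ?_
  rintro _ ⟨_, ⟨Y, hY, rfl⟩, rfl⟩
  refine ⟨_, com_conj g (by rintro _ ⟨x, hx, rfl⟩; exact hg x hx) hY, ?_⟩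
  simp only [ContinuousLinearMap.mul_apply, SGx.vac]

theorem tot (hU : IsBounded U) {ξ η : H2 D} (h : ∀ X ∈ (c.N U).commutant,
    ∀ Y ∈ (c.N U).commutant, inner ℂ (mp X Y (O2 c)) ξ = inner ℂ (mp X Y (O2 c)) η) : ξ = η := by
  refine ext_in' (com_dense (c := c) hU) (com_dense (c := c) hU) ?_
  rintro _ ⟨X, hX, rfl⟩ _ ⟨Y, hY, rfl⟩
  simpa only [O2, mp_tm] using h X hX Y hY

theorem ex_bd (hf : HasCompactSupport f) : ∃ U, IsOpen U ∧ IsBounded U ∧ tsupport f ⊆ U := by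
  obtain ⟨R, hR⟩ := hf.isCompact.isBounded.subset_ball 0
  exact ⟨_, Metric.isOpen_ball, Metric.isBounded_ball, hR⟩

theorem ext_sub {α : Type*} [TopologicalSpace α] [T2Space α] {u u' : Fn → α}
    (hu : Continuous fun g => u (ev g)) (hu' : Continuous fun g => u' (ev g)) (hf : IsTest f)
    (h : ∀ g, In (tsupport f) g → u g = u' g) : u f = u' f := by
  obtain ⟨g, rfl⟩ := hf
  obtain ⟨-, w, -, -, h1, h3, h2⟩ := ST.exists_cut g
  exact tendsto_nhds_unique (((hu.tendsto g).comp h2).congr fun n => h _ ⟨⟨w n, rfl⟩, h1 n, h3 n⟩)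
    ((hu'.tendsto g).comp h2)

theorem In.univ {O : Set V} (h : In O f) : In Set.univ f := ⟨h.1, h.2.1, Set.subset_univ _⟩

theorem In.bar {O : Set V} (h : In O f) : In O (bar f) :=
  ⟨Ap.test_bar h.1, by rw [HasCompactSupport, Ap.tsupport_bar]; exact h.2.1,
    by rw [Ap.tsupport_bar]; exact h.2.2⟩

/-! ## letters -/

theorem Lt.adj (h : Lt c B C) : ∃ B' C', Lt c B' C' ∧ IsAdj B B' ∧ IsAdj C C' := by
  obtain ⟨hB, hC, e, p, q⟩ := h
  obtain ⟨B', a1, a2⟩ := c.Q.adj B hB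
  obtain ⟨C', b1, b2⟩ := c.Q.adj C hC
  exact ⟨B', C', ⟨a1, b1, e, Bas.padj e _ _ a2 p, Bas.padj e _ _ b2 q⟩, a2, b2⟩

theorem Big.sum (b : Big c) {ι : Type*} (s : Finset ι) (κ : ι → ℂ) {C : ι → Fld D}
    (h : ∀ j, c.Q.fld (C j)) : c.Q.fld (∑ j ∈ s, κ j • C j) :=
  Finset.sum_induction _ _ b.add (by simpa using b.smul 0 _ (c.Q.bose_fld _ b.one))
    fun j _ => b.smul _ _ (h j)

/-- the similitude `g` maps `B1` to `B` -/
def Tf (c : Cg D) (g : Sg) (B B1 : Fld D) : Prop := ∀ f v, IsTest f →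
  B f (c.Q.U g.s g.L g.a v) = c.Q.U g.s g.L g.a (B1 (g.pull f) v)

theorem Tf.adj {g : Sg} {B1' : Fld D} (h : Tf c g B B1) (a : IsAdj B B') (b : IsAdj B1 B1') :
    Tf c g B' B1' := fun f v hf => by
  have := (bas_row (sg_row c)).sadj g.s g.L g.a 1 (fun _ => 1) B B' (fun _ => B1)
    (fun _ => B1') g.hs g.hL a (fun _ => b)
    (fun f v hf => by rw [Fin.sum_univ_one, one_smul]; exact h f v hf) f v hf
  rwa [Fin.sum_univ_one, map_one, one_smul] at this

theorem u_inj (g : Sg) {v w : D} (h : c.Q.U g.s g.L g.a v = c.Q.U g.s g.L g.a w) : v = w := by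
  have := c.Q.U_inner g.s g.L g.a (v - w) (v - w) g.hs g.hL
  rw [show c.Q.U g.s g.L g.a (v - w) = 0 from
    (map_sub (H.Le.ul c g) v w).trans (sub_eq_zero.2 h), inner_zero_left] at this
  exact sub_eq_zero.1 (inner_self_eq_zero.1 this.symm)

theorem pull_inv (g : Sg) (f : Fn) : g.pull (g.inv.pull f) = f :=
  funext fun x => congrArg f (g.inv_act x)

theorem test_pull (g : Sg) (hf : IsTest f) : IsTest (g.pull f) := Ap.test_sim g.hs g.hL g.a hf

theorem Tf.pa {g : Sg} {e : Bool} (h : Tf c g B B1) (p : Pa c e B) : Pa c e B1 := fun f v hf => by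
  have t := test_pull g.inv hf
  refine u_inj (c := c) g ?_
  rw [← pull_inv g f, ← h _ _ t, c.hN.GU _ _ _ _ g.hs g.hL, p _ _ t, h _ _ t,
    U_smul g.hs g.hL, c.hN.GU _ _ _ _ g.hs g.hL]

theorem ex_tf (b : Big c) (hM : MfAll c.Q) (hF : FSL c.Q) (g : Sg) (hB : c.Q.fld B) :
    ∃ B1, c.Q.fld B1 ∧ Tf c g B B1 := by
  have hD := H.md (e0_thm c) hM
  obtain ⟨n, p, hp⟩ := hD B hB
  choose ι _ κ q hq using fun j => H.Le.cov hF hD (p j).h g
  refine ⟨_, b.sum Finset.univ (fun j : Σ j, ι j => κ j.1 j.2)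
    (fun j => H.Le.fld (q j.1 j.2).h), fun f v hf => ?_⟩
  rw [hp f _ hf, P352H.sum_ap, Fintype.sum_sigma]
  refine Eq.trans ?_ (map_sum (H.Le.ul c g) _ _).symm
  refine Finset.sum_congr rfl fun j _ => (hq j f v hf).trans ?_
  simp only [map_sum, map_smul]
  rfl

theorem Lt.tf (b : Big c) (hM : MfAll c.Q) (hF : FSL c.Q) (g : Sg) (h : Lt c B C) :
    ∃ B1 C1, Lt c B1 C1 ∧ Tf c g B B1 ∧ Tf c g C C1 := by
  obtain ⟨hB, hC, e, p, q⟩ := h
  obtain ⟨B1, a1, a2⟩ := ex_tf b hM hF g hB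
  obtain ⟨C1, b1, b2⟩ := ex_tf b hM hF g hC
  exact ⟨B1, C1, ⟨a1, b1, e, a2.pa p, b2.pa q⟩, a2, b2⟩

/-! ## kernels -/

theorem ker_ext {G : Type*} [NormedAddCommGroup G] [NormedSpace ℂ G] [CompleteSpace G]
    {Λ Λ' : 𝓢(V × V, ℂ) →L[ℂ] G} (h : ∀ g h, Λ (ST.tens g h) = Λ' (ST.tens g h)) (Φ : 𝓢(V × V, ℂ)) :
    Λ Φ = Λ' Φ :=
  sub_eq_zero.1 (ST.ker2 (Λ - Λ') isOpen_univ (fun f g _ _ _ => sub_eq_zero.2 (h f g)) Φ
    (Set.subset_univ _))

theorem ex_rho : ∃ ρ : Sch, HasCompactSupport ρ ∧ ∫ z, ρ z = 1 := by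
  let b : ContDiffBump (0 : V) := ⟨1, 2, one_pos, one_lt_two⟩
  have d := Api4.dc_cx (f := b.normed volume) ⟨b.contDiff_normed, b.hasCompactSupport_normed⟩
  refine ⟨sch _, (Api4.coe_sch d).symm ▸ d.2, ?_⟩
  simp only [Api4.sch_apply d, cx, integral_complex_ofReal, b.integral_normed, Complex.ofReal_one]

/-- the action of a similitude on functions of two points -/
def sim2 (g : Sg) : 𝓢(V × V, ℂ) →L[ℂ] 𝓢(V × V, ℂ) :=
  Kn.cp ((linE g.hs g.hL).prodCongr (linE g.hs g.hL)) ∘L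
    SchwartzMap.compSubConstCLM ℂ (-(g.a, g.a))

theorem sim2_apply (g : Sg) (Φ : 𝓢(V × V, ℂ)) (z : V × V) :
    sim2 g Φ z = Φ (g.act z.1, g.act z.2) := by
  show Φ ((linE g.hs g.hL z.1, linE g.hs g.hL z.2) - -(g.a, g.a)) = _
  simp only [sub_neg_eq_add, Prod.mk_add_mk, linE_apply, Sg.act, sim_eq _ _ g.a, lin_apply]

theorem sim2_tens (g : Sg) (F G : Sch) : sim2 g (ST.tens F G) =
    ST.tens (Grp.simS g.hs g.hL g.a F) (Grp.simS g.hs g.hL g.a G) := SchwartzMap.ext fun z => by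
  simp only [sim2_apply, ST.tens_apply, Grp.simS_apply, Sg.act]

theorem sim2_dg (g : Sg) (k : ℕ) (ρ F : Sch) : sim2 g (Kn.dg k ρ F) =
    Kn.dg k (Grp.simS g.hs g.hL 0 ρ) (Grp.simS g.hs g.hL g.a F) := SchwartzMap.ext fun z => by
  simp only [sim2_apply, Kn.dg_apply, Grp.simS_apply, Sg.act, sim_eq, add_sub_add_right_eq_sub,
    add_zero, map_smul, map_sub]

theorem ev_simS (g : Sg) (F : Sch) : ev (Grp.simS g.hs g.hL g.a F) = g.pull (ev F) :=
  funext fun x => Grp.simS_apply _ _ _ _ _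

/-! ## weak commutation -/

variable {E : Type*} [NormedAddCommGroup E] [InnerProductSpace ℂ E] {i : E →ₗᵢ[ℂ] H2 D} {o : E}
  {P : Fld D → Fld D → Fld E} {X X' Y Y' : E → E}

/-- `X`, with adjoint `X'`, commutes weakly with the operators that commute with the products -/
def Aw (c : Cg D) (i : E →ₗᵢ[ℂ] H2 D) (U : Set V) (X X' : E → E) : Prop :=
  ∀ Z ∈ Cw c U, ∀ v w, inner ℂ (i (X' w)) (Z (i v)) = inner ℂ (i w) (Z (i (X v)))

theorem Aw.adj (h : Aw c i U X X') (v w : E) : inner ℂ (X v) w = inner ℂ v (X' w) := by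
  have := h 1 (fun g _ => by simp) v w
  simp only [ContinuousLinearMap.one_apply, i.inner_map_map] at this
  rw [← inner_conj_symm, ← this, inner_conj_symm]

theorem Aw.comp (h : Aw c i U X X') (k : Aw c i U Y Y') :
    Aw c i U (fun v => X (Y v)) fun w => Y' (X' w) := fun Z hZ v w =>
  (k Z hZ v _).trans (h Z hZ _ w)

theorem Aw.sub (h : Aw c i U X X') (k : Aw c i U Y Y') :
    Aw c i U (fun v => X v - Y v) fun w => X' w - Y' w := fun Z hZ v w => by
  simp only [map_sub, inner_sub_left, inner_sub_right, h Z hZ v w, k Z hZ v w]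

theorem Aw.add (h : Aw c i U X X') (k : Aw c i U Y Y') :
    Aw c i U (fun v => X v + Y v) fun w => X' w + Y' w := fun Z hZ v w => by
  simp only [map_add, inner_add_left, inner_add_right, h Z hZ v w, k Z hZ v w]

theorem Aw.smul (z : ℂ) (h : Aw c i U X X') :
    Aw c i U (fun v => z • X v) fun w => conj z • X' w := fun Z hZ v w => by
  simp only [map_smul, inner_smul_left, inner_smul_right, h Z hZ v w, Complex.conj_conj]

theorem Aw.sum {ι : Type*} (s : Finset ι) {X X' : ι → E → E} (h : ∀ j, Aw c i U (X j) (X' j)) :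
    Aw c i U (fun v => ∑ j ∈ s, X j v) fun w => ∑ j ∈ s, X' j w := fun Z hZ v w => by
  simp only [map_sum, sum_inner, inner_sum, fun j => h j Z hZ v w]

theorem Aw.afs (m : Em c (jE i)) (h : Aw c i U X X') : T.Afs (N0 c (jE i) U) X X' :=
  ⟨h.adj, fun y hy v w => by
    simpa only [ContinuousLinearMap.comp_apply, ← jE_coe, m.iso, m.inner] using
      h _ (m.up hy) v w⟩

/-- the algebras of regions in opposite wedges commute -/
theorem Em.sepk {K : Type*} [NormedAddCommGroup K] [InnerProductSpace ℂ K] [CompleteSpace K]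
    {j : K →L[ℂ] H2 D} (m : Em c j) {O O' : Set V} (h : SepK O O') :
    ∀ x ∈ N0 c j O', x ∈ (N0 c j O).commutant := by
  obtain ⟨g0, g', h1, h2, h3, -⟩ := h
  let g : Sh c := ⟨g0, false⟩
  have u := SGx.uni g
  have p0 : Par c false (g.U c) := by simpa [Par, sg] using SGx.gU g
  have sgn : ∀ {e e' X Y}, X ∈ c.N O' → Y ∈ c.N O → Par c e X → Par c e' Y →
      X * Y = sg (e && e') • (Y * X) := fun {e e' X Y} hX hY p q => by
    have k : ∀ {e X}, Par c e X → Par c e (g.U c * X * star (g.U c)) := fun h => by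
      simpa using (p0.mul h).mul p0.star
    have := wedge_sign Grp.na Grp.nb Grp.nab
      (c.hN.mono _ _ (by rintro _ ⟨x, hx, rfl⟩; exact h3 (h2 x hx)) _ (SGx.alg1 g hX))
      (c.hN.mono _ _ (by rintro _ ⟨x, hx, rfl⟩; exact h1 x hx) _ (SGx.alg1 g hY)) (k p) (k q)
    have e2 := congrArg (fun Z => star (g.U c) * Z * g.U c) this
    have k2 : ∀ Z, star (g.U c) * (g.U c * Z) = Z := fun Z => by rw [← mul_assoc, u.1, one_mul]
    simpa only [mul_assoc, k2, u.1, mul_one, mul_smul_comm, smul_mul_assoc] using e2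
  refine vn_loc (gs_star _) (gs_star _) ?_
  rintro _ ⟨_, ⟨e, X, hX, Y, hY, p, q, rfl⟩, rfl⟩ _ ⟨_, ⟨e', X', hX', Y', hY', p', q', rfl⟩, rfl⟩
  rw [m.rd_mul _ (G2_mp p q), m.rd_mul _ (G2_mp p' q'), mp_mul, mp_mul, sgn hX hX' p p',
    sgn hY hY' q q', mp_smul_l, mp_smul_r, smul_smul, sg_sq, one_smul]

namespace PW

variable (p : PW c i o P)
include p

theorem em : Em c (jE i) := em_of p.even p.dense

/-- **the vacuum is separating** -/
theorem sep (hU : IsBounded U) (h : Aw c i U X X') (h0 : X o = 0) (v : E) : X v = 0 := by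
  have : ∀ w, X' w = 0 := fun w => i.injective <| tot (c := c) hU fun A hA B hB => by
    rw [← inner_conj_symm, ← p.vac, h _ (mp_Cw hA hB), h0]
    simp
  exact ext_inner_right ℂ fun w => by rw [h.adj, this, inner_zero_right, inner_zero_left]

theorem aw (h : Lt c B C) (h' : Lt c B' C') (a : IsAdj B B') (b : IsAdj C C') (hU : IsOpen U)
    (hf : In U f) : Aw c i U (P B C f) (P B' C' (bar f)) := fun Z hZ v w =>
  p.aff B C B' C' f U Z v w h h' a b (In.univ hf) hU hf.2.2 hZ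

theorem aw' (h : Lt c B C) (hU : IsOpen U) (hf : In U f) : ∃ X', Aw c i U (P B C f) X' :=
  have ⟨_, _, h', a, b⟩ := h.adj
  ⟨_, p.aw h h' a b hU hf⟩

theorem adj (h : Lt c B C) (h' : Lt c B' C') (a : IsAdj B B') (b : IsAdj C C') :
    IsAdj (P B C) (P B' C') := fun f v w hf =>
  ext_sub (u := fun f => inner ℂ w (P B C f v)) (u' := fun f => inner ℂ (P B' C' (bar f) w) v)
    (continuous_const.inner (p.cont B C v h)) (by
      obtain ⟨J, hJ, e⟩ : ∃ J : Sch → Sch, Continuous J ∧ ∀ g, bar (ev g) = ev (J g) :=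
        ⟨_, (SchwartzMap.postcompCLM (Complex.conjCLE : ℂ →L[ℝ] ℂ)).continuous, fun _ => rfl⟩
      simp only [e]
      exact ((p.cont B' C' w h').comp hJ).inner continuous_const) hf (fun g hg => by
      rw [← inner_conj_symm, (p.aw h h' a b isOpen_univ (In.univ hg)).adj, inner_conj_symm])
    |> fun e => by rw [← inner_conj_symm, e, inner_conj_symm]

theorem lin_v (h : Lt c B C) (hf : IsTest f) : IsLinearMap ℂ (P B C f) :=
  have ⟨_, _, h', a, b⟩ := h.adj
  ⟨fun v w => ext_inner_right ℂ fun y => by simp only [p.adj h h' a b f _ _ hf, inner_add_left],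
    fun z v => ext_inner_right ℂ fun y => by simp only [p.adj h h' a b f _ _ hf, inner_smul_left]⟩

/-- **locality** -/
theorem loc (h : Lt c B C) (k : Lt c B1 C1) {g : Fn} (hf : IsTest f) (hg : IsTest g) (hs : Sep f g)
    (v : E) : P B C f (P B1 C1 g v) = P B1 C1 g (P B C f v) := by
  obtain ⟨B', C', h', a, b⟩ := h.adj
  obtain ⟨B1', C1', k', a1, b1⟩ := k.adj
  have l1 : ∀ {B C}, Lt c B C → ∀ f g v, In Set.univ f → In Set.univ g →
      P B C (fun x => f x + g x) v = P B C f v + P B C g v := fun h f g v hf hg => by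
    simpa using p.lin _ _ f g 1 v h hf.1 hg.1
  have key : ∀ f g, In Set.univ f → In Set.univ g → Sep f g →
      P B C f (P B1 C1 g v) = P B1 C1 g (P B C f v) := fun f g hf hg hs => by
    refine sub_eq_zero.1 (pou_row E (fun f g => P B C f (P B1 C1 g v) - P B1 C1 g (P B C f v))
      (fun f f' g hf hf' hg => ?_) (fun f g g' hf hg hg' => ?_) (fun x y hxy => ?_) f g hf hg hs)
    · rw [l1 h f f' _ hf hf', l1 h f f' _ hf hf', (p.lin_v k hg.1).map_add]
      abel
    · rw [l1 k g g' _ hg hg', l1 k g g' _ hg hg', (p.lin_v h hf.1).map_add]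
      abel
    · obtain ⟨ε, hε, s⟩ := geo_row.sep x y hxy
      exact ⟨ε, hε, fun f g hf hg => sub_eq_zero.2 (NA.afs_comm
        ((p.aw h h' a b Metric.isOpen_ball hf).afs p.em)
        ((p.aw k k' a1 b1 Metric.isOpen_ball hg).afs p.em) (p.em.sepk s) v)⟩
  have A := fun f v w hf => H755.adj_symm (p.adj h h' a b) (bar f) v w (Ap.test_bar hf)
  have A1 := fun f v w hf => H755.adj_symm (p.adj k k' a1 b1) (bar f) v w (Ap.test_bar hf)
  simp only [Ap.bar_bar] at A A1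
  refine ext_inner_left ℂ fun w => ?_
  rw [← A1 g w _ hg]
  refine ext_sub (u := fun f => inner ℂ w (P B C f (P B1 C1 g v)))
    (u' := fun f => inner ℂ (P B1' C1' (bar g) w) (P B C f v))
    (continuous_const.inner (p.cont B C _ h)) (continuous_const.inner (p.cont B C _ h)) hf
    fun f' hf' => ?_
  rw [A1 g w _ hg, ← A f' w _ hf'.1]
  refine ext_sub (u := fun g => inner ℂ (P B' C' (bar f') w) (P B1 C1 g v))
    (u' := fun g => inner ℂ w (P B1 C1 g (P B C f' v)))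
    (continuous_const.inner (p.cont B1 C1 _ k)) (continuous_const.inner (p.cont B1 C1 _ k)) hg
    fun g' hg' => ?_
  rw [A f' w _ hf'.1, key f' g' (In.univ hf') (In.univ hg') fun x hx y hy =>
    hs x (hf'.2.2 hx) y (hg'.2.2 hy)]

/-- the kernel of a letter -/
def kr (h : Lt c B C) : 𝓢(V × V, ℂ) →L[ℂ] H2 D := (p.one B C h).choose

theorem kr_tens (h : Lt c B C) (F G : Sch) : p.kr h (ST.tens F G) =
    tm ((B (ev F) c.Q.vac : D) : Completion D) ((C (ev G) c.Q.vac : D) : Completion D) :=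
  (p.one B C h).choose_spec.1 F G

theorem kr_lim (h : Lt c B C) (ρ F : Sch) : Tendsto (fun k => p.kr h (Kn.dg k ρ F)) atTop
    (𝓝 ((∫ z, ρ z) • i (P B C (ev F) o))) := (p.one B C h).choose_spec.2 ρ F

/-- **linearity in the letters** -/
theorem bil {ι : Type*} (s : Finset ι) (κ : ι → ℂ) {B1 C1 : ι → Fld D} (h : Lt c B C)
    (k : ∀ j, Lt c (B1 j) (C1 j)) (e : ∀ f g, IsTest f → IsTest g →
      tm ((B f c.Q.vac : D) : Completion D) ((C g c.Q.vac : D) : Completion D) = ∑ j ∈ s, κ j •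
        tm ((B1 j f c.Q.vac : D) : Completion D) ((C1 j g c.Q.vac : D) : Completion D))
    (hf : IsTest f) (v : E) : P B C f v = ∑ j ∈ s, κ j • P (B1 j) (C1 j) f v := by
  refine ext_sub (u := fun f => P B C f v) (u' := fun f => ∑ j ∈ s, κ j • P (B1 j) (C1 j) f v)
    (p.cont B C v h) (continuous_finset_sum _ fun j _ => (p.cont _ _ v (k j)).const_smul _) hf
    fun g hg => ?_
  obtain ⟨U, u1, u2, u3⟩ := ex_bd hg.2.1
  have hU : In U g := ⟨hg.1, hg.2.1, u3⟩
  obtain ⟨X', a⟩ := p.aw' h u1 hU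
  choose Y' b using fun j => p.aw' (k j) u1 hU
  refine sub_eq_zero.1 (p.sep u2 (a.sub (Aw.sum s fun j => (b j).smul (κ j))) ?_ v)
  obtain ⟨ρ, -, hρ⟩ := ex_rho
  obtain ⟨F, rfl⟩ := hg.1
  have l1 := p.kr_lim h ρ F
  have l2 := tendsto_finset_sum s fun j _ => (p.kr_lim (k j) ρ F).const_smul (κ j)
  simp only [hρ, one_smul] at l1 l2
  refine sub_eq_zero.2 (i.injective ?_)
  simp only [map_sum, map_smul]
  refine tendsto_nhds_unique l1 (l2.congr fun n => Eq.symm ?_)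
  simpa only [ContinuousLinearMap.sum_apply, ContinuousLinearMap.smul_apply] using
    ker_ext (Λ := p.kr h) (Λ' := ∑ j ∈ s, κ j • p.kr (k j)) (fun F G => by
      simp only [ContinuousLinearMap.sum_apply, ContinuousLinearMap.smul_apply, p.kr_tens,
        e _ _ ⟨F, rfl⟩ ⟨G, rfl⟩]) _

theorem cov_vac {g : Sg} (h : Lt c B C) (k : Lt c B1 C1) (a : Tf c g B B1) (b : Tf c g C C1)
    (hf : IsTest f) : i (P B C f o) =
      (((g.s ^ 4)⁻¹ : ℝ) : ℂ) • U2 c g.s g.L g.a (i (P B1 C1 (g.pull f) o)) := by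
  obtain ⟨ρ, -, hρ⟩ := ex_rho
  obtain ⟨F, rfl⟩ := hf
  have l1 := p.kr_lim h ρ F
  have l2 := ((U2 c g.s g.L g.a).continuous.tendsto _).comp
    (p.kr_lim k (Grp.simS g.hs g.hL 0 ρ) (Grp.simS g.hs g.hL g.a F))
  simp only [Grp.simS_apply, vol_sim g.hs g.hL 0 ρ, hρ, mul_one, one_smul, ev_simS, map_smul] at l1 l2
  refine tendsto_nhds_unique l1 (l2.congr fun n => Eq.symm ?_)
  rw [Function.comp_apply, ← sim2_dg]
  refine ker_ext (Λ := p.kr h) (Λ' := U2 c g.s g.L g.a ∘L p.kr k ∘L sim2 g) (fun F G => ?_) _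
  simp only [ContinuousLinearMap.comp_apply, sim2_tens, p.kr_tens, ev_simS, U2_tm c g.hs g.hL,
    ← a _ _ ⟨F, rfl⟩, ← b _ _ ⟨G, rfl⟩, c.Q.U_vac _ _ _ g.hs g.hL]

/-- **covariance** -/
theorem cov {g : Sg} (h : Lt c B C) (k : Lt c B1 C1) (a : Tf c g B B1) (b : Tf c g C C1)
    (hf : IsTest f) {v w : E} (e : i v = U2 c g.s g.L g.a (i w)) : i (P B C f v) =
      (((g.s ^ 4)⁻¹ : ℝ) : ℂ) • U2 c g.s g.L g.a (i (P B1 C1 (g.pull f) w)) := by
  obtain ⟨B', C', h', a0, b0⟩ := h.adj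
  obtain ⟨B1', C1', k', a1, b1⟩ := k.adj
  refine ext_sub (u := fun f => i (P B C f v)) (u' := fun f =>
      (((g.s ^ 4)⁻¹ : ℝ) : ℂ) • U2 c g.s g.L g.a (i (P B1 C1 (g.pull f) w)))
    (i.continuous.comp (p.cont B C v h)) ?_ hf fun f hf => ?_
  · simp only [← ev_simS]
    exact ((U2 c g.s g.L g.a).continuous.comp (i.continuous.comp ((p.cont B1 C1 w k).comp
      (Grp.simS g.hs g.hL g.a).continuous))).const_smul (((g.s ^ 4)⁻¹ : ℝ) : ℂ)
  obtain ⟨U, u1, u2, u3⟩ := ex_bd hf.2.1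
  have hU : In U f := ⟨hf.1, hf.2.1, u3⟩
  let g' : Sh c := ⟨g, false⟩
  have u := U2_uni c g.hs g.hL g.a
  refine tot (c := c) u2 fun X hX Y hY => ?_
  have m1 := mp_Cw (star_mem hX) (star_mem hY)
  have m2 := mp_Cw (com_conj g' (Set.image_preimage_subset _ _) (star_mem hX))
    (com_conj g' (Set.image_preimage_subset _ _) (star_mem hY))
  have e1 := p.aw h h' a0 b0 u1 hU _ m1 v o
  have e2 := p.aw k k' a1 b1 (u1.preimage g.cont) ((sg_row c).inn g' U f hU) _ m2 w o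
  rw [← mp_mul, ← mp_mul, ← star_mp, ← star_mp] at e2
  rw [← star_mp] at e1
  rw [p.cov_vac h' k' (a.adj a0 a1) (b.adj b0 b1) (Ap.test_bar hf.1), p.vac, e] at e1
  change inner ℂ (i (P B1' C1' (g.pull (bar f)) o))
    (star (U2 c g.s g.L g.a) (star (mp X Y) (U2 c g.s g.L g.a (i w)))) = inner ℂ (i o)
      (star (U2 c g.s g.L g.a) (star (mp X Y) (U2 c g.s g.L g.a (i (P B1 C1 (g.pull f) w))))) at e2
  simp only [ContinuousLinearMap.star_eq_adjoint, ContinuousLinearMap.adjoint_inner_right, p.vac,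
    U2_O2 c g.hs g.hL, inner_smul_left, Complex.conj_ofReal] at e1 e2
  rw [← e1, inner_smul_right, ← e2, map_smul, inner_smul_left, Complex.conj_ofReal]

theorem ex_U (b : Big c) (hM : MfAll c.Q) (hF : FSL c.Q) (g : Sg) (v : E) :
    ∃ w, i w = U2 c g.s g.L g.a (i v) := by
  have key : ∀ (g : Sg) v, ∃ w, i v = U2 c g.s g.L g.a (i w) := fun g =>
    p.gen ((LinearMap.range ((U2 c g.s g.L g.a).toLinearMap ∘ₗ i.toLinearMap)).comap i.toLinearMap)
      ⟨o, by simp [p.vac, U2_O2 c g.hs g.hL]⟩ (by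
        rintro B C f v h hf ⟨w, hw⟩
        obtain ⟨B1, C1, k, a1, a2⟩ := h.tf b hM hF g
        exact ⟨(((g.s ^ 4)⁻¹ : ℝ) : ℂ) • P B1 C1 (g.pull f) w,
          (map_smul _ _ _).trans (p.cov h k a1 a2 hf hw.symm).symm⟩) |> fun h v =>
      (h v).imp fun _ e => e.symm
  obtain ⟨w, hw⟩ := key g.inv v
  refine ⟨w, ?_⟩
  rw [hw, U2_mul c g.hs g.hL g.a g.inv.hs g.inv.hL g.inv.a (p.even w)]
  exact (DFunLike.congr_fun ((congrArg₂ mp (SGx.one0 c g) (SGx.one0 c g)).trans mp_one) _).symm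

end PW

end Vale.Agent.N352.Tn
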