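import Vale.Agent.N352.Ft

/-!
# N352: restriction to the diagonal of distributions with positive spectrum
-/

set_option linter.all false

noncomputable section

open Filter Topology Metric MeasureTheory Set
open scoped SchwartzMap ContDiff ENNReal LineDeriv Nat

namespace Vale.Agent.N352.Kn

open Vale.Agent.P352X
open Vale.Agent.P352X.ST (tens tsl pw mdl frq Bd)
open Vale.Agent.P352X.Api4 (tenE tenE' ten2 pint sl)
open ContinuousLinearMap (inl inr)

variable {E E' : Type*} [NormedAddCommGroup E] [NormedSpace ℝ E] [NormedAddCommGroup E']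
  [NormedSpace ℝ E'] {H : Type*} [NormedAddCommGroup H] [NormedSpace ℂ H] [CompleteSpace H]

/-- Multiplication operators. -/
abbrev ml (u : E → ℂ) : 𝓢(E, ℂ) →L[ℂ] 𝓢(E, ℂ) := SchwartzMap.smulLeftCLM ℂ u

lemma ml_apply {u : E → ℂ} (hu : u.HasTemperateGrowth) (F : 𝓢(E, ℂ)) (z : E) :
    ml u F z = u z * F z := SchwartzMap.smulLeftCLM_apply_apply hu F z

lemma bd_restrict {w : E → ℝ} {n : ℕ} {u : E → ℂ} (h : Bd w n u) {S : Set E}
    (hS : tsupport u ⊆ S) : Bd (S.indicator w) n u := by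
  refine ⟨h.1, fun i hi z => ?_⟩
  by_cases hz : z ∈ S
  · rw [indicator_of_mem hz]; exact h.2 i hi z
  · rw [indicator_of_notMem hz, Function.notMem_support.1 fun h' =>
      hz (hS (support_iteratedFDeriv_subset i h')), norm_zero]

/-- A smooth step. -/
def stp (s : ℝ) : ℂ := Real.smoothTransition (s + 1)

lemma stp_one {s : ℝ} (h : 0 ≤ s) : stp s = 1 := by
  rw [stp, Real.smoothTransition.one_of_one_le (by linarith), Complex.ofReal_one]

lemma stp_zero {s : ℝ} (h : s ≤ -1) : stp s = 0 := by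
  rw [stp, Real.smoothTransition.zero_of_nonpos (by linarith), Complex.ofReal_zero]

lemma smooth_stp : ContDiff ℝ ∞ stp :=
  Complex.ofRealCLM.contDiff.comp
    (Real.smoothTransition.contDiff.comp (contDiff_id.add contDiff_const))

lemma temp_stp : stp.HasTemperateGrowth := by
  refine .of_fderiv (HasCompactSupport.hasTemperateGrowth
    (HasCompactSupport.intro (isCompact_Icc (a := -1) (b := 0)) fun s hs => ?_)
    (smooth_stp.fderiv_right (m := ∞) le_rfl)) (smooth_stp.differentiable (by simp))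
    (k := 0) (C := 1) fun s => ?_
  · rcases not_and_or.1 hs with h | h
    · have : stp =ᶠ[𝓝 s] fun _ => 0 :=
        (eventually_lt_nhds (not_le.1 h)).mono fun _ h => stp_zero h.le
      rw [this.fderiv_eq, fderiv_const_apply]
    · have : stp =ᶠ[𝓝 s] fun _ => 1 :=
        (eventually_gt_nhds (not_le.1 h)).mono fun _ h => stp_one h.le
      rw [this.fderiv_eq, fderiv_const_apply]
  · rw [stp, Complex.norm_real, Real.norm_of_nonneg (Real.smoothTransition.nonneg _)]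
    simpa using Real.smoothTransition.le_one _

/-- Evaluation of linear forms. -/
abbrev at' (η : E) : (E →L[ℝ] ℝ) →L[ℝ] ℝ := ContinuousLinearMap.apply ℝ ℝ η

lemma temp_at (η : E) : (fun l : E →L[ℝ] ℝ => stp (l η)).HasTemperateGrowth :=
  temp_stp.comp (at' η).hasTemperateGrowth

/-- The product of the steps in the directions `d i`. -/
def th {κ : Type*} (s : Finset κ) (d : κ → E) (l : E →L[ℝ] ℝ) : ℂ := ∏ i ∈ s, stp (l (d i))

lemma temp_th {κ : Type*} (s : Finset κ) (d : κ → E) : (th s d).HasTemperateGrowth := by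
  classical
  induction s using Finset.induction_on with
  | empty => exact .const 1
  | insert i s hi ih =>
    have : th (insert i s) d = (fun l : E →L[ℝ] ℝ => stp (l (d i))) * th s d :=
      funext fun l => Finset.prod_insert hi
    rw [this]
    exact (temp_at _).mul ih

lemma supp_th {κ : Type*} (s : Finset κ) (d : κ → E) :
    tsupport (th s d) ⊆ {l | ∀ i ∈ s, -1 ≤ l (d i)} := by
  refine closure_minimal (fun l hl i hi => not_lt.1 fun h => hl ?_) ?_
  · exact Finset.prod_eq_zero hi (stp_zero h.le)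
  · simp only [setOf_forall]
    exact isClosed_iInter fun i => isClosed_iInter fun _ =>
      isClosed_le continuous_const (at' (d i)).continuous

/-- A family of multipliers that tends to a constant. -/
lemma tendsto_ml [FiniteDimensional ℝ E] (g : 𝓢(E', ℂ)) (L : ℕ → E →L[ℝ] E') {M : ℝ} (h1 : 1 ≤ M)
    (hM : ∀ k, ‖L k‖ ≤ M) (h0 : ∀ z, Tendsto (fun k => L k z) atTop (𝓝 0)) (F : 𝓢(E, ℂ))
    (G : ℕ → 𝓢(E, ℂ)) (hG : ∀ k z, G k z = g (L k z) * F z) : Tendsto G atTop (𝓝 (g 0 • F)) := by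
  haveI := FiniteDimensional.proper ℝ E
  refine ST.tendsto_of_sn (fun N => ⟨_, Eventually.of_forall fun k =>
    ST.sn_mul (l := 0) (A := M ^ N * (2 ^ N * ST.sn E' ℂ N g))
      (((ST.bd_sch g (k := 0) (Nat.zero_le N) le_rfl).comp (L k) h1 (hM k)).mono fun z => by simp)
      F _ (hG k)⟩) fun z => ?_
  simp only [hG]
  exact ((g.continuous.tendsto 0).comp (h0 z)).mul_const _

/-- Finite sums of the exponential series. -/
def ps (n : ℕ) (s : ℝ) : ℂ := ∑ j ∈ Finset.range n, (Complex.I * s) ^ j / j !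

lemma norm_ps (n : ℕ) (s : ℝ) : ‖ps n s‖ ≤ Real.exp |s| := by
  refine (norm_sum_le _ _).trans (le_trans (le_of_eq ?_) (Real.sum_le_exp_of_nonneg (abs_nonneg s) n))
  simp

lemma der_ps (n : ℕ) (s : ℝ) : HasDerivAt (ps n) (Complex.I * ps (n - 1) s) s := by
  have h1 : HasDerivAt (fun s : ℝ => Complex.I * (s : ℂ)) (Complex.I * 1) s :=
    (Complex.ofRealCLM.hasDerivAt).const_mul Complex.I
  rcases n with _ | n
  · rw [show ps (0 - 1) s = 0 from rfl, mul_zero]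
    exact hasDerivAt_const s (0 : ℂ)
  · have := HasDerivAt.fun_sum (u := Finset.range (n + 1))
      fun j _ => (h1.fun_pow j).div_const (j ! : ℂ)
    refine this.congr_deriv ?_
    rw [Finset.sum_range_succ', Nat.add_sub_cancel, ps, Finset.mul_sum]
    simp only [Nat.cast_zero, zero_mul, zero_div, add_zero]
    refine Finset.sum_congr rfl fun j _ => ?_
    have : ((j + 1 : ℕ) : ℂ) ≠ 0 := by exact_mod_cast j.succ_ne_zero
    have : (j ! : ℂ) ≠ 0 := by exact_mod_cast j.factorial_ne_zero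
    rw [Nat.factorial_succ, Nat.add_sub_cancel]
    push_cast at *
    field_simp

lemma bd_ps (n N : ℕ) : Bd (fun s : ℝ => Real.exp |s|) N (ps n) := by
  have hs : ContDiff ℝ ∞ (ps n) := ContDiff.sum fun j _ =>
    ((contDiff_const.mul Complex.ofRealCLM.contDiff).pow j).div_const _
  refine ⟨hs, fun i _ z => ?_⟩
  have key : ∀ j, iteratedDeriv j (ps n) = fun s => Complex.I ^ j * ps (n - j) s := by
    intro j
    induction j with
    | zero => simp
    | succ j ih =>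
      rw [iteratedDeriv_succ, ih]
      ext s
      rw [((der_ps (n - j) s).const_mul _).deriv, Nat.sub_sub]
      ring
  rw [norm_iteratedFDeriv_eq_norm_iteratedDeriv, key]
  simpa using norm_ps _ z

lemma tendsto_ps [FiniteDimensional ℝ E] (l : E →L[ℝ] ℝ) (F : 𝓢(E, ℂ)) (hF : HasCompactSupport F)
    (G : ℕ → 𝓢(E, ℂ)) (hG : ∀ n z, G n z = ps n (l z) * F z) : Tendsto G atTop (𝓝 (mdl l F)) := by
  haveI := FiniteDimensional.proper ℝ E
  obtain ⟨R, hR⟩ := hF.isCompact.isBounded.subset_closedBall 0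
  refine ST.tendsto_of_sn (fun N => ⟨2 ^ N * ((1 + ‖l‖) ^ N * Real.exp (‖l‖ * R) *
    (2 ^ N * ST.sn E ℂ N F)), Eventually.of_forall fun n => ?_⟩) fun z => ?_
  · refine ((((bd_ps n N).comp' l).mul (bd_restrict (ST.bd_sch F le_rfl le_rfl) hR)).congr
      (hG n)).sn_le fun z => ?_
    by_cases hz : z ∈ closedBall (0 : E) R
    · have h1 : |l z| ≤ ‖l‖ * R := (l.le_opNorm z).trans
        (mul_le_mul_of_nonneg_left (mem_closedBall_zero_iff.1 hz) (norm_nonneg _))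
      have h2 : (0 : ℝ) < 1 + ‖z‖ := by positivity
      rw [indicator_of_mem hz]
      calc _ = 2 ^ N * ((1 + ‖l‖) ^ N * Real.exp |l z| * (2 ^ N * ST.sn E ℂ N F)) := by field_simp
        _ ≤ _ := by gcongr
    · rw [indicator_of_notMem hz]
      simp only [mul_zero]
      positivity
  · simp only [hG, ST.mdl_apply, pw, ps, Complex.exp_eq_exp_ℂ]
    exact (NormedSpace.expSeries_div_hasSum_exp _).tendsto_sum_nat.mul_const _

variable [FiniteDimensional ℝ E]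

lemma ex_fin {S : Set E} (hS : Submodule.span ℝ S = ⊤) :
    ∃ s : Finset E, (∀ η ∈ s, η ∈ S) ∧ Submodule.span ℝ (s : Set E) = ⊤ := by
  obtain ⟨t, h1, h2, h3⟩ := exists_linearIndependent ℝ S
  have := h3.setFinite
  exact ⟨this.toFinset, fun η h => h1 (this.mem_toFinset.1 h), by rw [this.coe_toFinset, h2, hS]⟩

variable [MeasurableSpace E] [BorelSpace E] (μ : Measure E) [μ.IsAddHaarMeasure]

/-- The Fourier transform of a distribution. -/
def hat (Λ : 𝓢(E, ℂ) →L[ℂ] H) : 𝓢(E →L[ℝ] ℝ, ℂ) →L[ℂ] H :=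
  Λ ∘L ((ft μ).symm : 𝓢(E →L[ℝ] ℝ, ℂ) →L[ℂ] 𝓢(E, ℂ))

lemma hat_ft (Λ : 𝓢(E, ℂ) →L[ℂ] H) (F : 𝓢(E, ℂ)) : hat μ Λ (ft μ F) = Λ F := by simp [hat]

lemma hat_neg {Λ : 𝓢(E, ℂ) →L[ℂ] H} {η : E} (h : Pos Λ η) (m : 𝓢(ℝ, ℂ))
    (hm : ∀ s, 0 ≤ s → m s = 0) (Φ Ψ : 𝓢(E →L[ℝ] ℝ, ℂ)) (e : ∀ l, Φ l = m (l η) * Ψ l) :
    hat μ Λ Φ = 0 := by
  let ε : (ℝ →L[ℝ] ℝ) ≃L[ℝ] ℝ := .equivOfInverse (at' 1) (.mul ℝ ℝ) (fun l => by ext; simp)
    fun s => by simp
  set g := (ft (volume : Measure ℝ)).symm (cp ε m)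
  have hg : ∀ s : ℝ, ∫ t : ℝ, g t * Complex.exp (Complex.I * (t * s : ℝ)) = m s := fun s => by
    have := ft_apply volume g (.mul ℝ ℝ s)
    rw [ContinuousLinearEquiv.apply_symm_apply, cp_apply,
      show ε (.mul ℝ ℝ s) = s from ε.apply_symm_apply s] at this
    rw [this]
    simp only [pw, ContinuousLinearMap.mul_apply', mul_comm]
  rw [← h g (fun s hs => (hg s).trans (hm s hs)) ((ft μ).symm Ψ), ← hat_ft μ]
  congr 1
  ext l
  rw [ft_cv, hg, e, ContinuousLinearEquiv.apply_symm_apply]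

lemma hat_stp {Λ : 𝓢(E, ℂ) →L[ℂ] H} {η : E} (h : Pos Λ η) (Φ : 𝓢(E →L[ℝ] ℝ, ℂ)) :
    hat μ Λ (ml (fun l => stp (l η)) Φ) = hat μ Λ Φ := by
  refine sub_eq_zero.1 (ST.vanish_of_compact
    (hat μ Λ ∘L ml (fun l => stp (l η)) - hat μ Λ) Φ fun u hu _ => ?_)
  obtain ⟨R, hR0, hR⟩ := (hu.isCompact.image (at' η).continuous).isBounded.subset_closedBall_lt 0 0
  let b : ContDiffBump (0 : ℝ) := ⟨R, R + 1, hR0, by linarith⟩
  have hb : Dc fun s => (stp s - 1) * cx b s :=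
    Api4.dc_mul_left (smooth_stp.sub contDiff_const) (Api4.dc_cx ⟨b.contDiff, b.hasCompactSupport⟩)
  rw [ContinuousLinearMap.sub_apply, ContinuousLinearMap.comp_apply, ← map_sub]
  refine hat_neg μ h (sch fun s => (stp s - 1) * cx b s) (fun s hs => ?_) _ u fun l => ?_
  · rw [Api4.sch_apply hb, stp_one hs, sub_self, zero_mul]
  · rw [Api4.sch_apply hb, SchwartzMap.sub_apply, ml_apply (temp_at η)]
    by_cases hl : l ∈ tsupport u
    · rw [cx, b.one_of_mem_closedBall (x := l η) (hR ⟨l, hl, rfl⟩)]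
      simp [sub_mul]
    · simp [image_eq_zero_of_notMem_tsupport hl]

lemma hat_th {Λ : 𝓢(E, ℂ) →L[ℂ] H} {κ : Type*} (s : Finset κ) {d : κ → E}
    (h : ∀ i ∈ s, Pos Λ (d i)) (Φ : 𝓢(E →L[ℝ] ℝ, ℂ)) : hat μ Λ (ml (th s d) Φ) = hat μ Λ Φ := by
  classical
  induction s using Finset.induction_on with
  | empty =>
    congr 1
    ext l
    rw [ml_apply (temp_th _ _), th, Finset.prod_empty, one_mul]
  | insert i s hi ih =>
    rw [← ih fun j hj => h j (Finset.mem_insert_of_mem hj),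
      ← hat_stp μ (h i (Finset.mem_insert_self _ _)) (ml (th s d) Φ)]
    congr 1
    ext l
    rw [ml_apply (temp_th _ _), ml_apply (temp_at _), ml_apply (temp_th _ _), th,
      Finset.prod_insert hi, mul_assoc, th]

omit [MeasurableSpace E] [BorelSpace E] in
lemma nrm {s : Finset E} (hs : Submodule.span ℝ (s : Set E) = ⊤) : ∃ K : ℝ, 0 ≤ K ∧
    ∀ (l : E →L[ℝ] ℝ) (B : ℝ), 0 ≤ B → (∀ η ∈ s, |l η| ≤ B) → ‖l‖ ≤ K * B := by
  let f : (E →L[ℝ] ℝ) →ₗ[ℝ] s → ℝ := LinearMap.pi fun η => (at' η.1).toLinearMap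
  obtain ⟨K, -, hK⟩ := f.exists_antilipschitzWith (LinearMap.ker_eq_bot'.2 fun l hl =>
    ContinuousLinearMap.coe_injective
      (LinearMap.ext_on hs fun η hη => congrFun hl ⟨η, hη⟩))
  exact ⟨K, K.2, fun l B hB h => (ZeroHomClass.bound_of_antilipschitz f hK l).trans
    (mul_le_mul_of_nonneg_left ((pi_norm_le_iff_of_nonneg hB).2 fun η => h η.1 η.2) K.2)⟩

variable (E) in
/-- The first momentum. -/
abbrev p1 : (E × E →L[ℝ] ℝ) →L[ℝ] E →L[ℝ] ℝ := (inl ℝ E E).precomp ℝ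

variable (E) in
/-- The total momentum. -/
abbrev sg : (E × E →L[ℝ] ℝ) →L[ℝ] E →L[ℝ] ℝ := (inl ℝ E E).precomp ℝ + (inr ℝ E E).precomp ℝ

/-- The directions in both factors. -/
abbrev d2 : E ⊕ E → E × E := Sum.elim (fun η => (η, 0)) fun η => (0, η)

/-- The product of the steps in both factors. -/
abbrev th2 (s : Finset E) : (E × E →L[ℝ] ℝ) → ℂ := th (s.disjSum s) d2

omit [MeasurableSpace E] [BorelSpace E] in
lemma low {s : Finset E} (hs : Submodule.span ℝ (s : Set E) = ⊤) : ∃ K : ℝ, 0 ≤ K ∧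
    ∀ L : E × E →L[ℝ] ℝ, (∀ i ∈ s.disjSum s, -1 ≤ L (d2 i)) → 1 + ‖L‖ ≤ K * (1 + ‖sg E L‖) := by
  obtain ⟨K, K0, hK⟩ := nrm hs
  set A := 1 + ∑ η ∈ s, ‖η‖ with hA
  have A0 : 0 ≤ ∑ η ∈ s, ‖η‖ := Finset.sum_nonneg fun _ _ => norm_nonneg _
  refine ⟨1 + 2 * (K * A), by positivity, fun L hL => ?_⟩
  have h0 := norm_nonneg (sg E L)
  have h1 : ∀ η ∈ s, |L (η, 0)| ≤ A * (1 + ‖sg E L‖) ∧ |L (0, η)| ≤ A * (1 + ‖sg E L‖) := by
    intro η hη
    have a : -1 ≤ L (η, 0) := hL (.inl η) (Finset.inl_mem_disjSum.2 hη)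
    have b : -1 ≤ L (0, η) := hL (.inr η) (Finset.inr_mem_disjSum.2 hη)
    have c : L (η, 0) + L (0, η) ≤ ‖sg E L‖ * ‖η‖ := (le_abs_self _).trans ((sg E L).le_opNorm η)
    have d := mul_le_mul_of_nonneg_left
      (Finset.single_le_sum (f := fun η : E => ‖η‖) (fun _ _ => norm_nonneg _) hη) h0
    have e := mul_nonneg h0 A0
    rw [hA]
    constructor <;> rw [abs_le] <;> constructor <;> nlinarith
  have h2 := hK (L ∘L inl ℝ E E) _ (by positivity) fun η hη => (h1 η hη).1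
  have h3 := hK (L ∘L inr ℝ E E) _ (by positivity) fun η hη => (h1 η hη).2
  have h4 : ‖L‖ ≤ ‖L ∘L inl ℝ E E‖ + ‖L ∘L inr ℝ E E‖ := by
    refine ContinuousLinearMap.opNorm_le_bound _ (by positivity) fun z => ?_
    have e : L z = (L ∘L inl ℝ E E) z.1 + (L ∘L inr ℝ E E) z.2 := by
      simp [← map_add]
    rw [e, add_mul]
    exact (norm_add_le _ _).trans (add_le_add
      (((L ∘L inl ℝ E E).le_opNorm _).trans (by gcongr; exact norm_fst_le z))
      (((L ∘L inr ℝ E E).le_opNorm _).trans (by gcongr; exact norm_snd_le z)))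
  nlinarith

omit [MeasurableSpace E] [BorelSpace E] in
lemma ex_T {s : Finset E} (hs : Submodule.span ℝ (s : Set E) = ⊤) :
    ∃ T : 𝓢(E →L[ℝ] ℝ, ℂ) →L[ℂ] 𝓢(E × E →L[ℝ] ℝ, ℂ),
      (∀ Ψ L, T Ψ L = th2 s L * Ψ (sg E L)) ∧
      ∀ Ψ : 𝓢(E →L[ℝ] ℝ, ℂ), HasCompactSupport Ψ → HasCompactSupport (T Ψ) := by
  obtain ⟨K, K0, hK⟩ := low hs
  have key : ∀ N, ∃ (C : ℝ) (N' : ℕ), ∀ Ψ : 𝓢(E →L[ℝ] ℝ, ℂ), ∃ w,
      Bd w N (fun L => th2 s L * Ψ (sg E L)) ∧ ∀ L, (1 + ‖L‖) ^ N * w L ≤ C * ST.sn _ ℂ N' Ψ := by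
    intro N
    obtain ⟨k, C, hC, hb⟩ := ST.bd_of_temperate (temp_th (s.disjSum s) d2) N
    refine ⟨2 ^ N * C * K ^ (N + k) * (1 + ‖sg E‖) ^ N * 2 ^ (N + k), N + k, fun Ψ =>
      ⟨_, (bd_restrict hb (supp_th _ _)).mul ((ST.bd_sch Ψ le_rfl (Nat.le_add_right N k)).comp'
        (sg E)), fun L => ?_⟩⟩
    by_cases hL : L ∈ {L : E × E →L[ℝ] ℝ | ∀ i ∈ s.disjSum s, -1 ≤ L (d2 i)}
    · have h1 : (1 + ‖L‖) ^ (N + k) ≤ (K * (1 + ‖sg E L‖)) ^ (N + k) := by
        gcongr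
        exact hK L hL
      have h2 : (0 : ℝ) < 1 + ‖sg E L‖ := by positivity
      rw [indicator_of_mem hL]
      calc _ = (1 + ‖L‖) ^ (N + k) * (2 ^ N * C * (1 + ‖sg E‖) ^ N * 2 ^ (N + k) *
            ST.sn _ ℂ (N + k) Ψ / (1 + ‖sg E L‖) ^ (N + k)) := by ring
        _ ≤ (K * (1 + ‖sg E L‖)) ^ (N + k) * _ := by gcongr
        _ = _ := by rw [mul_pow]; field_simp
    · rw [indicator_of_notMem hL]
      simp only [mul_zero, zero_mul]
      positivity
  let t : 𝓢(E →L[ℝ] ℝ, ℂ) → 𝓢(E × E →L[ℝ] ℝ, ℂ) := fun Ψ =>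
    ST.mkS (fun L => th2 s L * Ψ (sg E L)) fun k n => by
      obtain ⟨C, N', h⟩ := key (max k n)
      obtain ⟨w, hw, h⟩ := h Ψ
      refine ⟨w, _, hw.of_le (le_max_right _ _), fun L => le_trans ?_ (h L)⟩
      refine mul_le_mul_of_nonneg_right ((ST.pow_le_one_add L k).trans ?_) (hw.nonneg L)
      exact pow_le_pow_right₀ (by linarith [norm_nonneg L]) (le_max_left _ _)
  have ht : ∀ Ψ L, t Ψ L = th2 s L * Ψ (sg E L) := fun _ _ => rfl
  have ha : ∀ Ψ Ψ', t (Ψ + Ψ') = t Ψ + t Ψ' := fun Ψ Ψ' => by ext L; simp [ht, mul_add]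
  refine ⟨⟨⟨⟨t, ha⟩, fun c Ψ => by ext L; simp [ht, mul_left_comm]⟩,
    ST.continuous_of_sn_le (AddMonoidHom.mk' t ha) fun N => ?_⟩, ht, fun Ψ hΨ => ?_⟩
  · obtain ⟨C, N', h⟩ := key N
    exact ⟨C, N', fun Ψ => have ⟨_, hw, h⟩ := h Ψ; hw.sn_le h⟩
  · obtain ⟨R, hR⟩ := hΨ.isCompact.isBounded.subset_closedBall 0
    refine HasCompactSupport.intro (isCompact_closedBall 0 (K * (1 + R))) fun L hL => ?_
    by_contra h0
    have h1 : th2 s L * Ψ (sg E L) ≠ 0 := h0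
    have h2 := hK L (supp_th _ _ (subset_tsupport _ (left_ne_zero_of_mul h1)))
    have h3 := mem_closedBall_zero_iff.1 (hR (subset_tsupport _ (right_ne_zero_of_mul h1)))
    exact hL (mem_closedBall_zero_iff.2 (by nlinarith))

lemma lim_T {s : Finset E} {T : 𝓢(E →L[ℝ] ℝ, ℂ) →L[ℂ] 𝓢(E × E →L[ℝ] ℝ, ℂ)}
    (hT : ∀ Ψ L, T Ψ L = th2 s L * Ψ (sg E L)) {Λ : 𝓢(E × E, ℂ) →L[ℂ] H}
    (h : ∀ i ∈ s.disjSum s, Pos Λ (d2 i)) (ρ F : 𝓢(E, ℂ)) : Tendsto (fun k => Λ (dg k ρ F)) atTop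
      (𝓝 ((∫ z, ρ z ∂μ) • hat (μ.prod μ) Λ (T (ft μ F)))) := by
  have := tendsto_ml (ft μ ρ) (fun k : ℕ => ((k : ℝ) + 1)⁻¹ • p1 E) (M := 1 + ‖p1 E‖)
    (by linarith [norm_nonneg (p1 E)]) (fun k => ?_) (fun L => ?_) (T (ft μ F))
    (fun k => ml (th2 s) (ft (μ.prod μ) (dg k ρ F))) fun k L => ?_
  · have := ((hat (μ.prod μ) Λ).continuous.tendsto _).comp this
    rw [map_smul, ft_zero] at this
    exact this.congr fun k => (hat_th _ _ h _).trans (hat_ft _ _ _)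
  · rw [norm_smul, norm_inv, Real.norm_of_nonneg (by positivity)]
    have h1 : ((k : ℝ) + 1)⁻¹ ≤ 1 := inv_le_one_of_one_le₀ (by linarith [k.cast_nonneg (α := ℝ)])
    nlinarith [norm_nonneg (p1 E)]
  · simpa using (tendsto_one_div_add_atTop_nhds_zero_nat (𝕜 := ℝ)).smul_const (p1 E L)
  · rw [ml_apply (temp_th _ _), dg, ft_ten2, ft_scl, hT, mul_left_comm]
    rfl

lemma pos2 {S : Set E} {s : Finset E} (hs : ∀ η ∈ s, η ∈ S) {Λ : 𝓢(E × E, ℂ) →L[ℂ] H}
    (h : ∀ η ∈ S, Pos Λ (η, 0) ∧ Pos Λ (0, η)) : ∀ i ∈ s.disjSum s, Pos Λ (d2 i)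
  | .inl η, hi => (h η (hs η (Finset.inl_mem_disjSum.1 hi))).1
  | .inr η, hi => (h η (hs η (Finset.inr_mem_disjSum.1 hi))).2

/-- **Products.** A distribution in two variables with positive spectrum in both variables has a
restriction to the diagonal. -/
theorem prod {S : Set E} (hS : Submodule.span ℝ S = ⊤) (Λ : 𝓢(E × E, ℂ) →L[ℂ] H)
    (h : ∀ η ∈ S, Pos Λ (η, 0) ∧ Pos Λ (0, η)) : ∃ P : 𝓢(E, ℂ) →L[ℂ] H, ∀ ρ F : 𝓢(E, ℂ),
      Tendsto (fun k => Λ (dg k ρ F)) atTop (𝓝 ((∫ z, ρ z ∂μ) • P F)) := by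
  obtain ⟨s, hs, h1⟩ := ex_fin hS
  obtain ⟨T, hT, -⟩ := ex_T h1
  exact ⟨hat (μ.prod μ) Λ ∘L T ∘L (ft μ).toContinuousLinearMap, lim_T μ hT (pos2 hs h)⟩

/-- **Taylor expansion.** If the restrictions to the diagonal of all derivatives vanish, then the
distributions vanish. -/
theorem taylor {S S' : Set E} (hS : Submodule.span ℝ S = ⊤) (hS' : Submodule.span ℝ S' = ⊤)
    {J : Type*} (Λ : J → 𝓢(E × E, ℂ) →L[ℂ] H) (h : ∀ j, ∀ η ∈ S, Pos (Λ j) (η, 0) ∧ Pos (Λ j) (0, η))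
    (hd : ∀ j, ∀ v ∈ S', ∃ j', ∀ Φ, Λ j' Φ = Λ j (∂_{((v, 0) : E × E)} Φ)) {ρ : 𝓢(E, ℂ)}
    (hρ : ∫ z, ρ z ∂μ = 1) (h0 : ∀ j F, Tendsto (fun k => Λ j (dg k ρ F)) atTop (𝓝 0)) (j : J) :
    Λ j = 0 := by
  obtain ⟨s, hs, h1⟩ := ex_fin hS
  obtain ⟨T, hT, hc⟩ := ex_T h1
  let G : ((E × E →L[ℝ] ℝ) → ℂ) → Prop := fun m =>
    m.HasTemperateGrowth ∧ ∀ j Ψ, hat (μ.prod μ) (Λ j) (ml m (T Ψ)) = 0
  have g1 : G fun _ => 1 := ⟨.const 1, fun j Ψ => by
    have := tendsto_nhds_unique (lim_T μ hT (pos2 hs (h j)) ρ ((ft μ).symm Ψ)) (h0 j _)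
    rw [hρ, one_smul, ContinuousLinearEquiv.apply_symm_apply] at this
    rw [← this]
    congr 1
    ext L
    rw [ml_apply (.const 1), one_mul]⟩
  have ga : ∀ m m', G m → G m' → G fun L => m L + m' L := fun m m' a b =>
    have t : (fun L => m L + m' L).HasTemperateGrowth := a.1.add b.1
    ⟨t, fun j Ψ => by
      rw [show ml (fun L => m L + m' L) (T Ψ) = ml m (T Ψ) + ml m' (T Ψ) from SchwartzMap.ext
        fun L => by rw [ml_apply t, SchwartzMap.add_apply, ml_apply a.1, ml_apply b.1,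
          add_mul], map_add, a.2, b.2, add_zero]⟩
  have gs : ∀ (c : ℂ) m, G m → G fun L => c * m L := fun c m a =>
    have t : (fun L => c * m L).HasTemperateGrowth := (Function.HasTemperateGrowth.const c).mul a.1
    ⟨t, fun j Ψ => by
      rw [show ml (fun L => c * m L) (T Ψ) = c • ml m (T Ψ) from SchwartzMap.ext
        fun L => by rw [ml_apply t, SchwartzMap.smul_apply, ml_apply a.1, smul_eq_mul, mul_assoc],
        map_smul, a.2, smul_zero]⟩
  have gv : ∀ v : E, ∀ m, G m → G fun L => L (v, 0) * m L := by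
    intro v
    have hv : v ∈ Submodule.span ℝ S' := hS' ▸ Submodule.mem_top
    induction hv using Submodule.span_induction with
    | mem v hv =>
      intro m a
      have t : (fun L : E × E →L[ℝ] ℝ => (L (v, 0) : ℂ) * m L).HasTemperateGrowth :=
        (Api4.temperate_clm (at' ((v, 0) : E × E))).mul a.1
      refine ⟨t, fun j Ψ => ?_⟩
      obtain ⟨j', hj⟩ := hd j v hv
      have := a.2 j' Ψ
      rw [hat, ContinuousLinearMap.comp_apply, hj, ← hat_ft (μ.prod μ)] at this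
      rw [show ml (fun L => L (v, 0) * m L) (T Ψ) = Complex.I • ft (μ.prod μ) (∂_{((v, 0) : E × E)}
        ((ft (μ.prod μ)).symm (ml m (T Ψ)))) from SchwartzMap.ext fun L => ?_, map_smul]
      · exact (congrArg _ this).trans (smul_zero _)
      · rw [SchwartzMap.smul_apply, ft_der, ContinuousLinearEquiv.apply_symm_apply, ml_apply t,
          ml_apply a.1, smul_eq_mul]
        linear_combination (L (v, 0) * m L * T Ψ L) * Complex.I_mul_I
    | zero => exact fun m a => by simpa [Prod.mk_zero_zero] using gs 0 m a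
    | add v w _ _ a b =>
      intro m c
      have e : ∀ L : E × E →L[ℝ] ℝ, L (v + w, 0) = L (v, 0) + L (w, 0) := fun L => by
        simp [← map_add]
      simpa only [e, Complex.ofReal_add, add_mul] using ga _ _ (a m c) (b m c)
    | smul c v _ a =>
      intro m b
      have e : ∀ L : E × E →L[ℝ] ℝ, L (c • v, 0) = c * L (v, 0) := fun L => by
        rw [← smul_eq_mul, ← map_smul]
        simp
      simpa only [e, Complex.ofReal_mul, mul_assoc] using gs c _ (a m b)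
  have gp : ∀ (v : E) n, G fun L => ps n (L (v, 0)) := by
    intro v n
    have gq : ∀ n : ℕ, G fun L => (L (v, 0) : ℂ) ^ n := fun n => by
      induction n with
      | zero => simpa using g1
      | succ n ih => simpa only [pow_succ'] using gv v _ ih
    induction n with
    | zero => simpa [ps] using gs 0 _ g1
    | succ n ih =>
      have := ga _ _ ih (gs (Complex.I ^ n / n !) _ (gq n))
      refine (show (fun L : E × E →L[ℝ] ℝ => ps (n + 1) (L (v, 0))) = _ from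
        funext fun L => ?_) ▸ this
      rw [ps, Finset.sum_range_succ, ps]
      ring
  have ge : ∀ (v : E) (Ψ : 𝓢(E →L[ℝ] ℝ, ℂ)), HasCompactSupport Ψ →
      hat (μ.prod μ) (Λ j) (mdl (at' (v, 0)) (T Ψ)) = 0 := fun v Ψ hΨ =>
    tendsto_nhds_unique (((hat (μ.prod μ) (Λ j)).continuous.tendsto _).comp
      (tendsto_ps (at' (v, 0)) (T Ψ) (hc Ψ hΨ) _ fun n => ml_apply (gp v n).1 _))
      (tendsto_const_nhds.congr fun n => ((gp v n).2 j Ψ).symm)
  let e : (E × E →L[ℝ] ℝ) ≃L[ℝ] (E →L[ℝ] ℝ) × (E →L[ℝ] ℝ) :=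
    (ContinuousLinearMap.coprodEquivL ℝ).symm.trans (.equivOfInverse
      ((ContinuousLinearMap.fst ℝ _ _).prod (.fst ℝ _ _ + .snd ℝ _ _))
      ((ContinuousLinearMap.fst ℝ _ _).prod (.snd ℝ _ _ - .fst ℝ _ _)) (fun z => by simp)
      fun z => by simp)
  have he : ∀ L, e L = (p1 E L, sg E L) := fun _ => rfl
  have key : hat (μ.prod μ) (Λ j) ∘L ml (th2 s) = 0 := extE e fun g Ψ _ hΨ => by
    let A : E →L[ℝ] (E × E →L[ℝ] ℝ) →L[ℝ] ℝ := ContinuousLinearMap.apply ℝ ℝ ∘L inl ℝ E E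
    have := (ST.syn_gen (μ := μ) (m := (ft μ).symm g) (l := A)
      ((ft μ).symm g).continuous.aestronglyMeasurable A.continuous.aestronglyMeasurable
      (fun N => ?_) (T Ψ) (ml (th2 s) (tenE e g Ψ)) (fun L => ?_) (hat (μ.prod μ) (Λ j))).2
    · refine this.trans (integral_eq_zero_of_ae (Eventually.of_forall fun v => ?_))
      exact (congrArg _ (ge v Ψ hΨ)).trans (smul_zero _)
    · refine (ST.integrable_one_add_pow ((ft μ).symm g) 1 N).mono'
        (((ft μ).symm g).continuous.norm.mul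
          ((continuous_const.add A.continuous.norm).pow N)).aestronglyMeasurable
        (Eventually.of_forall fun v => ?_)
      rw [Real.norm_of_nonneg (by positivity)]
      gcongr
      refine ContinuousLinearMap.opNorm_le_bound _ (by positivity) fun L => ?_
      simpa [mul_comm, A] using L.le_opNorm (v, 0)
    · have := ft_apply μ ((ft μ).symm g) (p1 E L)
      rw [ContinuousLinearEquiv.apply_symm_apply] at this
      rw [ml_apply (temp_th _ _), Api4.tenE_apply, he, hT, this, mul_left_comm]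
      simp only [mul_comm (pw _ _)]
      rfl
  ext Φ
  rw [← hat_ft (μ.prod μ), ← hat_th _ _ (pos2 hs (h j))]
  exact congrArg (fun X : _ →L[ℂ] H => X (ft (μ.prod μ) Φ)) key

end Vale.Agent.N352.Kn
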