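import Vale.Agent.P352R.Gz.Df

namespace Vale.Agent.N352

open P352.GF P352R.P P352R.G
open UniformSpace (Completion)

variable {D D' : Type*} [NormedAddCommGroup D] [InnerProductSpace ℂ D] [NormedAddCommGroup D']
  [InnerProductSpace ℂ D']

/-- The fields form a covariant vector space of countable dimension, or they are finite sums of
components of multiplets with finite scaling laws (logarithms are allowed). -/
def Flds (Q : Theory D) : Prop := CntF Q ∨ MfA Q ∧ FSL Q

/-- The hypotheses on the theory `Q`, graded by `G = (-1)^F`, with the stress tensor `T`, the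
generators `A X` of the similitudes and the graded local net `N`. -/
structure Hyp (Q : Theory D) (G : D → D) (T : Ix → Ix → Fld D) (A : (V → V) → D → D)
    (Γ : Completion D →L[ℂ] Completion D) (N : Set V → VonNeumannAlgebra (Completion D)) :
    Prop where
  stress : Stress0 Q T
  charges : PCh Q T A
  vac : UVac Q
  fields : Flds Q
  net : LNg Q G A Γ N

/-- The vectors that the smeared fields generate from the vacuum. -/
def Cyc (Q : Theory D) (w : D) : Prop := ∀ S : Submodule ℂ D, Q.vac ∈ S →
  (∀ A f v, Q.fld A → IsTest f → v ∈ S → A f v ∈ S) → w ∈ S

/-- **Local extensions.** The theory `P`, graded by `G'`, extends the theory `Q` in the same Hilbert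
space: it has the vacuum, the grading and the representation of the similitudes of `Q`; every (Bose)
field `B` of `Q` gives a (Bose) field `e B` of `P` that agrees with `B` on the vectors generated from
the vacuum by the fields of `Q`; and the fields of `P`, smeared in a wedge `W`, are affiliated to
`N W`. -/
structure Ext (Q : Theory D) (Γ : Completion D →L[ℂ] Completion D)
    (N : Set V → VonNeumannAlgebra (Completion D)) {E : Submodule ℂ (Completion D)} (P : Theory E)
    (G' : E → E) (e : Fld D → Fld E) : Prop extends Gr P G' where
  vac : (P.vac : Completion D) = om Q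
  G : ∀ v, (G' v : Completion D) = Γ v
  U : ∀ s L a v, 0 < s → IsLor L → (P.U s L a v : Completion D) = Ue Q s L a v
  fld : ∀ B, Q.fld B → P.fld (e B)
  bos : ∀ B, Q.bose B → P.bose (e B)
  adj : ∀ B B', Q.fld B → Q.fld B' → IsAdj B B' → IsAdj (e B) (e B')
  agree : ∀ B f (v : E) (w : D), Q.fld B → IsTest f → Cyc Q w → (v : Completion D) = w →
    (e B f v : Completion D) = (B f w : D)
  aff : AfW N P (↑)

/-- The graded theory `R`, with the stress tensor `T'` whose charges are the Poincaré generators,
contains `Q` with its stress tensor `T` as a sector: `R` is `Q` itself, or has more local fields, or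
more sectors. -/
structure Over (Q : Theory D) (T : Ix → Ix → Fld D) (R : Theory D') (i : D →ₗᵢ[ℂ] D')
    (G' : D' → D') (T' : Ix → Ix → Fld D') (A' : (V → V) → D' → D') : Prop where
  sect : Sect Q R i
  grad : Gr R G'
  gen : Gnr R A'
  stress : Stress0 R T'
  charges : PCh R T' A'
  ext : ∀ m n, Xt i (T m n) (T' m n)

/-- **`R` contains the fields that are relatively local to those of `Q`** (it is enough for scalars
of dimension two). Every hermitian scalar Bose field `L` of dimension two of a local extension `P`
of `Q` creates the same vectors from the vacuum as some Bose field of `R`. -/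
def Max (Q : Theory D) (Γ : Completion D →L[ℂ] Completion D)
    (N : Set V → VonNeumannAlgebra (Completion D)) (R : Theory D') (i : D →ₗᵢ[ℂ] D') : Prop :=
  ∀ (E : Submodule ℂ (Completion D)) (P : Theory E) G' e L, Ext Q Γ N P G' e → P.IsScalar L 2 →
    ∃ B, R.bose B ∧ ∀ f, IsTest f →
      ((B f R.vac : D') : Completion D') = Completion.map i (L f P.vac : Completion D)

/-- Every field is a finite linear combination of derivatives of conformal primaries. -/
def Desc (R : Theory D) (G : D → D) (t : Ix → Ix → Fld D) : Prop :=
  ∀ B, R.fld B → ∃ (n : ℕ) (e : Fin n → Bool) (C : Fin n → Fld D),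
    (∀ j, DescS R G t (e j) (C j)) ∧ ∀ f v, IsTest f → B f v = ∑ j, C j f v

/-- **Conformal invariance.** `t = S + (∂∂ - η □) L`, with fields `S` and `L` of `R`, is a traceless
improvement of `T` whose charges act on all fields by the infinitesimal conformal transformations. -/
structure Conf (R : Theory D) (G : D → D) (T t : Ix → Ix → Fld D) : Prop where
  form : ∃ S L, R.IsStress S ∧ R.IsScalar L 2 ∧ t = improve S L
  impr : IsImpr R T t
  act : ConfAct R t
  cfs : CFS R G t
  desc : MfA R → FSL R → Desc R G t

end Vale.Agent.N352
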