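import Vale.Agent.N352.Net2
import Vale.Agent.N352.Pr

/-!
# N352, block Tn: the interface of the pointwise products (helper71, helper72)
-/

set_option linter.all false

open Filter Topology MeasureTheory
open scoped ComplexConjugate SchwartzMap
open UniformSpace (Completion)

noncomputable section

namespace Vale.Agent.N352.Tn

open Vale.Agent.P352 Vale.Agent.P352.GF Vale.Agent.P352.BW Vale.Agent.P352.H246
open Vale.Agent.P352.SubConf (IsAdj)
open Vale.Agent.P352X Vale.Agent.P352X.EG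

variable {D : Type*} [NormedAddCommGroup D] [InnerProductSpace ℂ D]

/-- pairs of fields of equal parity -/
def Lt (c : Cg D) (B C : Fld D) : Prop :=
  c.Q.fld B ∧ c.Q.fld C ∧ ∃ e, Pa c e B ∧ Pa c e C

/-- the fields contain the identity and the derivatives of the fields, and are a vector space -/
structure Big (c : Cg D) : Prop where
  one : c.Q.bose fun f v => (∫ x, f x) • v
  der : ∀ B m, c.Q.fld B → c.Q.fld fun f v => B (pd m f) v
  add : ∀ B C, c.Q.fld B → c.Q.fld C → c.Q.fld (B + C)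
  smul : ∀ (z : ℂ) B, c.Q.fld B → c.Q.fld (z • B)

/-- **pointwise products**: `P B C` is the restriction of `B x ⊗ C y` to the diagonal -/
structure PW (c : Cg D) {E : Type*} [NormedAddCommGroup E] [InnerProductSpace ℂ E]
    (i : E →ₗᵢ[ℂ] H2 D) (o : E) (P : Fld D → Fld D → Fld E) : Prop where
  vac : i o = O2 c
  even : ∀ v, G2 c (i v) = i v
  dense : ∀ z, G2 c z = z → z ∈ closure (Set.range i)
  gen : ∀ S : Submodule ℂ E, o ∈ S →
    (∀ B C f v, Lt c B C → IsTest f → v ∈ S → P B C f v ∈ S) → ∀ v, v ∈ S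
  lin : ∀ B C f g (z : ℂ) v, Lt c B C → IsTest f → IsTest g →
    P B C (fun x => f x + z * g x) v = P B C f v + z • P B C g v
  cont : ∀ B C v, Lt c B C → Continuous fun g => P B C (ev g) v
  aff : ∀ B C B' C' f U Z v w, Lt c B C → Lt c B' C' → IsAdj B B' → IsAdj C C' →
    In Set.univ f → IsOpen U → tsupport f ⊆ U → Z ∈ Cw c U →
    inner ℂ (i (P B' C' (bar f) w)) (Z (i v)) = inner ℂ (i w) (Z (i (P B C f v)))
  one : ∀ B C, Lt c B C → ∃ Λ : 𝓢(V × V, ℂ) →L[ℂ] H2 D,
    (∀ g h : Sch, Λ (ST.tens g h) = tm ((B (ev g) c.Q.vac : D) : Completion D)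
      ((C (ev h) c.Q.vac : D) : Completion D)) ∧
    ∀ ρ F : Sch, Tendsto (fun k => Λ (Kn.dg k ρ F)) atTop
      (𝓝 ((∫ z, ρ z) • i (P B C (ev F) o)))

end Vale.Agent.N352.Tn
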