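import Vale.Agent.N352.Net2
import Vale.Agent.P352X.CL.Pub0

/-!
# N352: the tensor square. Vocabulary and the rows that concern only the given theory
-/

set_option linter.all false

open MeasureTheory Filter Topology
open scoped ComplexConjugate

namespace Vale.Agent.N352.Q2

open Vale.Agent.P352 Vale.Agent.P352.GF Vale.Agent.P352.BW Vale.Agent.P352.H246
open Vale.Agent.P352.H496 Vale.Agent.P352.H15 Vale.Agent.P352X Vale.Agent.P352X.EG
open Vale.Agent.N352.Tn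
open UniformSpace (Completion)
open Complex (I)

noncomputable section

variable {D : Type*} [NormedAddCommGroup D] [InnerProductSpace ℂ D]

/-- the identity field -/
def idf : Fld D := fun f v => (∫ x, f x) • v

/-- derivatives of fields -/
def dF (m : Ix) (B : Fld D) : Fld D := fun f v => B (pd m f) v

/-- fields of parity `e` -/
def Hm (c : Cg D) (e : Bool) (B : Fld D) : Prop := c.Q.fld B ∧ Pa c e B

/-- saturated theories -/
structure Sat (c : Cg D) : Prop where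
  one : c.Q.bose idf
  der : ∀ m B, c.Q.fld B → c.Q.fld (dF m B)
  mf : ∀ e B, Hm c e B → ∃ (n : ℕ) (C : Fin n → Fld D),
    (∀ i, ∃ k Φ a, IsMf c.Q k Φ ∧ (∀ b, Pa c e (Φ b)) ∧ C i = Φ a) ∧
      ∀ f v, IsTest f → B f v = ∑ i, C i f v
  scl : ∀ e B, Hm c e B → ∃ F C, Scl c.Q B F C ∧ ∀ p, Pa c e (C p)
  rel : ∀ e B s L a, 0 < s → IsLor L → Hm c e B → ∃ C, Hm c e C ∧ ∀ f v, IsTest f →
    B f (c.Q.U s L a v) = c.Q.U s L a (C (fun x => f (sim s L a x)) v)

/-- row ENL: saturation -/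
def ENL (c : Cg D) (T : Ix → Ix → Fld D) : Prop := MfAll c.Q → FSL c.Q → Stress0 c.Q T →
  ND.PCh c.Q T c.A → ∃ c' : Cg D, IsEnl c.Q c'.Q ∧ c'.G = c.G ∧ c'.A = c.A ∧ c'.Γ = c.Γ ∧
    c'.N = c.N ∧ Sat c' ∧ Stress0 c'.Q T ∧ ND.PCh c'.Q T c'.A

/-- pairs of words with letters of equal parities, applied to the vacuum -/
inductive Pair (c : Cg D) : D → D → Prop
  | vac : Pair c c.Q.vac c.Q.vac
  | cons (e : Bool) (B B' : Fld D) (f f' : Fn) (v v' : D) : Hm c e B → Hm c e B' → IsTest f →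
      IsTest f' → Pair c v v' → Pair c (B f v) (B' f' v')

/-- row CYC: the pairs generate the even vectors -/
def CYC (c : Cg D) : Prop := Sat c → UVac c.Q → ∀ K : Submodule ℂ (H2 D),
  IsClosed (K : Set (H2 D)) →
  (∀ v v', Pair c v v' → tm (v : Completion D) (v' : Completion D) ∈ K) →
  ∀ z, G2 c z = z → z ∈ K

/-- `X` is the infinitesimal Poincaré transformation with the parts `y` and `w` -/
def Poi (X : V → V) (y : V) (w : Ix → V) : Prop :=
  (∀ m n, eta n * w m n = -(eta m * w n m)) ∧ ∀ z n, X z n = y n + 0 * z n + ∑ m, z m * w m n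

/-- the infinitesimal action on the component `a` of a multiplet -/
def act (k : Rp) (Φ : Fin k.n → Fld D) (X : V → V) (w : Ix → V) (a : Fin k.n) : Fld D :=
  fun f v => I • (∑ n, Φ a (pd n fun x => (X x n : ℂ) * f x) v +
    ∑ b, (∑ m, ∑ n, (w m n : ℂ) * k.S m n b a) • Φ b f v)

variable (D) in
/-- row GEN: the commutators with the generators, in any theory (graded or not) -/
def GEN : Prop := ∀ (Q : Theory D) (A : (V → V) → D → D),
  (∀ L a v, IsLor L → Q.U 1 L a v = Q.U 1 GF.one a (Q.U 1 L 0 v)) →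
  (∀ (s : ℝ → ℝ) (L : ℝ → Ix → V) (a : ℝ → V) X v, s 0 = 1 → L 0 = GF.one → a 0 = 0 →
    (∀ e, 0 < s e ∧ IsLor (L e)) →
    (∀ n x, HasDerivAt (fun e => sim (s e) (L e) (a e) x n) (X x n) 0) →
    HasDerivAt (fun e => Q.U (s e) (L e) (a e) v) (I • A X v) 0) →
  ∀ X y w, Poi X y w → (∀ u v, A X (u + v) = A X u + A X v) ∧
    ∀ k Φ a f v, IsMf Q k Φ → IsTest f → A X (Φ a f v) - Φ a f (A X v) = act k Φ X w a f v

/-- row FIN: the charges at finite radius -/
structure FIN (c : Cg D) (T : Ix → Ix → Fld D) : Prop where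
  tra : ∀ F n K, IsCutoff F → Bornology.IsBounded K → ∀ᶠ R in atTop, ∀ B f v, c.Q.fld B →
    In K f → T o n (F R) (B f v) - B f (T o n (F R) v) = (I * eta n) • B (pd n f) v
  poi : ∀ F X y w K, IsCutoff F → Poi X y w → Bornology.IsBounded K → ∀ᶠ R in atTop,
    ∀ k Φ a f v, IsMf c.Q k Φ → In K f →
      ND.cur T X (F R) (Φ a f v) - Φ a f (ND.cur T X (F R) v) = act k Φ X w a f v

/-- row WARD -/
def WARD (c : Cg D) (T : Ix → Ix → Fld D) : Prop :=
  Stress0 c.Q T → ND.PCh c.Q T c.A → FIN c T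

variable (D) in
/-- row TENS: tensor products of multiplets -/
def TENS : Prop := ∀ (Q : Theory D) (k k' : Rp) (Ψ : Fin k.n → Fin k'.n → Fld D),
  (∀ a b, Q.fld (Ψ a b)) → (∀ a b L f v, IsLor L → IsTest f → Ψ a b f (Q.U 1 L 0 v) =
    ∑ a', ∑ b', (k.ρ L a' a * k'.ρ L b' b) • Q.U 1 L 0 (Ψ a' b' (fun x => f (sim 1 L 0 x)) v)) →
  ∃ (l : Rp) (Φ : Fin l.n → Fld D) (ε : Fin k.n × Fin k'.n ≃ Fin l.n), IsMf Q l Φ ∧
    (∀ a b, Φ (ε (a, b)) = Ψ a b) ∧ ∀ m n a b a' b', l.S m n (ε (a', b')) (ε (a, b)) =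
      (if b' = b then k.S m n a' a else 0) + if a' = a then k'.S m n b' b else 0

variable (D) in
/-- row SUM: scaling laws with arbitrary finite index sets -/
def SUM : Prop := ∀ (Q : Theory D) (A : Fld D) (ι : Type) [Fintype ι] (d : ι → ℂ) (j : ι → ℕ)
  (B : ι → Fld D), (∀ s : Finset ι, Q.fld (fun f v => ∑ i ∈ s, B i f v) ∧
    (Q.bose A → Q.bose fun f v => ∑ i ∈ s, B i f v)) →
  (∀ (s : ℝ) f v, 0 < s → IsTest f → A f (Q.U s GF.one 0 v) =
    ∑ i, ((s : ℂ) ^ (4 - d i) * (Real.log s : ℂ) ^ j i) •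
      Q.U s GF.one 0 (B i (fun x => f (sim s GF.one 0 x)) v)) → ∃ F C, Scl Q A F C

end

end Vale.Agent.N352.Q2
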