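import Vale.Agent.N352.W2
import Vale.Agent.N352.PwDef
import Vale.Agent.N352.QDef
import Vale.Agent.P352X.EG.BAS

/-!
# N352: the pointwise products on the even part of the tensor square
-/

set_option linter.all false

noncomputable section

open Filter Topology MeasureTheory
open scoped SchwartzMap ComplexConjugate
open UniformSpace (Completion)

namespace Vale.Agent.N352.Kn

open Vale.Agent.P352 Vale.Agent.P352.GF Vale.Agent.P352X Vale.Agent.P352X.EG
open Vale.Agent.P352.SubConf (IsAdj)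
open Vale.Agent.P352X.ST (tens)
open Vale.Agent.P352X.Api4 (tenE tenE')
open Vale.Agent.N352.Tn Vale.Agent.N352.Q2

variable {D : Type*} [NormedAddCommGroup D] [InnerProductSpace ℂ D] {c : Cg D}

/-- the letters -/
abbrev La (c : Cg D) := {p : Fl c.Q × Fl c.Q // ∃ e, Pa c e p.1.1 ∧ Pa c e p.2.1}

/-- the words -/
abbrev Wo (c : Cg D) := Σ n : ℕ, (Fin n → La c) × (Fin n → Sch)

/-- the products -/
def pw2 {n : ℕ} (w : Fin n → La c) : 𝓢(Vn n, ℂ) →L[ℂ] H2 D :=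
  P2 (fun i => (w i).1.1) fun i => (w i).1.2

/-- the vectors -/
def pv (i : Wo c) : H2 D := pw2 i.2.1 (pt i.2.2)

/-- one more letter -/
def nx (a : La c) (g : Sch) (i : Wo c) : Wo c := ⟨i.1 + 1, Fin.cons a i.2.1, Fin.cons g i.2.2⟩

lemma pv_nx (a : La c) (g : Sch) (i : Wo c) :
    pv (nx a g i) = pw2 (Fin.cons a i.2.1 : Fin (i.1 + 1) → La c) (cons' (pt i.2.2) g) := rfl

lemma pv_weak {a a' : La c} (h : IsAdj a.1.1.1 a'.1.1.1) (h' : IsAdj a.1.2.1 a'.1.2.1) {U : Set V}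
    (hU : IsOpen U) {Z : H2 D →L[ℂ] H2 D} (hZ : Z ∈ Cw c U) {g : Sch} (hg : HasCompactSupport g)
    (hs : tsupport g ⊆ U) (i j : Wo c) :
    inner ℂ (pv (nx a' (cj g) j)) (Z (pv i)) = inner ℂ (pv j) (Z (pv (nx a g i))) := by
  obtain ⟨e, p, p'⟩ := a.2
  exact P2_weak (fun k => ((nx a g i).2.1 k).1.1) (fun k => ((nx a g i).2.1 k).1.2)
    (fun k => ((nx a' g j).2.1 k).1.1) (fun k => ((nx a' g j).2.1 k).1.2) Z hU
    (fun f f' hf hf' v v' z z' => wk_tm hZ
      (afs_of_aff (fun v w => h f v w hf.1) (c.hN.fld U _ f a.1.1.2 hf))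
      (afs_of_aff (fun v w => h' f' v w hf'.1) (c.hN.fld U _ f' a.1.2.2 hf'))
      (fun v => p f v hf.1) (fun v => p' f' v hf'.1) v v' z z') hg hs _ _

lemma ex_dag (a : La c) : ∃ a' : La c, IsAdj a.1.1.1 a'.1.1.1 ∧ IsAdj a.1.2.1 a'.1.2.1 := by
  obtain ⟨e, p, p'⟩ := a.2
  obtain ⟨B, hB, h⟩ := c.Q.adj _ a.1.1.2
  obtain ⟨C, hC, h'⟩ := c.Q.adj _ a.1.2.2
  exact ⟨⟨(⟨B, hB⟩, ⟨C, hC⟩), e, Bas.padj _ _ _ h p, Bas.padj _ _ _ h' p'⟩, h, h'⟩

lemma ex_op (a : La c) (g : Sch) : ∃ T : Submodule.span ℂ (Set.range (pv (c := c))) →ₗ[ℂ]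
    Submodule.span ℂ (Set.range (pv (c := c))), ∀ i hi, (T ⟨pv i, hi⟩ : H2 D) = pv (nx a g i) := by
  obtain ⟨a', h, h'⟩ := ex_dag a
  refine recon pv (nx a g) fun j => ⟨pv (nx a' (cj g) j), fun i => (sub_eq_zero.1
    (ST.vanish_of_compact (anti (pw2 _ ∘L cons' (pt j.2.2)) (pv i) -
      innerSL ℂ (pv j) ∘L pw2 _ ∘L cons' (pt i.2.2)) g fun u hu _ => sub_eq_zero.2 ?_)).symm⟩
  exact pv_weak h h' isOpen_univ (Z := 1) (fun _ _ => (mul_one _).trans (one_mul _).symm) hu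
    (Set.subset_univ _) i j

variable (c) in
/-- the domain -/
abbrev E2 : Submodule ℂ (H2 D) := Submodule.span ℂ (Set.range (pv (c := c)))

/-- the vectors, in the domain -/
def pe (i : Wo c) : E2 c := ⟨pv i, Submodule.subset_span ⟨i, rfl⟩⟩

/-- the operators -/
def o2 (a : La c) (g : Sch) : E2 c →ₗ[ℂ] E2 c := (ex_op a g).choose

lemma o2_pe (a : La c) (g : Sch) (i : Wo c) : o2 a g (pe i) = pe (nx a g i) :=
  Subtype.ext ((ex_op a g).choose_spec i _)

@[elab_as_elim]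
lemma E2_ind {p : E2 c → Prop} (v : E2 c) (h : ∀ i, p (pe i)) (h0 : p 0)
    (ha : ∀ v w, p v → p w → p (v + w)) (hs : ∀ (z : ℂ) v, p v → p (z • v)) : p v := by
  obtain ⟨v, hv⟩ := v
  induction hv using Submodule.span_induction with
  | mem _ hv => exact hv.elim fun i e => by subst e; exact h i
  | zero => exact h0
  | add _ _ _ _ a b => exact ha _ _ a b
  | smul z _ _ a => exact hs z _ a

lemma E2_ext {G : Type*} [AddCommGroup G] [Module ℂ G] (A B : E2 c →ₗ[ℂ] G)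
    (h : ∀ i, A (pe i) = B (pe i)) (v : E2 c) : A v = B v :=
  E2_ind v h (by simp) (fun v w a b => by rw [map_add, map_add, a, b])
    fun z v a => by rw [map_smul, map_smul, a]

open Classical in
variable (c) in
/-- **the pointwise products** -/
def PP (B C : Fld D) : Fld (E2 c) := fun f v =>
  if h : Lt c B C ∧ IsTest f then o2 ⟨(⟨B, h.1.1⟩, ⟨C, h.1.2.1⟩), h.1.2.2⟩ h.2.choose v else 0

/-- the letter of a pair of fields -/
def la {B C : Fld D} (h : Lt c B C) : La c := ⟨(⟨B, h.1⟩, ⟨C, h.2.1⟩), h.2.2⟩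

lemma PP_ev {B C : Fld D} (h : Lt c B C) (g : Sch) (v : E2 c) :
    PP c B C (ev g) v = o2 (la h) g v := by
  rw [PP, dif_pos ⟨h, tst g⟩, show (tst g).choose = g from
    DFunLike.coe_injective (tst g).choose_spec]
  rfl

lemma pair_wd : ∀ {n : ℕ} (w : Fin n → La c) (f f' : Fin n → Sch),
    Pair c (wd (fun i => (w i).1.1) f) (wd (fun i => (w i).1.2) f')
  | 0, _, _, _ => .vac
  | _ + 1, w, f, f' => (w 0).2.elim fun e h => .cons e _ _ _ _ _ _ ⟨(w 0).1.1.2, h.1⟩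
      ⟨(w 0).1.2.2, h.2⟩ (tst _) (tst _) (pair_wd (Fin.tail w) (Fin.tail f) (Fin.tail f'))

lemma wd_pair {v v' : D} (h : Pair c v v') : ∃ (n : ℕ) (w : Fin n → La c) (f f' : Fin n → Sch),
    v = wd (fun i => (w i).1.1) f ∧ v' = wd (fun i => (w i).1.2) f' := by
  induction h with
  | vac => exact ⟨0, Fin.elim0, Fin.elim0, Fin.elim0, rfl, rfl⟩
  | cons e B B' f f' v v' h h' hf hf' _ ih =>
    obtain ⟨n, w, g, g', rfl, rfl⟩ := ih
    obtain ⟨f, rfl⟩ := hf
    obtain ⟨f', rfl⟩ := hf'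
    exact ⟨n + 1, Fin.cons (la ⟨h.1, h'.1, e, h.2, h'.2⟩) w, Fin.cons f g, Fin.cons f' g', rfl, rfl⟩

lemma pair_even {v v' : D} (h : Pair c v v') : ∃ e, c.G v = EG.sg e • v ∧ c.G v' = EG.sg e • v' := by
  induction h with
  | vac => exact ⟨false, by simp [EG.sg, c.hN.vac]⟩
  | cons e B B' f f' v v' h h' hf hf' _ ih =>
    obtain ⟨b, h1, h2⟩ := ih
    refine ⟨xor e b, ?_⟩
    rw [Bas.pa' h.2 hf, Bas.pa' h'.2 hf', h1, h2, (P352W.Rp.aj_fld h.1 hf).smul,
      (P352W.Rp.aj_fld h'.1 hf').smul, smul_smul, smul_smul]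
    cases e <;> cases b <;> simp [EG.sg]

lemma pv_even (i : Wo c) : G2 c (pv i) = pv i := by
  have h := eq_pt2 (G2 c ∘L W2 (fun k => (i.2.1 k).1.1) fun k => (i.2.1 k).1.2) (W2 _ _)
    fun f f' => by
      obtain ⟨e, h1, h2⟩ := pair_even (pair_wd i.2.1 f f')
      rw [ContinuousLinearMap.comp_apply, W2_pt, Tn.G2, mp_tm, c.hN.ext, c.hN.ext, h1, h2,
        Completion.coe_smul, Completion.coe_smul, tm_smul_l, map_smul, smul_smul, sg_sq, one_smul]
  exact tendsto_nhds_unique (((G2 c).continuous.tendsto _).comp (P2_rn _ _ _))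
    ((P2_rn _ _ _).congr fun k => (h _).symm)

lemma E2_even (v : E2 c) : G2 c v = v :=
  E2_ext ((G2 c).toLinearMap ∘ₗ (E2 c).subtype) (E2 c).subtype pv_even v

variable (c) in
/-- the pairs of words are total in the even part -/
def CY : Prop := ∀ ξ : H2 D, G2 c ξ = ξ →
  (∀ v v', Pair c v v' → inner ℂ ξ (tm (v : Completion D) (v' : Completion D)) = 0) → ξ = 0

lemma E2_dense (h : Big c) (hc : CY c) (z : H2 D) (hz : G2 c z = z) :
    z ∈ closure (E2 c : Set (H2 D)) := by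
  set K := (E2 c).topologicalClosure
  haveI : CompleteSpace K := (Submodule.isClosed_topologicalClosure _).completeSpace_coe
  have ev : ∀ x ∈ K, G2 c x = x := fun x hx =>
    closure_minimal (t := {x | G2 c x = x}) (fun v hv => E2_even ⟨v, hv⟩)
      (isClosed_eq (G2 c).continuous continuous_id) hx
  obtain ⟨x, hx, ξ, hξ, rfl⟩ := K.exists_add_mem_mem_orthogonal z
  rw [map_add, ev x hx, add_right_inj] at hz
  rw [hc ξ hz fun v v' hv => ?_, add_zero]
  · exact hx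
  obtain ⟨n, w, f, f', rfl, rfl⟩ := wd_pair hv
  refine W2_orth h.der (fun B C => ∃ e, Pa c e B.1 ∧ Pa c e C.1) ?_ ξ (fun u u' hu g => ?_) _ _
    (fun i => (w i).2) f f'
  · rintro B B' C m ⟨e, p, p'⟩ k
    exact ⟨e, fun f v hf => by rw [k]; exact p _ v (H15.isTest_pd hf), p'⟩
  · exact (K.mem_orthogonal' ξ).1 hξ _ (Submodule.le_topologicalClosure _
      (pe ⟨n, fun i => ⟨(u i, u' i), hu i⟩, g⟩).2)

theorem pw_of (h : Big c) (hc : CY c) :
    PW c (E2 c).subtypeₗᵢ (pe ⟨0, Fin.elim0, Fin.elim0⟩) (PP c) where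
  vac := P2_nil _ _
  even := E2_even
  dense z hz := by
    have := E2_dense h hc z hz
    rwa [← Subtype.range_coe (s := (E2 c : Set (H2 D)))] at this
  gen S h0 hS v := by
    refine E2_ind v ?_ S.zero_mem (fun _ _ => S.add_mem) fun z _ => S.smul_mem z
    rintro ⟨n, w, f⟩
    induction n with
    | zero => rwa [Subsingleton.elim w Fin.elim0, Subsingleton.elim f Fin.elim0]
    | succ n ih =>
      have hl : Lt c _ _ := ⟨(w 0).1.1.2, (w 0).1.2.2, (w 0).2⟩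
      have := hS _ _ _ _ hl (tst (f 0)) (ih (Fin.tail w) (Fin.tail f))
      rw [PP_ev hl, o2_pe] at this
      rw [← Fin.cons_self_tail w, ← Fin.cons_self_tail f]
      exact this
  lin := by
    rintro B C _ _ z v hl ⟨f, rfl⟩ ⟨g, rfl⟩
    rw [show (fun x => ev f x + z * ev g x) = ev (f + z • g) from funext fun x => by simp [ev],
      PP_ev hl, PP_ev hl, PP_ev hl]
    refine E2_ext _ (o2 _ f + z • o2 _ g) (fun i => Subtype.ext ?_) v
    simp only [LinearMap.add_apply, LinearMap.smul_apply, o2_pe, Submodule.coe_add,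
      Submodule.coe_smul]
    simp only [pe, pv_nx, map_add, map_smul]
  cont B C v hl := by
    simp only [PP_ev hl]
    refine E2_ind v (fun i => ?_) (by simpa using continuous_const)
      (fun v w a b => by simpa only [map_add] using a.fun_add b)
      fun z v a => by simpa only [map_smul] using a.fun_const_smul z
    simp only [o2_pe]
    exact Continuous.subtype_mk (by simp only [pv_nx]; fun_prop) _
  aff := by
    rintro B C B' C' _ U Z v w hl hl' a a' ⟨⟨f, rfl⟩, hf, -⟩ hU hs hZ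
    rw [← ev_cj, PP_ev hl, PP_ev hl']
    refine E2_ext (innerₛₗ ℂ _ ∘ₗ Z.toLinearMap ∘ₗ (E2 c).subtype)
      (innerₛₗ ℂ (w : H2 D) ∘ₗ Z.toLinearMap ∘ₗ (E2 c).subtype ∘ₗ o2 _ f) (fun i => ?_) v
    show inner ℂ (o2 _ _ w : H2 D) (Z (pv i)) = inner ℂ (w : H2 D) (Z (o2 _ _ (pe i) : H2 D))
    rw [← inner_conj_symm, ← inner_conj_symm (w : H2 D)]
    refine congrArg _ (E2_ext (innerₛₗ ℂ _ ∘ₗ (E2 c).subtype ∘ₗ o2 _ (cj f))
      (innerₛₗ ℂ _ ∘ₗ (E2 c).subtype) (fun j => ?_) w)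
    show inner ℂ (Z (pv i)) (o2 _ _ (pe j) : H2 D) = inner ℂ (Z (o2 _ _ (pe i) : H2 D)) (pv j)
    rw [o2_pe, o2_pe, ← inner_conj_symm, ← inner_conj_symm (Z _)]
    exact congrArg _ (pv_weak (a := la hl) (a' := la hl') a a' hU hZ hf hs i j)
  one B C hl := by
    refine ⟨W2 ![⟨B, hl.1⟩] ![⟨C, hl.2.1⟩] ∘L tenE' (ce2 0) (tens (nil V) (nil V)),
      fun g h => ?_, fun ρ F => ?_⟩
    · exact (congrArg _ (cs_tens g h _ _)).trans (W2_pt _ _ ![g] ![h])
    · rw [PP_ev hl, o2_pe]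
      refine (P2_cons _ _ ρ F (nil V)).congr fun k => ?_
      exact congrArg (fun Φ => W2 _ _ (cs _ Φ)) (dg_nil k)

end Vale.Agent.N352.Kn
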