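import Vale.Agent.N352.NDu
import Vale.Agent.N352.GSq
import Vale.Agent.N352.Net2

/-!
# N352: slicing. From the locality of `x ⊗ Ω + Ω ⊗ x` to the locality of `x`
-/

set_option linter.all false

noncomputable section

open Filter Topology MeasureTheory
open scoped ComplexConjugate
open UniformSpace (Completion)
open ContinuousLinearMap (adjoint)

namespace Vale.Agent.N352.Sl

open Vale.Agent.P352 Vale.Agent.P352.GF Vale.Agent.P352.BW Vale.Agent.P352.H496
open Vale.Agent.P352X Vale.Agent.P352X.EG Vale.Agent.N352.Tn Vale.Agent.N352.Nt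

variable {D : Type*} [NormedAddCommGroup D] [InnerProductSpace ℂ D] {c : Cg D} {a b y : V}
  {X Y Z : Completion D →L[ℂ] Completion D} {e e' : Bool} {O : Set V}

lemma wdg_open (a b y : V) : IsOpen (Wdg a b y) := by
  have k : ∀ a : V, Continuous fun x => GF.mdot a (x - y) := fun a => by unfold GF.mdot; fun_prop
  exact (isOpen_lt (k a) continuous_const).inter (isOpen_lt continuous_const (k b))

lemma wdg_ne (ha : IsNull a) (hb : IsNull b) (hab : 0 < GF.mdot a b) : (Wdg a b y).Nonempty :=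
  ⟨y + (a - b), by
    simp only [Wdg, Set.mem_setOf_eq, add_sub_cancel_left]
    simp only [gm_sub, ha.1, hb.1, gm_comm b a]
    constructor <;> linarith⟩

/-- operators that agree on the vectors of a wedge are equal -/
lemma rs_ext (ha : IsNull a) (hb : IsNull b) (hab : 0 < GF.mdot a b)
    (h : ∀ A ∈ c.N (Wdg a b y), X (A c.Om) = Y (A c.Om)) : X = Y :=
  ContinuousLinearMap.ext fun z => (SGx.rs (c := c) (wdg_open a b y) (wdg_ne ha hb hab)).induction
    (P := fun z => X z = Y z) (by rintro _ ⟨A, hA, rfl⟩; exact h A hA)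
    (isClosed_eq X.continuous Y.continuous) z

lemma par_ut (h : Par c e X) (y : V) : Par c e (Ut c.Q y * X * star (Ut c.Q y)) := by
  have u : Par c false (Ut c.Q y) := (G.ip_ut c y).ev.trans (one_smul _ _).symm
  simpa using (u.mul h).mul u.star

/-- graded locality for all wedges -/
lemma wdg_sign (ha : IsNull a) (hb : IsNull b) (hab : 0 < GF.mdot a b) (hX : X ∈ c.N (Wdg b a y))
    (hY : Y ∈ c.N (Wdg a b y)) (p : Par c e X) (q : Par c e' Y) :
    X * Y = sg (e && e') • (Y * X) := by
  have r := inv_pos.2 hab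
  have u := (G.ip_ut c (-y)).uni
  have h := wedge_sign (a := a) (b := (GF.mdot a b)⁻¹ • b) ha
    ⟨by rw [gm_smul, gm_comm (_ • b), gm_smul, hb.1, mul_zero, mul_zero], mul_pos r hb.2⟩
    (by rw [gm_smul, inv_mul_cancel₀ hab.ne'])
    ((G.ip_ut c (-y)).mem (fun z hz => ?_) X hX) ((G.ip_ut c (-y)).mem (fun z hz => ?_) Y hY)
    (par_ut p _) (par_ut q _)
  · have := congrArg (fun T => star (Ut c.Q (-y)) * T * Ut c.Q (-y)) h
    simp only [mul_smul_comm, smul_mul_assoc, mul_assoc, u.1, mul_one] at this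
    simpa only [← mul_assoc, u.1, one_mul] using this
  · refine ⟨?_, by rw [sub_zero, ← sub_eq_add_neg]; exact hz.2⟩
    rw [gm_comm (_ • b), gm_smul, gm_comm (_ - 0), sub_zero, ← sub_eq_add_neg]
    exact mul_neg_of_pos_of_neg r hz.1
  · refine ⟨by rw [sub_zero, ← sub_eq_add_neg]; exact hz.1, ?_⟩
    rw [gm_comm (_ • b), gm_smul, gm_comm (_ - 0), sub_zero, ← sub_eq_add_neg]
    exact mul_pos r hz.2

/-- a positive spectrum that is symmetric is trivial -/
lemma sym_null (ha : IsNull a) {ν : Measure V} [IsFiniteMeasure ν] (h : ∀ᵐ p ∂ν, p ∈ Kin.Cone)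
    (k : ∀ t : ℝ, ∫ p, Complex.exp (Complex.I * GF.mdot p (t • a)) ∂ν =
      ∫ p, Complex.exp (Complex.I * GF.mdot p (-(t • a))) ∂ν) : ∀ᵐ p ∂ν, GF.mdot a p = 0 := by
  have m : Measurable (GF.mdot a) := Kin.meas_md a
  have m' : Measurable fun p => -GF.mdot a p := m.neg
  have e : ν.map (GF.mdot a) = ν.map fun p => -GF.mdot a p := SN.isPair_mul.meas_ext fun t => by
    have s : Continuous (SN.ch (fun p t : ℝ => p * t) t) := by unfold SN.ch; fun_prop
    rw [integral_map m.aemeasurable s.aestronglyMeasurable,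
      integral_map m'.aemeasurable s.aestronglyMeasurable]
    simpa only [SN.ch, ← neg_smul, gm_smul, gm_comm _ a, mul_comm t, neg_mul, mul_neg] using k t
  have h1 : ∀ᵐ s ∂ν.map fun p => -GF.mdot a p, s ≤ 0 :=
    (ae_map_iff m'.aemeasurable measurableSet_Iic).2
      (h.mono fun p hp => neg_nonpos.2 (Kin.Cone.md_nonneg ha hp))
  rw [← e] at h1
  filter_upwards [h, ae_of_ae_map m.aemeasurable h1] with p h2 h3
  exact le_antisymm h3 (Kin.Cone.md_nonneg ha h2)

/-- **The algebras of wedges are factors.** -/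
theorem factor (hU : UVac c.Q) (ha : IsNull a) (hb : IsNull b) (hab : 0 < GF.mdot a b)
    (h : X ∈ c.N (Wdg a b y)) (h' : X ∈ (c.N (Wdg a b y)).commutant) (hs : star X = X) :
    ∃ κ : ℂ, X = κ • 1 := by
  obtain ⟨ν, hν, h1, h2⟩ := SGx.spec c.Q (X c.Om)
  have sa : ∀ v w, inner ℂ (X v) w = inner ℂ v (X w) := fun v w => by
    rw [← ContinuousLinearMap.adjoint_inner_right, ← ContinuousLinearMap.star_eq_adjoint, hs]
  have k : ∀ x : V, (∀ z ∈ Wdg a b y, z + x ∈ Wdg a b y) →
      inner ℂ (X c.Om) (Ut c.Q x (X c.Om)) = inner ℂ (X c.Om) (Ut c.Q (-x) (X c.Om)) := by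
    intro x hx
    have := DFunLike.congr_fun (comm_mul ((G.ip_ut c x).mem hx X h) h') c.Om
    simp only [ContinuousLinearMap.mul_apply, G.Sq.star_ut, (G.ip_ut c _).vac] at this
    rw [sa, ← this, ← SGx.ut_inn c.Q (-x), (G.ip_ut c _).vac, G.Sq.ut_apply, neg_add_cancel,
      SGx.ut_zero, sa]
  have k2 : ∀ x : V, (∀ t : ℝ, 0 ≤ t → ∀ z ∈ Wdg a b y, z + t • x ∈ Wdg a b y) → ∀ t : ℝ,
      ∫ p, Complex.exp (Complex.I * GF.mdot p (t • x)) ∂ν =
        ∫ p, Complex.exp (Complex.I * GF.mdot p (-(t • x))) ∂ν := fun x hx t => by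
    rw [← h2, ← h2]
    rcases le_total 0 t with ht | ht
    · exact k _ (hx t ht)
    · simpa only [neg_smul, neg_neg] using (k _ (hx (-t) (neg_nonneg.2 ht))).symm
  have a0 := sym_null ha h1 (k2 a fun t ht z hz => by
    have := mul_nonneg ht hab.le
    simp only [Wdg, Set.mem_setOf_eq, add_sub_right_comm, gm_add, gm_smul, ha.1, gm_comm b a]
      at hz ⊢
    constructor <;> linarith [hz.1, hz.2])
  have b0 := sym_null hb h1 fun t => by
    simpa only [smul_neg, neg_neg] using (k2 (-b) (fun t ht z hz => by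
      have := mul_nonneg ht hab.le
      simp only [Wdg, Set.mem_setOf_eq, smul_neg, ← neg_smul, add_sub_right_comm, gm_add, gm_smul,
        hb.1] at hz ⊢
      constructor <;> linarith [hz.1, hz.2]) t).symm
  have p0 : ∀ᵐ p ∂ν, p = 0 := by
    filter_upwards [a0, b0, h1] with p p1 p2 p3
    refine Kin.eq_zero_of_orth (t := a + b) ?_ p3.2 ?_
    · rw [gm_add, gm_comm, gm_comm (a + b), gm_add, gm_add, ha.1, hb.1, gm_comm b a]
      linarith
    · rw [gm_comm, gm_add, gm_comm, p1, gm_comm, p2, add_zero]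
  obtain ⟨κ, hκ⟩ := hU (X c.Om) fun x => by
    have e : inner ℂ (X c.Om) (Ut c.Q x (X c.Om)) = inner ℂ (X c.Om) (X c.Om) := by
      have := h2 0
      rw [SGx.ut_zero] at this
      rw [h2, this]
      exact integral_congr_ae (p0.mono fun p hp => by simp [hp, GF.mdot])
    rw [← Ug_apply c.Q one_pos H496.isLor_one, ← sub_eq_zero, ← inner_self_eq_zero (𝕜 := ℂ),
      inner_sub_left, inner_sub_right, inner_sub_right]
    change inner ℂ (Ut c.Q x _) (Ut c.Q x _) - inner ℂ (Ut c.Q x _) _ -
      (inner ℂ _ (Ut c.Q x _) - _) = 0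
    rw [SGx.ut_inn, ← inner_conj_symm (Ut c.Q x _), e, inner_conj_symm]
    ring
  refine ⟨κ, rs_ext (c := c) (y := y) ha hb hab fun Y hY => ?_⟩
  rw [← comm_apply hY h', hκ, map_smul]
  rfl

/-- odd operators have no common zero -/
theorem ex_odd (hU : UVac c.Q) (ha : IsNull a) (hb : IsNull b) (hab : 0 < GF.mdot a b)
    (h0 : c.Γ ≠ 1) {ξ : Completion D} (hξ : ξ ≠ 0) :
    ∃ X ∈ c.N (Wdg a b y), Par c true X ∧ X ξ ≠ 0 := by
  by_contra h
  push Not at h
  let K : Submodule ℂ (Completion D) :=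
    ⨅ X : {X // X ∈ c.N (Wdg a b y) ∧ Par c true X}, X.1.ker
  have mem : ∀ z, z ∈ K ↔ ∀ X ∈ c.N (Wdg a b y), Par c true X → X z = 0 := fun z =>
    (Submodule.mem_iInf _).trans ⟨fun k X a b => k ⟨X, a, b⟩, fun k X => k X.1 X.2.1 X.2.2⟩
  have hc : IsClosed (K : Set (Completion D)) := by
    rw [Submodule.coe_iInf]
    exact isClosed_iInter fun X => X.1.isClosed_ker
  haveI : CompleteSpace K := hc.completeSpace_coe
  have pr := isStarProjection_starProjection (U := K)
  obtain ⟨κ, e⟩ := factor hU ha hb hab (X := K.starProjection)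
    ((VonNeumannAlgebra.IsStarProjection.mem_iff pr _).2 fun Y hY => by
      rw [Submodule.range_starProjection]
      exact fun z hz => (mem _).2 fun X hX p => by
        rw [ContinuousLinearMap.coe_coe, comm_apply hX hY, (mem z).1 hz X hX p, map_zero])
    ((VonNeumannAlgebra.IsStarProjection.mem_iff pr _).2 fun Y hY => by
      rw [Submodule.range_starProjection]
      rw [mem_cc] at hY
      exact fun z hz => (mem _).2 fun X hX p => by
        rw [ContinuousLinearMap.coe_coe, ← pp_add (c := c) Y, ContinuousLinearMap.add_apply,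
          (mem z).1 hz _ (pp_mem hY _) (par_pp _ _), add_zero]
        have q := p.mul (par_pp false Y)
        rw [Bool.xor_false] at q
        exact (mem z).1 hz _ (mul_mem hX (pp_mem hY false)) q)
    pr.isSelfAdjoint.star_eq
  have e1 : κ = 1 := by
    have : K.starProjection ξ = κ • ξ := by
      rw [e, ContinuousLinearMap.smul_apply, ContinuousLinearMap.one_apply]
    rw [Submodule.starProjection_eq_self_iff.2 ((mem ξ).2 h)] at this
    refine (sub_eq_zero.1 ((smul_eq_zero.1 (?_ : (κ - 1) • ξ = 0)).resolve_right hξ))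
    rw [sub_smul, one_smul, ← this, sub_self]
  have e2 : c.Om ∈ K := Submodule.starProjection_eq_self_iff.1 (by
    rw [e, e1, one_smul, ContinuousLinearMap.one_apply])
  refine h0 (rs_ext (c := c) (y := y) ha hb hab fun Y hY => ?_)
  rw [ContinuousLinearMap.one_apply, ← pp_add (c := c) Y, ContinuousLinearMap.add_apply,
    (mem _).1 e2 _ (pp_mem hY _) (par_pp _ _), add_zero, (par_pp false Y).apply, SGx.gv]
  exact one_smul _ _

/-- **products of operators that are localized in wedges opposite to `O`** -/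
inductive Opp {H : Type*} [NormedAddCommGroup H] [InnerProductSpace ℂ H] [CompleteSpace H]
    (N : Set V → VonNeumannAlgebra H) (O : Set V) : (H →L[ℂ] H) → Prop
  | one : Opp N O 1
  | mul (a b y : V) (X Z : H →L[ℂ] H) : IsNull a → IsNull b → 0 < GF.mdot a b → O ⊆ Wdg a b y →
      X ∈ N (Wdg b a y) → Opp N O Z → Opp N O (X * Z)

/-- pairs of such products, with factors of equal parities -/
inductive Op2 (c : Cg D) (O : Set V) : Bool → (Completion D →L[ℂ] Completion D) →
    (Completion D →L[ℂ] Completion D) → Prop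
  | one : Op2 c O false 1 1
  | mul (a b y : V) (e e' : Bool) (X Y Z W : Completion D →L[ℂ] Completion D) : IsNull a →
      IsNull b → 0 < GF.mdot a b → O ⊆ Wdg a b y → X ∈ c.N (Wdg b a y) → Y ∈ c.N (Wdg b a y) →
      Par c e X → Par c e Y → Op2 c O e' Z W → Op2 c O (xor e e') (X * Z) (Y * W)

lemma Op2.par (h : Op2 c O e X Y) : Par c e X ∧ Par c e Y := by
  induction h with
  | one => exact ⟨par_one, par_one⟩
  | mul _ _ _ _ _ _ _ _ _ _ _ _ _ _ _ p q _ ih => exact ⟨p.mul ih.1, q.mul ih.2⟩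

lemma Op2.diag (h : Op2 c O e X Y) : Op2 c O e X X := by
  induction h with
  | one => exact .one
  | mul a b y e e' X Y Z W ha hb hab hO hX _ p _ _ ih =>
    exact .mul a b y e e' X X Z Z ha hb hab hO hX hX p p ih

lemma odd_zero (h0 : c.Γ = 1) (p : Par c true X) : X = 0 := by
  rw [Par, h0, one_mul, mul_one] at p
  refine (smul_eq_zero.1 (?_ : (2 : ℂ) • X = 0)).resolve_left two_ne_zero
  rw [two_smul]
  exact add_eq_zero_iff_eq_neg.2 (p.trans (neg_one_smul ℂ X))

/-- there is a partner that does not annihilate the vacuum -/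
lemma Op2.ex (hU : UVac c.Q) (h : Op2 c O e X Y) :
    X = 0 ∨ ∃ W, Op2 c O e X W ∧ W c.Om ≠ 0 := by
  induction h with
  | one => exact .inr ⟨1, .one, norm_ne_zero_iff.1 (Kin.norm_om.trans_ne one_ne_zero)⟩
  | mul a b y e e' X Y Z W ha hb hab hO hX _ p _ _ ih =>
    rcases ih with rfl | ⟨W, h, h'⟩
    · exact .inl (mul_zero _)
    cases e
    · exact .inr ⟨_, .mul a b y _ e' X 1 Z W ha hb hab hO hX (one_mem _) p par_one h, h'⟩
    by_cases h0 : c.Γ = 1
    · exact .inl (by rw [odd_zero h0 p, zero_mul])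
    obtain ⟨Y, k1, k2, k3⟩ := ex_odd (y := y) hU hb ha (gm_comm a b ▸ hab) h0 h'
    exact .inr ⟨_, .mul a b y _ e' X Y Z W ha hb hab hO hX k1 p k2 h, k3⟩

/-- there is a partner with a nonzero vacuum expectation value -/
lemma Op2.ex' (hU : UVac c.Q) (h : Op2 c O e X Y) (he : e = false) :
    X = 0 ∨ ∃ W, Op2 c O e X W ∧ inner ℂ c.Om (W c.Om) ≠ 0 := by
  cases h with
  | one => exact .inr ⟨1, .one, Kin.inner_om.trans_ne one_ne_zero⟩
  | mul a b y e e' X Y Z W ha hb hab hO hX _ p _ h =>
    rcases h.ex hU with rfl | ⟨W, h, h'⟩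
    · exact .inl (mul_zero _)
    refine .inr (by_contra fun k => h' ?_)
    push Not at k
    refine inner_self_eq_zero.1 ((SGx.rs (c := c) (wdg_open b a y)
      (wdg_ne hb ha (gm_comm a b ▸ hab))).induction (P := fun z => inner ℂ z (W c.Om) = 0) ?_
        (isClosed_eq (by fun_prop) continuous_const) _)
    rintro _ ⟨A, hA, rfl⟩
    have k1 := k _ (.mul a b y e e' X _ Z W ha hb hab hO hX (pp_mem (star_mem hA) e) p
      (par_pp e _) h)
    have k2 := h.par.2.apply c.Om
    rw [ContinuousLinearMap.mul_apply, pp_apply, k2, SGx.gv, inner_smul_right, inner_add_right,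
      inner_smul_right, ← gam_inner, SGx.gv, map_smul, inner_smul_right, ← mul_assoc,
      show sg e * sg e' = 1 by revert he; cases e <;> cases e' <;> simp [sg], one_mul,
      ContinuousLinearMap.star_eq_adjoint, ContinuousLinearMap.adjoint_inner_right] at k1
    linear_combination k1

lemma Opp.split (h : Opp c.N O Z) {G : (Completion D →L[ℂ] Completion D) →+ ℂ}
    (k : ∀ e Z W, Op2 c O e Z W → G Z = 0) : G Z = 0 := by
  induction h generalizing G with
  | one => exact k _ _ _ .one
  | mul a b y X Z ha hb hab hO hX _ ih =>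
    have := fun e => ih (G := G.comp (AddMonoidHom.mulLeft (pp c e X))) fun e' Z W h =>
      k _ _ _ (.mul a b y e e' _ _ Z W ha hb hab hO (pp_mem hX e) (pp_mem hX e) (par_pp e X)
        (par_pp e X) h)
    rw [← pp_add (c := c) X, add_mul, map_add]
    exact (congrArg₂ (· + ·) (this false) (this true)).trans (add_zero 0)

variable {K : Type*} [NormedAddCommGroup K] [InnerProductSpace ℂ K] [CompleteSpace K]
  {j : K →L[ℂ] H2 D}

lemma Op2.com (m : Em c j) (h : Op2 c O e X Y) :
    rd j (mp X Y) ∈ (Nd (N2 c j) O).commutant := by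
  induction h with
  | one => rw [mp_one, m.rd_one]; exact one_mem _
  | mul a b y e e' X Y Z W ha hb hab hO hX hY p q h ih =>
    rw [← mp_mul, ← m.rd_mul _ (G2_mp h.par.1 h.par.2)]
    refine mul_mem (comm_anti (fun x hx => mem_Nd.1 hx a b y ha hb hab hO) _
      (m.cw_N2 (wdg_open a b y) subset_rfl ?_ (G2_mp p q))) ih
    rintro _ ⟨e', A, hA, B, hB, p', q', rfl⟩
    rw [mp_mul, mp_mul, wdg_sign ha hb hab hX hA p p', wdg_sign ha hb hab hY hB q q', mp_smul_l,
      mp_smul_r, smul_smul, sg_sq, one_smul]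

/-- **Slicing.** -/
theorem slice (hU : UVac c.Q) (m : Em c j) {o ξ ξ' : K} {x x' : Completion D} (ho : j o = O2 c)
    (h : j ξ = tm x c.Om + tm c.Om x) (h' : j ξ' = tm x' c.Om + tm c.Om x') (p : c.Γ x = x)
    (p' : c.Γ x' = x') (k : Pr (Nd (N2 c j) O) o ξ ξ') (hZ : Opp c.N O Z) :
    inner ℂ (star Z c.Om) x = inner ℂ x' (Z c.Om) := by
  let G : (Completion D →L[ℂ] Completion D) →+ ℂ := AddMonoidHom.mk'
    (fun Z => inner ℂ (star Z c.Om) x - inner ℂ x' (Z c.Om)) fun Z W => by
      simp only [star_add, ContinuousLinearMap.add_apply, inner_add_left, inner_add_right]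
      ring
  have key : ∀ {e Z W}, Op2 c O e Z W →
      G Z * inner ℂ c.Om (W c.Om) + inner ℂ c.Om (Z c.Om) * G W = 0 := fun {e Z W} q => by
    have := k _ (q.com m)
    have s : ∀ Z : Completion D →L[ℂ] Completion D,
        inner ℂ (star Z c.Om) c.Om = inner ℂ c.Om (Z c.Om) := fun Z =>
      ContinuousLinearMap.adjoint_inner_left _ _ _
    rw [rd_star, star_mp, ← m.inner, ← m.inner, m.j_rd (G2_mp q.par.1.star q.par.2.star),
      m.j_rd (G2_mp q.par.1 q.par.2), ho, h, h', O2, mp_tm, mp_tm] at this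
    simp only [inner_add_left, inner_add_right, inner_tm, s] at this
    simp only [G, AddMonoidHom.mk'_apply]
    linear_combination this
  refine sub_eq_zero.1 (hZ.split (G := G) fun e Z W q => ?_)
  cases e
  · rcases q.ex' hU rfl with rfl | ⟨W, q', w⟩
    · exact map_zero G
    by_cases z : inner ℂ c.Om (Z c.Om) = 0
    · simpa [z, w] using key q'
    · refine (mul_eq_zero.1 ?_).resolve_right (mul_ne_zero two_ne_zero z)
      linear_combination key q.diag
  · have a := gam_inner c (star Z c.Om) x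
    have b := gam_inner c x' (Z c.Om)
    rw [q.par.1.star.apply, SGx.gv, p, inner_smul_left, sg_conj] at a
    rw [q.par.1.apply, SGx.gv, p', inner_smul_right] at b
    simp only [sg, cond_true] at a b
    simp only [G, AddMonoidHom.mk'_apply]
    linear_combination (-1 / 2 : ℂ) * a - (1 / 2 : ℂ) * b

end Vale.Agent.N352.Sl
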