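import Vale.Agent.N352.St2
import Vale.Agent.P352H.Fin

/-!
# N352, block Tn: charges and logarithms in the doubled theory (helper71)
-/

set_option linter.all false

open Filter Topology MeasureTheory
open scoped ComplexConjugate SchwartzMap
open UniformSpace (Completion)
open Complex (I)
open Bornology (IsBounded)

noncomputable section

namespace Vale.Agent.N352.Tn

open Vale.Agent.P352 Vale.Agent.P352.GF Vale.Agent.P352.BW Vale.Agent.P352.H246
open Vale.Agent.P352.H496 Vale.Agent.P352.H755 Vale.Agent.P352.H15 Vale.Agent.P352.H746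
open Vale.Agent.P352.SubConf (IsAdj)
open Vale.Agent.P352X Vale.Agent.P352X.EB Vale.Agent.P352X.EG
open Vale.Agent.P352L Vale.Agent.P352L.StA

variable {D : Type*} [NormedAddCommGroup D] [InnerProductSpace ℂ D] {c : Cg D}
  {B C B' C' : Fld D} {f : Fn} {e : Bool} {T : Ix → Ix → Fld D} {X : V → V}

theorem In.vf {U : Set V} (hX : IsSim 0 X) (hf : In U f) : In U (vf X f) := by
  have : tsupport (H746.vf X f) ⊆ tsupport f := closure_minimal (fun x hx => by
    by_contra k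
    exact hx (Finset.sum_eq_zero fun n _ => by
      rw [image_eq_zero_of_notMem_tsupport fun h => k (Ap.tsupport_pd n f h), mul_zero]))
    (isClosed_tsupport _)
  exact ⟨isTest_vf hX hf.1, hf.2.1.isCompact.of_isClosed_subset (isClosed_tsupport _) this,
    this.trans hf.2.2⟩

theorem sum_tens {M : Type*} [AddCommGroup M] [Module ℂ M] (k l : Rp) (w : Ix → V) (a : Fin k.n)
    (b : Fin l.n) (u : Fin k.n → Fin l.n → M) :
    ∑ j : Fin (k.n * l.n), CA.G.sg (tensR k l) w j (finProdFinEquiv (a, b)) •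
      u (finProdFinEquiv.symm j).1 (finProdFinEquiv.symm j).2 =
    ∑ j, CA.G.sg k w j a • u j b + ∑ j, CA.G.sg l w j b • u a j := by
  rw [← finProdFinEquiv.sum_comp, Fintype.sum_prod_type]
  simp only [CA.G.sg, tensR, Matrix.submatrix_apply, Matrix.add_apply, Matrix.kroneckerMap_apply,
    Equiv.symm_apply_apply, mul_add, Finset.sum_add_distrib, add_smul, Matrix.one_apply, mul_ite,
    ite_mul, mul_one, one_mul, mul_zero, zero_mul, Finset.sum_ite_irrel, Finset.sum_const_zero,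
    ite_smul, zero_smul, Finset.sum_ite_eq', Finset.mem_univ, if_true]

theorem sy_inj {x : Completion D} (h : sy c x = 0) : x = 0 := by
  have o : inner ℂ c.Om c.Om = 1 := by rw [inner_self_eq_norm_sq_to_K, Kin.norm_om]; simp
  have h1 := congrArg (s1 c.Om) h
  rw [sy_apply, map_add, s1_tm, s1_tm, o, one_smul, map_zero] at h1
  have h2 := congrArg (inner ℂ c.Om) h1
  rw [inner_add_right, inner_smul_right, o, mul_one, inner_zero_right, add_self_eq_zero] at h2
  rwa [h2, zero_smul, add_zero] at h1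

theorem U2_sy {s : ℝ} {L : Ix → V} (hs : 0 < s) (hL : IsLor L) (a : V) (v : D) :
    U2 c s L a (sy c v) = sy c (c.Q.U s L a v : D) := by
  rw [sy_apply, map_add, sy_apply]
  refine congrArg₂ _ ((U2_tm c hs hL a v c.Q.vac).trans ?_) ((U2_tm c hs hL a c.Q.vac v).trans ?_) <;>
    rw [c.Q.U_vac _ _ _ hs hL] <;> rfl

/-- **the vacuum is separating** -/
theorem fld_sep (hB : c.Q.fld B) (h : ∀ f, IsTest f → B f c.Q.vac = 0) (hf : IsTest f) (v : D) :
    B f v = 0 := by
  refine ext_sub (u := fun f => B f v) (u' := fun _ => 0) (c.Q.cont B v hB) continuous_const hf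
    fun g hg => ?_
  obtain ⟨U, -, u2, u3⟩ := ex_bd hg.2.1
  obtain ⟨X', h1, h2⟩ := c.hN.fld U B g hB ⟨hg.1, hg.2.1, u3⟩
  have : ∀ w, X' w = 0 := fun w => Completion.coe_injective D <|
    ((com_dense (c := c) u2).eq_zero_of_inner_left ℂ fun _ ⟨Y, hY, e⟩ => by
      have := h2 Y hY c.Q.vac w
      rw [h g hg.1, Completion.coe_zero, map_zero, inner_zero_right] at this
      exact e ▸ this).trans Completion.coe_zero.symm
  exact ext_inner_right ℂ fun w => by rw [h1, this, inner_zero_right, inner_zero_left]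

variable {E : Type*} [NormedAddCommGroup E] [InnerProductSpace ℂ E] {i : E →ₗᵢ[ℂ] H2 D} {o : E}
  {P : Fld D → Fld D → Fld E} {A : (V → V) → E → E}

/-- the tensor `T ⊗ 1 + 1 ⊗ T` -/
def t2 (P : Fld D → Fld D → Fld E) (T : Ix → Ix → Fld D) : Ix → Ix → Fld E :=
  fun m n => d1 P (T m n)

namespace PW

variable (p : PW c i o P) (y : Hy c)
include p y

theorem ward (hT : Stress0 c.Q T) (hP : ND.PCh c.Q T c.A) (R : Rep (p.q y) A) {F : ℝ → Fn}
    (hF : IsCutoff F) (hX : IsSim 0 X) {k l : Rp} {Φ : Fin k.n → Fld D} {Ψ : Fin l.n → Fld D}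
    (a : H.Mp c e k Φ) (b : H.Mp c e l Ψ) (j : Fin k.n) (j' : Fin l.n) (hf : In Set.univ f) :
    ∀ᶠ r in atTop, ∀ v, ND.cur (t2 P T) X (F r) (P (Φ j) (Ψ j') f v) -
      P (Φ j) (Ψ j') f (ND.cur (t2 P T) X (F r) v) =
        A X (P (Φ j) (Ψ j') f v) - P (Φ j) (Ψ j') f (A X v) := by
  obtain ⟨ρ, c1, hρ⟩ := ex_rho
  obtain ⟨r, h1⟩ := c1.isCompact.isBounded.subset_closedBall 0
  obtain ⟨s, h2⟩ := hf.2.1.isCompact.isBounded.subset_closedBall 0
  obtain ⟨G, rfl⟩ := hf.1
  obtain ⟨z, w, hw, hz⟩ := id hX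
  have lt : ∀ j j', Lt c (Φ j) (Ψ j') := fun j j' => ⟨a.mf.1 j, b.mf.1 j', e, a.par j, b.par j'⟩
  have eb := fun m n => ev_bose (hT.bose m n)
  filter_upwards [cut_cpt hF, fin_ward hT.bose hP hF hX (r + s + 1)] with t k1 k2 v
  obtain ⟨U0, u1, u2, u3⟩ := ex_bd k1.2.1
  obtain ⟨U1, v1, v2, v3⟩ := ex_bd hf.2.1
  let U := U0 ∪ U1 ∪ Metric.ball 0 (r + s + 1)
  have o1 : IsOpen U := (u1.union v1).union Metric.isOpen_ball
  have o2 : IsBounded U := (u2.union v2).union Metric.isBounded_ball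
  have f1 : In U (ev G) := ⟨hf.1, hf.2.1, fun x h => .inl (.inr (v3 h))⟩
  have g : ∀ n, In U fun x => (eta n : ℂ) * X x n * F t x := fun n =>
    ⟨Fss.test_sim0 hX k1.1 n, k1.2.1.mul_left, fun x h =>
      .inl (.inl (u3 (tsupport_mul_subset_right h)))⟩
  have aw := Aw.sum Finset.univ fun n => p.d1_aw y (eb _ n) (eb _ n) (hT.herm GF.o n) o1 (g n)
  have sv : ∀ g : Ix → Fn, (∀ n, IsTest (g n)) → i (∑ n, d1 P (T GF.o n) (g n) o) =
      sy c (∑ n, T GF.o n (g n) c.Q.vac : D) := fun g hg => by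
    simp only [map_sum, fun n => p.d1_vac y (eb GF.o n) (hg n), ← Completion.coe_toComplL (𝕜 := ℂ)]
  have gm := fun {k : Rp} {Φ : Fin k.n → Fld D} (m : IsMf c.Q k Φ) j f
    (hf : In (Metric.ball 0 (r + s + 1)) f) => (k2 _ f c.Q.vac (m.1 j) hf).trans
      (gen_mf c.hN.der (Fsg.m1 c) hw hz m j hf.1 _)
  have a0 : ∀ v, ND.cur T X (F t) (c.G v) = sg false • c.G (ND.cur T X (F t) v) := fun v =>
    (Finset.sum_congr rfl fun n _ => (eb _ n).2 _ v (g n).1).trans (by
      rw [← Finset.smul_sum]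
      exact congrArg _ (map_sum (Fsg.gl (e0_thm c)) _ _).symm)
  have wv := p.ward_vac y o1 o2 (τ := ND.cur T X (F t)) (Grp.afs_sum Finset.univ fun n => afs_of_aff
    (fun v w => hT.herm GF.o n _ v w (g n).1) (c.hN.fld U _ _ (eb _ n).1 (g n))) a0
    (t := ND.cur (t2 P T) X (F t)) aw (sv _ fun n => (g n).1)
    (sv _ fun n => (In.bar (g n)).1) (lt j j') (fun x => lt x j') (lt j) hw hz hρ h1 h2
    Set.subset_union_right f1 (gm a.mf j) (gm b.mf j')
  have g2 := gen_mf (Q := p.q0 y) (A := A) R.der (Fss.G.m1_rep R :) hw hz (p.mf_tens y a b)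
    (finProdFinEquiv (j, j')) hf.1 v
  have g3 := sum_tens k l w j j' fun x x' => P (Φ x) (Ψ x') (ev G) v
  simp only [Equiv.symm_apply_apply] at g2
  refine Eq.trans ?_ (g2.trans (congrArg (fun x => I • (x + _)) g3)).symm
  obtain ⟨_, x0⟩ := p.aw' (lt j j') o1 f1
  choose _ x1 using fun j j' => p.aw' (lt j j') o1 f1
  obtain ⟨_, x2⟩ := p.aw' (lt j j') o1 (In.vf hX f1)
  exact sub_eq_zero.1 (p.sep o2 (((aw.comp x0).sub (x0.comp aw)).sub ((((Aw.sum Finset.univ fun x =>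
    (x1 x j').smul (CA.G.sg k w x j)).add (Aw.sum Finset.univ fun x =>
      (x1 j x).smul (CA.G.sg l w x j'))).add x2).smul I)) (sub_eq_zero.2 wv) v)

/-- **the charges of the doubled tensor generate the Poincaré group** -/
theorem pch (hT : Stress0 c.Q T) (hP : ND.PCh c.Q T c.A) (R : Rep (p.q y) A) :
    ND.PCh (p.q y) (t2 P T) A := by
  have hb := fun m n => p.d1_fld y (ev_bose (hT.bose m n))
  have l : ∀ X, IsSim 0 X → IsLinearMap ℂ (A X) := fun X hX => ⟨A_addv R hX, A_smulv R hX⟩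
  intro F X B f v w hF hX hB hf hc
  refine lim_sp (Q := p.q0 y) ((isTest_cutoff hF).mono fun r hr => ?_) v w
    (fun B => A X (B f v) - B f (A X v)) ?_ (fun B C a => ?_) ?_ hB
  · exact funext (Fss.curL_apply hb hX hr) ▸ (Fss.curL hb hX hr).isLinear
  · simpa using (l X hX).map_zero
  · simp only [(l X hX).map_add, (l X hX).map_smul]
    module
  · rintro _ ⟨B, C, h, rfl⟩
    obtain ⟨e, ι, _, k, k', Φ, Ψ, a, b, h1, h2⟩ := p.dec y h
    refine tendsto_const_nhds.congr' ?_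
    filter_upwards [isTest_cutoff hF, eventually_all.2 fun j => p.ward y hT hP R hF hX (h1 j).1
      (h1 j).2 (a j) (b j) ⟨hf, hc, Set.subset_univ _⟩] with r hr k1
    have hb' : ∀ m n, (p.q y).fld (t2 P T m n) := hb
    simp only [h2 f _ hf, ← Fss.curL_apply hb' hX hr, ← (l X hX).mk'_apply, map_sum,
      ← Finset.sum_sub_distrib]
    exact congrArg _ (Finset.sum_congr rfl fun j _ => by
      simpa only [Fss.curL_apply, IsLinearMap.mk'_apply] using (k1 j v).symm)

theorem t2_cov (hb : ∀ m n, c.Q.bose (T m n)) {s : ℝ} {L : Ix → V} (hs : 0 < s) (hL : IsLor L)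
    (a : V) (m n : Ix) (h : ∀ f v, IsTest f → T m n f (c.Q.U s L a v) = ∑ k, ∑ l,
      (L k m * L l n : ℂ) • c.Q.U s L a (T k l (fun x => f (sim s L a x)) v)) (hf : IsTest f)
    (v : E) : t2 P T m n f ((p.q y).U s L a v) = ∑ k, ∑ l,
      (L k m * L l n : ℂ) • (p.q y).U s L a (t2 P T k l (fun x => f (sim s L a x)) v) :=
  (p.d1_cov y ⟨s, L, a, hs, hL⟩ (a := fun j : Ix × Ix => (L j.1 m * L j.2 n : ℂ))
    (B1 := fun j => T j.1 j.2) (ev_bose (hb m n)) (fun j => ev_bose (hb _ _))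
    (fun f v hf => (h f v hf).trans (Fintype.sum_prod_type' _).symm) hf v).trans
    (Fintype.sum_prod_type _)

/-- **the doubled stress tensor** -/
theorem st0 (hT : Stress0 c.Q T) (hP : ND.PCh c.Q T c.A) (R : Rep (p.q y) A) :
    Stress0 (p.q y) (t2 P T) := by
  have ev := fun m n => ev_bose (hT.bose m n)
  refine ⟨fun m n => p.d1_bose y (ev m n), fun m n f v hf => ?_,
    fun m n => p.d1_adj y (ev m n) (ev m n) (hT.herm m n),
    fun m n L a f v hL hf => p.t2_cov y hT.bose one_pos hL a m n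
      (fun f v => hT.cov m n L a f v hL) hf v, fun n f v hf => ?_,
    chg_of_pch R.der (fun m n => p.d1_fld y (ev m n)) (p.pch y hT hP R)⟩
  · have := p.d1_zero y Finset.univ ![1, -1] (B := ![T m n, T n m]) (fun j => by
      fin_cases j <;> exact ev _ _) (fun _ => []) (fun f hf => by
        simp [pdl, hT.symm m n f _ hf]) hf v
    simpa [pdl, ← sub_eq_add_neg, sub_eq_zero, t2] using this
  · simpa only [one_smul, pdl, t2] using p.d1_zero y Finset.univ (fun _ => 1) (fun m => ev m n)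
      (fun m => [m]) (fun f hf => by simpa only [one_smul, pdl] using hT.conserved n f _ hf) hf v

theorem str (hT : c.Q.IsStress T) (hP : ND.PCh c.Q T c.A) (R : Rep (p.q y) A) :
    (p.q y).IsStress (t2 P T) :=
  have h := p.st0 y ⟨hT.bose, hT.symm, hT.herm, fun m n L a f v => hT.cov m n 1 L a f v one_pos,
    hT.conserved, hT.charge⟩ hP R
  ⟨h.bose, h.symm, h.herm, fun m n s L a f v hs hL hf => p.t2_cov y hT.bose hs hL a m n
    (fun f v => hT.cov m n s L a f v hs hL) hf v, h.conserved, h.charge⟩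

/-- **descent of the absence of logarithms** -/
theorem log0 (hU : UVac c.Q) (hT : Stress0 c.Q T) (hP : ND.PCh c.Q T c.A) {m n : Ix}
    {F : Finset (ℂ × ℕ)} {C : ℂ × ℕ → Fld D} (hC : Scl c.Q (T m n) F C) {d : ℂ × ℕ} (hd : d ∈ F)
    (k1 : d.1 = 4) (k2 : d.2 ≠ 0) (hf : IsTest f) (v : D) : C d f v = 0 := by
  classical
  obtain ⟨A, R⟩ := p.ex_rep y
  obtain ⟨F', C', a, b⟩ := P352H.nolog _ _ (p.st0 y hT hP R) A (p.pch y hT hP R) (p.mfa y)
    (p.fsl y) _ (p.lnm y R) (p.uvac y hU) m n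
  obtain ⟨S, κ, hκ⟩ := CL.vg (F ∪ F') d
  refine fld_sep (hC.1 d).1 (fun g hg => ?_) hf v
  have e1 := CL.sfm hC (Fsg.m1 c) hd (fun x hx => hκ x (Finset.mem_union_left _ hx)) hg c.Q.vac
  have e2 := CL.sfm0 a (Fss.G.m1_rep R) (fun x hx => hκ x (Finset.mem_union_right _ hx)) hg o
  rw [if_neg fun h => k2 ((b _).1 (k1 ▸ h))] at e2
  refine Completion.coe_injective D ((sy_inj (c := c) ?_).trans Completion.coe_zero.symm)
  rw [e1, ← i.map_zero, e2]
  simp only [map_sum, map_smul, ← Completion.coe_toComplL (𝕜 := ℂ)]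
  refine Finset.sum_congr rfl fun s _ => congrArg _ ?_
  have s0 := Real.exp_pos s
  have ol := H496.isLor_one
  show sy c (c.Q.U _ _ _ (T m n _ (c.Q.U _ _ _ _)) : D) =
    i (uq c i _ _ _ (d1 P _ _ ((p.q y).U _ _ _ (p.q y).vac)))
  rw [c.Q.U_vac _ _ _ (inv_pos.2 s0) ol, (p.q y).U_vac _ _ _ (inv_pos.2 s0) ol, p.i_uq y s0 ol,
    ← U2_sy s0 ol]
  exact congrArg _ (p.d1_vac y (ev_bose (hT.bose m n)) (Fss.ds_test s0 hg)).symm

end PW

end Vale.Agent.N352.Tn
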