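import Vale.Agent.N352.Pa
import Vale.Agent.P352H.Rep

/-!
# N352, block Tn: the doubled theory (helper71)
-/

set_option linter.all false

open Filter Topology MeasureTheory
open scoped ComplexConjugate SchwartzMap Kronecker
open UniformSpace (Completion)

noncomputable section

namespace Vale.Agent.N352.Tn

open Vale.Agent.P352 Vale.Agent.P352.GF Vale.Agent.P352.BW Vale.Agent.P352.H246
open Vale.Agent.P352.H496 Vale.Agent.P352.H755 Vale.Agent.P352.H15
open Vale.Agent.P352.SubConf (IsAdj)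
open Vale.Agent.P352X Vale.Agent.P352X.EB Vale.Agent.P352X.EG
open Vale.Agent.P352L Vale.Agent.P352L.StA
open Vale.Agent.P352X.CL (zz)

/-- the tensor product of two spins -/
def tensR (k l : Rp) : Rp where
  n := k.n * l.n
  ρ L := (k.ρ L ⊗ₖ l.ρ L).submatrix finProdFinEquiv.symm finProdFinEquiv.symm
  S m n := (k.S m n ⊗ₖ (1 : Matrix (Fin l.n) (Fin l.n) ℂ) +
    (1 : Matrix (Fin k.n) (Fin k.n) ℂ) ⊗ₖ l.S m n).submatrix finProdFinEquiv.symm
      finProdFinEquiv.symm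
  id := by rw [k.id, l.id, Matrix.one_kronecker_one, Matrix.submatrix_one_equiv]
  mul L L' h h' := by
    rw [Matrix.submatrix_mul_equiv, ← Matrix.mul_kronecker_mul]
    rcases k.mul L L' h h' with a | a <;> rcases l.mul L L' h h' with b | b <;> rw [a, b]
    · exact .inl rfl
    · exact .inr (by ext i j; simp)
    · exact .inr (by ext i j; simp)
    · exact .inl (by ext i j; simp)
  der L w i j h0 hL hd := by
    refine ((k.der L w _ _ h0 hL hd).fun_mul (l.der L w _ _ h0 hL hd)).congr_deriv ?_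
    simp only [h0, k.id, l.id, Matrix.submatrix_apply, Matrix.add_apply, Matrix.kroneckerMap_apply,
      mul_add, Finset.sum_add_distrib, Finset.sum_mul, Finset.mul_sum, mul_assoc, mul_left_comm]

variable {D : Type*} [NormedAddCommGroup D] [InnerProductSpace ℂ D] {c : Cg D}
  {B C B' C' B1 C1 : Fld D} {f h : Fn} {e : Bool}

/-- scaling laws with finite index types -/
def Law (Q : Theory D) (B : Fld D) {ι : Type} [Fintype ι] (d : ι → ℂ × ℕ) (C : ι → Fld D) : Prop :=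
  ∀ (s : ℝ) f v, 0 < s → IsTest f → B f (Q.U s GF.one 0 v) =
    ∑ j, zz s (d j) • Q.U s GF.one 0 (C j (fun x => f (sim s GF.one 0 x)) v)

theorem Law.scl {Q : Theory D} {ι : Type} [Fintype ι] {d : ι → ℂ × ℕ} {C : ι → Fld D}
    (h : Law Q B d C) (k : ∀ s : Finset ι, Q.bose (∑ j ∈ s, C j)) : ∃ F C, Scl Q B F C := by
  classical
  refine ⟨Finset.univ.image d, fun p => ∑ j with d j = p, C j,
    fun p => ⟨Q.bose_fld _ (k _), fun _ => k _⟩, fun s f v hs hf => (h s f v hs hf).trans ?_⟩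
  obtain ⟨u, hu⟩ := P352W.Rp.U_lin (Q := Q) hs H496.isLor_one 0
  rw [← Finset.sum_fiberwise_of_maps_to (g := d) fun j hj => Finset.mem_image_of_mem d hj]
  refine Finset.sum_congr rfl fun p _ => ?_
  simp only [Finset.sum_apply, hu, map_sum, Finset.smul_sum]
  exact Finset.sum_congr rfl fun j hj => by rw [(Finset.mem_filter.1 hj).2]; rfl

theorem pa_prj (p : Pa c e B) (hf : IsTest f) (v : D) :
    B f v = (1 / 2 : ℂ) • (B f v + sg e • c.G (B f (c.G v))) := by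
  rw [p f v hf, Bas.gsmul, c.hN.inv, smul_smul, sg_sq]
  module

theorem scl_par (hF : FSL c.Q) (hB : c.Q.fld B) (p : Pa c e B) :
    ∃ (ι : Type) (_ : Fintype ι) (d : ι → ℂ × ℕ) (C : ι → Fld D),
      (∀ j, c.Q.fld (C j) ∧ Pa c e (C j)) ∧ Law c.Q B d C := by
  have t := e0_thm c
  obtain ⟨F, C, h1, h2⟩ := hF B hB
  choose R r1 r2 r3 r4 using fun j => Fsg.parts t (h1 j).1
  refine ⟨F, inferInstance, fun j => j, fun j => R j e, fun j => ?_, fun s f v hs hf => ?_⟩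
  · cases e
    · exact ⟨c.Q.bose_fld _ (r1 j), fun f v hf => (c.hN.bose _ f v (r1 j) hf).trans (by simp [sg])⟩
    · exact ⟨(r2 j).1, fun f v hf => ((r2 j).2 f v hf).trans (by simp [sg])⟩
  · have o := H496.isLor_one
    have f1 := Ap.test_sim hs o 0 hf
    obtain ⟨u, hu⟩ := P352W.Rp.U_lin (Q := c.Q) hs o 0
    have g : ∀ z, c.G (u z) = u (Fsg.gl t z) := fun z => by
      rw [← hu, ← hu, ← c.hN.GU _ _ _ _ hs o]; rfl
    rw [pa_prj p hf, ← c.hN.GU _ _ _ _ hs o, h2 s f _ hs hf, h2 s f _ hs hf,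
      Finset.sum_coe_sort F fun j => zz s j • c.Q.U s GF.one 0 (R j e _ v)]
    refine (congrArg (fun z => _ • (_ + _ • z)) (map_sum (Fsg.gl t) _ _)).trans ?_
    simp only [r4 _ e _ v f1, hu, map_smul, map_add, Finset.smul_sum, ← Finset.sum_add_distrib]
    refine Finset.sum_congr rfl fun j _ => ?_
    rw [← g]
    show _ • (zz s j • _ + _ • zz s j • c.G _) = _
    module

theorem md_par (hM : MfAll c.Q) (hB : c.Q.fld B) (p : Pa c e B) :
    ∃ (ι : Type) (_ : Fintype ι) (k : ι → Rp) (Φ : ∀ j, Fin (k j).n → Fld D) (a : ∀ j, Fin (k j).n),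
      (∀ j, H.Mp c e (k j) (Φ j)) ∧ ∀ f v, IsTest f → B f v = ∑ j, Φ j (a j) f v := by
  have t := e0_thm c
  obtain ⟨n, q, hq⟩ := H.md t hM B hB
  choose k Φ a m r using fun j => (q j).h
  refine ⟨{j // (q j).e = e}, inferInstance, fun j => k j, fun j => Φ j, fun j => a j,
    fun j => by have := m j; rwa [j.2] at this, fun f v hf => ?_⟩
  rw [pa_prj p hf, hq f _ hf, hq f _ hf, ← Finset.sum_subtype (Finset.univ.filter fun j => (q j).e = e)
    (by simp) fun j => Φ j (a j) f v, Finset.sum_filter]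
  refine (congrArg (fun z => _ • (_ + _ • z)) (map_sum (Fsg.gl t) _ _)).trans ?_
  simp only [Finset.smul_sum, ← Finset.sum_add_distrib, r]
  refine Finset.sum_congr rfl fun j _ => ?_
  rw [(m j).par (a j) f v hf, map_smul]
  show _ • (_ + _ • _ • c.G (c.G _)) = _
  rw [c.hN.inv]
  generalize (q j).e = e'
  cases e <;> cases e' <;> simp [sg] <;> module

theorem tm_sum {ι κ : Type*} (s : Finset ι) (t : Finset κ) (a : ι → ℂ) (b : κ → ℂ) (x : ι → D)
    (y : κ → D) : tm ((∑ j ∈ s, a j • x j : D) : Completion D) ((∑ j ∈ t, b j • y j : D) : Completion D) =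
      ∑ j ∈ s ×ˢ t, (a j.1 * b j.2) • tm (x j.1 : Completion D) (y j.2 : Completion D) := by
  simp only [← Completion.coe_toComplL (𝕜 := ℂ), map_sum, map_smul, ContinuousLinearMap.sum_apply,
    ContinuousLinearMap.smul_apply, Finset.sum_product, Finset.smul_sum, smul_smul]
  rw [Finset.sum_comm]
  simp only [mul_comm]

/-- the hypotheses on the fields -/
structure Hy (c : Cg D) : Prop where
  big : Big c
  mf : MfAll c.Q
  fs : FSL c.Q

variable {E : Type*} [NormedAddCommGroup E] [InnerProductSpace ℂ E] {i : E →ₗᵢ[ℂ] H2 D} {o : E}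
  {P : Fld D → Fld D → Fld E}

open Classical in
/-- the similitudes on the domain -/
def uq (c : Cg D) (i : E →ₗᵢ[ℂ] H2 D) (s : ℝ) (L : Ix → V) (a : V) (v : E) : E :=
  if h : ∃ w, i w = U2 c s L a (i v) then h.choose else v

namespace PW

variable (p : PW c i o P) (y : Hy c)
include p y

theorem i_uq {s : ℝ} {L : Ix → V} (hs : 0 < s) (hL : IsLor L) (a : V) (v : E) :
    i (uq c i s L a v) = U2 c s L a (i v) := by
  have h := p.ex_U y.big y.mf y.fs ⟨s, L, a, hs, hL⟩ v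
  rw [uq, dif_pos h]
  exact h.choose_spec

theorem cov_uq {g : Sg} (h : Lt c B C) (k : Lt c B1 C1) (a : Tf c g B B1) (b : Tf c g C C1)
    (hf : IsTest f) (v : E) : P B C f (uq c i g.s g.L g.a v) =
      (((g.s ^ 4)⁻¹ : ℝ) : ℂ) • uq c i g.s g.L g.a (P B1 C1 (g.pull f) v) := i.injective <| by
  rw [p.cov h k a b hf (p.i_uq y g.hs g.hL g.a v), map_smul, p.i_uq y g.hs g.hL]

/-- the theory of the products -/
def q0 : Theory E where
  vac := o
  fld A := ∃ B C, Lt c B C ∧ A = P B C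
  bose A := ∃ B C, Lt c B C ∧ A = P B C
  U := uq c i
  norm_vac := by rw [← i.norm_map, p.vac, norm_O2]
  cyclic S h0 h := by
    rw [Set.eq_univ_of_forall (p.gen S h0 fun B C f v k => h _ f v ⟨B, C, k, rfl⟩)]
    exact dense_univ
  lin := by
    rintro _ f g z v ⟨B, C, h, rfl⟩
    exact p.lin B C f g z v h
  cont := by
    rintro _ v ⟨B, C, h, rfl⟩
    exact p.cont B C v h
  adj := by
    rintro _ ⟨B, C, h, rfl⟩
    obtain ⟨B', C', h', a, b⟩ := h.adj
    exact ⟨_, ⟨B', C', h', rfl⟩, p.adj h h' a b⟩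
  bose_fld _ := id
  loc := by
    rintro _ _ f g v ⟨B, C, h, rfl⟩ ⟨B1, C1, k, rfl⟩ hf hg hs
    exact p.loc h k hf hg hs v
  U_inner s L a v w hs hL := by
    rw [← i.inner_map_map, p.i_uq y hs hL, p.i_uq y hs hL, U2_inner c hs hL, i.inner_map_map]
  U_vac s L a hs hL := i.injective <| by rw [p.i_uq y hs hL, p.vac, U2_O2 c hs hL]
  transl := by
    rintro _ a f v ⟨B, C, h, rfl⟩ hf
    refine (p.cov_uq y (g := ⟨1, GF.one, a, one_pos, H496.isLor_one⟩) h h
      (fun f v => c.Q.transl B a f v h.1) (fun f v => c.Q.transl C a f v h.2.1) hf v).trans ?_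
    simp only [one_pow, inv_one, Complex.ofReal_one, one_smul]
    rfl
  spectrum v := by
    obtain ⟨ν, h1, h2, h3⟩ := spec2 c (i v)
    exact ⟨ν, h1, h2, fun a => by
      rw [← h3, ← p.i_uq y one_pos H496.isLor_one, i.inner_map_map]⟩

/-- **the doubled theory** -/
def q : Theory E := hull (p.q0 y)

theorem q_bose (h : Lt c B C) : (p.q y).bose (P B C) := sp_of (P := (p.q0 y).bose) ⟨B, C, h, rfl⟩

theorem q_fld (h : Lt c B C) : (p.q y).fld (P B C) := sp_of (P := (p.q0 y).fld) ⟨B, C, h, rfl⟩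

theorem dbl : Dbl c (p.q y) i := ⟨p.even, p.dense, p.vac, fun s L a v hs hL => p.i_uq y hs hL a v⟩

theorem cov_sum (g : Sg) {ι κ : Type} [Fintype ι] [Fintype κ] {a : ι → ℂ} {b : κ → ℂ}
    {B1 : ι → Fld D} {C1 : κ → Fld D} (h : Lt c B C) (k : ∀ j l, Lt c (B1 j) (C1 l))
    (k1 : ∀ j, c.Q.fld (B1 j)) (k2 : ∀ j, c.Q.fld (C1 j))
    (e1 : ∀ f v, IsTest f → B f (c.Q.U g.s g.L g.a v) =
      ∑ j, a j • c.Q.U g.s g.L g.a (B1 j (g.pull f) v))
    (e2 : ∀ f v, IsTest f → C f (c.Q.U g.s g.L g.a v) =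
      ∑ j, b j • c.Q.U g.s g.L g.a (C1 j (g.pull f) v))
    (hf : IsTest f) (v : E) : P B C f (uq c i g.s g.L g.a v) = ∑ j : ι × κ,
      ((((g.s ^ 4)⁻¹ : ℝ) : ℂ) * (a j.1 * b j.2)) •
        uq c i g.s g.L g.a (P (B1 j.1) (C1 j.2) (g.pull f) v) := by
  have t : ∀ {ι : Type} [Fintype ι] {a : ι → ℂ} {B1 : ι → Fld D} {B : Fld D},
      (∀ f v, IsTest f → B f (c.Q.U g.s g.L g.a v) =
        ∑ j, a j • c.Q.U g.s g.L g.a (B1 j (g.pull f) v)) → Tf c g B (∑ j, a j • B1 j) :=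
    fun e f v hf => by
      rw [e f v hf, P352H.sum_ap]
      refine Eq.trans ?_ (map_sum (H.Le.ul c g) _ _).symm
      simp only [map_smul]
      rfl
  obtain ⟨hB, hC, e, p1, p2⟩ := id h
  have l : Lt c _ _ := ⟨y.big.sum _ a k1, y.big.sum _ b k2, e, (t e1).pa p1, (t e2).pa p2⟩
  obtain ⟨u, hu⟩ := P352W.Rp.U_lin (Q := p.q0 y) g.hs g.hL g.a
  rw [p.cov_uq y h l (t e1) (t e2) hf, p.bil Finset.univ (fun j : ι × κ => a j.1 * b j.2) l
    (fun j => k j.1 j.2) (fun f g _ _ => by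
      rw [P352H.sum_ap, P352H.sum_ap, tm_sum, Finset.univ_product_univ]) (test_pull g hf)]
  refine (congrArg _ ((hu _).trans (map_sum u _ _))).trans ?_
  simp only [map_smul, Finset.smul_sum, smul_smul]
  simp only [← hu]
  rfl

theorem mf_tens {k l : Rp} {Φ : Fin k.n → Fld D} {Ψ : Fin l.n → Fld D} (a : H.Mp c e k Φ)
    (b : H.Mp c e l Ψ) : IsMf (p.q0 y) (tensR k l) fun j : Fin (k.n * l.n) =>
      P (Φ (finProdFinEquiv.symm j).1) (Ψ (finProdFinEquiv.symm j).2) := by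
  have lt : ∀ j j', Lt c (Φ j) (Ψ j') := fun j j' => ⟨a.mf.1 j, b.mf.1 j', e, a.par j, b.par j'⟩
  refine ⟨fun j => ⟨_, _, lt _ _, rfl⟩, fun (j : Fin (k.n * l.n)) L f v hL hf => ?_⟩
  refine (p.cov_sum y ⟨1, L, 0, one_pos, hL⟩ (lt _ _) lt a.mf.1 b.mf.1
    (fun f v => a.mf.2 _ L f v hL) (fun f v => b.mf.2 _ L f v hL) hf v).trans ?_
  refine Fintype.sum_equiv finProdFinEquiv _ _ fun j' => ?_
  simp only [tensR, Matrix.submatrix_apply, Matrix.kroneckerMap_apply, Equiv.symm_apply_apply,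
    one_pow, inv_one, Complex.ofReal_one, one_mul]
  rfl

/-- every product is a sum of products of components of multiplets -/
theorem dec (h : Lt c B C) : ∃ (e : Bool) (ι : Type) (_ : Fintype ι) (k l : ι → Rp)
    (Φ : ∀ j, Fin (k j).n → Fld D) (Ψ : ∀ j, Fin (l j).n → Fld D) (a : ∀ j, Fin (k j).n)
    (b : ∀ j, Fin (l j).n), (∀ j, H.Mp c e (k j) (Φ j) ∧ H.Mp c e (l j) (Ψ j)) ∧
      ∀ f v, IsTest f → P B C f v = ∑ j, P (Φ j (a j)) (Ψ j (b j)) f v := by
  obtain ⟨hB, hC, e, p1, p2⟩ := id h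
  obtain ⟨ι, _, k, Φ, a, a1, a2⟩ := md_par y.mf hB p1
  obtain ⟨κ, _, l, Ψ, b, b1, b2⟩ := md_par y.mf hC p2
  refine ⟨e, ι × κ, inferInstance, fun j => k j.1, fun j => l j.2, fun j => Φ j.1, fun j => Ψ j.2,
    fun j => a j.1, fun j => b j.2, fun j => ⟨a1 _, b1 _⟩, fun f v hf => ?_⟩
  simpa only [one_smul] using p.bil Finset.univ (fun _ : ι × κ => 1) h
    (fun j => ⟨(a1 j.1).mf.1 (a j.1), (b1 j.2).mf.1 (b j.2), e, (a1 _).par _, (b1 _).par _⟩)
    (fun f g hf hg => by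
      simpa only [one_smul, mul_one, Finset.univ_product_univ, ← a2 f _ hf, ← b2 g _ hg] using
        tm_sum Finset.univ Finset.univ (fun _ => 1) (fun _ => 1) (fun j => Φ j (a j) f c.Q.vac)
          fun j => Ψ j (b j) g c.Q.vac) hf v

theorem mfa0 : MfAll (p.q0 y) := by
  rintro _ ⟨B, C, h, rfl⟩
  obtain ⟨e, ι, _, k, l, Φ, Ψ, a, b, h1, h2⟩ := p.dec y h
  let ε := (Fintype.equivFin ι).symm
  refine ⟨_, fun j => P (Φ (ε j) (a (ε j))) (Ψ (ε j) (b (ε j))), fun j => ⟨_, _,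
    finProdFinEquiv (a (ε j), b (ε j)), p.mf_tens y (h1 _).1 (h1 _).2, by
      simp only [Equiv.symm_apply_apply]⟩, fun f v hf => ?_⟩
  rw [h2 f v hf, ε.sum_comp fun j => P (Φ j (a j)) (Ψ j (b j)) f v]

theorem mfa : MfAll (p.q y) := P352H.mfa (p.mfa0 y)

theorem law {ι κ : Type} [Fintype ι] [Fintype κ] {d : ι → ℂ × ℕ} {d' : κ → ℂ × ℕ}
    {B1 : ι → Fld D} {C1 : κ → Fld D} (h : Lt c B C) (k : ∀ j l, Lt c (B1 j) (C1 l))
    (k1 : ∀ j, c.Q.fld (B1 j)) (k2 : ∀ j, c.Q.fld (C1 j)) (e1 : Law c.Q B d B1)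
    (e2 : Law c.Q C d' C1) : Law (p.q y) (P B C) (fun j : ι × κ => d j.1 + d' j.2)
      fun j => P (B1 j.1) (C1 j.2) := fun s f v hs hf => by
  refine (p.cov_sum y ⟨s, _, 0, hs, H496.isLor_one⟩ h k k1 k2 (fun f v => e1 s f v hs)
    (fun f v => e2 s f v hs) hf v).trans (Finset.sum_congr rfl fun j _ => ?_)
  have s0 : (s : ℂ) ≠ 0 := Complex.ofReal_ne_zero.2 hs.ne'
  refine congrArg₂ _ ?_ rfl
  simp only [zz, Prod.fst_add, Prod.snd_add, pow_add, Complex.cpow_sub _ _ s0,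
    Complex.cpow_add _ _ s0, show (s : ℂ) ^ (4 : ℂ) = s ^ 4 from Complex.cpow_ofNat _ 4]
  have := fun z => (Complex.cpow_eq_zero_iff s z).not.2 fun h => s0 h.1
  push_cast
  field_simp [this]

theorem fsl : FSL (p.q y) := fun A hA => by
  obtain ⟨ι, _, d, C, h1, h2⟩ := sp_ind (p := fun A => ∃ (ι : Type) (_ : Fintype ι)
    (d : ι → ℂ × ℕ) (C : ι → Fld E), (∀ j, (p.q y).bose (C j)) ∧ Law (p.q y) A d C) hA (by
      rintro _ ⟨B, C, h, rfl⟩
      obtain ⟨hB, hC, e, p1, p2⟩ := id h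
      obtain ⟨ι, _, d, B1, a1, a2⟩ := scl_par y.fs hB p1
      obtain ⟨κ, _, d', C1, b1, b2⟩ := scl_par y.fs hC p2
      have k : ∀ j l, Lt c (B1 j) (C1 l) := fun j l => ⟨(a1 j).1, (b1 l).1, e, (a1 j).2, (b1 l).2⟩
      exact ⟨_, _, _, _, fun j => p.q_bose y (k _ _),
        p.law y h k (fun j => (a1 j).1) (fun j => (b1 j).1) a2 b2⟩)
    ⟨Empty, inferInstance, Empty.elim, Empty.elim, fun j => j.elim, fun _ _ _ _ _ => by simp⟩
    fun A A' z ⟨ι, _, d, C, a1, a2⟩ ⟨κ, _, d', C', b1, b2⟩ => ⟨ι ⊕ κ, inferInstance, Sum.elim d d',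
      Sum.elim C fun j => z • C' j, fun j => by
        rcases j with j | j
        exacts [a1 j, Submodule.smul_mem _ z (b1 j)], fun s f v hs hf => by
      simp only [a2 s f v hs hf, b2 s f v hs hf, Fintype.sum_sum_type, Sum.elim_inl, Sum.elim_inr,
        Pi.smul_apply, U_smul hs H496.isLor_one, Finset.smul_sum, smul_comm z]⟩
  exact h2.scl fun s => Submodule.sum_mem _ fun j _ => h1 j

theorem ex_rep : ∃ A, Rep (p.q y) A := P352H.rep_gen _ (p.dbl y).mul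
  (fun w S h0 h => p.gen S h0 (fun B C f v k => h _ f v (p.q_fld y k)) w) (p.mfa y) (p.fsl y)

theorem tfg {A : (V → V) → E → E} (R : Rep (p.q y) A) : TfGen (p.q y) :=
  P352H.tfg (Q := p.q0 y) ⟨R.mul, R.add, R.der⟩ (p.mfa0 y)

theorem aw_q {A : Fld E} (hA : (p.q y).fld A) (hf : In Set.univ f) :
    ∃ X', ∀ U, IsOpen U → tsupport f ⊆ U → Aw c i U (A f) X' :=
  sp_ind (p := fun A => ∃ X', ∀ U, IsOpen U → tsupport f ⊆ U → Aw c i U (A f) X') hA (by
      rintro _ ⟨B, C, h, rfl⟩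
      obtain ⟨B', C', h', a, b⟩ := h.adj
      exact ⟨_, fun U u1 u2 => p.aw h h' a b u1 ⟨hf.1, hf.2.1, u2⟩⟩)
    ⟨fun _ => 0, fun U _ _ Z _ v w => by simp⟩ fun A A' z ⟨_, a⟩ ⟨_, b⟩ =>
      ⟨_, fun U u1 u2 => (a U u1 u2).add ((b U u1 u2).smul z)⟩

theorem lnm {A : (V → V) → E → E} (R : Rep (p.q y) A) : LNm (p.q y) A (N2 c (jE i)) :=
  (p.dbl y).lnm R fun B f hB hf => have ⟨X', h⟩ := p.aw_q y hB hf
    ⟨X', (h _ isOpen_univ (Set.subset_univ _)).adj, h⟩

theorem uvac (hU : UVac c.Q) : UVac (p.q y) := (p.dbl y).uvac hU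

end PW

end Vale.Agent.N352.Tn
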