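import Mathlib.Analysis.InnerProductSpace.TensorProduct
import Mathlib.Analysis.InnerProductSpace.Completion
import Mathlib.Analysis.InnerProductSpace.Adjoint
import Mathlib.Topology.Algebra.LinearMapCompletion
import Vale.Agent.P352X.SN.Inst
import Vale.Agent.P352X.SN.Main

/-!
# N352, block Tn: the Hilbert tensor product (helper71)
-/

set_option linter.all false

open Filter Topology MeasureTheory
open scoped TensorProduct ComplexConjugate
open UniformSpace (Completion)
open ContinuousLinearMap (adjoint)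

noncomputable section

namespace Vale.Agent.N352.Tn

variable {E F E' F' E'' F'' G : Type*}
  [NormedAddCommGroup E] [InnerProductSpace ℂ E] [NormedAddCommGroup F] [InnerProductSpace ℂ F]
  [NormedAddCommGroup E'] [InnerProductSpace ℂ E'] [NormedAddCommGroup F'] [InnerProductSpace ℂ F']
  [NormedAddCommGroup E''] [InnerProductSpace ℂ E''] [NormedAddCommGroup F'']
  [InnerProductSpace ℂ F'']

/-- the Hilbert tensor product -/
abbrev HH (E F : Type*) [NormedAddCommGroup E] [InnerProductSpace ℂ E] [NormedAddCommGroup F]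
    [InnerProductSpace ℂ F] : Type _ := Completion (E ⊗[ℂ] F)

/-- pure tensors, as a bounded bilinear map -/
def tm : E →L[ℂ] F →L[ℂ] HH E F :=
  (ContinuousLinearMap.compL ℂ F (E ⊗[ℂ] F) (HH E F) Completion.toComplL) ∘L TensorProduct.mkL ℂ E F

theorem tm_def (x : E) (y : F) : tm x y = ((x ⊗ₜ[ℂ] y : E ⊗[ℂ] F) : HH E F) := rfl

attribute [irreducible] tm

theorem inner_tm (x x' : E) (y y' : F) :
    inner ℂ (tm x y) (tm x' y') = inner ℂ x x' * inner ℂ y y' := by
  rw [tm_def, tm_def, Completion.inner_coe, TensorProduct.inner_tmul]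

theorem norm_tm (x : E) (y : F) : ‖tm x y‖ = ‖x‖ * ‖y‖ := by
  rw [tm_def, Completion.norm_coe, TensorProduct.norm_tmul]

theorem cont_tm : Continuous fun p : E × F => tm p.1 p.2 := (tm : E →L[ℂ] F →L[ℂ] HH E F).continuous₂

theorem tendsto_tm {ι : Type*} {l : Filter ι} {x : ι → E} {y : ι → F} {a : E} {b : F}
    (hx : Tendsto x l (𝓝 a)) (hy : Tendsto y l (𝓝 b)) :
    Tendsto (fun i => tm (x i) (y i)) l (𝓝 (tm a b)) :=
  by simpa only [Function.comp_def] using (cont_tm.tendsto (a, b)).comp (hx.prodMk_nhds hy)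

theorem _root_.Continuous.tm {X : Type*} [TopologicalSpace X] {x : X → E} {y : X → F}
    (hx : Continuous x) (hy : Continuous y) : Continuous fun i => tm (x i) (y i) :=
  by simpa only [Function.comp_def] using cont_tm.comp (hx.prodMk hy)

theorem tm_add_l (x x' : E) (y : F) : tm (x + x') y = tm x y + tm x' y := by
  rw [map_add]; rfl

theorem tm_smul_l (a : ℂ) (x : E) (y : F) : tm (a • x) y = a • tm x y := by
  rw [map_smul]; rfl

theorem tm_sub_l (x x' : E) (y : F) : tm (x - x') y = tm x y - tm x' y := by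
  rw [map_sub]; rfl

theorem tm_neg_l (x : E) (y : F) : tm (-x) y = -tm x y := by
  rw [map_neg]; rfl

theorem tm_zero_l (y : F) : tm (0 : E) y = 0 := by
  rw [map_zero]; rfl

theorem tm_sum_l {ι : Type*} (s : Finset ι) (x : ι → E) (y : F) :
    tm (∑ i ∈ s, x i) y = ∑ i ∈ s, tm (x i) y := by
  rw [map_sum, ContinuousLinearMap.sum_apply]

/-- induction on the tensor product -/
@[elab_as_elim]
theorem ind {p : HH E F → Prop} (z : HH E F) (hc : IsClosed {z | p z}) (h0 : p 0)
    (ha : ∀ a b, p a → p b → p (a + b)) (ht : ∀ x y, p (tm x y)) : p z := by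
  refine Completion.induction_on z hc fun u => ?_
  induction u using TensorProduct.induction_on with
  | zero => rwa [Completion.coe_zero]
  | tmul x y => exact tm_def x y ▸ ht x y
  | add a b h1 h2 => rw [Completion.coe_add]; exact ha _ _ h1 h2

/-- induction, with dense sets of vectors in the factors -/
@[elab_as_elim]
theorem ind' {p : HH E F → Prop} (z : HH E F) {S : Set E} {S' : Set F} (hS : Dense S)
    (hS' : Dense S') (hc : IsClosed {z | p z}) (h0 : p 0)
    (ha : ∀ a b, p a → p b → p (a + b)) (ht : ∀ x ∈ S, ∀ y ∈ S', p (tm x y)) : p z := by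
  refine ind z hc h0 ha fun x y => ?_
  have := (hS.prod hS').induction (P := fun q : E × F => p (tm q.1 q.2))
    (fun q hq => ht q.1 hq.1 q.2 hq.2) (hc.preimage cont_tm) (x, y)
  exact this

section ext

variable [NormedAddCommGroup G] [NormedSpace ℂ G]

theorem ext' {A B : HH E F →L[ℂ] G} {S : Set E} {S' : Set F} (hS : Dense S) (hS' : Dense S')
    (h : ∀ x ∈ S, ∀ y ∈ S', A (tm x y) = B (tm x y)) : A = B := by
  ext z
  refine ind' z hS hS' (isClosed_eq A.continuous B.continuous) (by simp) (fun a b h1 h2 => ?_) h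
  rw [map_add, map_add, h1, h2]

theorem ext {A B : HH E F →L[ℂ] G} (h : ∀ x y, A (tm x y) = B (tm x y)) : A = B :=
  ext' dense_univ dense_univ fun x _ y _ => h x y

end ext

theorem ext_in' {z w : HH E F} {S : Set E} {S' : Set F} (hS : Dense S) (hS' : Dense S')
    (h : ∀ x ∈ S, ∀ y ∈ S', inner ℂ (tm x y) z = inner ℂ (tm x y) w) : z = w := by
  refine ext_inner_left ℂ fun u => ?_
  refine ind' u hS hS' (isClosed_eq (by fun_prop) (by fun_prop)) (by simp) (fun a b h1 h2 => ?_) h
  rw [inner_add_left, inner_add_left, h1, h2]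

theorem ext_in {z w : HH E F} (h : ∀ x y, inner ℂ (tm x y) z = inner ℂ (tm x y) w) : z = w :=
  ext_in' dense_univ dense_univ fun x _ y _ => h x y

/-- the span of pure tensors of dense sets is dense -/
theorem dense_span {S : Set E} {S' : Set F} (hS : Dense S) (hS' : Dense S') :
    Dense (Submodule.span ℂ {z : HH E F | ∃ x ∈ S, ∃ y ∈ S', z = tm x y} : Set (HH E F)) := by
  intro z
  rw [← Submodule.topologicalClosure_coe]
  refine ind' z hS hS' (Submodule.isClosed_topologicalClosure _) (zero_mem _)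
    (fun a b => add_mem) fun x hx y hy =>
      Submodule.le_topologicalClosure _ (Submodule.subset_span ⟨x, hx, y, hy, rfl⟩)

/-- the tensor product of operators -/
def mp (A : E →L[ℂ] E') (B : F →L[ℂ] F') : HH E F →L[ℂ] HH E' F' :=
  (TensorProduct.mapL A B).completion

theorem mp_tm (A : E →L[ℂ] E') (B : F →L[ℂ] F') (x : E) (y : F) :
    mp A B (tm x y) = tm (A x) (B y) := by
  rw [tm_def, mp, ContinuousLinearMap.completion_apply_coe, TensorProduct.mapL_tmul, tm_def]

theorem norm_mp_apply (A : E →L[ℂ] E') (B : F →L[ℂ] F') (z : HH E F) :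
    ‖mp A B z‖ ≤ ‖A‖ * ‖B‖ * ‖z‖ := by
  refine Completion.induction_on z (isClosed_le (by fun_prop) (by fun_prop)) fun u => ?_
  rw [mp, ContinuousLinearMap.completion_apply_coe, Completion.norm_coe, Completion.norm_coe]
  exact ((TensorProduct.mapL A B).le_opNorm u).trans
    (mul_le_mul_of_nonneg_right (TensorProduct.norm_mapL_le A B) (norm_nonneg _))

attribute [irreducible] mp

theorem mp_comp (A : E' →L[ℂ] E'') (B : F' →L[ℂ] F'') (A' : E →L[ℂ] E') (B' : F →L[ℂ] F') :
    mp A B ∘L mp A' B' = mp (A ∘L A') (B ∘L B') := ext fun x y => by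
  simp only [ContinuousLinearMap.comp_apply, mp_tm]

theorem mp_mul (A A' : E →L[ℂ] E) (B B' : F →L[ℂ] F) :
    mp A B * mp A' B' = mp (A * A') (B * B') := mp_comp _ _ _ _

theorem mp_mp (A : E' →L[ℂ] E'') (B : F' →L[ℂ] F'') (A' : E →L[ℂ] E') (B' : F →L[ℂ] F')
    (z : HH E F) : mp A B (mp A' B' z) = mp (A ∘L A') (B ∘L B') z := by
  rw [← mp_comp]; rfl

theorem mp_one : mp (1 : E →L[ℂ] E) (1 : F →L[ℂ] F) = 1 := ext fun x y => by
  rw [mp_tm]; rfl

theorem mp_add_l (A A' : E →L[ℂ] E') (B : F →L[ℂ] F') : mp (A + A') B = mp A B + mp A' B :=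
  ext fun x y => by simp only [mp_tm, ContinuousLinearMap.add_apply, map_add]

theorem mp_add_r (A : E →L[ℂ] E') (B B' : F →L[ℂ] F') : mp A (B + B') = mp A B + mp A B' :=
  ext fun x y => by simp only [mp_tm, ContinuousLinearMap.add_apply, map_add]

theorem mp_smul_l (a : ℂ) (A : E →L[ℂ] E') (B : F →L[ℂ] F') : mp (a • A) B = a • mp A B :=
  ext fun x y => by simp only [mp_tm, ContinuousLinearMap.smul_apply, map_smul]

theorem mp_smul_r (a : ℂ) (A : E →L[ℂ] E') (B : F →L[ℂ] F') : mp A (a • B) = a • mp A B :=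
  ext fun x y => by simp only [mp_tm, ContinuousLinearMap.smul_apply, map_smul]

theorem mp_neg_neg (A : E →L[ℂ] E') (B : F →L[ℂ] F') : mp (-A) (-B) = mp A B :=
  ext fun x y => by simp only [mp_tm, ContinuousLinearMap.neg_apply, map_neg, neg_neg]

theorem norm_mp (A : E →L[ℂ] E') (B : F →L[ℂ] F') : ‖mp A B‖ ≤ ‖A‖ * ‖B‖ :=
  ContinuousLinearMap.opNorm_le_bound _ (by positivity) (norm_mp_apply A B)

/-- strong convergence on a dense set, with a uniform bound -/
theorem tendsto_mp {ι : Type*} {l : Filter ι} {A : ι → E →L[ℂ] E'} {B : ι → F →L[ℂ] F'}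
    {A0 : E →L[ℂ] E'} {B0 : F →L[ℂ] F'} {C : ℝ} (hA : ∀ i, ‖A i‖ * ‖B i‖ ≤ C)
    (h1 : ∀ x, Tendsto (fun i => A i x) l (𝓝 (A0 x)))
    (h2 : ∀ y, Tendsto (fun i => B i y) l (𝓝 (B0 y))) (z : HH E F) :
    Tendsto (fun i => mp (A i) (B i) z) l (𝓝 (mp A0 B0 z)) := by
  let K : ℝ := max C 0 + ‖mp A0 B0‖ + 1
  have K0 : 0 < K := by positivity
  refine ind z ?_ (by simpa only [map_zero] using tendsto_const_nhds)
    (fun a b k1 k2 => by simpa only [map_add] using k1.add k2)
    fun x y => by simpa only [mp_tm] using tendsto_tm (h1 x) (h2 y)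
  refine isClosed_of_closure_subset fun z hz => Metric.tendsto_nhds.2 fun ε hε => ?_
  obtain ⟨w, hw, d⟩ := Metric.mem_closure_iff.1 hz (ε / (3 * K)) (by positivity)
  filter_upwards [Metric.tendsto_nhds.1 hw (ε / 3) (by positivity)] with i hi
  have b1 : dist (mp (A i) (B i) z) (mp (A i) (B i) w) ≤ K * dist z w := by
    rw [dist_eq_norm, dist_eq_norm, ← map_sub]
    refine (norm_mp_apply _ _ _).trans (mul_le_mul_of_nonneg_right ((hA i).trans ?_) (norm_nonneg _))
    have := le_max_left C 0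
    have := norm_nonneg (mp A0 B0)
    simp only [K]
    linarith
  have b2 : dist (mp A0 B0 w) (mp A0 B0 z) ≤ K * dist z w := by
    rw [dist_comm, dist_eq_norm, dist_eq_norm, ← map_sub]
    refine ((mp A0 B0).le_opNorm _).trans (mul_le_mul_of_nonneg_right ?_ (norm_nonneg _))
    have := le_max_right C 0
    simp only [K]
    linarith
  have b3 : K * dist z w < ε / 3 := by
    calc K * dist z w < K * (ε / (3 * K)) := mul_lt_mul_of_pos_left d K0
      _ = ε / 3 := by field_simp
  have := dist_triangle4 (mp (A i) (B i) z) (mp (A i) (B i) w) (mp A0 B0 w) (mp A0 B0 z)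
  linarith

/-- the flip -/
def fl : HH E F →L[ℂ] HH F E :=
  ((TensorProduct.commIsometry ℂ E F).toLinearIsometry.toContinuousLinearMap).completion

theorem fl_tm (x : E) (y : F) : fl (tm x y) = tm y x := by
  rw [tm_def, fl, ContinuousLinearMap.completion_apply_coe, tm_def]
  rfl

attribute [irreducible] fl

theorem fl_fl (z : HH E F) : fl (fl z) = z :=
  DFunLike.congr_fun (ext (A := fl ∘L fl) (B := .id ℂ _) fun x y => by
    simp only [ContinuousLinearMap.comp_apply, fl_tm, ContinuousLinearMap.id_apply]) z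

theorem fl_mp (A : E →L[ℂ] E') (B : F →L[ℂ] F') (z : HH E F) : fl (mp A B z) = mp B A (fl z) :=
  DFunLike.congr_fun (ext (A := fl ∘L mp A B) (B := mp B A ∘L fl) fun x y => by
    simp only [ContinuousLinearMap.comp_apply, fl_tm, mp_tm]) z

section complete

variable [CompleteSpace E] [CompleteSpace F] [CompleteSpace E'] [CompleteSpace F']

theorem adjoint_mp (A : E →L[ℂ] E') (B : F →L[ℂ] F') :
    adjoint (mp A B) = mp (adjoint A) (adjoint B) := ext fun x y => ext_in fun u v => by
  rw [ContinuousLinearMap.adjoint_inner_right, mp_tm, mp_tm, inner_tm, inner_tm,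
    ContinuousLinearMap.adjoint_inner_right, ContinuousLinearMap.adjoint_inner_right]

theorem star_mp (A : E →L[ℂ] E) (B : F →L[ℂ] F) : star (mp A B) = mp (star A) (star B) :=
  adjoint_mp A B

theorem mp_uni {A : E →L[ℂ] E} {B : F →L[ℂ] F} (hA : A ∈ unitary (E →L[ℂ] E))
    (hB : B ∈ unitary (F →L[ℂ] F)) : mp A B ∈ unitary (HH E F →L[ℂ] HH E F) :=
  ⟨by rw [star_mp, mp_mul, hA.1, hB.1, mp_one], by rw [star_mp, mp_mul, hA.2, hB.2, mp_one]⟩

theorem adjoint_fl : adjoint (fl : HH E F →L[ℂ] HH F E) = fl := ext fun x y => ext_in fun u v => by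
  rw [ContinuousLinearMap.adjoint_inner_right, fl_tm, fl_tm, inner_tm, inner_tm, mul_comm]

/-- the slice `x ⊗ y' ↦ ⟨y, y'⟩ x` -/
def s1 (y : F) : HH E F →L[ℂ] E := adjoint ((tm : E →L[ℂ] F →L[ℂ] HH E F).flip y)

/-- the slice `x' ⊗ y ↦ ⟨x, x'⟩ y` -/
def s2 (x : E) : HH E F →L[ℂ] F := adjoint (tm x : F →L[ℂ] HH E F)

omit [CompleteSpace F] in
theorem inner_s1 (x : E) (y : F) (z : HH E F) : inner ℂ x (s1 y z) = inner ℂ (tm x y) z :=
  ContinuousLinearMap.adjoint_inner_right _ _ _

omit [CompleteSpace E] in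
theorem inner_s2 (x : E) (y : F) (z : HH E F) : inner ℂ y (s2 x z) = inner ℂ (tm x y) z :=
  ContinuousLinearMap.adjoint_inner_right _ _ _

omit [CompleteSpace F] in
theorem s1_tm (y y' : F) (x : E) : s1 y (tm x y') = inner ℂ y y' • x :=
  ext_inner_left ℂ fun u => by rw [inner_s1, inner_tm, inner_smul_right, mul_comm]

omit [CompleteSpace E] in
theorem s2_tm (x x' : E) (y : F) : s2 x (tm x' y) = inner ℂ x x' • y :=
  ext_inner_left ℂ fun u => by rw [inner_s2, inner_tm, inner_smul_right]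

theorem s1_mp (A : E →L[ℂ] E') (B : F →L[ℂ] F') (y : F') (z : HH E F) :
    s1 y (mp A B z) = A (s1 (adjoint B y) z) := ext_inner_left ℂ fun u => by
  rw [inner_s1, ← ContinuousLinearMap.adjoint_inner_left, adjoint_mp, mp_tm,
    ← ContinuousLinearMap.adjoint_inner_left A, inner_s1]

theorem s2_mp (A : E →L[ℂ] E') (B : F →L[ℂ] F') (x : E') (z : HH E F) :
    s2 x (mp A B z) = B (s2 (adjoint A x) z) := ext_inner_left ℂ fun u => by
  rw [inner_s2, ← ContinuousLinearMap.adjoint_inner_left, adjoint_mp, mp_tm,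
    ← ContinuousLinearMap.adjoint_inner_left B, inner_s2]

omit [CompleteSpace F] in
theorem norm_s1 (y : F) (z : HH E F) : ‖s1 y z‖ ≤ ‖y‖ * ‖z‖ := by
  refine ((s1 y).le_opNorm z).trans (mul_le_mul_of_nonneg_right ?_ (norm_nonneg _))
  rw [s1, LinearIsometryEquiv.norm_map]
  exact ContinuousLinearMap.opNorm_le_bound _ (norm_nonneg _) fun x => by
    rw [ContinuousLinearMap.flip_apply, norm_tm, mul_comm]

omit [CompleteSpace E] in
theorem norm_s2 (x : E) (z : HH E F) : ‖s2 x z‖ ≤ ‖x‖ * ‖z‖ := by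
  refine ((s2 x).le_opNorm z).trans (mul_le_mul_of_nonneg_right ?_ (norm_nonneg _))
  rw [s2, LinearIsometryEquiv.norm_map]
  exact ContinuousLinearMap.opNorm_le_bound _ (norm_nonneg _) fun y => (norm_tm x y).le

/-! ## unitary representations -/

open Vale.Agent.P352X.SN

variable {Y : Type*} [AddCommGroup Y] [TopologicalSpace Y] {U : Y → E → E} {W : Y → F → F}

omit [CompleteSpace E] in
theorem norm_op (h : URep U) (y : Y) : ‖h.op y‖ ≤ 1 :=
  ContinuousLinearMap.opNorm_le_bound _ zero_le_one fun v => by simp [h.norm]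

/-- the tensor product of two unitary representations -/
theorem urep (h : URep U) (h' : URep W) : URep fun y z => mp (h.op y) (h'.op y) z where
  zero v := by
    rw [show h.op 0 = 1 from ContinuousLinearMap.ext h.zero,
      show h'.op 0 = 1 from ContinuousLinearMap.ext h'.zero, mp_one]
    rfl
  add x y v := by
    rw [mp_mp, show h.op (x + y) = h.op x ∘L h.op y from ContinuousLinearMap.ext (h.add x y),
      show h'.op (x + y) = h'.op x ∘L h'.op y from ContinuousLinearMap.ext (h'.add x y)]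
  inn x v w := by
    have a : adjoint (h.op x) ∘L h.op x = 1 := ContinuousLinearMap.ext fun v =>
      ext_inner_left ℂ fun u => by
        rw [ContinuousLinearMap.comp_apply, ContinuousLinearMap.adjoint_inner_right]
        exact h.inn x u v
    have b : adjoint (h'.op x) ∘L h'.op x = 1 := ContinuousLinearMap.ext fun v =>
      ext_inner_left ℂ fun u => by
        rw [ContinuousLinearMap.comp_apply, ContinuousLinearMap.adjoint_inner_right]
        exact h'.inn x u v
    rw [← ContinuousLinearMap.adjoint_inner_right, adjoint_mp, mp_mp, a, b, mp_one]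
    rfl
  cont v := continuous_iff_continuousAt.2 fun y => tendsto_mp (C := 1) (A0 := h.op y)
    (B0 := h'.op y)
    (fun i => mul_le_one₀ (norm_op h i) (norm_nonneg _) (norm_op h' i))
    (fun x => (h.cont x).tendsto y) (fun x => (h'.cont x).tendsto y) v

variable {X : Type*} [MeasurableSpace X] [AddCommGroup X] [MeasurableAdd₂ X] [Module ℝ Y]
  {pr : X → Y → ℝ}

/-- the spectral measure of a pure tensor is the convolution -/
theorem nu_tm (hp : IsPair pr) (al : ∀ p q y, pr (p + q) y = pr p y + pr q y) {h : URep U}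
    {h' : URep W} (C : BC pr U) (C' : BC pr W) (C2 : BC pr fun y z => mp (h.op y) (h'.op y) z)
    (x : E) (y : F) :
    C2.nu (tm x y) = ((C.nu x).prod (C'.nu y)).map fun q => q.1 + q.2 := by
  haveI := C.fin x
  haveI := C'.fin y
  refine (C2.nu_unique hp fun a => ?_).symm
  have hb := hp.bd a
  rw [integral_map (by fun_prop) hb.1.aestronglyMeasurable, mp_tm, inner_tm]
  have e : ∀ q : X × X, ch pr a (q.1 + q.2) = ch pr a q.1 * ch pr a q.2 := fun q => by
    simp only [ch, al, Complex.ofReal_add, mul_add, Complex.exp_add]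
  simp only [e]
  rw [integral_prod_mul (fun p => ch pr a p) (fun p => ch pr a p), C.char hp, C'.char hp]
  rfl

/-- the spectrum of the tensor product lies in a convex cone -/
theorem cone2 (hp : IsPair pr) (al : ∀ p q y, pr (p + q) y = pr p y + pr q y) {h : URep U}
    {h' : URep W} (C : BC pr U) (C' : BC pr W) (C2 : BC pr fun y z => mp (h.op y) (h'.op y) z)
    {A : Set X} (hA : MeasurableSet A) (ad : ∀ p ∈ A, ∀ q ∈ A, p + q ∈ A)
    (k : ∀ x, ∀ᵐ p ∂C.nu x, p ∈ A) (k' : ∀ y, ∀ᵐ p ∂C'.nu y, p ∈ A) (z : HH E F) :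
    ∀ᵐ p ∂C2.nu z, p ∈ A := by
  have h1 : ∀ w, (∀ᵐ p ∂C2.nu w, p ∈ A) ↔ C2.P Aᶜ w = 0 := fun w => by
    rw [← C2.nu_eq_zero hA.compl]
    rfl
  rw [h1]
  refine DFunLike.congr_fun (ext (A := C2.P Aᶜ) (B := 0) fun x y => (h1 _).1 ?_) z
  haveI := C.fin x
  haveI := C'.fin y
  rw [nu_tm hp al C C' C2]
  refine (ae_map_iff (p := fun p => p ∈ A) (by fun_prop) hA).2 ?_
  filter_upwards [Measure.ae_prod_mem_iff_ae_ae_mem (s := A ×ˢ A) (hA.prod hA) |>.2
    ((k x).mono fun p hp => (k' y).mono fun q hq => ⟨hp, hq⟩)] with q hq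
  exact ad _ hq.1 _ hq.2

theorem P0_inv [MeasurableSingletonClass X] (hp : IsPair pr) (p0 : ∀ y, pr 0 y = 0)
    (C : BC pr U) (a : Y) (v : E) : U a (C.P {0} v) = C.P {0} v := by
  have m0 : MeasurableSet ({0} : Set X) := measurableSet_singleton _
  rw [← C.Phi_ch, Calc.P, ← C.mul_apply (hp.bd a) (Bd.ind m0)]
  congr 2
  funext p
  by_cases e : p = 0
  · simp [e, ch, p0]
  · simp [e]

theorem P_idem (C : Calc X E) {A : Set X} (hA : MeasurableSet A) (v w : E) :
    inner ℂ (C.P A v) (C.P A w) = inner ℂ v (C.P A w) := by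
  rw [Calc.P, C.adj (Bd.ind hA), ← C.mul_apply (Bd.ind hA).cj (Bd.ind hA)]
  congr 3
  funext p
  by_cases e : p ∈ A <;> simp [e]

theorem P0_fix [MeasurableSingletonClass X] (hp : IsPair pr) (p0 : ∀ y, pr 0 y = 0)
    (C : BC pr U) {w : E} (hw : ∀ a, U a w = w) : C.P {0} w = w := by
  have m0 : MeasurableSet ({0} : Set X) := measurableSet_singleton _
  have e : C.nu w = (‖w‖₊ ^ 2) • Measure.dirac 0 := by
    refine (C.nu_unique hp fun a => ?_).symm
    rw [hw, integral_smul_nnreal_measure, integral_dirac' _ _ (hp.bd a).1.stronglyMeasurable,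
      inner_self_eq_norm_sq_to_K]
    simp [ch, p0, NNReal.smul_def]
  rw [Calc.P, C.congr_ae (Bd.ind m0) (Bd.const 1), C.one]
  · rfl
  · rw [e]
    refine Measure.ae_smul_measure ((ae_dirac_iff
      (measurableSet_eq_fun (Bd.ind m0).1 measurable_const)).2 ?_) _
    simp

/-- invariant vectors of the tensor product -/
theorem P0_tm [MeasurableSingletonClass X] (hp : IsPair pr)
    (al : ∀ p q y, pr (p + q) y = pr p y + pr q y) {h : URep U}
    {h' : URep W} (C : BC pr U) (C' : BC pr W) (C2 : BC pr fun y z => mp (h.op y) (h'.op y) z)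
    {A : Set X} (hA : MeasurableSet A) (pt : ∀ p ∈ A, ∀ q ∈ A, p + q = 0 → p = 0 ∧ q = 0)
    (k : ∀ x, ∀ᵐ p ∂C.nu x, p ∈ A) (k' : ∀ y, ∀ᵐ p ∂C'.nu y, p ∈ A) :
    C2.P {0} = mp (C.P {0}) (C'.P {0}) := by
  have m0 : MeasurableSet ({0} : Set X) := measurableSet_singleton _
  have p0 : ∀ y, pr 0 y = 0 := fun y => by simpa using al 0 0 y
  refine ext fun x y => ?_
  haveI := C.fin x
  haveI := C'.fin y
  rw [mp_tm]
  have n1 : ‖C2.P {0} (tm x y)‖ ^ 2 = ‖tm (C.P {0} x) (C'.P {0} y)‖ ^ 2 := by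
    rw [norm_tm, mul_pow, ← C2.nu_real m0, ← C.nu_real m0, ← C'.nu_real m0, nu_tm hp al C C' C2,
      ← measureReal_prod_prod, map_measureReal_apply (by fun_prop) m0]
    refine measureReal_congr ?_
    filter_upwards [Measure.ae_prod_mem_iff_ae_ae_mem (s := A ×ˢ A) (hA.prod hA) |>.2
      ((k x).mono fun p hp => (k' y).mono fun q hq => ⟨hp, hq⟩)] with q hq
    refine propext ⟨fun e => pt _ hq.1 _ hq.2 e, fun e => ?_⟩
    show q.1 + q.2 = 0
    rw [show q.1 = 0 from e.1, show q.2 = 0 from e.2, add_zero]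
  have f1 := P0_fix hp p0 C2 (w := tm (C.P {0} x) (C'.P {0} y)) fun a => by
    rw [mp_tm, URep.op_apply, URep.op_apply, P0_inv hp p0 C, P0_inv hp p0 C']
  have n2 : inner ℂ (C2.P {0} (tm x y)) (tm (C.P {0} x) (C'.P {0} y)) =
      inner ℂ (tm (C.P {0} x) (C'.P {0} y)) (tm (C.P {0} x) (C'.P {0} y)) := by
    conv_lhs => rw [← f1, P_idem _ m0, f1]
    rw [inner_tm, inner_tm, P_idem _ m0, P_idem _ m0]
  rw [← sub_eq_zero, ← norm_eq_zero, ← pow_eq_zero_iff two_ne_zero, @norm_sub_sq ℂ, n2, n1,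
    inner_self_eq_norm_sq]
  ring

end complete

end Vale.Agent.N352.Tn
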