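import Vale.Agent.N352.Wd
import Vale.Agent.N352.Tn

/-!
# N352: pairs of words and their restrictions to the diagonal
-/

set_option linter.all false

noncomputable section

open Filter Topology MeasureTheory
open scoped SchwartzMap LineDeriv ComplexConjugate
open UniformSpace (Completion)

namespace Vale.Agent.N352.Kn

open Vale.Agent.P352 Vale.Agent.P352.GF Vale.Agent.P352X
open Vale.Agent.P352X.ST (tens tsl)
open Vale.Agent.P352X.Api4 (tenE tenE')
open Vale.Agent.N352.Tn (HH tm norm_tm)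

section gen

variable {E E' : Type*} [NormedAddCommGroup E] [NormedSpace ℝ E] [NormedAddCommGroup E']
  [NormedSpace ℝ E']

/-- complex conjugation -/
def cj (F : 𝓢(E, ℂ)) : 𝓢(E, ℂ) :=
  SchwartzMap.postcompCLM (𝕜 := ℝ) (Complex.conjCLE : ℂ →L[ℝ] ℂ) F

@[simp] lemma cj_apply (F : 𝓢(E, ℂ)) (z : E) : cj F z = conj (F z) := rfl

lemma ev_cj (g : Sch) : ev (cj g) = bar (ev g) := rfl

lemma cj_cj (F : 𝓢(E, ℂ)) : cj (cj F) = F := SchwartzMap.ext fun z => by simp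

/-- `F ↦ ⟨Λ (conj F), ξ⟩` -/
def anti {H : Type*} [NormedAddCommGroup H] [InnerProductSpace ℂ H] (Λ : 𝓢(E, ℂ) →L[ℂ] H) (ξ : H) :
    𝓢(E, ℂ) →L[ℂ] ℂ where
  toFun F := inner ℂ (Λ (cj F)) ξ
  map_add' F G := by
    rw [show cj (F + G) = cj F + cj G from SchwartzMap.ext fun z => by simp, map_add,
      inner_add_left]
  map_smul' a F := by
    rw [show cj (a • F) = conj a • cj F from SchwartzMap.ext fun z => by simp, map_smul,
      inner_smul_left, Complex.conj_conj]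
    rfl
  cont := (Λ.continuous.comp (SchwartzMap.postcompCLM (𝕜 := ℝ)
    (Complex.conjCLE : ℂ →L[ℝ] ℂ)).continuous).inner continuous_const

lemma anti_apply {H : Type*} [NormedAddCommGroup H] [InnerProductSpace ℂ H]
    (Λ : 𝓢(E, ℂ) →L[ℂ] H) (ξ : H) (F : 𝓢(E, ℂ)) : anti Λ ξ F = inner ℂ (Λ (cj F)) ξ := rfl

variable [FiniteDimensional ℝ E] [FiniteDimensional ℝ E'] {G : Type*} [NormedAddCommGroup G]
  [NormedSpace ℂ G] [CompleteSpace G]

lemma eq_tens (Λ Λ' : 𝓢(E × E', ℂ) →L[ℂ] G) (h : ∀ f g, Λ (tens f g) = Λ' (tens f g))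
    (Φ : 𝓢(E × E', ℂ)) : Λ Φ = Λ' Φ := by
  rw [extE (.refl ℝ (E × E')) (Λ := Λ) (Λ' := Λ') fun f g _ _ => h f g]

lemma ex_tm {H H' : Type*} [NormedAddCommGroup H] [InnerProductSpace ℂ H] [NormedAddCommGroup H']
    [InnerProductSpace ℂ H'] (A : 𝓢(E, ℂ) →L[ℂ] H) (B : 𝓢(E', ℂ) →L[ℂ] H') :
    ∃ W : 𝓢(E × E', ℂ) →L[ℂ] HH H H', ∀ f g, W (tens f g) = tm (A f) (B g) := by
  obtain ⟨C, N, hC, h⟩ := ST.clm_sn_c A
  obtain ⟨C', N', hC', h'⟩ := ST.clm_sn_c B
  refine kernelE (.refl ℝ _) (LinearMap.mk₂ ℂ (fun f g => tm (A f) (B g)) (by simp) (by simp)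
    (by simp) (by simp)) (C := C * C') (m := max N N') fun f g => ?_
  rw [LinearMap.mk₂_apply, norm_tm]
  calc _ ≤ C * ST.sn E ℂ (max N N') f * (C' * ST.sn E' ℂ (max N N') g) := mul_le_mul
        ((h f).trans (mul_le_mul_of_nonneg_left (ST.sn_mono (le_max_left _ _) f) hC))
        ((h' g).trans (mul_le_mul_of_nonneg_left (ST.sn_mono (le_max_right _ _) g) hC'))
        (norm_nonneg _) (by positivity)
    _ = _ := by ring

lemma cv_l (η : E) (h : 𝓢(ℝ, ℂ)) (f : 𝓢(E, ℂ)) (g : 𝓢(E', ℂ)) :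
    cv ((η, 0) : E × E') h (tens f g) = tens (cv η h f) g := SchwartzMap.ext fun z => by
  simp [cv_apply, ← integral_mul_const, mul_assoc]

lemma cv_r (η : E') (h : 𝓢(ℝ, ℂ)) (f : 𝓢(E, ℂ)) (g : 𝓢(E', ℂ)) :
    cv ((0, η) : E × E') h (tens f g) = tens f (cv η h g) := SchwartzMap.ext fun z => by
  simp [cv_apply, ← integral_const_mul, mul_left_comm]

lemma der_l (η : E) (f : 𝓢(E, ℂ)) (g : 𝓢(E', ℂ)) :
    ∂_{((η, 0) : E × E')} (tens f g) = tens (∂_{η} f) g := SchwartzMap.ext fun z => by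
  simp [SchwartzMap.lineDerivOp_apply, lineDeriv]

lemma tsupport_dg (ρ : 𝓢(E, ℂ)) (hρ : HasCompactSupport ρ) {f : 𝓢(E, ℂ)}
    (hf : HasCompactSupport f) {U : Set E} (hU : IsOpen U) (h : tsupport f ⊆ U) :
    ∀ᶠ k in atTop, tsupport (dg k ρ f) ⊆ U ×ˢ U := by
  obtain ⟨δ, hδ, h1⟩ := hf.isCompact.exists_cthickening_subset_open hU h
  obtain ⟨R, hR⟩ := hρ.isCompact.isBounded.subset_closedBall 0
  filter_upwards [eventually_ge_atTop ⌈R / δ⌉₊] with k hk
  refine (closure_minimal (t := Metric.cthickening δ (tsupport f) ×ˢ tsupport f) (fun z hz => ?_)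
    (Metric.isClosed_cthickening.prod (isClosed_tsupport _))).trans (Set.prod_mono h1 h)
  have h0 : dg k ρ f z ≠ 0 := hz
  rw [dg_apply] at h0
  have h2 := subset_tsupport _ (right_ne_zero_of_mul h0)
  have h3 := mem_closedBall_zero_iff.1
    (hR (subset_tsupport _ (right_ne_zero_of_mul (left_ne_zero_of_mul h0))))
  refine ⟨Metric.mem_cthickening_of_dist_le _ _ _ _ h2 ?_, h2⟩
  rw [norm_smul, Real.norm_of_nonneg (by positivity), ← dist_eq_norm] at h3
  have h4 : R / δ ≤ k := (Nat.le_ceil _).trans (by exact_mod_cast hk)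
  rw [div_le_iff₀ hδ] at h4
  by_contra h5
  nlinarith [not_le.1 h5, k.cast_nonneg (α := ℝ)]

end gen

/-- the spaces of points -/
abbrev Vn (n : ℕ) := Fin n → V

lemma eq_pt2 {G : Type*} [NormedAddCommGroup G] [NormedSpace ℂ G] [CompleteSpace G] {n m : ℕ}
    (Λ Λ' : 𝓢(Vn n × Vn m, ℂ) →L[ℂ] G)
    (h : ∀ f g, Λ (tens (pt f) (pt g)) = Λ' (tens (pt f) (pt g))) (Φ : 𝓢(Vn n × Vn m, ℂ)) :
    Λ Φ = Λ' Φ :=
  eq_tens _ _ (fun F F' => eq_pt (Λ ∘L ST.tensL F') (Λ' ∘L ST.tensL F') (fun f =>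
    eq_pt (Λ ∘L ST.tensR (pt f)) (Λ' ∘L ST.tensR (pt f)) (h f) F') F) Φ

/-- splitting off the first variables -/
def ce2 (n : ℕ) : (Vn (n + 1) × Vn (n + 1)) ≃L[ℝ] (V × V) × (Vn n × Vn n) :=
  ((ce V n).prodCongr (ce V n)).trans (.prodProdProdComm ℝ _ _ _ _)

/-- `φ (x 0, y 0) Φ (x 1, ..., y 1, ...)` -/
abbrev cs {n : ℕ} (φ : 𝓢(V × V, ℂ)) : 𝓢(Vn n × Vn n, ℂ) →L[ℂ] 𝓢(Vn (n + 1) × Vn (n + 1), ℂ) :=
  tenE (ce2 n) φ

lemma cs_apply {n : ℕ} (φ : 𝓢(V × V, ℂ)) (Φ : 𝓢(Vn n × Vn n, ℂ)) (z : Vn (n + 1) × Vn (n + 1)) :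
    cs φ Φ z = φ (z.1 0, z.2 0) * Φ (Fin.tail z.1, Fin.tail z.2) := rfl

lemma cs_tens {n : ℕ} (f g : Sch) (F G : 𝓢(Vn n, ℂ)) :
    cs (tens f g) (tens F G) = tens (cons f F) (cons g G) := SchwartzMap.ext fun z => by
  simp only [cs_apply, ST.tens_apply, cons_apply]
  ring

lemma dg_cons {n : ℕ} (k : ℕ) (ρ f : Sch) (ρ' F : 𝓢(Vn n, ℂ)) :
    dg k (cons ρ ρ') (cons f F) = cs (dg k ρ f) (dg k ρ' F) := SchwartzMap.ext fun z => by
  have e : Module.finrank ℝ (Vn (n + 1)) = Module.finrank ℝ V + Module.finrank ℝ (Vn n) := by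
    rw [(ce V n).toLinearEquiv.finrank_eq, Module.finrank_prod]
  have e1 : ∀ r : ℝ, Fin.tail (r • (z.1 - z.2)) = r • (Fin.tail z.1 - Fin.tail z.2) :=
    fun _ => rfl
  simp only [cs_apply, dg_apply, cons_apply, e, pow_add, e1, Pi.smul_apply, Pi.sub_apply]
  ring

lemma dg_nil (k : ℕ) : dg k (nil V) (nil V) = tens (nil V) (nil V) := SchwartzMap.ext fun z => by
  simp [dg_apply, Module.finrank_zero_of_subsingleton]

lemma int_pt {n : ℕ} (f : Fin n → Sch) : ∫ x, pt f x = ∏ i, ∫ x, f i x := by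
  simp only [pt_apply]
  exact integral_fintype_prod_volume_eq_prod fun i x => f i x

lemma ex_rho : ∃ ρ : Sch, HasCompactSupport ρ ∧ ∫ x, ρ x = 1 := by
  obtain ⟨φ, hφ⟩ := ST.exists_ai (volume : Measure V)
  exact ⟨φ 0, (isCompact_closedBall _ _).of_isClosed_subset (isClosed_tsupport _) (hφ.supp 0),
    hφ.one 0⟩

/-- a bump function -/
def rho : Sch := ex_rho.choose

/-- bump functions -/
abbrev rn (n : ℕ) : 𝓢(Vn n, ℂ) := pt fun _ => rho

lemma int_cons (ρ : Sch) (n : ℕ) : ∫ x, cons ρ (rn n) x = ∫ x, ρ x := by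
  rw [← pt_cons, int_pt, Fin.prod_univ_succ]
  simp [rho, ex_rho.choose_spec.2]

lemma int_rn (n : ℕ) : ∫ x, rn n x = 1 := by simp [int_pt, rho, ex_rho.choose_spec.2]

variable {D : Type*} [NormedAddCommGroup D] [InnerProductSpace ℂ D] {Q : Theory D} {n m : ℕ}

/-- pairs of words -/
def W2 (u u' : Fin n → Fl Q) : 𝓢(Vn n × Vn n, ℂ) →L[ℂ] HH (Completion D) (Completion D) :=
  (ex_tm (W1 u) (W1 u')).choose

lemma W2_tens (u u' : Fin n → Fl Q) (F F' : 𝓢(Vn n, ℂ)) :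
    W2 u u' (tens F F') = tm (W1 u F) (W1 u' F') := (ex_tm (W1 u) (W1 u')).choose_spec F F'

lemma W2_pt (u u' : Fin n → Fl Q) (f f' : Fin n → Sch) : W2 u u' (tens (pt f) (pt f')) =
    tm ((wd u f : D) : Completion D) ((wd u' f' : D) : Completion D) := by
  rw [W2_tens, W1_pt, W1_pt]

lemma W2_pos (u u' : Fin n → Fl Q) : ∀ η ∈ Dir 1 {e | H496.IsNull e} n,
    Pos (W2 u u') (η, 0) ∧ Pos (W2 u u') (0, η) := fun η hη =>
  ⟨fun h hh => eq_tens (W2 u u' ∘L cv _ h) 0 fun F F' => by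
    simp [cv_l, W2_tens, W1_pos u η hη h hh F],
  fun h hh => eq_tens (W2 u u' ∘L cv _ h) 0 fun F F' => by
    simp [cv_r, W2_tens, W1_pos u' η hη h hh F']⟩

/-- **pointwise products of words** -/
def P2 (u u' : Fin n → Fl Q) : 𝓢(Vn n, ℂ) →L[ℂ] HH (Completion D) (Completion D) :=
  (prod volume (span_dir 1 span_null n) _ (W2_pos u u')).choose

lemma P2_lim (u u' : Fin n → Fl Q) (ρ F : 𝓢(Vn n, ℂ)) :
    Tendsto (fun k => W2 u u' (dg k ρ F)) atTop (𝓝 ((∫ x, ρ x) • P2 u u' F)) :=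
  (prod volume (span_dir 1 span_null n) _ (W2_pos u u')).choose_spec ρ F

lemma P2_rn (u u' : Fin n → Fl Q) (F : 𝓢(Vn n, ℂ)) :
    Tendsto (fun k => W2 u u' (dg k (rn n) F)) atTop (𝓝 (P2 u u' F)) := by
  simpa only [int_rn, one_smul] using P2_lim u u' (rn n) F

lemma P2_cons (u u' : Fin (n + 1) → Fl Q) (ρ f : Sch) (F : 𝓢(Vn n, ℂ)) :
    Tendsto (fun k => W2 u u' (cs (dg k ρ f) (dg k (rn n) F))) atTop
      (𝓝 ((∫ x, ρ x) • P2 u u' (cons f F))) := by
  simpa only [int_cons, dg_cons] using P2_lim u u' (cons ρ (rn n)) (cons f F)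

lemma P2_nil (u u' : Fin 0 → Fl Q) : P2 u u' (nil V) =
    tm (Q.vac : Completion D) (Q.vac : Completion D) :=
  tendsto_nhds_unique (P2_rn u u' _) (tendsto_const_nhds.congr fun k =>
    ((congrArg _ (dg_nil k)).trans (W2_pt u u' Fin.elim0 Fin.elim0)).symm)

/-- weak commutation relations pass to the products -/
lemma P2_weak (u u' : Fin (n + 1) → Fl Q) (w w' : Fin (m + 1) → Fl Q)
    (Z : HH (Completion D) (Completion D) →L[ℂ] HH (Completion D) (Completion D)) {U : Set V}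
    (hU : IsOpen U) (h : ∀ g g', H246.In U g → H246.In U g' → ∀ v v' z z' : D,
      inner ℂ (tm (((w 0).1 (bar g) z : D) : Completion D) (((w' 0).1 (bar g') z' : D) : Completion D))
        (Z (tm (v : Completion D) (v' : Completion D))) =
      inner ℂ (tm (z : Completion D) (z' : Completion D))
        (Z (tm (((u 0).1 g v : D) : Completion D) (((u' 0).1 g' v' : D) : Completion D))))
    {f : Sch} (hf : HasCompactSupport f) (hs : tsupport f ⊆ U) (F : 𝓢(Vn n, ℂ))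
    (G : 𝓢(Vn m, ℂ)) :
    inner ℂ (P2 w w' (cons (cj f) G)) (Z (P2 (Fin.tail u) (Fin.tail u') F)) =
      inner ℂ (P2 (Fin.tail w) (Fin.tail w') G) (Z (P2 u u' (cons f F))) := by
  have key : ∀ φ : 𝓢(V × V, ℂ), tsupport φ ⊆ U ×ˢ U → ∀ Φ Ψ,
      inner ℂ (W2 w w' (cs (cj φ) Ψ)) (Z (W2 (Fin.tail u) (Fin.tail u') Φ)) =
        inner ℂ (W2 (Fin.tail w) (Fin.tail w') Ψ) (Z (W2 u u' (cs φ Φ))) := fun φ hφ Φ Ψ => by
    refine sub_eq_zero.1 (ST.ker2 (anti (W2 w w' ∘L tenE' (ce2 m) Ψ) _ -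
      innerSL ℂ _ ∘L Z ∘L W2 u u' ∘L tenE' (ce2 n) Φ) (hU.prod hU) (fun g g' c c' hg => ?_) φ hφ)
    refine sub_eq_zero.2 ?_
    show inner ℂ (W2 w w' (cs (cj (tens g g')) Ψ)) _ = inner ℂ _ (Z (W2 u u' (cs (tens g g') Φ)))
    rcases Set.prod_subset_prod_iff.1 hg with hg | hg | hg
    · rw [show cj (tens g g') = tens (cj g) (cj g') from SchwartzMap.ext fun z => by simp]
      refine eq_pt2 (innerSL ℂ _ ∘L Z ∘L W2 _ _) (innerSL ℂ _ ∘L Z ∘L W2 u u' ∘L cs _)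
        (fun a a' => ?_) Φ
      simp only [ContinuousLinearMap.comp_apply, innerSL_apply_apply]
      rw [← inner_conj_symm, ← inner_conj_symm (W2 _ _ Ψ)]
      refine congrArg _ (eq_pt2 (innerSL ℂ _ ∘L W2 w w' ∘L cs _) (innerSL ℂ _ ∘L W2 _ _)
        (fun b b' => ?_) Ψ)
      simp only [ContinuousLinearMap.comp_apply, innerSL_apply_apply, cs_tens, W2_tens, W1_cons,
        W1_pt]
      rw [← inner_conj_symm, ← inner_conj_symm (Z _)]
      exact congrArg _ (h _ _ ⟨tst g, c, hg.1⟩ ⟨tst g', c', hg.2⟩ _ _ _ _)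
    all_goals
      have : tens g g' = 0 := SchwartzMap.ext fun z => by
        simp [image_eq_zero_of_notMem_tsupport (hg ▸ Set.notMem_empty _)]
      rw [this, show cj (0 : 𝓢(V × V, ℂ)) = 0 from SchwartzMap.ext fun z => by simp]
      show inner ℂ (W2 w w' (tenE' (ce2 m) Ψ 0)) _ = inner ℂ _ (Z (W2 u u' (tenE' (ce2 n) Φ 0)))
      simp
  have r1 : ∫ x, rho x = 1 := ex_rho.choose_spec.2
  have a := P2_cons w w' (cj rho) (cj f) G
  have b := P2_cons u u' rho f F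
  simp only [cj_apply, integral_conj, r1, map_one, one_smul] at a b
  refine tendsto_nhds_unique_of_eventuallyEq
    (a.inner ((Z.continuous.tendsto _).comp (P2_rn _ _ F)))
    ((P2_rn _ _ G).inner ((Z.continuous.tendsto _).comp b))
    ((tsupport_dg rho ex_rho.choose_spec.1 hf hU hs).mono fun k hk => ?_)
  have := key _ hk (dg k (rn n) F) (dg k (rn m) G)
  rwa [show cj (dg k rho f) = dg k (cj rho) (cj f) from SchwartzMap.ext fun z => by
    simp [dg_apply]] at this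

/-- vectors that are orthogonal to the products are orthogonal to the pairs of words -/
lemma W2_orth (hd : ∀ B m, Q.fld B → Q.fld fun f v => B (pd m f) v) (R : Fl Q → Fl Q → Prop)
    (hR : ∀ B B' C m, R B C → B'.1 = (fun f v => B.1 (pd m f) v) → R B' C)
    (ξ : HH (Completion D) (Completion D))
    (h : ∀ u u' : Fin n → Fl Q, (∀ i, R (u i) (u' i)) → ∀ f, inner ℂ ξ (P2 u u' (pt f)) = 0)
    (u u' : Fin n → Fl Q) (hu : ∀ i, R (u i) (u' i)) (f f' : Fin n → Sch) :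
    inner ℂ ξ (tm ((wd u f : D) : Completion D) ((wd u' f' : D) : Completion D)) = 0 := by
  have := taylor volume (span_dir 1 span_null n) (span_dir 0 span_bas n)
    (J := {p : (Fin n → Fl Q) × (Fin n → Fl Q) // ∀ i, R (p.1 i) (p.2 i)})
    (fun j => innerSL ℂ ξ ∘L W2 j.1.1 j.1.2)
    (fun j η hη => ⟨(W2_pos _ _ η hη).1.comp _, (W2_pos _ _ η hη).2.comp _⟩)
    (fun j η hη => ?_) (int_rn n) (fun j F => ?_) ⟨(u, u'), hu⟩
  · rw [← W2_pt]
    exact DFunLike.congr_fun this _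
  · obtain ⟨w, h1, h2⟩ := W1_der hd j.1.1 η hη
    refine ⟨⟨(w, j.1.2), fun i => ?_⟩, fun Φ => congrArg (innerSL ℂ ξ) (eq_tens (W2 w j.1.2)
      (W2 j.1.1 j.1.2 ∘L LineDeriv.lineDerivOpCLM ℂ 𝓢(Vn n × Vn n, ℂ) ((η, 0) : Vn n × Vn n))
      (fun F F' => ?_) Φ)⟩
    · rcases h1 i with e | ⟨m, e⟩
      · exact (congrArg (R · (j.1.2 i)) e).mpr (j.2 i)
      · exact hR _ _ _ m (j.2 i) e
    · rw [ContinuousLinearMap.comp_apply, LineDeriv.lineDerivOpCLM_apply, der_l, W2_tens, W2_tens,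
        h2]
  · have := ((innerSL ℂ ξ).continuous.tendsto _).comp (P2_rn j.1.1 j.1.2 F)
    rwa [show innerSL ℂ ξ (P2 j.1.1 j.1.2 F) = 0 from
      eq_pt (innerSL ℂ ξ ∘L P2 _ _) 0 (h _ _ j.2) F] at this

/-- reconstruction of operators -/
lemma recon {H I : Type*} [NormedAddCommGroup H] [InnerProductSpace ℂ H] (p : I → H) (nx : I → I)
    (h : ∀ j, ∃ ξ : H, ∀ i, inner ℂ (p j) (p (nx i)) = inner ℂ ξ (p i)) :
    ∃ T : Submodule.span ℂ (Set.range p) →ₗ[ℂ] Submodule.span ℂ (Set.range p),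
      ∀ i hi, (T ⟨p i, hi⟩ : H) = p (nx i) := by
  have mem : ∀ (q : I → I) a, Finsupp.linearCombination ℂ (p ∘ q) a ∈
      Submodule.span ℂ (Set.range p) := fun q a =>
    Submodule.span_mono (Set.range_comp_subset_range q p)
      (Finsupp.range_linearCombination ℂ (v := p ∘ q) ▸ LinearMap.mem_range_self _ a)
  let A := fun q => (Finsupp.linearCombination ℂ (p ∘ q)).codRestrict _ (mem q)
  obtain ⟨σ, hσ⟩ := (A id).exists_rightInverse_of_surjective (LinearMap.range_eq_top.2 fun v => by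
    obtain ⟨a, ha⟩ := (Finsupp.range_linearCombination ℂ (v := p)).ge v.2
    exact ⟨a, Subtype.ext ha⟩)
  refine ⟨A nx ∘ₗ σ, fun i hi => ?_⟩
  have k : ∀ j, ∃ ξ, ∀ a, inner ℂ (p j) (A nx a : H) = inner ℂ ξ (A id a : H) := fun j => by
    obtain ⟨ξ, hξ⟩ := h j
    refine ⟨ξ, fun a => ?_⟩
    induction a using Finsupp.induction_linear with
    | zero => simp
    | add a b ha hb => simp only [map_add, Submodule.coe_add, inner_add_right, ha, hb]
    | single i z => simp [A, inner_smul_right, hξ]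
  have e : (⟨p (nx i), Submodule.subset_span ⟨_, rfl⟩⟩ : Submodule.span ℂ (Set.range p)) =
      A nx (.single i 1) := Subtype.ext (by simp [A])
  have e' : A id (σ ⟨p i, hi⟩) = A id (.single i 1) :=
    (LinearMap.congr_fun hσ _).trans (Subtype.ext (by simp [A]))
  refine congrArg Subtype.val (Eq.trans ?_ e.symm)
  refine ext_inner_left ℂ fun ⟨w, hw⟩ => ?_
  induction hw using Submodule.span_induction with
  | mem _ hw =>
    obtain ⟨j, rfl⟩ := hw
    obtain ⟨ξ, hξ⟩ := k j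
    exact (hξ _).trans (e' ▸ (hξ _).symm)
  | zero => exact (inner_zero_left _).trans (inner_zero_left _).symm
  | add a b _ _ ha hb =>
    exact (inner_add_left _ _ _).trans ((congrArg₂ _ ha hb).trans (inner_add_left _ _ _).symm)
  | smul z a _ ha =>
    exact (inner_smul_left _ _ _).trans ((congrArg _ ha).trans (inner_smul_left _ _ _).symm)

end Vale.Agent.N352.Kn
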